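import Mathlib
import Vale.Agent.P304.Defs

set_option linter.all false

section

section

open MeasureTheory
open scoped ENNReal NNReal

namespace Vale.Agent.P304

variable {X : Type} [MetricSpace X] {k : ℕ}

/-- cost of the deterministic policy `a` from the history `h` and the positions `p`. -/
noncomputable def runCost (a : List X → Fin k) : List X → (Fin k → X) → List X → ℝ
  | _, _, [] => 0
  | h, p, r :: σ =>
      dist (p (a (h ++ [r]))) r + runCost a (h ++ [r]) (Function.update p (a (h ++ [r])) r) σ

/-- final positions. -/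
noncomputable def runPos (a : List X → Fin k) : List X → (Fin k → X) → List X → (Fin k → X)
  | _, p, [] => p
  | h, p, r :: σ => runPos a (h ++ [r]) (Function.update p (a (h ++ [r])) r) σ

theorem moveCost_nonneg (l : List (Fin k × X)) : ∀ p : Fin k → X, 0 ≤ moveCost p l := by
  induction l with
  | nil => intro p; simp only [moveCost, Std.le_refl]
  | cons x l ih =>
    intro p
    obtain ⟨i, r⟩ := x
    simp only [moveCost]
    have := ih (Function.update p i r)
    positivity

theorem runCost_nonneg (a : List X → Fin k) (σ : List X) :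
    ∀ (h : List X) (p : Fin k → X), 0 ≤ runCost a h p σ := by
  induction σ with
  | nil => intro h p; simp only [runCost, Std.le_refl]
  | cons r σ ih =>
    intro h p
    simp only [runCost]
    have := ih (h ++ [r]) (Function.update p (a (h ++ [r])) r)
    (clear * - this; positivity)

theorem moveCost_policy (a : List X → Fin k) (σ : List X) : ∀ (h : List X) (p : Fin k → X),
    moveCost p (List.ofFn fun t : Fin σ.length => (a (h ++ σ.take (t + 1)), σ.get t))
      = runCost a h p σ := by
  induction σ with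
  | nil => intro h p; simp only [List.length_nil, List.take_nil, List.append_nil, List.get_eq_getElem, List.ofFn_zero, moveCost, runCost]
  | cons r σ ih =>
    intro h p
    simp only [List.length_cons, List.ofFn_succ, moveCost, runCost]
    have h1 : ∀ x : List X, a (h ++ r :: x) = a (h ++ [r] ++ x) := by
      intro x; simp
    have := ih (h ++ [r]) (Function.update p (a (h ++ [r])) r)
    rw [← this]
    simp only [Fin.coe_ofNat_eq_mod, Nat.zero_mod, zero_add, List.take_succ_cons, List.take_zero, h1, List.append_nil, List.get_eq_getElem, List.length_cons, List.getElem_cons_zero, Fin.val_succ, List.append_assoc, List.cons_append, List.nil_append, List.getElem_cons_succ]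

theorem policyCost_eq (s : Fin k → X) (a : List X → Fin k) (σ : List X) :
    policyCost s a σ = runCost a [] s σ := by
  have := moveCost_policy a σ [] s
  simpa only [policyCost, serviceCost, List.get_eq_getElem, List.nil_append] using this

theorem runCost_append (a : List X → Fin k) (σ τ : List X) : ∀ (h : List X) (p : Fin k → X),
    runCost a h p (σ ++ τ) = runCost a h p σ + runCost a (h ++ σ) (runPos a h p σ) τ := by
  induction σ with
  | nil => intro h p; simp only [List.nil_append, runCost, List.append_nil, runPos, zero_add]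
  | cons r σ ih =>
    intro h p
    simp only [List.cons_append, runCost, runPos, ih]
    rw [show h ++ r :: σ = h ++ [r] ++ σ by simp]
    ring

theorem runPos_append (a : List X → Fin k) (σ τ : List X) : ∀ (h : List X) (p : Fin k → X),
    runPos a h p (σ ++ τ) = runPos a (h ++ σ) (runPos a h p σ) τ := by
  induction σ with
  | nil => intro h p; simp only [List.nil_append, List.append_nil, runPos]
  | cons r σ ih =>
    intro h p
    simp only [List.cons_append, runPos, ih]
    rw [show h ++ r :: σ = h ++ [r] ++ σ by simp]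

/-! ### offline optimum -/

theorem opt_le_serviceCost (s : Fin k → X) (σ : List X) (f : Fin σ.length → Fin k) :
    opt s σ ≤ serviceCost s σ f := by
  unfold opt
  exact ciInf_le (Set.finite_range _).bddBelow f

theorem exists_opt_eq [NeZero k] (s : Fin k → X) (σ : List X) :
    ∃ f, opt s σ = serviceCost s σ f := by
  unfold opt
  have : Nonempty (Fin σ.length → Fin k) := ⟨fun _ => 0⟩
  obtain ⟨f, hf⟩ := exists_eq_ciInf_of_finite (f := fun f : Fin σ.length → Fin k => serviceCost s σ f)
  exact ⟨f, hf.symm⟩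

theorem opt_nil (s : Fin k → X) : opt s [] = 0 := by
  unfold opt serviceCost
  simp only [List.length_nil]
  have : ∀ f : Fin 0 → Fin k, moveCost s (List.ofFn fun t : Fin 0 => (f t, ([] : List X).get t)) = 0 := by
    intro f
    simp [moveCost]
  have h2 : (fun f : Fin 0 → Fin k => moveCost s (List.ofFn fun t : Fin 0 => (f t, ([] : List X).get t)))
      = fun _ => (0 : ℝ) := by
    funext f; exact this f
  rw [h2]
  simp only [ciInf_unique]

theorem serviceCost_cons (s : Fin k → X) (r : X) (σ : List X) (f : Fin (r :: σ).length → Fin k) :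
    serviceCost s (r :: σ) f = dist (s (f 0)) r +
      serviceCost (Function.update s (f 0) r) σ (fun t => f t.succ) := by
  unfold serviceCost
  simp only [List.length_cons, List.get_eq_getElem, List.ofFn_succ, Fin.coe_ofNat_eq_mod, Nat.zero_mod, List.getElem_cons_zero, Fin.val_succ, List.getElem_cons_succ, moveCost]

theorem opt_cons_le (s : Fin k → X) (r : X) (σ : List X) (i : Fin k) :
    opt s (r :: σ) ≤ dist (s i) r + opt (Function.update s i r) σ := by
  haveI : NeZero k := ⟨by rintro rfl; exact i.elim0⟩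
  obtain ⟨f, hf⟩ := exists_opt_eq (Function.update s i r) σ
  have := opt_le_serviceCost s (r :: σ) (Fin.cons i f : Fin (σ.length + 1) → Fin k)
  rw [serviceCost_cons] at this
  simpa only [hf, ge_iff_le, Fin.cons_zero, Fin.cons_succ] using this

theorem exists_opt_cons [NeZero k] (s : Fin k → X) (r : X) (σ : List X) :
    ∃ i, opt s (r :: σ) = dist (s i) r + opt (Function.update s i r) σ := by
  obtain ⟨f, hf⟩ := exists_opt_eq s (r :: σ)
  refine ⟨f 0, le_antisymm (opt_cons_le s r σ _) ?_⟩
  rw [hf, serviceCost_cons]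
  have := opt_le_serviceCost (Function.update s (f 0) r) σ (fun t => f t.succ)
  linarith only [this]

theorem opt_nonneg (s : Fin k → X) (σ : List X) : 0 ≤ opt s σ := by
  unfold opt
  exact Real.iInf_nonneg fun f => moveCost_nonneg _ _

theorem opt_le_runCost (a : List X → Fin k) (s : Fin k → X) (h σ : List X) :
    opt s σ ≤ runCost a h s σ := by
  induction σ generalizing h s with
  | nil => simp [opt_nil, runCost]
  | cons r σ ih =>
    simp only [runCost]
    refine (opt_cons_le s r σ (a (h ++ [r]))).trans ?_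
    have := ih (Function.update s (a (h ++ [r])) r) (h ++ [r])
    linarith

/-! ### labelled distances -/

/-- labelled displacement along the matching `π`. -/
noncomputable def lab (π : Equiv.Perm (Fin k)) (p q : Fin k → X) : ℝ := ∑ j, dist (p (π j)) (q j)

theorem lab_nonneg (π : Equiv.Perm (Fin k)) (p q : Fin k → X) : 0 ≤ lab π p q :=
  Finset.sum_nonneg fun _ _ => dist_nonneg

theorem lab_update (π : Equiv.Perm (Fin k)) (p q : Fin k → X) (j : Fin k) (r : X) :
    dist (p (π j)) r + lab π (Function.update p (π j) r) (Function.update q j r)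
      ≤ lab π p q + dist (q j) r := by
  classical
  unfold lab
  rw [← Finset.add_sum_erase _ _ (Finset.mem_univ j), ← Finset.add_sum_erase Finset.univ
    (fun j => dist (p (π j)) (q j)) (Finset.mem_univ j)]
  have h1 : ∀ l ∈ Finset.univ.erase j,
      dist (Function.update p (π j) r (π l)) (Function.update q j r l) = dist (p (π l)) (q l) := by
    intro l hl
    have hlj : l ≠ j := Finset.ne_of_mem_erase hl
    have : π l ≠ π j := fun h => hlj (π.injective h)
    simp [Function.update_of_ne this, Function.update_of_ne hlj]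
  rw [Finset.sum_congr rfl h1]
  simp only [Function.update_self, dist_self]
  have := dist_triangle (p (π j)) (q j) r
  linarith

/-- The matching distance between configurations. -/
noncomputable def mdist (p q : Fin k → X) : ℝ := ⨅ π : Equiv.Perm (Fin k), lab π p q

theorem mdist_le (π : Equiv.Perm (Fin k)) (p q : Fin k → X) : mdist p q ≤ lab π p q :=
  ciInf_le (Set.finite_range _).bddBelow π

theorem exists_mdist (p q : Fin k → X) : ∃ π, mdist p q = lab π p q := by
  obtain ⟨π, h⟩ := exists_eq_ciInf_of_finite (f := fun π : Equiv.Perm (Fin k) => lab π p q)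
  exact ⟨π, h.symm⟩

theorem mdist_nonneg (p q : Fin k → X) : 0 ≤ mdist p q := by
  obtain ⟨π, h⟩ := exists_mdist p q
  rw [h]; exact lab_nonneg _ _ _

theorem mdist_self (p : Fin k → X) : mdist p p = 0 :=
  le_antisymm ((mdist_le 1 p p).trans (by simp only [lab, Equiv.Perm.coe_one, id_eq, dist_self, Finset.sum_const_zero, Std.le_refl])) (mdist_nonneg _ _)

theorem mdist_comm (p q : Fin k → X) : mdist p q = mdist q p := by
  have key : ∀ p q : Fin k → X, mdist p q ≤ mdist q p := by
    intro p q
    obtain ⟨π, h⟩ := exists_mdist q p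
    rw [h]
    refine (mdist_le π⁻¹ p q).trans (le_of_eq ?_)
    unfold lab
    rw [← Equiv.sum_comp π]
    simp only [Equiv.Perm.coe_inv, Equiv.symm_apply_apply, dist_comm]
  exact le_antisymm (key _ _) (key _ _)

theorem mdist_triangle (p q r : Fin k → X) : mdist p r ≤ mdist p q + mdist q r := by
  obtain ⟨π, h⟩ := exists_mdist p q
  obtain ⟨ρ, h'⟩ := exists_mdist q r
  rw [h, h']
  refine (mdist_le (π * ρ) p r).trans ?_
  unfold lab
  rw [← Equiv.sum_comp ρ (fun j => dist (p (π j)) (q j)), ← Finset.sum_add_distrib]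
  refine Finset.sum_le_sum fun j _ => ?_
  simpa only [Equiv.Perm.coe_mul, Function.comp_apply] using dist_triangle (p (π (ρ j))) (q (ρ j)) (r j)

theorem mdist_update (p : Fin k → X) (i : Fin k) (r : X) :
    mdist p (Function.update p i r) ≤ dist (p i) r := by
  classical
  refine (mdist_le 1 _ _).trans (le_of_eq ?_)
  unfold lab
  rw [Finset.sum_eq_single i]
  · simp only [Equiv.Perm.coe_one, id_eq, Function.update_self]
  · intro j _ hj
    simp only [Equiv.Perm.coe_one, id_eq, Function.update_of_ne hj, dist_self]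
  · simp only [Finset.mem_univ, not_true_eq_false, Equiv.Perm.coe_one, id_eq, Function.update_self, dist_eq_zero, IsEmpty.forall_iff]

theorem mdist_runPos (a : List X → Fin k) (σ : List X) : ∀ (h : List X) (p : Fin k → X),
    mdist p (runPos a h p σ) ≤ runCost a h p σ := by
  induction σ with
  | nil => intro h p; simp [runPos, runCost, mdist_self]
  | cons r σ ih =>
    intro h p
    simp only [runPos, runCost]
    refine (mdist_triangle _ (Function.update p (a (h ++ [r])) r) _).trans ?_
    exact add_le_add (mdist_update _ _ _) (ih _ _)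

/-! ### offline cost with prescribed final configuration -/

/-- cost of serving `σ` from `p` and then moving to the configuration `q` (up to relabelling). -/
noncomputable def wf (q : Fin k → X) : (Fin k → X) → List X → ℝ
  | p, [] => mdist p q
  | p, r :: σ => ⨅ i, (dist (p i) r + wf q (Function.update p i r) σ)

theorem wf_cons_le (q p : Fin k → X) (r : X) (σ : List X) (i : Fin k) :
    wf q p (r :: σ) ≤ dist (p i) r + wf q (Function.update p i r) σ :=
  ciInf_le (Set.finite_range _).bddBelow i

theorem exists_wf_cons [NeZero k] (q p : Fin k → X) (r : X) (σ : List X) :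
    ∃ i, wf q p (r :: σ) = dist (p i) r + wf q (Function.update p i r) σ := by
  obtain ⟨i, h⟩ := exists_eq_ciInf_of_finite
    (f := fun i : Fin k => (dist (p i) r + wf q (Function.update p i r) σ))
  exact ⟨i, h.symm⟩

theorem wf_lab [NeZero k] (q : Fin k → X) (π : Equiv.Perm (Fin k)) (σ : List X) :
    ∀ p p' : Fin k → X, wf q p σ ≤ lab π p p' + wf q p' σ := by
  induction σ with
  | nil =>
    intro p p'
    simp only [wf]
    exact (mdist_triangle p p' q).trans (add_le_add_left (mdist_le π p p') _)
  | cons r σ ih =>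
    intro p p'
    obtain ⟨j, hj⟩ := exists_wf_cons q p' r σ
    rw [hj]
    refine (wf_cons_le q p r σ (π j)).trans ?_
    have h1 := ih (Function.update p (π j) r) (Function.update p' j r)
    have h2 := lab_update π p p' j r
    linarith only [h1, h2]

theorem wf_le_mdist_add [NeZero k] (q p p' : Fin k → X) (σ : List X) :
    wf q p σ ≤ mdist p p' + wf q p' σ := by
  obtain ⟨π, h⟩ := exists_mdist p p'
  rw [h]; exact wf_lab q π σ p p'

theorem wf_append_le [NeZero k] (q q' : Fin k → X) (σ τ : List X) :
    ∀ p, wf q p (σ ++ τ) ≤ wf q' p σ + wf q q' τ := by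
  induction σ with
  | nil => intro p; simpa only [List.nil_append, wf] using wf_le_mdist_add q p q' τ
  | cons r σ ih =>
    intro p
    obtain ⟨j, hj⟩ := exists_wf_cons q' p r σ
    rw [hj]
    refine (wf_cons_le q p r (σ ++ τ) j).trans ?_
    have := ih (Function.update p j r)
    linarith only [this]

theorem opt_lab [NeZero k] (π : Equiv.Perm (Fin k)) (σ : List X) :
    ∀ p p' : Fin k → X, opt p σ ≤ lab π p p' + opt p' σ := by
  induction σ with
  | nil =>
    intro p p'
    simp only [opt_nil, add_zero]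
    exact lab_nonneg _ _ _
  | cons r σ ih =>
    intro p p'
    obtain ⟨j, hj⟩ := exists_opt_cons p' r σ
    rw [hj]
    refine (opt_cons_le p r σ (π j)).trans ?_
    have h1 := ih (Function.update p (π j) r) (Function.update p' j r)
    have h2 := lab_update π p p' j r
    linarith only [h1, h2]

theorem opt_le_mdist_add [NeZero k] (p p' : Fin k → X) (σ : List X) :
    opt p σ ≤ mdist p p' + opt p' σ := by
  obtain ⟨π, h⟩ := exists_mdist p p'
  rw [h]; exact opt_lab π σ p p'

theorem opt_le_wf (q : Fin k → X) (σ : List X) : ∀ p, opt p σ ≤ wf q p σ := by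
  rcases Nat.eq_zero_or_pos k with rfl | hk
  · intro p
    cases σ with
    | nil => simp only [opt_nil, wf, mdist_nonneg]
    | cons r σ =>
      have : opt p (r :: σ) = 0 := by
        unfold opt
        haveI : IsEmpty (Fin (r :: σ).length → Fin 0) := ⟨fun f => (f 0).elim0⟩
        exact Real.iInf_of_isEmpty _
      rw [this]
      simp only [wf, Real.iInf_of_isEmpty, Std.le_refl]
  · haveI : NeZero k := ⟨hk.ne'⟩
    induction σ with
    | nil => intro p; simp only [opt_nil, wf, mdist_nonneg]
    | cons r σ ih =>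
      intro p
      obtain ⟨j, hj⟩ := exists_wf_cons q p r σ
      rw [hj]
      refine (opt_cons_le p r σ j).trans ?_
      have := ih (Function.update p j r)
      linarith only [this]

theorem opt_append_le [NeZero k] (q : Fin k → X) (σ τ : List X) :
    ∀ p, opt p (σ ++ τ) ≤ wf q p σ + opt q τ := by
  induction σ with
  | nil => intro p; simpa only [List.nil_append, wf] using opt_le_mdist_add p q τ
  | cons r σ ih =>
    intro p
    obtain ⟨j, hj⟩ := exists_wf_cons q p r σ
    rw [hj]
    refine (opt_cons_le p r (σ ++ τ) j).trans ?_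
    have := ih (Function.update p j r)
    linarith

/-- serving a request at an occupied point is free. -/
theorem opt_le_opt_cons [NeZero k] (p : Fin k → X) (r : X) (σ : List X) :
    opt p σ ≤ opt p (r :: σ) := by
  obtain ⟨i, hi⟩ := exists_opt_cons p r σ
  rw [hi]
  refine (opt_le_mdist_add p (Function.update p i r) σ).trans ?_
  have := mdist_update p i r
  linarith

/-- An optimal service of `σ` from pairwise distinct positions may be chosen to end in pairwise
distinct positions. -/
theorem exists_final [NeZero k] (σ : List X) : ∀ p : Fin k → X, Function.Injective p →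
    ∃ q : Fin k → X, Function.Injective q ∧ wf q p σ ≤ opt p σ ∧ mdist p q ≤ opt p σ := by
  induction σ with
  | nil =>
    intro p hp
    exact ⟨p, hp, by simp [wf, mdist_self, opt_nil], by simp [mdist_self, opt_nil]⟩
  | cons r σ ih =>
    intro p hp
    by_cases hr : ∃ j, p j = r
    · obtain ⟨j, hj⟩ := hr
      obtain ⟨q, hq, h1, h2⟩ := ih p hp
      refine ⟨q, hq, ?_, h2.trans (opt_le_opt_cons p r σ)⟩
      refine (wf_cons_le q p r σ j).trans ?_
      have : Function.update p j r = p := by
        rw [← hj]; exact Function.update_eq_self j p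
      rw [this, hj, dist_self, zero_add]
      exact h1.trans (opt_le_opt_cons p r σ)
    · push Not at hr
      obtain ⟨i, hi⟩ := exists_opt_cons p r σ
      have hinj : Function.Injective (Function.update p i r) := by
        intro x y hxy
        by_cases hx : x = i <;> by_cases hy : y = i
        · rw [hx, hy]
        · subst hx
          rw [Function.update_self, Function.update_of_ne hy] at hxy
          exact absurd hxy.symm (hr y)
        · subst hy
          rw [Function.update_self, Function.update_of_ne hx] at hxy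
          exact absurd hxy (hr x)
        · rw [Function.update_of_ne hx, Function.update_of_ne hy] at hxy
          exact hp hxy
      obtain ⟨q, hq, h1, h2⟩ := ih _ hinj
      refine ⟨q, hq, ?_, ?_⟩
      · rw [hi]
        refine (wf_cons_le q p r σ i).trans ?_
        linarith
      · rw [hi]
        refine (mdist_triangle p (Function.update p i r) q).trans ?_
        have := mdist_update p i r
        linarith only [h2, this]

/-! ### simulation -/

theorem sim (π : Equiv.Perm (Fin k)) (a a' : List X → Fin k) (ξ : List X)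
    (ha : ∀ h, a' h = π (a (ξ ++ h))) (σ : List X) : ∀ (h : List X) (p q : Fin k → X),
    runCost a' h p σ + lab π (runPos a' h p σ) (runPos a (ξ ++ h) q σ)
      ≤ lab π p q + runCost a (ξ ++ h) q σ := by
  induction σ with
  | nil => intro h p q; simp only [runCost, runPos, zero_add, add_zero, Std.le_refl]
  | cons r σ ih =>
    intro h p q
    simp only [runCost, runPos]
    have h0 : a' (h ++ [r]) = π (a (ξ ++ h ++ [r])) := by rw [ha, List.append_assoc]
    have h1 := ih (h ++ [r]) (Function.update p (a' (h ++ [r])) r)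
      (Function.update q (a (ξ ++ h ++ [r])) r)
    rw [show ξ ++ (h ++ [r]) = ξ ++ h ++ [r] by simp] at h1
    have h2 := lab_update π p q (a (ξ ++ h ++ [r])) r
    rw [← h0] at h2
    linarith

end Vale.Agent.P304
end
end

section

section

open MeasureTheory Filter Topology
open scoped ENNReal NNReal

namespace Vale.Agent.P304

variable {X : Type} {k : ℕ}

/-- some randomized policy has expected cost at most `c * opt + B` on all sequences in `S`. -/
def Good [MetricSpace X] (s : Fin k → X) (c B : ℝ) (S : Set (List X)) : Prop :=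
  ∃ (Ω : Type) (_ : MeasurableSpace Ω) (P : Measure Ω) (A : Ω → List X → Fin k),
    IsProbabilityMeasure P ∧ (∀ h, Measurable fun ω => A ω h) ∧
      ∀ σ ∈ S, ∫ ω, policyCost s (A ω) σ ∂P ≤ c * opt s σ + B

theorem isCompetitive_iff [MetricSpace X] (s : Fin k → X) (c : ℝ) :
    IsCompetitive s c ↔ ∃ B, Good s c B Set.univ := by
  constructor
  · rintro ⟨Ω, m, P, A, h1, h2, B, h3⟩
    exact ⟨B, Ω, m, P, A, h1, h2, fun σ _ => h3 σ⟩
  · rintro ⟨B, Ω, m, P, A, h1, h2, h3⟩
    exact ⟨Ω, m, P, A, h1, h2, B, fun σ => h3 σ (Set.mem_univ _)⟩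

theorem integrable_comp_finite {Ω : Type} [MeasurableSpace Ω] (P : Measure Ω) [IsFiniteMeasure P]
    {ι : Type} [Finite ι] [MeasurableSpace ι] [MeasurableSingletonClass ι] (V : Ω → ι)
    (hV : Measurable V) (G : ι → ℝ) : Integrable (fun ω => G (V ω)) P := by
  haveI := Fintype.ofFinite ι
  have hG : Measurable G := measurable_of_finite G
  refine Integrable.of_bound (hG.comp hV).aestronglyMeasurable (∑ i, |G i|) ?_
  refine Eventually.of_forall fun ω => ?_
  rw [Real.norm_eq_abs]
  exact Finset.single_le_sum (f := fun i => |G i|) (fun i _ => abs_nonneg _) (Finset.mem_univ (V ω))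

theorem integral_comp_finite {Ω : Type} [MeasurableSpace Ω] (P : Measure Ω) [IsFiniteMeasure P]
    {ι : Type} [Fintype ι] [MeasurableSpace ι] [MeasurableSingletonClass ι] (V : Ω → ι)
    (hV : Measurable V) (G : ι → ℝ) :
    ∫ ω, G (V ω) ∂P = ∑ i, P.real {ω | V ω = i} * G i := by
  classical
  have h1 : (fun ω => G (V ω)) = fun ω => ∑ i, (if V ω = i then G i else 0) := by
    funext ω
    simp only [Finset.sum_ite_eq, Finset.mem_univ, ↓reduceIte]
  rw [h1, integral_finsetSum]
  · refine Finset.sum_congr rfl fun i _ => ?_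
    have : (fun ω => if V ω = i then G i else 0) = Set.indicator {ω | V ω = i} (fun _ => G i) := by
      funext ω
      simp [Set.indicator_apply]
    have hm : MeasurableSet {ω | V ω = i} := hV (measurableSet_singleton i)
    rw [this, integral_indicator_const _ hm]
    simp
  · intro i _
    exact integrable_comp_finite P V hV (fun j => if j = i then G i else 0)

/-! ### choices -/

/-- the list of choices of a deterministic policy. -/
def ch (a : List X → Fin k) : List X → List X → List (Fin k)
  | _, [] => []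
  | h, r :: σ => a (h ++ [r]) :: ch a (h ++ [r]) σ

theorem ch_length (a : List X → Fin k) (σ : List X) : ∀ h, (ch a h σ).length = σ.length := by
  induction σ with
  | nil => intro h; rfl
  | cons r σ ih => intro h; simp only [ch, List.length_cons, ih, Nat.add_left_cancel_iff]

theorem ch_eq_ofFn (a : List X → Fin k) (σ : List X) : ∀ h,
    ch a h σ = List.ofFn fun t : Fin σ.length => a (h ++ σ.take (t + 1)) := by
  induction σ with
  | nil => intro h; simp [ch]
  | cons r σ ih =>
    intro h
    simp [ch, ih, List.ofFn_succ]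

theorem ch_append (a : List X → Fin k) (σ τ : List X) : ∀ h,
    ch a h (σ ++ τ) = ch a h σ ++ ch a (h ++ σ) τ := by
  induction σ with
  | nil => intro h; simp [ch]
  | cons r σ ih => intro h; simp [ch, ih]

/-! ### realization of a consistent family of laws -/

/-- node of the strategy tree: requests so far, own earlier choices. -/
abbrev Node (X : Type) (k : ℕ) : Type := List X × List (Fin k)

/-- choices generated by independent random choices `ω` at the nodes. -/
def play (ω : Node X k → Fin k) : List X → List (Fin k) → List X → List (Fin k)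
  | _, past, [] => past
  | h, past, r :: σ => play ω (h ++ [r]) (past ++ [ω (h ++ [r], past)]) σ

theorem play_append (ω : Node X k → Fin k) (σ τ : List X) : ∀ h past,
    play ω h past (σ ++ τ) = play ω (h ++ σ) (play ω h past σ) τ := by
  induction σ with
  | nil => intro h past; simp only [List.nil_append, List.append_nil, play]
  | cons r σ ih => intro h past; simp [play, ih]

theorem play_snoc (ω : Node X k → Fin k) (σ : List X) (r : X) :
    play ω [] [] (σ ++ [r]) = play ω [] [] σ ++ [ω (σ ++ [r], play ω [] [] σ)] := by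
  rw [play_append]
  simp only [play, List.nil_append]

/-- the deterministic policy given by `ω`. -/
def polOf [NeZero k] (ω : Node X k → Fin k) (h : List X) : Fin k :=
  (play ω [] [] h).getLastD 0

theorem polOf_snoc [NeZero k] (ω : Node X k → Fin k) (σ : List X) (r : X) :
    polOf ω (σ ++ [r]) = ω (σ ++ [r], play ω [] [] σ) := by
  unfold polOf
  rw [play_snoc]
  simp

theorem play_eq_ch [NeZero k] (ω : Node X k → Fin k) (σ : List X) :
    play ω [] [] σ = ch (polOf ω) [] σ := by
  induction σ using List.reverseRecOn with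
  | nil => rfl
  | append_singleton σ r ih =>
    rw [play_snoc, ch_append, ← ih]
    simp [ch, polOf_snoc]

/-- A consistent family of laws of choices. -/
structure Law (p : List X → List (Fin k) → ℝ) : Prop where
  nonneg : ∀ σ v, 0 ≤ p σ v
  nil : p [] [] = 1
  snoc : ∀ σ v r, p σ v = ∑ i, p (σ ++ [r]) (v ++ [i])

/-- conditional probability vector at a node. -/
noncomputable def cond [NeZero k] (p : List X → List (Fin k) → ℝ) (n : Node X k) (i : Fin k) : ℝ :=
  if p n.1.dropLast n.2 = 0 ∨ n.1 = [] then (if i = 0 then 1 else 0)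
  else p n.1 (n.2 ++ [i]) / p n.1.dropLast n.2

theorem cond_nonneg [NeZero k] {p : List X → List (Fin k) → ℝ} (hp : Law p) (n : Node X k)
    (i : Fin k) : 0 ≤ cond p n i := by
  unfold cond
  split_ifs
  · exact zero_le_one
  · exact le_rfl
  · exact div_nonneg (hp.nonneg _ _) (hp.nonneg _ _)

theorem cond_sum [NeZero k] {p : List X → List (Fin k) → ℝ} (hp : Law p) (n : Node X k) :
    ∑ i, cond p n i = 1 := by
  unfold cond
  by_cases h : p n.1.dropLast n.2 = 0 ∨ n.1 = []
  · simp only [h, ↓reduceIte, Finset.sum_ite_eq', Finset.mem_univ]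
  · simp only [h, if_false]
    push Not at h
    rw [← Finset.sum_div]
    have h1 : n.1 = n.1.dropLast ++ [n.1.getLast h.2] := (List.dropLast_append_getLast h.2).symm
    have h2 : ∑ i, p n.1 (n.2 ++ [i]) = p n.1.dropLast n.2 := by
      rw [hp.snoc n.1.dropLast n.2 (n.1.getLast h.2), ← h1]
    rw [h2, div_self h.1]

/-- the node measures. -/
noncomputable def nodeMeasure [NeZero k] (p : List X → List (Fin k) → ℝ) (n : Node X k) :
    Measure (Fin k) :=
  ∑ i, ENNReal.ofReal (cond p n i) • Measure.dirac i

theorem nodeMeasure_singleton [NeZero k] (p : List X → List (Fin k) → ℝ) (n : Node X k)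
    (i : Fin k) : nodeMeasure p n {i} = ENNReal.ofReal (cond p n i) := by
  classical
  unfold nodeMeasure
  rw [Measure.finsetSum_apply]
  simp only [Measure.smul_apply, MeasurableSpace.measurableSet_top, Measure.dirac_apply', Set.indicator_apply, Set.mem_singleton_iff, Pi.one_apply, smul_eq_mul, mul_ite, mul_one, mul_zero, Finset.sum_ite_eq', Finset.mem_univ, ↓reduceIte]

theorem isProb_nodeMeasure [NeZero k] {p : List X → List (Fin k) → ℝ} (hp : Law p)
    (n : Node X k) : IsProbabilityMeasure (nodeMeasure p n) := by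
  constructor
  unfold nodeMeasure
  rw [Measure.finsetSum_apply]
  simp only [Measure.smul_apply, smul_eq_mul, measure_univ, mul_one]
  rw [← ENNReal.ofReal_sum_of_nonneg (fun i _ => cond_nonneg hp n i), cond_sum hp n,
    ENNReal.ofReal_one]

theorem cond_mul [NeZero k] {p : List X → List (Fin k) → ℝ} (hp : Law p) (σ : List X)
    (v : List (Fin k)) (r : X) (i : Fin k) :
    cond p (σ ++ [r], v) i * p σ v = p (σ ++ [r]) (v ++ [i]) := by
  unfold cond
  simp only [List.dropLast_concat, List.append_eq_nil_iff, List.cons_ne_self, and_false, or_false]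
  by_cases h : p σ v = 0
  · simp only [h, if_true, mul_zero]
    have h1 := hp.snoc σ v r
    rw [h] at h1
    have h2 := (Finset.sum_eq_zero_iff_of_nonneg (fun i _ => hp.nonneg (σ ++ [r]) (v ++ [i]))).1
      h1.symm i (Finset.mem_univ i)
    exact h2.symm
  · simp only [h, ↓reduceIte, isUnit_iff_ne_zero, ne_eq, not_false_eq_true, IsUnit.div_mul_cancel]

theorem measure_play [NeZero k] {p : List X → List (Fin k) → ℝ} (hp : Law p) (σ : List X) :
    ∀ v : List (Fin k), v.length = σ.length →
      ∃ (N : Finset (Node X k)) (t : Node X k → Set (Fin k)),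
        (∀ n ∈ N, n.1.length ≤ σ.length) ∧
        {ω | play ω [] [] σ = v} = Set.pi (N : Set (Node X k)) t ∧
        ∏ n ∈ N, nodeMeasure p n (t n) = ENNReal.ofReal (p σ v) := by
  classical
  induction σ using List.reverseRecOn with
  | nil =>
    intro v hv
    have : v = [] := List.eq_nil_of_length_eq_zero hv
    subst this
    refine ⟨∅, fun _ => Set.univ, by simp only [Finset.notMem_empty, List.length_nil, nonpos_iff_eq_zero, List.length_eq_zero_iff, IsEmpty.forall_iff, implies_true], ?_, by simp only [Finset.prod_empty, hp.nil, ENNReal.ofReal_one]⟩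
    ext ω
    simp [play]
  | append_singleton σ r ih =>
    intro v hv
    have hv0 : v ≠ [] := by
      rintro rfl
      simp at hv
    obtain ⟨v', i, rfl⟩ : ∃ v' i, v = v' ++ [i] :=
      ⟨v.dropLast, v.getLast hv0, (List.dropLast_append_getLast hv0).symm⟩
    have hv' : v'.length = σ.length := by simpa using hv
    obtain ⟨N, t, h1, h2, h3⟩ := ih v' hv'
    have hnot : ((σ ++ [r], v') : Node X k) ∉ N := by
      intro hmem
      have := h1 _ hmem
      simp only [List.length_append, List.length_cons, List.length_nil, zero_add, add_le_iff_nonpos_right, nonpos_iff_eq_zero, one_ne_zero] at this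
    refine ⟨insert (σ ++ [r], v') N, Function.update t (σ ++ [r], v') {i}, ?_, ?_, ?_⟩
    · intro n hn
      rcases Finset.mem_insert.1 hn with rfl | hn
      · exact le_rfl
      · have := h1 _ hn
        simp only [List.length_append, List.length_cons, List.length_nil]
        omega
    · ext ω
      have hset : play ω [] [] σ = v' ↔ ω ∈ Set.pi (N : Set (Node X k)) t := by
        rw [← h2]; rfl
      simp only [Set.mem_ofPred_eq, play_snoc]
      constructor
      · intro h
        have h' := List.append_inj' h rfl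
        obtain ⟨h4, h5⟩ := h'
        rw [h4] at h5
        intro n hn
        rcases Finset.mem_insert.1 (Finset.mem_coe.1 hn) with rfl | hn
        · rw [Function.update_self]
          simpa using h5
        · have : n ≠ (σ ++ [r], v') := fun he => hnot (he ▸ hn)
          rw [Function.update_of_ne this]
          exact hset.1 h4 n hn
      · intro h
        have h4 : play ω [] [] σ = v' := by
          rw [hset]
          intro n hn
          have hn' : n ∈ N := hn
          have : n ≠ (σ ++ [r], v') := fun he => hnot (he ▸ hn')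
          have := h n (Finset.mem_coe.2 (Finset.mem_insert_of_mem hn'))
          rwa [Function.update_of_ne ‹n ≠ _›] at this
        have h5 := h (σ ++ [r], v') (Finset.mem_coe.2 (Finset.mem_insert_self _ _))
        rw [Function.update_self] at h5
        rw [h4]
        simp only [Set.mem_singleton_iff] at h5
        rw [h5]
    · rw [Finset.prod_insert hnot, Function.update_self, nodeMeasure_singleton]
      have : ∏ n ∈ N, nodeMeasure p n (Function.update t (σ ++ [r], v') {i} n)
          = ∏ n ∈ N, nodeMeasure p n (t n) := by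
        refine Finset.prod_congr rfl fun n hn => ?_
        have : n ≠ (σ ++ [r], v') := fun he => hnot (he ▸ hn)
        rw [Function.update_of_ne this]
      rw [this, h3, ← ENNReal.ofReal_mul (cond_nonneg hp _ _), cond_mul hp]

theorem exists_realization [NeZero k] {p : List X → List (Fin k) → ℝ} (hp : Law p) :
    ∃ (Ω : Type) (_ : MeasurableSpace Ω) (P : Measure Ω) (A : Ω → List X → Fin k),
      IsProbabilityMeasure P ∧ (∀ h, Measurable fun ω => A ω h) ∧
        ∀ σ v, v.length = σ.length → P.real {ω | ch (A ω) [] σ = v} = p σ v := by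
  classical
  haveI : ∀ n : Node X k, IsProbabilityMeasure (nodeMeasure p n) := isProb_nodeMeasure hp
  have hmeas : ∀ σ : List X, ∀ v, MeasurableSet {ω : Node X k → Fin k | play ω [] [] σ = v} := by
    intro σ v
    by_cases hv : v.length = σ.length
    · obtain ⟨N, t, -, h2, -⟩ := measure_play hp σ v hv
      rw [h2]
      exact MeasurableSet.pi N.countable_toSet fun n _ => (Set.toFinite (t n)).measurableSet
    · have : {ω : Node X k → Fin k | play ω [] [] σ = v} = ∅ := by
        ext ω
        simp only [Set.mem_ofPred_eq, Set.mem_empty_iff_false, iff_false]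
        rintro rfl
        apply hv
        rw [play_eq_ch, ch_length]
      rw [this]; exact MeasurableSet.empty
  refine ⟨Node X k → Fin k, inferInstance, Measure.infinitePi (nodeMeasure p), polOf,
    inferInstance, ?_, ?_⟩
  · intro h
    refine measurable_to_countable' fun i => ?_
    have : (fun ω : Node X k → Fin k => polOf ω h) ⁻¹' {i}
        = ⋃ v ∈ {v : List (Fin k) | v.getLastD 0 = i}, {ω | play ω [] [] h = v} := by
      ext ω
      simp only [polOf, List.getLastD_eq_getLast?, Set.mem_preimage, Set.mem_singleton_iff, Set.mem_ofPred_eq, Set.mem_iUnion, exists_prop, exists_eq_right']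
    rw [this]
    exact MeasurableSet.biUnion (Set.to_countable _) fun v _ => hmeas h v
  · intro σ v hv
    obtain ⟨N, t, -, h2, h3⟩ := measure_play hp σ v hv
    have : {ω : Node X k → Fin k | ch (polOf ω) [] σ = v} = {ω | play ω [] [] σ = v} := by
      ext ω
      simp only [Set.mem_ofPred_eq, play_eq_ch]
    rw [this, measureReal_def, h2, Measure.infinitePi_pi, h3,
      ENNReal.toReal_ofReal (hp.nonneg _ _)]
    intro n _
    exact (Set.toFinite (t n)).measurableSet

section policies

variable {Ω : Type} [MeasurableSpace Ω]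

theorem measurable_choices {A : Ω → List X → Fin k} (hA : ∀ h, Measurable fun ω => A ω h)
    (σ : List X) : Measurable fun ω => fun t : Fin σ.length => A ω (σ.take (t + 1)) :=
  measurable_pi_lambda _ fun _ => hA _

theorem setOf_ch_eq (A : Ω → List X → Fin k) (σ : List X) (f : Fin σ.length → Fin k) :
    {ω | ch (A ω) [] σ = List.ofFn f}
      = {ω | (fun t : Fin σ.length => A ω (σ.take (t + 1))) = f} := by
  ext ω
  have : ch (A ω) [] σ = List.ofFn fun t : Fin σ.length => A ω (σ.take (t + 1)) := by
    have := ch_eq_ofFn (A ω) σ []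
    simpa only [List.nil_append] using this
  constructor
  · intro h
    have h' : ch (A ω) [] σ = List.ofFn f := h
    rw [this] at h'
    exact List.ofFn_injective h'
  · intro h
    have h' : (fun t : Fin σ.length => A ω (σ.take (t + 1))) = f := h
    show ch (A ω) [] σ = List.ofFn f
    rw [this, h']

theorem measurableSet_ch {A : Ω → List X → Fin k} (hA : ∀ h, Measurable fun ω => A ω h)
    (σ : List X) (v : List (Fin k)) : MeasurableSet {ω | ch (A ω) [] σ = v} := by
  by_cases hv : v.length = σ.length
  · obtain ⟨f, rfl⟩ : ∃ f : Fin σ.length → Fin k, v = List.ofFn f := by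
      refine ⟨fun t => v.get (t.cast hv.symm), ?_⟩
      apply List.ext_get
      · simp [hv]
      · intro n h1 h2
        simp
    rw [setOf_ch_eq]
    exact (measurable_choices hA σ) (measurableSet_singleton f)
  · have : {ω | ch (A ω) [] σ = v} = ∅ := by
      ext ω
      constructor
      · intro h
        have h' : ch (A ω) [] σ = v := h
        exact hv (by rw [← h', ch_length])
      · intro h; exact h.elim
    rw [this]
    exact MeasurableSet.empty

theorem law_of_policy {P : Measure Ω} [IsProbabilityMeasure P] {A : Ω → List X → Fin k}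
    (hA : ∀ h, Measurable fun ω => A ω h) :
    Law (fun σ v => P.real {ω | ch (A ω) [] σ = v}) := by
  classical
  refine ⟨fun _ _ => measureReal_nonneg, ?_, ?_⟩
  · simp [ch]
  · intro σ v r
    have h1 : {ω | ch (A ω) [] σ = v}
        = ⋃ i ∈ (Finset.univ : Finset (Fin k)), {ω | ch (A ω) [] (σ ++ [r]) = v ++ [i]} := by
      ext ω
      simp only [ch_append, ch, Finset.mem_univ, Set.iUnion_true, Set.mem_iUnion]
      constructor
      · intro h
        refine ⟨A ω ([] ++ σ ++ [r]), ?_⟩
        have h' : ch (A ω) [] σ = v := h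
        show ch (A ω) [] σ ++ [A ω ([] ++ σ ++ [r])] = v ++ [A ω ([] ++ σ ++ [r])]
        rw [h']
      · rintro ⟨i, h⟩
        have h' : ch (A ω) [] σ ++ [A ω ([] ++ σ ++ [r])] = v ++ [i] := h
        exact (List.append_inj' h' rfl).1
    rw [h1, measureReal_biUnion_finset]
    · intro i _ j _ hij
      rw [Function.onFun, Set.disjoint_left]
      intro ω h2 h3
      have h2' : ch (A ω) [] (σ ++ [r]) = v ++ [i] := h2
      have h3' : ch (A ω) [] (σ ++ [r]) = v ++ [j] := h3
      rw [h2'] at h3'
      exact hij (by simpa using h3')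
    · intro i _
      exact measurableSet_ch hA _ _

theorem integral_policyCost [MetricSpace X] {P : Measure Ω} [IsProbabilityMeasure P]
    {A : Ω → List X → Fin k} (hA : ∀ h, Measurable fun ω => A ω h) (s : Fin k → X) (σ : List X) :
    ∫ ω, policyCost s (A ω) σ ∂P
      = ∑ f : Fin σ.length → Fin k, P.real {ω | ch (A ω) [] σ = List.ofFn f} * serviceCost s σ f := by
  have := integral_comp_finite P _ (measurable_choices hA σ) (serviceCost s σ)
  unfold policyCost
  rw [this]
  refine Finset.sum_congr rfl fun f _ => ?_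
  rw [setOf_ch_eq]

end policies

theorem good_of_finite [MetricSpace X] [NeZero k] (s : Fin k → X) (c B : ℝ)
    (h : ∀ F : Finset (List X), Good s c B (F : Set (List X))) : Good s c B Set.univ := by
  classical
  choose Ω m P A hP hA hG using h
  set U : Ultrafilter (Finset (List X)) := Ultrafilter.of atTop with hU
  have hUle : (U : Filter (Finset (List X))) ≤ atTop := Ultrafilter.of_le atTop
  have hlim : ∀ σ v, ∃ x, Tendsto (fun F => (P F).real {ω | ch (A F ω) [] σ = v})
      (U : Filter (Finset (List X))) (𝓝 x) := by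
    intro σ v
    have h1 : ∀ F, (P F).real {ω | ch (A F ω) [] σ = v} ∈ Set.Icc (0 : ℝ) 1 := by
      intro F
      haveI := hP F
      exact ⟨measureReal_nonneg, measureReal_le_one⟩
    have h2 := (isCompact_Icc (a := (0 : ℝ)) (b := 1)).ultrafilter_le_nhds
      (U.map fun F => (P F).real {ω | ch (A F ω) [] σ = v})
      (by
        rw [le_principal_iff]
        exact Filter.mem_map.2 (Filter.Eventually.of_forall h1))
    obtain ⟨x, -, hx⟩ := h2
    exact ⟨x, hx⟩
  choose p hp using hlim
  have hlaw : Law p := by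
    have hl : ∀ F, Law (fun σ v => (P F).real {ω | ch (A F ω) [] σ = v}) := by
      intro F
      haveI := hP F
      exact law_of_policy (hA F)
    refine ⟨?_, ?_, ?_⟩
    · intro σ v
      exact ge_of_tendsto' (hp σ v) fun F => (hl F).nonneg σ v
    · have h1 : Tendsto (fun _ : Finset (List X) => (1 : ℝ)) (U : Filter _) (𝓝 (p [] [])) := by
        refine (hp [] []).congr fun F => ?_
        exact (hl F).nil
      exact tendsto_nhds_unique h1 tendsto_const_nhds
    · intro σ v r
      have h1 : Tendsto (fun F => ∑ i, (P F).real {ω | ch (A F ω) [] (σ ++ [r]) = v ++ [i]})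
          (U : Filter _) (𝓝 (∑ i, p (σ ++ [r]) (v ++ [i]))) :=
        tendsto_finsetSum _ fun i _ => hp _ _
      refine tendsto_nhds_unique (hp σ v) (h1.congr fun F => ?_)
      exact ((hl F).snoc σ v r).symm
  obtain ⟨Ω', m', P', A', hP', hA', hr⟩ := exists_realization hlaw
  refine ⟨Ω', m', P', A', hP', hA', ?_⟩
  intro σ _
  rw [integral_policyCost hA']
  have h1 : ∀ f : Fin σ.length → Fin k,
      P'.real {ω | ch (A' ω) [] σ = List.ofFn f} = p σ (List.ofFn f) := by
    intro f
    exact hr σ _ (by simp)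
  simp only [h1]
  have h2 : Tendsto (fun F => ∑ f : Fin σ.length → Fin k,
      (P F).real {ω | ch (A F ω) [] σ = List.ofFn f} * serviceCost s σ f)
      (U : Filter _) (𝓝 (∑ f : Fin σ.length → Fin k, p σ (List.ofFn f) * serviceCost s σ f)) :=
    tendsto_finsetSum _ fun f _ => (hp σ (List.ofFn f)).mul_const _
  refine le_of_tendsto h2 ?_
  have h3 : ∀ᶠ F in (U : Filter (Finset (List X))), σ ∈ F := by
    refine hUle ?_
    filter_upwards [Filter.eventually_ge_atTop ({σ} : Finset (List X))] with F hF
    exact hF (Finset.mem_singleton_self σ)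
  filter_upwards [h3] with F hF
  haveI := hP F
  have := hG F σ hF
  rwa [integral_policyCost (hA F)] at this

end Vale.Agent.P304
end
end

section

section
set_option linter.all false

open scoped BigOperators

namespace Vale.Agent.P304.HST

variable {X : Type} [MetricSpace X] {k : ℕ}

theorem runCost_le_virtual (v : List X → Fin k → X) (a : List X → Fin k) (σ : List X) :
    ∀ (h : List X) (q : Fin k → X),
    (∀ (t : ℕ) (ht : t < σ.length),
      v (h ++ σ.take (t + 1)) (a (h ++ σ.take (t + 1))) = σ[t]) →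
    runCost a h q σ ≤ ∑ j, dist (q j) (v h j) + ∑ t ∈ Finset.range σ.length,
      ∑ j, dist (v (h ++ σ.take t) j) (v (h ++ σ.take (t + 1)) j) := by
  classical
  induction σ with
  | nil =>
    intro h q _
    simp only [runCost, List.length_nil, Finset.range_zero, Finset.sum_empty, add_zero]
    exact Finset.sum_nonneg fun _ _ => dist_nonneg
  | cons r σ ih =>
    intro h q hv
    simp only [runCost, List.length_cons]
    rw [Finset.sum_range_succ']
    have h0 : v (h ++ [r]) (a (h ++ [r])) = r := by
      have := hv 0 (by simp only [List.length_cons, lt_add_iff_pos_left, Order.lt_add_one_iff, zero_le])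
      simpa using this
    have h1 := ih (h ++ [r]) (Function.update q (a (h ++ [r])) r) (by
      intro t ht
      have := hv (t + 1) (by simpa only [List.length_cons, Order.lt_add_one_iff, Order.add_one_le_iff] using ht)
      simpa [List.append_assoc] using this)
    have e1 : ∀ t : ℕ, h ++ [r] ++ σ.take t = h ++ (r :: σ).take (t + 1) := by
      intro t
      simp
    simp only [e1] at h1
    have e2 : h ++ (r :: σ).take (0 + 1) = h ++ [r] := by simp
    have e3 : h ++ (r :: σ).take 0 = h := by simp
    rw [e2, e3]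
    set i := a (h ++ [r]) with hi
    have h2 : ∑ j, dist (Function.update q i r j) (v (h ++ [r]) j) + dist (q i) r
        = ∑ j, dist (q j) (v (h ++ [r]) j) := by
      rw [← Finset.add_sum_erase _ _ (Finset.mem_univ i),
        ← Finset.add_sum_erase Finset.univ (fun j => dist (q j) (v (h ++ [r]) j))
          (Finset.mem_univ i)]
      have h3 : ∀ l ∈ Finset.univ.erase i,
          dist (Function.update q i r l) (v (h ++ [r]) l) = dist (q l) (v (h ++ [r]) l) := by
        intro l hl
        rw [Function.update_of_ne (Finset.ne_of_mem_erase hl)]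
      rw [Finset.sum_congr rfl h3, Function.update_self, h0, dist_self]
      ring
    have h4 : ∑ j, dist (q j) (v (h ++ [r]) j) ≤
        ∑ j, dist (q j) (v h j) + ∑ j, dist (v h j) (v (h ++ [r]) j) := by
      rw [← Finset.sum_add_distrib]
      exact Finset.sum_le_sum fun j _ => dist_triangle _ _ _
    linarith only [h1, h2, h4]

/-- LAZY SERVERS.  `v h` = virtual positions after the history `h`; the policy `a` serves the request
with the index of a virtual server standing on it.
Proof: `policyCost_eq`, induction on the remaining sequence with the real positions `q` and the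
potential `sum_j dist (q j) (v h j)`: when server `i` serves `r = v h' i` the cost is `dist (q i) r`
and `sum_j dist (q' j) (v h' j) + dist (q i) r = sum_j dist (q j) (v h' j)
<= sum_j dist (q j) (v h j) + sum_j dist (v h j) (v h' j)`. -/
theorem policyCost_le_virtual (s : Fin k → X) (v : List X → Fin k → X) (a : List X → Fin k)
    (σ : List X)
    (h : ∀ (t : ℕ) (ht : t < σ.length), v (σ.take (t + 1)) (a (σ.take (t + 1))) = σ[t]) :
    policyCost s a σ ≤ ∑ j, dist (s j) (v [] j) + ∑ t ∈ Finset.range σ.length,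
      ∑ j, dist (v (σ.take t) j) (v (σ.take (t + 1)) j) := by
  rw [policyCost_eq]
  have := runCost_le_virtual v a σ [] s (by simpa only [List.nil_append] using h)
  simpa only [ge_iff_le, List.nil_append] using this

end Vale.Agent.P304.HST
end
end

section

section
set_option linter.all false

open scoped BigOperators

namespace Vale.Agent.P304.HST

variable {X : Type} [MetricSpace X] {k : ℕ}

/-- The positions of an optimal service: `o 0 = s`, at time `t + 1` some server stands on the
request `σ[t]`, and the total movement is `opt s σ`. -/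
theorem exists_opt_positions [NeZero k] (s : Fin k → X) (σ : List X) :
    ∃ o : ℕ → Fin k → X, o 0 = s ∧ (∀ (t : ℕ) (ht : t < σ.length), ∃ j, o (t + 1) j = σ[t]) ∧
      ∑ t ∈ Finset.range σ.length, ∑ j, dist (o t j) (o (t + 1) j) = opt s σ := by
  induction σ generalizing s with
  | nil =>
    refine ⟨fun _ => s, rfl, fun t ht => absurd ht (Nat.not_lt_zero t), ?_⟩
    rw [opt_nil]
    exact Finset.sum_range_zero _
  | cons r σ ih =>
    obtain ⟨i, hi⟩ := exists_opt_cons s r σ
    obtain ⟨o, ho0, ho1, ho2⟩ := ih (Function.update s i r)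
    refine ⟨fun t => Nat.casesOn t s o, rfl, ?_, ?_⟩
    · intro t ht
      cases t with
      | zero =>
        refine ⟨i, ?_⟩
        show o 0 i = r
        rw [ho0, Function.update_self]
      | succ t =>
        obtain ⟨j, hj⟩ := ho1 t (Nat.lt_of_succ_lt_succ ht)
        exact ⟨j, hj⟩
    · rw [List.length_cons, Finset.sum_range_succ', add_comm, hi]
      have h1 : ∑ j, dist (s j) (o 0 j) = dist (s i) r := by
        rw [ho0, Finset.sum_eq_single i]
        · rw [Function.update_self]
        · intro j _ hj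
          rw [Function.update_of_ne hj, dist_self]
        · intro h
          exact absurd (Finset.mem_univ i) h
      rw [← ho2]
      exact congrArg₂ (· + ·) h1 rfl

end Vale.Agent.P304.HST
end
end

section

section

open MeasureTheory Filter Topology
open scoped ENNReal NNReal

namespace Vale.Agent.P304

variable {X : Type} [MetricSpace X] {k : ℕ}

/-! ### finite spaces -/

theorem exists_delta (Y : Type) [MetricSpace Y] [Finite Y] :
    ∃ δ : ℝ, 0 < δ ∧ ∀ x y : Y, x ≠ y → δ ≤ dist x y := by
  classical
  by_cases h : Nonempty {z : Y × Y // z.1 ≠ z.2}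
  · obtain ⟨z, hz⟩ := Finite.exists_min (fun z : {z : Y × Y // z.1 ≠ z.2} => dist z.1.1 z.1.2)
    refine ⟨dist z.1.1 z.1.2, dist_pos.2 z.2, fun x y hxy => ?_⟩
    exact hz ⟨(x, y), hxy⟩
  · refine ⟨1, one_pos, fun x y hxy => ?_⟩
    exact absurd ⟨⟨(x, y), hxy⟩⟩ h

theorem exists_mdist_bound (Y : Type) [MetricSpace Y] [Finite Y] (k : ℕ) :
    ∃ D : ℝ, 0 ≤ D ∧ ∀ p q : Fin k → Y, mdist p q ≤ D := by
  classical
  obtain ⟨D, hD⟩ := (Set.finite_range fun z : (Fin k → Y) × (Fin k → Y) => mdist z.1 z.2).bddAbove
  refine ⟨max D 0, le_max_right _ _, fun p q => le_max_of_le_left (hD ⟨(p, q), rfl⟩)⟩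

/-- `M` forcing blocks. -/
def blk (q : Fin k → X) : ℕ → List X
  | 0 => []
  | M + 1 => blk q M ++ List.ofFn q

omit [MetricSpace X] in
theorem blk_mem (q : Fin k → X) (M : ℕ) : ∀ r ∈ blk q M, r ∈ Set.range q := by
  induction M with
  | zero => simp only [blk, List.not_mem_nil, Set.mem_range, IsEmpty.forall_iff, implies_true]
  | succ M ih =>
    intro r hr
    simp only [blk, List.mem_append] at hr
    rcases hr with hr | hr
    · exact ih r hr
    · simpa only [Set.mem_range, List.mem_ofFn] using hr

theorem opt_of_mem (q : Fin k → X) (l : List X) (hl : ∀ r ∈ l, r ∈ Set.range q) :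
    opt q l = 0 := by
  refine le_antisymm ?_ (opt_nonneg _ _)
  induction l with
  | nil => simp [opt_nil]
  | cons r l ih =>
    obtain ⟨j, hj⟩ := hl r (by simp)
    refine (opt_cons_le q r l j).trans ?_
    have : Function.update q j r = q := by
      rw [← hj]; exact Function.update_eq_self j q
    rw [this, hj, dist_self, zero_add]
    exact ih fun x hx => hl x (by simp [hx])

theorem wf_of_mem (q' q : Fin k → X) (l : List X) (hl : ∀ r ∈ l, r ∈ Set.range q) :
    wf q' q l ≤ mdist q q' := by
  induction l with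
  | nil => simp [wf]
  | cons r l ih =>
    obtain ⟨j, hj⟩ := hl r (by simp)
    refine (wf_cons_le q' q r l j).trans ?_
    have : Function.update q j r = q := by
      rw [← hj]; exact Function.update_eq_self j q
    rw [this, hj, dist_self, zero_add]
    exact ih fun x hx => hl x (by simp [hx])

theorem run_zero (a : List X → Fin k) (l : List X) : ∀ (h : List X) (p : Fin k → X),
    runCost a h p l = 0 → runPos a h p l = p ∧ ∀ r ∈ l, r ∈ Set.range p := by
  induction l with
  | nil => intro h p _; simp only [runPos, List.not_mem_nil, Set.mem_range, IsEmpty.forall_iff, implies_true, and_self]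
  | cons r l ih =>
    intro h p h0
    simp only [runCost] at h0
    have h1 := runCost_nonneg a l (h ++ [r]) (Function.update p (a (h ++ [r])) r)
    have h2 : dist (p (a (h ++ [r]))) r = 0 := le_antisymm (by linarith only [h0, h1]) dist_nonneg
    have h3 : p (a (h ++ [r])) = r := dist_eq_zero.1 h2
    have h4 : Function.update p (a (h ++ [r])) r = p := by
      funext x
      by_cases hx : x = a (h ++ [r])
      · rw [hx, Function.update_self, h3]
      · rw [Function.update_of_ne hx]
    have h5 : runCost a (h ++ [r]) p l = 0 := by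
      rw [h4] at h0; linarith only [h0, h2]
    obtain ⟨h6, h7⟩ := ih (h ++ [r]) p h5
    refine ⟨by simp only [runPos]; rw [h4, h6], ?_⟩
    intro x hx
    rcases List.mem_cons.1 hx with rfl | hx
    · exact ⟨_, h3⟩
    · exact h7 x hx

theorem run_pos (a : List X → Fin k) {δ : ℝ} (hδ : ∀ x y : X, x ≠ y → δ ≤ dist x y)
    (l : List X) : ∀ (h : List X) (p : Fin k → X),
    runCost a h p l ≠ 0 → δ ≤ runCost a h p l := by
  induction l with
  | nil => intro h p h0; simp [runCost] at h0
  | cons r l ih =>
    intro h p h0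
    simp only [runCost] at h0 ⊢
    have h1 := runCost_nonneg a l (h ++ [r]) (Function.update p (a (h ++ [r])) r)
    by_cases h2 : p (a (h ++ [r])) = r
    · have h3 : dist (p (a (h ++ [r]))) r = 0 := by rw [h2, dist_self]
      rw [h3, zero_add] at h0 ⊢
      exact ih _ _ h0
    · have := hδ _ _ h2
      linarith only [h1, this]

theorem block_bound (Y : Type) [MetricSpace Y] [Finite Y] {k : ℕ} (q : Fin k → Y)
    (hq : Function.Injective q) :
    ∃ C : ℝ, 0 ≤ C ∧ ∀ (a : List Y → Fin k) (h : List Y) (p : Fin k → Y),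
      mdist (runPos a h p (List.ofFn q)) q ≤ C * runCost a h p (List.ofFn q) := by
  classical
  obtain ⟨δ, hδ0, hδ⟩ := exists_delta Y
  obtain ⟨D, hD0, hD⟩ := exists_mdist_bound Y k
  refine ⟨D / δ, by positivity, fun a h p => ?_⟩
  by_cases h0 : runCost a h p (List.ofFn q) = 0
  · obtain ⟨h1, h2⟩ := run_zero a _ h p h0
    rw [h0, h1, mul_zero]
    have h3 : ∀ j, ∃ i, p i = q j := fun j => h2 (q j) (by simp only [List.mem_ofFn, exists_apply_eq_apply])
    choose g hg using h3
    have hginj : Function.Injective g := by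
      intro x y hxy
      apply hq
      rw [← hg x, ← hg y, hxy]
    refine (mdist_le (Equiv.ofBijective g (Finite.injective_iff_bijective.1 hginj)) p q).trans ?_
    unfold lab
    simp only [Equiv.ofBijective_apply, hg, dist_self, Finset.sum_const_zero, Std.le_refl]
  · have h1 := run_pos a hδ _ h p h0
    calc mdist (runPos a h p (List.ofFn q)) q ≤ D := hD _ _
      _ = D / δ * δ := by (clear * - hδ0; field_simp)
      _ ≤ _ := by (clear * - h1 hD0 hδ0; gcongr)

/-! ### measurability -/

section meas

variable {Ω : Type} [MeasurableSpace Ω]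

/-- the policy playing a given list of choices. -/
def vecPol [NeZero k] {n : ℕ} (V : Fin n → Fin k) (h : List X) : Fin k :=
  if hh : h.length - 1 < n then V ⟨h.length - 1, hh⟩ else 0

omit [MetricSpace X] in
theorem run_congr_aux [MetricSpace X] (a b : List X → Fin k) (σ : List X) : ∀ (h : List X)
    (p : Fin k → X), (∀ t, t < σ.length → a (h ++ σ.take (t + 1)) = b (h ++ σ.take (t + 1))) →
      runCost a h p σ = runCost b h p σ ∧ runPos a h p σ = runPos b h p σ := by
  induction σ with
  | nil => intro h p _; exact ⟨rfl, rfl⟩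
  | cons r σ ih =>
    intro h p hab
    simp only [runCost, runPos]
    have h0 : a (h ++ [r]) = b (h ++ [r]) := by simpa only [zero_add, List.take_succ_cons, List.take_zero] using hab 0 (by simp)
    have h1 := ih (h ++ [r]) (Function.update p (a (h ++ [r])) r) (fun t ht => by
      have := hab (t + 1) (by simpa only [List.length_cons, Order.lt_add_one_iff, Order.add_one_le_iff] using ht)
      simpa using this)
    rw [h0] at h1 ⊢
    rw [h1.1, h1.2]
    exact ⟨rfl, rfl⟩

theorem run_eq_vec [NeZero k] (a : List X → Fin k) (p : Fin k → X) (σ : List X) :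
    runCost a [] p σ = runCost (vecPol fun t : Fin σ.length => a (σ.take (t + 1))) [] p σ ∧
    runPos a [] p σ = runPos (vecPol fun t : Fin σ.length => a (σ.take (t + 1))) [] p σ := by
  refine run_congr_aux _ _ σ [] p fun t ht => ?_
  have h1 : (σ.take (t + 1)).length = t + 1 := by simp only [List.length_take, inf_eq_left, Order.add_one_le_iff]; omega
  unfold vecPol
  simp only [List.nil_append, h1]
  simp only [add_tsub_cancel_right, ht, ↓reduceDIte]

theorem measurable_run [NeZero k] {β : Type} [MeasurableSpace β] {A : Ω → List X → Fin k}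
    (hA : ∀ h, Measurable fun ω => A ω h) (s : Fin k → X) (σ : List X)
    (Φ : ℝ → (Fin k → X) → β) :
    Measurable fun ω => Φ (runCost (A ω) [] s σ) (runPos (A ω) [] s σ) := by
  have h1 : (fun ω => Φ (runCost (A ω) [] s σ) (runPos (A ω) [] s σ)) =
      (fun V : Fin σ.length → Fin k => Φ (runCost (vecPol V) [] s σ) (runPos (vecPol V) [] s σ)) ∘
        fun ω => fun t : Fin σ.length => A ω (σ.take (t + 1)) := by
    funext ω
    obtain ⟨h1, h2⟩ := run_eq_vec (A ω) s σ
    simp only [Function.comp]
    rw [← h1, ← h2]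
  rw [h1]
  exact (measurable_of_finite _).comp (measurable_choices hA σ)

theorem integrable_run [NeZero k] {P : Measure Ω} [IsProbabilityMeasure P]
    {A : Ω → List X → Fin k} (hA : ∀ h, Measurable fun ω => A ω h) (s : Fin k → X) (σ : List X)
    (Φ : ℝ → (Fin k → X) → ℝ) :
    Integrable (fun ω => Φ (runCost (A ω) [] s σ) (runPos (A ω) [] s σ)) P := by
  have h1 : (fun ω => Φ (runCost (A ω) [] s σ) (runPos (A ω) [] s σ)) =
      fun ω => (fun V : Fin σ.length → Fin k => Φ (runCost (vecPol V) [] s σ)
        (runPos (vecPol V) [] s σ)) (fun t : Fin σ.length => A ω (σ.take (t + 1))) := by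
    funext ω
    obtain ⟨h1, h2⟩ := run_eq_vec (A ω) s σ
    simp only
    rw [← h1, ← h2]
  rw [h1]
  exact integrable_comp_finite P _ (measurable_choices hA σ)
    (fun V : Fin σ.length → Fin k => Φ (runCost (vecPol V) [] s σ) (runPos (vecPol V) [] s σ))

end meas

/-! ### forcing -/

theorem exists_force {Y : Type} [MetricSpace Y] [Finite Y] [NeZero k] {Ω : Type}
    [MeasurableSpace Ω] {P : Measure Ω} [IsProbabilityMeasure P] {A : Ω → List Y → Fin k}
    (hA : ∀ h, Measurable fun ω => A ω h) (s : Fin k → Y) {c B : ℝ} (hc : 0 ≤ c)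
    (hG : ∀ σ, ∫ ω, runCost (A ω) [] s σ ∂P ≤ c * opt s σ + B)
    (q : Fin k → Y) (hq : Function.Injective q) (ξ : List Y) {η : ℝ} (hη : 0 < η) :
    ∃ N, ∫ ω, mdist (runPos (A ω) [] s (ξ ++ blk q (N + 1))) q ∂P ≤ η := by
  obtain ⟨C, hC0, hC⟩ := block_bound Y q hq
  set e : ℕ → ℝ := fun N => ∫ ω, runCost (A ω) [] s (ξ ++ blk q N) ∂P with he
  have hint : ∀ σ, Integrable (fun ω => runCost (A ω) [] s σ) P := fun σ =>
    integrable_run hA s σ (fun x _ => x)
  have hbound : ∀ N, e N ≤ c * wf q s ξ + B := by
    intro N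
    refine (hG _).trans ?_
    have h1 := opt_append_le q ξ (blk q N) s
    rw [opt_of_mem q _ (blk_mem q N), add_zero] at h1
    have := mul_le_mul_of_nonneg_left h1 hc
    linarith
  have hstep : ∀ N, ∫ ω, mdist (runPos (A ω) [] s (ξ ++ blk q (N + 1))) q ∂P
      ≤ C * (e (N + 1) - e N) := by
    intro N
    have h1 : e (N + 1) - e N = ∫ ω, runCost (A ω) [] s (ξ ++ blk q (N + 1))
        - runCost (A ω) [] s (ξ ++ blk q N) ∂P := by
      rw [integral_sub (hint _) (hint _)]
    rw [h1, ← integral_const_mul]
    refine integral_mono (integrable_run hA s _ (fun _ x => mdist x q))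
      (((hint _).sub (hint _)).const_mul C) fun ω => ?_
    have h2 : ξ ++ blk q (N + 1) = (ξ ++ blk q N) ++ List.ofFn q := by
      simp [blk]
    rw [h2, runPos_append, runCost_append]
    have := hC (A ω) ([] ++ (ξ ++ blk q N)) (runPos (A ω) [] s (ξ ++ blk q N))
    linarith only [this]
  by_contra hcon
  push Not at hcon
  have h1 : ∀ N, η < C * (e (N + 1) - e N) := fun N => (hcon N).trans_le (hstep N)
  have hCpos : 0 < C := by
    rcases hC0.lt_or_eq with h | h
    · exact h
    · have := h1 0
      rw [← h, zero_mul] at this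
      linarith only [hη, this]
  have h2 : ∀ N : ℕ, e 0 + N * (η / C) ≤ e N := by
    intro N
    induction N with
    | zero => simp
    | succ N ih =>
      have h3 := h1 N
      have h4 : η / C < e (N + 1) - e N := by
        rw [div_lt_iff₀ hCpos]; linarith
      push_cast
      linarith only [ih, h4]
  obtain ⟨N, hN⟩ := exists_nat_gt ((c * wf q s ξ + B - e 0) / (η / C))
  have h3 := h2 N
  have h4 := hbound N
  have h5 : 0 < η / C := by positivity
  rw [div_lt_iff₀ h5] at hN
  linarith only [hN, h3, h4]

/-! ### strictness -/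

theorem mdist_run_le (a : List X → Fin k) (h σ : List X) (p s : Fin k → X) :
    mdist p s ≤ runCost a h p σ + mdist (runPos a h p σ) s :=
  (mdist_triangle p (runPos a h p σ) s).trans (add_le_add_left (mdist_runPos a σ h p) _)

/-- the closed, strict inequality. -/
theorem exists_closed {Y : Type} [MetricSpace Y] [Finite Y] [NeZero k] (s : Fin k → Y)
    (hs : Function.Injective s) {c B : ℝ} (hc : 0 ≤ c) (hG : Good s c B Set.univ) {ε : ℝ}
    (hε : 0 < ε) :
    ∃ (Ω : Type) (_ : MeasurableSpace Ω) (P : Measure Ω) (A : Ω → List Y → Fin k),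
      IsProbabilityMeasure P ∧ (∀ h, Measurable fun ω => A ω h) ∧
        ∀ σ, ∫ ω, (runCost (A ω) [] s σ + mdist (runPos (A ω) [] s σ) s) ∂P
          ≤ c * wf s s σ + ε := by
  classical
  obtain ⟨Ω, m, P, A, hP, hA, hG⟩ := hG
  have hG' : ∀ σ, ∫ ω, runCost (A ω) [] s σ ∂P ≤ c * opt s σ + B := by
    intro σ
    have := hG σ (Set.mem_univ _)
    simpa only [policyCost_eq] using this
  obtain ⟨D, hD0, hD⟩ := exists_mdist_bound Y k
  have hint1 : ∀ σ, Integrable (fun ω => runCost (A ω) [] s σ) P := fun σ =>
    integrable_run hA s σ (fun x _ => x)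
  have hint2 : ∀ σ, Integrable (fun ω => mdist (runPos (A ω) [] s σ) s) P := fun σ =>
    integrable_run hA s σ (fun _ x => mdist x s)
  set I : List Y → ℝ := fun σ =>
    ∫ ω, (runCost (A ω) [] s σ + mdist (runPos (A ω) [] s σ) s) ∂P with hI
  have hIsplit : ∀ σ, I σ = ∫ ω, runCost (A ω) [] s σ ∂P
      + ∫ ω, mdist (runPos (A ω) [] s σ) s ∂P := fun σ => integral_add (hint1 σ) (hint2 σ)
  have hmD : ∀ σ, ∫ ω, mdist (runPos (A ω) [] s σ) s ∂P ≤ D := by
    intro σ
    calc ∫ ω, mdist (runPos (A ω) [] s σ) s ∂P ≤ ∫ _ω, D ∂P :=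
          integral_mono (hint2 σ) (integrable_const D) fun ω => hD _ _
      _ = D := by simp
  set G : List Y → ℝ := fun σ => I σ - c * wf s s σ with hGdef
  have hbdd : BddAbove (Set.range G) := by
    refine ⟨B + D, ?_⟩
    rintro _ ⟨σ, rfl⟩
    have h1 := hG' σ
    have h2 := mul_le_mul_of_nonneg_left (opt_le_wf s σ s) hc
    have h3 := hmD σ
    have h4 := hIsplit σ
    simp only [hGdef]
    (clear * - h1 h2 h3 h4; linarith)
  obtain ⟨ξ0, hξ0⟩ := exists_lt_of_lt_ciSup (f := G) (b := (⨆ σ, G σ) - ε / 3) (by linarith only [hε])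
  obtain ⟨N, hN⟩ := exists_force hA s hc hG' s hs ξ0 (η := ε / 3) (by linarith only [hε])
  set ξ1 : List Y := ξ0 ++ blk s (N + 1) with hξ1
  have hwf1 : wf s s ξ1 ≤ wf s s ξ0 := by
    have h1 := wf_append_le s s ξ0 (blk s (N + 1)) s
    have h2 := wf_of_mem s s (blk s (N + 1)) (blk_mem s (N + 1))
    rw [mdist_self] at h2
    linarith only [h1, h2]
  have hGξ1 : G ξ0 ≤ G ξ1 := by
    have h1 : I ξ0 ≤ I ξ1 := by
      refine integral_mono ((hint1 _).add (hint2 _)) ((hint1 _).add (hint2 _)) fun ω => ?_
      have h2 := mdist_run_le (A ω) ([] ++ ξ0) (blk s (N + 1)) (runPos (A ω) [] s ξ0) s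
      simp only [hξ1, runCost_append, runPos_append]
      linarith only [h2]
    have h2 := mul_le_mul_of_nonneg_left hwf1 hc
    simp only [hGdef]
    linarith only [h1, h2]
  -- the new policy
  choose bp hbp using fun q : Fin k → Y => exists_mdist s q
  refine ⟨Ω, m, P, fun ω h => bp (runPos (A ω) [] s ξ1) (A ω (ξ1 ++ h)), hP, ?_, ?_⟩
  · intro h
    letI : MeasurableSpace (Equiv.Perm (Fin k)) := ⊤
    have h1 : Measurable fun ω => bp (runPos (A ω) [] s ξ1) :=
      measurable_run hA s ξ1 (fun _ x => bp x)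
    have h2 : Measurable fun z : Equiv.Perm (Fin k) × Fin k => z.1 z.2 := measurable_of_finite _
    exact h2.comp (h1.prodMk (hA (ξ1 ++ h)))
  · intro σ
    have hpt : ∀ ω, runCost (fun h => bp (runPos (A ω) [] s ξ1) (A ω (ξ1 ++ h))) [] s σ
        + mdist (runPos (fun h => bp (runPos (A ω) [] s ξ1) (A ω (ξ1 ++ h))) [] s σ) s
        ≤ (runCost (A ω) [] s (ξ1 ++ σ) + mdist (runPos (A ω) [] s (ξ1 ++ σ)) s)
          - (runCost (A ω) [] s ξ1 + mdist (runPos (A ω) [] s ξ1) s)
          + 2 * mdist (runPos (A ω) [] s ξ1) s := by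
      intro ω
      set q := runPos (A ω) [] s ξ1 with hq
      set a' : List Y → Fin k := fun h => bp q (A ω (ξ1 ++ h)) with ha'
      have h1 := sim (bp q) (A ω) a' ξ1 (fun h => rfl) σ [] s q
      rw [List.append_nil] at h1
      have h2 : mdist (runPos a' [] s σ) s ≤ lab (bp q) (runPos a' [] s σ) (runPos (A ω) ξ1 q σ)
          + mdist (runPos (A ω) ξ1 q σ) s :=
        (mdist_triangle _ (runPos (A ω) ξ1 q σ) s).trans (add_le_add_left (mdist_le _ _ _) _)
      have h3 : runCost (A ω) [] s (ξ1 ++ σ) = runCost (A ω) [] s ξ1 + runCost (A ω) ξ1 q σ := by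
        rw [runCost_append]; simp [hq]
      have h4 : runPos (A ω) [] s (ξ1 ++ σ) = runPos (A ω) ξ1 q σ := by
        rw [runPos_append]; simp [hq]
      have h5 : lab (bp q) s q = mdist q s := by rw [mdist_comm, hbp q]
      rw [h3, h4]
      linarith only [h1, h2, h5]
    have hmeas' : ∀ h, Measurable fun ω =>
        (fun ω h => bp (runPos (A ω) [] s ξ1) (A ω (ξ1 ++ h))) ω h := by
      intro h
      letI : MeasurableSpace (Equiv.Perm (Fin k)) := ⊤
      have h1 : Measurable fun ω => bp (runPos (A ω) [] s ξ1) :=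
        measurable_run hA s ξ1 (fun _ x => bp x)
      have h2 : Measurable fun z : Equiv.Perm (Fin k) × Fin k => z.1 z.2 := measurable_of_finite _
      exact h2.comp (h1.prodMk (hA (ξ1 ++ h)))
    have hi1 : Integrable (fun ω => runCost (fun h => bp (runPos (A ω) [] s ξ1)
        (A ω (ξ1 ++ h))) [] s σ + mdist (runPos (fun h => bp (runPos (A ω) [] s ξ1)
        (A ω (ξ1 ++ h))) [] s σ) s) P :=
      integrable_run hmeas' s σ (fun x y => x + mdist y s)
    have hi2 : Integrable (fun ω => (runCost (A ω) [] s (ξ1 ++ σ)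
        + mdist (runPos (A ω) [] s (ξ1 ++ σ)) s)) P := (hint1 _).add (hint2 _)
    have hi3 : Integrable (fun ω => (runCost (A ω) [] s ξ1
        + mdist (runPos (A ω) [] s ξ1) s)) P := (hint1 _).add (hint2 _)
    have hi4 : Integrable (fun ω => 2 * mdist (runPos (A ω) [] s ξ1) s) P :=
      (hint2 _).const_mul 2
    have h1 : ∫ ω, (runCost (fun h => bp (runPos (A ω) [] s ξ1) (A ω (ξ1 ++ h))) [] s σ
        + mdist (runPos (fun h => bp (runPos (A ω) [] s ξ1) (A ω (ξ1 ++ h))) [] s σ) s) ∂P
        ≤ I (ξ1 ++ σ) - I ξ1 + 2 * ∫ ω, mdist (runPos (A ω) [] s ξ1) s ∂P := by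
      refine (integral_mono hi1 ((hi2.sub hi3).add hi4) hpt).trans (le_of_eq ?_)
      have e1 : ∫ ω, ((fun ω => (runCost (A ω) [] s (ξ1 ++ σ)
          + mdist (runPos (A ω) [] s (ξ1 ++ σ)) s)) - (fun ω => (runCost (A ω) [] s ξ1
          + mdist (runPos (A ω) [] s ξ1) s)) + fun ω => 2 * mdist (runPos (A ω) [] s ξ1) s) ω ∂P
          = I (ξ1 ++ σ) - I ξ1 + 2 * ∫ ω, mdist (runPos (A ω) [] s ξ1) s ∂P := by
        rw [integral_add' (hi2.sub hi3) hi4, integral_sub' hi2 hi3, integral_const_mul]
      exact e1
    have h2 : G (ξ1 ++ σ) ≤ ⨆ σ, G σ := le_ciSup hbdd _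
    have h3 : wf s s (ξ1 ++ σ) ≤ wf s s ξ1 + wf s s σ := wf_append_le s s ξ1 σ s
    have h4 := mul_le_mul_of_nonneg_left h3 hc
    simp only [hGdef] at h2 hGξ1 hξ0
    linarith only [hN, h1, h4, h2, hGξ1, hξ0]

/-- Lemma S: on finite spaces and from distinct positions the additive constant can be made
arbitrarily small at the price of replacing `c` by `2 c - 1`. -/
theorem good_strict {Y : Type} [MetricSpace Y] [Finite Y] [NeZero k] (s : Fin k → Y)
    (hs : Function.Injective s) {c B : ℝ} (hc : 1 ≤ c) (hG : Good s c B Set.univ) {ε : ℝ}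
    (hε : 0 < ε) : Good s (2 * c - 1) ε Set.univ := by
  obtain ⟨Ω, m, P, A, hP, hA, hcl⟩ := exists_closed s hs (by linarith only [hc]) hG (ε := ε / 2) (by linarith only [hε])
  refine ⟨Ω, m, P, A, hP, hA, ?_⟩
  intro σ _
  have hint1 : ∀ σ, Integrable (fun ω => runCost (A ω) [] s σ) P := fun σ =>
    integrable_run hA s σ (fun x _ => x)
  have hint2 : ∀ q σ, Integrable (fun ω => mdist (runPos (A ω) [] s σ) q) P := fun q σ =>
    integrable_run hA s σ (fun _ x => mdist x q)
  have hG' : ∀ σ, ∫ ω, runCost (A ω) [] s σ ∂P ≤ (2 * c) * opt s σ + ε / 2 := by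
    intro σ
    have h1 := hcl σ
    have h2 : ∫ ω, runCost (A ω) [] s σ ∂P
        ≤ ∫ ω, (runCost (A ω) [] s σ + mdist (runPos (A ω) [] s σ) s) ∂P :=
      integral_mono (hint1 σ) ((hint1 σ).add (hint2 s σ)) fun ω => by
        have := mdist_nonneg (runPos (A ω) [] s σ) s
        linarith only [this]
    obtain ⟨q, -, h3, h4⟩ := exists_final σ s hs
    have h5 : wf s s σ ≤ wf q s σ + mdist q s := by
      have := wf_append_le s q σ [] s
      simpa only [ge_iff_le, List.append_nil, wf] using this
    rw [mdist_comm] at h5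
    have h6 : c * wf s s σ ≤ c * (2 * opt s σ) :=
      mul_le_mul_of_nonneg_left (by linarith only [h3, h4, h5]) (by linarith only [hc])
    linarith
  obtain ⟨q, hq, h3, h4⟩ := exists_final σ s hs
  obtain ⟨N, hN⟩ := exists_force hA s (by linarith only [hc]) hG' q hq σ (η := ε / 2) (by linarith only [hε])
  have h5 := hcl (σ ++ blk q (N + 1))
  have h6 : wf s s (σ ++ blk q (N + 1)) ≤ opt s σ + mdist q s := by
    have h7 := wf_append_le s q σ (blk q (N + 1)) s
    have h8 := wf_of_mem s q (blk q (N + 1)) (blk_mem q (N + 1))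
    linarith only [h3, h7, h8]
  have h7 : ∫ ω, policyCost s (A ω) σ ∂P + mdist q s - ε / 2
      ≤ ∫ ω, (runCost (A ω) [] s (σ ++ blk q (N + 1))
        + mdist (runPos (A ω) [] s (σ ++ blk q (N + 1))) s) ∂P := by
    have h8 : ∫ ω, (runCost (A ω) [] s σ + (mdist q s
        - mdist (runPos (A ω) [] s (σ ++ blk q (N + 1))) q)) ∂P
        ≤ ∫ ω, (runCost (A ω) [] s (σ ++ blk q (N + 1))
        + mdist (runPos (A ω) [] s (σ ++ blk q (N + 1))) s) ∂P := by
      refine integral_mono ((hint1 _).add ((integrable_const _).sub (hint2 q _)))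
        ((hint1 _).add (hint2 s _)) fun ω => ?_
      have h9 := mdist_triangle q (runPos (A ω) [] s (σ ++ blk q (N + 1))) s
      rw [mdist_comm q (runPos (A ω) [] s (σ ++ blk q (N + 1)))] at h9
      have h10 := runCost_nonneg (A ω) (blk q (N + 1)) ([] ++ σ) (runPos (A ω) [] s σ)
      have h11 := runCost_append (A ω) σ (blk q (N + 1)) [] s
      simp only [Pi.add_apply, Pi.sub_apply] at *
      linarith only [h9, h10, h11]
    have h12 : ∫ ω, (runCost (A ω) [] s σ + (mdist q s
        - mdist (runPos (A ω) [] s (σ ++ blk q (N + 1))) q)) ∂P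
        = ∫ ω, policyCost s (A ω) σ ∂P + (mdist q s
          - ∫ ω, mdist (runPos (A ω) [] s (σ ++ blk q (N + 1))) q ∂P) := by
      have e1 := integral_add (hint1 σ) ((integrable_const (μ := P) (mdist q s)).sub
        (hint2 q (σ ++ blk q (N + 1))))
      have e2 := integral_sub (integrable_const (μ := P) (mdist q s))
        (hint2 q (σ ++ blk q (N + 1)))
      simp only [Pi.sub_apply] at e1
      rw [e1, e2]
      simp only [integral_const, probReal_univ, smul_eq_mul, one_mul, policyCost_eq]
    linarith only [hN, h8, h12]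
  have h13 : c * wf s s (σ ++ blk q (N + 1)) ≤ c * (opt s σ + mdist q s) :=
    mul_le_mul_of_nonneg_left h6 (by linarith only [hc])
  rw [mdist_comm] at h4
  have h14 : (c - 1) * mdist q s ≤ (c - 1) * opt s σ :=
    mul_le_mul_of_nonneg_left h4 (by linarith only [hc])
  linarith

end Vale.Agent.P304
end
end

section

section

open MeasureTheory Filter Topology
open scoped ENNReal NNReal

namespace Vale.Agent.P304

variable {X : Type} [MetricSpace X] {k : ℕ}

theorem Good.mono {s : Fin k → X} {c c' B B' : ℝ} {S : Set (List X)} (h : Good s c B S)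
    (hc : c ≤ c') (hB : B ≤ B') : Good s c' B' S := by
  obtain ⟨Ω, m, P, A, h1, h2, h3⟩ := h
  refine ⟨Ω, m, P, A, h1, h2, fun σ hσ => (h3 σ hσ).trans ?_⟩
  have := mul_le_mul_of_nonneg_right hc (opt_nonneg s σ)
  linarith

theorem Good.subset {s : Fin k → X} {c B : ℝ} {S T : Set (List X)} (h : Good s c B S)
    (hT : T ⊆ S) : Good s c B T := by
  obtain ⟨Ω, m, P, A, h1, h2, h3⟩ := h
  exact ⟨Ω, m, P, A, h1, h2, fun σ hσ => h3 σ (hT hσ)⟩

theorem integrable_policyCost {Ω : Type} [MeasurableSpace Ω] {P : Measure Ω}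
    [IsProbabilityMeasure P] {A : Ω → List X → Fin k} (hA : ∀ h, Measurable fun ω => A ω h)
    (s : Fin k → X) (σ : List X) : Integrable (fun ω => policyCost s (A ω) σ) P :=
  integrable_comp_finite P _ (measurable_choices hA σ) (serviceCost s σ)

/-- start independence -/
theorem Good.start [NeZero k] {s : Fin k → X} {c B : ℝ} {S : Set (List X)} (h : Good s c B S)
    (hc : 0 ≤ c) (s' : Fin k → X) : Good s' c (B + (1 + c) * lab 1 s' s) S := by
  obtain ⟨Ω, m, P, A, h1, h2, h3⟩ := h
  refine ⟨Ω, m, P, A, h1, h2, fun σ hσ => ?_⟩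
  have h4 : ∀ ω, policyCost s' (A ω) σ ≤ lab 1 s' s + policyCost s (A ω) σ := by
    intro ω
    rw [policyCost_eq, policyCost_eq]
    have := sim 1 (A ω) (A ω) [] (fun h => rfl) σ [] s' s
    have h5 := lab_nonneg 1 (runPos (A ω) [] s' σ) (runPos (A ω) [] s σ)
    simp only [List.append_nil] at this
    linarith
  have h5 : ∫ ω, policyCost s' (A ω) σ ∂P ≤ lab 1 s' s + ∫ ω, policyCost s (A ω) σ ∂P := by
    calc ∫ ω, policyCost s' (A ω) σ ∂P ≤ ∫ ω, (lab 1 s' s + policyCost s (A ω) σ) ∂P :=
          integral_mono (integrable_policyCost h2 s' σ)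
            ((integrable_const _).add (integrable_policyCost h2 s σ)) h4
      _ = _ := by
          rw [integral_add (integrable_const _) (integrable_policyCost h2 s σ)]
          simp
  have h6 : opt s σ ≤ lab 1 s' s + opt s' σ := by
    refine (opt_le_mdist_add s s' σ).trans (add_le_add_left ?_ _)
    rw [mdist_comm]
    exact mdist_le 1 s' s
  have h7 := h3 σ hσ
  have h8 := mul_le_mul_of_nonneg_left h6 hc
  linarith only [h5, h7, h8]

/-! ### isometric embeddings -/

section embed

variable {Y : Type} [MetricSpace Y]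

theorem update_comp_val {e : Y → X} (p : Fin k → Y) (i : Fin k) (r : Y) :
    Function.update (e ∘ p) i (e r) = e ∘ Function.update p i r := by
  rw [Function.comp_update]

theorem opt_embed [NeZero k] {e : Y → X} (he : Isometry e) (σ : List Y) : ∀ p : Fin k → Y,
    opt (e ∘ p) (σ.map e) = opt p σ := by
  induction σ with
  | nil => intro p; simp [opt_nil]
  | cons r σ ih =>
    intro p
    apply le_antisymm
    · obtain ⟨i, hi⟩ := exists_opt_cons p r σ
      rw [hi, List.map_cons]
      refine (opt_cons_le _ _ _ i).trans ?_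
      rw [update_comp_val, ih, Function.comp_apply, he.dist_eq]
    · obtain ⟨i, hi⟩ := exists_opt_cons (e ∘ p) (e r) (σ.map e)
      rw [List.map_cons, hi, update_comp_val, ih, Function.comp_apply, he.dist_eq]
      exact opt_cons_le p r σ i

theorem runCost_embed {e : Y → X} (he : Isometry e) (g : X → Y) (hg : ∀ y, g (e y) = y)
    (a : List Y → Fin k) (σ : List Y) : ∀ (h : List Y) (p : Fin k → Y),
    runCost (fun h => a (h.map g)) (h.map e) (e ∘ p) (σ.map e) = runCost a h p σ := by
  induction σ with
  | nil => intro h p; simp [runCost]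
  | cons r σ ih =>
    intro h p
    have h1 : ∀ l : List Y, (l.map e).map g = l := by
      intro l
      rw [List.map_map]
      have : g ∘ e = id := funext hg
      rw [this, List.map_id]
    have h2 : h.map e ++ [e r] = (h ++ [r]).map e := by simp
    simp only [List.map_cons, runCost, h2, h1, update_comp_val, ih, Function.comp_apply,
      he.dist_eq]

theorem Good.embed [NeZero k] {e : Y → X} (he : Isometry e) [Nonempty Y] {s : Fin k → Y}
    {c B : ℝ} {S : Set (List Y)} (h : Good s c B S) :
    Good (e ∘ s) c B ((fun σ => σ.map e) '' S) := by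
  obtain ⟨Ω, m, P, A, h1, h2, h3⟩ := h
  set g : X → Y := Function.invFun e with hg
  have hge : ∀ y, g (e y) = y := Function.leftInverse_invFun he.injective
  refine ⟨Ω, m, P, fun ω h => A ω (h.map g), h1, fun h => h2 _, ?_⟩
  rintro _ ⟨σ, hσ, rfl⟩
  have h4 : ∀ ω, policyCost (e ∘ s) (fun h => A ω (h.map g)) (σ.map e)
      = policyCost s (A ω) σ := by
    intro ω
    rw [policyCost_eq, policyCost_eq]
    have := runCost_embed he g hge (A ω) σ [] s
    simpa using this
  simp only [h4, opt_embed he]
  exact h3 σ hσ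

end embed

/-! ### the ratio is at least one -/

theorem exists_policy_opt [NeZero k] (s : Fin k → X) (σ : List X) :
    ∃ a : List X → Fin k, opt s σ = runCost a [] s σ := by
  obtain ⟨f, hf⟩ := exists_opt_eq s σ
  refine ⟨vecPol f, ?_⟩
  rw [hf, ← policyCost_eq]
  unfold policyCost
  congr 1
  funext t
  have h1 : (σ.take (t + 1)).length = t + 1 := by simp only [List.length_take, Order.add_one_le_iff, Fin.is_lt, inf_of_le_left, Nat.add_left_cancel_iff]
  unfold vecPol
  simp only [h1, add_tsub_cancel_right, Fin.is_lt, ↓reduceDIte, Fin.eta]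

/-- `N` blocks of a list. -/
def rep (L : List X) : ℕ → List X
  | 0 => []
  | N + 1 => rep L N ++ L

theorem runCost_rep {δ : ℝ} (hδ : ∀ x y : X, x ≠ y → δ ≤ dist x y) (L : List X)
    (hL : L.Nodup) (hk : k < L.length) (a : List X → Fin k) (p : Fin k → X) (N : ℕ) :
    N * δ ≤ runCost a [] p (rep L N) := by
  classical
  induction N with
  | zero => simp [rep, runCost]
  | succ N ih =>
    simp only [rep, runCost_append]
    have h1 : δ ≤ runCost a ([] ++ rep L N) (runPos a [] p (rep L N)) L := by
      refine run_pos a hδ L _ _ fun h0 => ?_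
      obtain ⟨-, h2⟩ := run_zero a L _ _ h0
      have h3 : L.toFinset ⊆ Finset.univ.image (runPos a [] p (rep L N)) := by
        intro x hx
        obtain ⟨j, hj⟩ := h2 x (List.mem_toFinset.1 hx)
        exact Finset.mem_image.2 ⟨j, Finset.mem_univ _, hj⟩
      have h4 := Finset.card_le_card h3
      have h5 := Finset.card_image_le (s := (Finset.univ : Finset (Fin k)))
        (f := runPos a [] p (rep L N))
      rw [List.toFinset_card_of_nodup hL] at h4
      simp only [Finset.card_univ, Fintype.card_fin] at h5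
      omega
    push_cast
    linarith only [ih, h1]

theorem one_le_of_isCompetitive {Y : Type} [MetricSpace Y] [Finite Y] [NeZero k]
    (hY : ((k + 1 : ℕ) : ℕ∞) ≤ ENat.card Y) (s : Fin k → Y) {c : ℝ}
    (h : IsCompetitive s c) : 1 ≤ c := by
  classical
  haveI := Fintype.ofFinite Y
  obtain ⟨Ω, m, P, A, hP, hA, B, hG⟩ := h
  obtain ⟨δ, hδ0, hδ⟩ := exists_delta Y
  by_contra hc
  push Not at hc
  have hcard : k + 1 ≤ Fintype.card Y := by
    rw [ENat.card_eq_coe_fintype_card] at hY
    exact_mod_cast hY
  set L : List Y := (Finset.univ : Finset Y).toList with hL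
  have hL1 : L.Nodup := Finset.nodup_toList _
  have hL2 : k < L.length := by
    rw [hL, Finset.length_toList, Finset.card_univ]; omega
  have h1 : ∀ σ, opt s σ ≤ c * opt s σ + B := by
    intro σ
    refine le_trans ?_ (hG σ)
    calc opt s σ = ∫ _ω, opt s σ ∂P := by simp
      _ ≤ _ := integral_mono (integrable_const _) (integrable_policyCost hA s σ) fun ω => by
          show opt s σ ≤ policyCost s (A ω) σ
          rw [policyCost_eq]; exact opt_le_runCost _ _ _ _
  have h2 : ∀ N : ℕ, (1 - c) * (N * δ) ≤ B := by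
    intro N
    obtain ⟨a, ha⟩ := exists_policy_opt s (rep L N)
    have h3 := runCost_rep hδ L hL1 hL2 a s N
    have h4 := h1 (rep L N)
    rw [ha] at h4
    have h5 := mul_le_mul_of_nonneg_left h3 (show 0 ≤ 1 - c by (clear * - hc; linarith))
    linarith only [h4, h5]
  obtain ⟨N, hN⟩ := exists_nat_gt (B / ((1 - c) * δ))
  have h3 : 0 < (1 - c) * δ := mul_pos (by linarith only [hc]) hδ0
  rw [div_lt_iff₀ h3] at hN
  have := h2 N
  linarith only [hN, this]

theorem le_Rfin {Y : Type} [MetricSpace Y] [Finite Y] (hY : ((k + 1 : ℕ) : ℕ∞) ≤ ENat.card Y)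
    (s : Fin k → Y) : ratio s ≤ Rfin k := by
  unfold Rfin
  refine le_iSup_of_le Y (le_iSup_of_le inferInstance (le_iSup_of_le inferInstance
    (le_iSup_of_le hY (le_iSup (fun s : Fin k → Y => ratio s) s))))

theorem isCompetitive_of_ratio_lt {s : Fin k → X} {c : ℝ≥0} (h : ratio s < c) :
    IsCompetitive s c := by
  unfold ratio at h
  rw [iInf_lt_iff] at h
  obtain ⟨c', h⟩ := h
  rw [iInf_lt_iff] at h
  obtain ⟨hc', h⟩ := h
  rw [isCompetitive_iff] at hc' ⊢
  obtain ⟨B, hB⟩ := hc'
  exact ⟨B, hB.mono (by exact_mod_cast h.le) le_rfl⟩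

theorem ratio_le {s : Fin k → X} {c : ℝ≥0} (h : IsCompetitive s c) : ratio s ≤ c :=
  iInf_le_of_le c (iInf_le_of_le h le_rfl)

/-- On every metric space with at least `k + 1` points: if every finite subspace containing
enough points has ratio `< c` then the whole space has ratio at most `2 c - 1`. -/
theorem isCompetitive_of_finite_subspaces [NeZero k] (hX : ((k + 1 : ℕ) : ℕ∞) ≤ ENat.card X)
    (s : Fin k → X) {c : ℝ≥0}
    (h : ∀ (T : Finset X), ((k + 1 : ℕ) : ℕ∞) ≤ ENat.card T → ∀ s' : Fin k → T,
      ratio s' < c) : IsCompetitive s (2 * c - 1) := by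
  classical
  obtain ⟨T0, hT0⟩ : ∃ T0 : Finset X, T0.card = k + 1 := by
    rcases finite_or_infinite X with hf | hf
    · haveI := Fintype.ofFinite X
      rw [ENat.card_eq_coe_fintype_card] at hX
      have : k + 1 ≤ (Finset.univ : Finset X).card := by
        rw [Finset.card_univ]; exact_mod_cast hX
      obtain ⟨t, -, ht⟩ := Finset.exists_subset_card_eq this
      exact ⟨t, ht⟩
    · obtain ⟨t, ht⟩ := Infinite.exists_subset_card_eq X (k + 1)
      exact ⟨t, ht⟩
  have hc1 : (1 : ℝ) ≤ c := by
    have hcard : ((k + 1 : ℕ) : ℕ∞) ≤ ENat.card T0 := by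
      rw [ENat.card_eq_coe_fintype_card, Fintype.card_coe, hT0]
    haveI : Nonempty T0 := by
      rw [← Fintype.card_pos_iff, Fintype.card_coe, hT0]; omega
    have s0 : Fin k → T0 := fun _ => Classical.arbitrary _
    exact one_le_of_isCompetitive hcard s0 (isCompetitive_of_ratio_lt (h T0 hcard s0))
  -- distinct starting positions
  obtain ⟨g⟩ : Nonempty (Fin k ↪ T0) := by
    apply Function.Embedding.nonempty_of_card_le
    simp only [Fintype.card_fin, Fintype.card_coe, hT0, le_add_iff_nonneg_right, zero_le]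
  set s1 : Fin k → X := fun i => (g i : X) with hs1
  have hs1inj : Function.Injective s1 := Subtype.val_injective.comp g.injective
  have hgood : Good s1 (2 * c - 1) 1 Set.univ := by
    refine good_of_finite s1 _ _ fun F => ?_
    set T : Finset X := T0 ∪ F.biUnion (fun σ => σ.toFinset) with hT
    have hT0T : T0 ⊆ T := Finset.subset_union_left
    have hcard : ((k + 1 : ℕ) : ℕ∞) ≤ ENat.card T := by
      rw [ENat.card_eq_coe_fintype_card, Fintype.card_coe]
      have := Finset.card_le_card hT0T
      rw [hT0] at this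
      exact_mod_cast this
    set s2 : Fin k → T := fun i => ⟨s1 i, hT0T (g i).2⟩ with hs2
    have hs2inj : Function.Injective s2 := by
      intro x y hxy
      apply hs1inj
      exact congrArg (Subtype.val : T → X) hxy
    have h1 : IsCompetitive s2 c := isCompetitive_of_ratio_lt (h T hcard s2)
    rw [isCompetitive_iff] at h1
    obtain ⟨B, hB⟩ := h1
    have h2 := good_strict s2 hs2inj hc1 hB one_pos
    haveI : Nonempty T := ⟨s2 0⟩
    have h3 := h2.embed (e := (Subtype.val : T → X)) isometry_subtype_coe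
    have h4 : (Subtype.val : T → X) ∘ s2 = s1 := rfl
    rw [h4] at h3
    refine h3.subset ?_
    intro σ hσ
    have h5 : ∀ x ∈ σ, x ∈ T := by
      intro x hx
      apply Finset.mem_union_right
      exact Finset.mem_biUnion.2 ⟨σ, hσ, List.mem_toFinset.2 hx⟩
    refine ⟨σ.attach.map (fun x => ⟨x.1, h5 x.1 x.2⟩), Set.mem_univ _, ?_⟩
    simp only [List.map_map, Function.comp_def, List.map_subtype, List.unattach_attach, List.map_id_fun', id_eq]
  rw [isCompetitive_iff]
  exact ⟨_, hgood.start (by linarith only [hc1]) s⟩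

theorem one_le_Rfin [NeZero k] : 1 ≤ Rfin k := by
  by_contra hcon
  push Not at hcon
  have hY : ((k + 1 : ℕ) : ℕ∞) ≤ ENat.card (Finset.range (k + 1)) := by
    rw [ENat.card_eq_coe_fintype_card, Fintype.card_coe, Finset.card_range]
  have h1 := le_Rfin hY (fun _ : Fin k => (⟨0, by simp only [Finset.mem_range, lt_add_iff_pos_left, Order.lt_add_one_iff, zero_le]⟩ : Finset.range (k + 1)))
  have h2 : ratio (fun _ : Fin k => (⟨0, by simp only [Finset.mem_range, lt_add_iff_pos_left, Order.lt_add_one_iff, zero_le]⟩ : Finset.range (k + 1))) < 1 :=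
    h1.trans_lt hcon
  obtain ⟨c, hc1, hc2⟩ := ENNReal.lt_iff_exists_nnreal_btwn.1 h2
  have h3 := one_le_of_isCompetitive hY _ (isCompetitive_of_ratio_lt hc1)
  have h4 : (c : ℝ) < 1 := by exact_mod_cast hc2
  (clear * - h3 h4; linarith)

theorem R_le [NeZero k] : R k ≤ 2 * Rfin k - 1 := by
  rcases eq_or_ne (Rfin k) ⊤ with htop | htop
  · rw [htop]
    simp only [ne_eq, OfNat.ofNat_ne_zero, not_false_eq_true, ENNReal.mul_top, ENNReal.one_ne_top, ENNReal.top_sub, le_top]
  · refine iSup_le fun X => iSup_le fun _ => iSup_le fun hX => iSup_le fun s => ?_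
    have h1 : ∀ c : ℝ≥0, Rfin k < c → ratio s ≤ 2 * c - 1 := by
      intro c hc
      have hc1 : (1 : ℝ≥0∞) ≤ c := one_le_Rfin.trans hc.le
      have hc1' : (1 : ℝ≥0) ≤ c := by exact_mod_cast hc1
      have h2 := isCompetitive_of_finite_subspaces hX s (c := c)
        fun T hT s' => (le_Rfin hT s').trans_lt hc
      have h3 : ((2 * c - 1 : ℝ≥0) : ℝ) = 2 * (c : ℝ) - 1 := by
        rw [NNReal.coe_sub (by linarith)]
        simp
      rw [← h3] at h2
      refine (ratio_le h2).trans (le_of_eq ?_)
      rw [ENNReal.coe_sub]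
      simp
    refine le_of_forall_gt fun b hb => ?_
    have h2 : Rfin k < (b + 1) / 2 := by
      have h3 : 2 * Rfin k < b + 1 := by
        have h4 : 2 * Rfin k - 1 < b := hb
        have h5 : (1 : ℝ≥0∞) ≤ 2 * Rfin k := by
          have := one_le_Rfin (k := k)
          calc (1 : ℝ≥0∞) ≤ Rfin k := this
            _ ≤ 2 * Rfin k := by
              rw [two_mul]; exact le_self_add
        exact (ENNReal.sub_lt_iff_lt_right ENNReal.one_ne_top h5).1 h4
      rw [ENNReal.lt_div_iff_mul_lt (by simp) (by simp), mul_comm]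
      exact h3
    obtain ⟨c, hc1, hc2⟩ := ENNReal.lt_iff_exists_nnreal_btwn.1 h2
    have h3 := h1 c hc1
    have h4 : 2 * (c : ℝ≥0∞) - 1 < b := by
      have h5 : (c : ℝ≥0∞) * 2 < b + 1 := (ENNReal.lt_div_iff_mul_lt (by simp) (by simp)).1 hc2
      have h6 : (1 : ℝ≥0∞) ≤ 2 * c := by
        have := (one_le_Rfin (k := k)).trans hc1.le
        calc (1 : ℝ≥0∞) ≤ c := this
          _ ≤ 2 * c := by rw [two_mul]; exact le_self_add
      rw [ENNReal.sub_lt_iff_lt_right ENNReal.one_ne_top h6, mul_comm]
      exact h5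
    exact h3.trans_lt h4

end Vale.Agent.P304
end
end

section

section

open MeasureTheory Filter Topology
open scoped ENNReal NNReal

namespace Vale.Agent.P304

variable {X : Type} [MetricSpace X] {k : ℕ}

/-- some randomized policy has expected cost at most `φ σ` on all sequences `σ ∈ S`. -/
def HasCost (s : Fin k → X) (S : Set (List X)) (φ : List X → ℝ) : Prop :=
  ∃ (Ω : Type) (_ : MeasurableSpace Ω) (P : Measure Ω) (A : Ω → List X → Fin k),
    IsProbabilityMeasure P ∧ (∀ h, Measurable fun ω => A ω h) ∧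
      ∀ σ ∈ S, ∫ ω, policyCost s (A ω) σ ∂P ≤ φ σ

theorem HasCost.mono {s : Fin k → X} {S : Set (List X)} {φ ψ : List X → ℝ}
    (h : HasCost s S φ) (hψ : ∀ σ ∈ S, φ σ ≤ ψ σ) : HasCost s S ψ := by
  obtain ⟨Ω, m, P, A, h1, h2, h3⟩ := h
  exact ⟨Ω, m, P, A, h1, h2, fun σ hσ => (h3 σ hσ).trans (hψ σ hσ)⟩

/-- expected cost of a law. -/
noncomputable def lawCost (p : List X → List (Fin k) → ℝ) (s : Fin k → X) (σ : List X) : ℝ :=
  ∑ f : Fin σ.length → Fin k, p σ (List.ofFn f) * serviceCost s σ f

theorem hasCost_iff_law [NeZero k] (s : Fin k → X) (S : Set (List X)) (φ : List X → ℝ) :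
    HasCost s S φ ↔ ∃ p, Law p ∧ ∀ σ ∈ S, lawCost p s σ ≤ φ σ := by
  constructor
  · rintro ⟨Ω, m, P, A, h1, h2, h3⟩
    refine ⟨_, law_of_policy (P := P) h2, fun σ hσ => ?_⟩
    have := h3 σ hσ
    rwa [integral_policyCost h2] at this
  · rintro ⟨p, hp, h⟩
    obtain ⟨Ω, m, P, A, h1, h2, h3⟩ := exists_realization hp
    refine ⟨Ω, m, P, A, h1, h2, fun σ hσ => ?_⟩
    rw [integral_policyCost h2]
    have h4 : ∀ f : Fin σ.length → Fin k,
        P.real {ω | ch (A ω) [] σ = List.ofFn f} = p σ (List.ofFn f) := fun f =>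
      h3 σ _ (by simp)
    simp only [h4]
    exact h σ hσ

theorem hasCost_mixture [NeZero k] {Z : Type} [Fintype Z] (w : Z → ℝ) (hw : ∀ z, 0 ≤ w z)
    (hw1 : ∑ z, w z = 1) (s : Fin k → X) (S : Set (List X)) (φ : Z → List X → ℝ)
    (h : ∀ z, w z ≠ 0 → HasCost s S (φ z)) :
    HasCost s S (fun σ => ∑ z, w z * φ z σ) := by
  classical
  obtain ⟨z0, hz0⟩ : ∃ z, w z ≠ 0 := by
    by_contra hcon
    push Not at hcon
    simp only [hcon, Finset.sum_const_zero, zero_ne_one] at hw1
  have h' : ∀ z, ∃ p : List X → List (Fin k) → ℝ, Law p ∧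
      (w z ≠ 0 → ∀ σ ∈ S, lawCost p s σ ≤ φ z σ) := by
    intro z
    by_cases hz : w z = 0
    · obtain ⟨p, hp, -⟩ := (hasCost_iff_law s S _).1 (h z0 hz0)
      exact ⟨p, hp, fun h => absurd hz h⟩
    · obtain ⟨p, hp, h1⟩ := (hasCost_iff_law s S _).1 (h z hz)
      exact ⟨p, hp, fun _ => h1⟩
  choose p hp hc using h'
  rw [hasCost_iff_law]
  refine ⟨fun σ v => ∑ z, w z * p z σ v, ⟨?_, ?_, ?_⟩, ?_⟩
  · intro σ v
    exact Finset.sum_nonneg fun z _ => mul_nonneg (hw z) ((hp z).nonneg σ v)
  · simp only [(hp _).nil, mul_one, hw1]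
  · intro σ v r
    rw [Finset.sum_comm]
    refine Finset.sum_congr rfl fun z _ => ?_
    rw [(hp z).snoc σ v r, Finset.mul_sum]
  · intro σ hσ
    have h1 : lawCost (fun σ v => ∑ z, w z * p z σ v) s σ = ∑ z, w z * lawCost (p z) s σ := by
      unfold lawCost
      simp only [Finset.sum_mul, Finset.mul_sum]
      rw [Finset.sum_comm]
      refine Finset.sum_congr rfl fun z _ => Finset.sum_congr rfl fun f _ => ?_
      ring
    rw [h1]
    refine Finset.sum_le_sum fun z _ => ?_
    by_cases hz : w z = 0
    · simp [hz]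
    · exact mul_le_mul_of_nonneg_left (hc z hz σ hσ) (hw z)

theorem good_iff_hasCost (s : Fin k → X) (c B : ℝ) (S : Set (List X)) :
    Good s c B S ↔ HasCost s S (fun σ => c * opt s σ + B) := Iff.rfl

/-- distinct starting positions: strict competitiveness on the whole space from the ratios of the
finite subspaces. -/
theorem good_of_finite_subspaces_eps [NeZero k] (hX : ((k + 1 : ℕ) : ℕ∞) ≤ ENat.card X)
    (s : Fin k → X) (hs : Function.Injective s) {c : ℝ≥0} (hc1 : (1 : ℝ) ≤ c)
    (h : ∀ (T : Finset X), ((k + 1 : ℕ) : ℕ∞) ≤ ENat.card T → ∀ s' : Fin k → T,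
      ratio s' < c) {ε : ℝ} (hε : 0 < ε) : Good s (2 * c - 1) ε Set.univ := by
  classical
  obtain ⟨T0, hT0⟩ : ∃ T0 : Finset X, T0.card = k + 1 := by
    rcases finite_or_infinite X with hf | hf
    · haveI := Fintype.ofFinite X
      rw [ENat.card_eq_coe_fintype_card] at hX
      have : k + 1 ≤ (Finset.univ : Finset X).card := by
        rw [Finset.card_univ]; exact_mod_cast hX
      obtain ⟨t, -, ht⟩ := Finset.exists_subset_card_eq this
      exact ⟨t, ht⟩
    · obtain ⟨t, ht⟩ := Infinite.exists_subset_card_eq X (k + 1)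
      exact ⟨t, ht⟩
  refine good_of_finite s _ _ fun F => ?_
  set T : Finset X := (T0 ∪ Finset.univ.image s) ∪ F.biUnion (fun σ => σ.toFinset) with hT
  have hT0T : T0 ⊆ T := Finset.subset_union_left.trans Finset.subset_union_left
  have hcard : ((k + 1 : ℕ) : ℕ∞) ≤ ENat.card T := by
    rw [ENat.card_eq_coe_fintype_card, Fintype.card_coe]
    have := Finset.card_le_card hT0T
    rw [hT0] at this
    exact_mod_cast this
  have hsT : ∀ i, s i ∈ T := fun i =>
    Finset.mem_union_left _ (Finset.mem_union_right _ (Finset.mem_image_of_mem s (Finset.mem_univ i)))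
  set s2 : Fin k → T := fun i => ⟨s i, hsT i⟩ with hs2
  have hs2inj : Function.Injective s2 := by
    intro x y hxy
    apply hs
    exact congrArg (Subtype.val : T → X) hxy
  have h1 : IsCompetitive s2 c := isCompetitive_of_ratio_lt (h T hcard s2)
  rw [isCompetitive_iff] at h1
  obtain ⟨B, hB⟩ := h1
  have h2 := good_strict s2 hs2inj hc1 hB hε
  haveI : Nonempty T := ⟨s2 0⟩
  have h3 := h2.embed (e := (Subtype.val : T → X)) isometry_subtype_coe
  have h4 : (Subtype.val : T → X) ∘ s2 = s := rfl
  rw [h4] at h3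
  refine h3.subset ?_
  intro σ hσ
  have h5 : ∀ x ∈ σ, x ∈ T := by
    intro x hx
    apply Finset.mem_union_right
    exact Finset.mem_biUnion.2 ⟨σ, hσ, List.mem_toFinset.2 hx⟩
  refine ⟨σ.attach.map (fun x => ⟨x.1, h5 x.1 x.2⟩), Set.mem_univ _, ?_⟩
  simp only [List.map_map, Function.comp_def, List.map_subtype, List.unattach_attach, List.map_id_fun', id_eq]

theorem good_of_finite_subspaces [NeZero k] (hX : ((k + 1 : ℕ) : ℕ∞) ≤ ENat.card X)
    (s : Fin k → X) (hs : Function.Injective s) {c : ℝ≥0} (hc1 : (1 : ℝ) ≤ c)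
    (h : ∀ (T : Finset X), ((k + 1 : ℕ) : ℕ∞) ≤ ENat.card T → ∀ s' : Fin k → T,
      ratio s' < c) : Good s (2 * c - 1) 1 Set.univ :=
  good_of_finite_subspaces_eps hX s hs hc1 h one_pos

/-! ### costs as sums over times -/

end Vale.Agent.P304
end
end

section

section

open MeasureTheory Filter Topology
open scoped ENNReal NNReal

namespace Vale.Agent.P304.Dyn

/-- finite minimax: if every probability vector `w` is beaten by some `z`, then some mixture of the
`z` beats all coordinates. -/
theorem exists_mixture_nonpos {ι : Type} [Fintype ι] {Z : Type} [Fintype Z] [Nonempty Z]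
    (v : Z → ι → ℝ)
    (h : ∀ w : ι → ℝ, (∀ i, 0 ≤ w i) → ∑ i, w i = 1 → ∃ z, ∑ i, w i * v z i ≤ 0) :
    ∃ q : Z → ℝ, (∀ z, 0 ≤ q z) ∧ ∑ z, q z = 1 ∧ ∀ i, ∑ z, q z * v z i ≤ 0 := by
  classical
  set L : (Z → ℝ) →ₗ[ℝ] (ι → ℝ) := ∑ z, (LinearMap.proj z).smulRight (v z) with hL
  have hLa : ∀ q i, L q i = ∑ z, q z * v z i := by
    intro q i
    simp only [hL, LinearMap.coe_sum, LinearMap.coe_smulRight, LinearMap.coe_proj, Function.eval, Finset.sum_apply, Pi.smul_apply, smul_eq_mul]
  set K : Set (ι → ℝ) := L '' stdSimplex ℝ Z with hK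
  set N : Set (ι → ℝ) := {x | ∀ i, x i ≤ 0} with hN
  have hKconv : Convex ℝ K := (convex_stdSimplex ℝ Z).linear_image L
  have hKcomp : IsCompact K := (isCompact_stdSimplex ℝ Z).image L.continuous_of_finiteDimensional
  have hNconv : Convex ℝ N := by
    intro x hx y hy a b ha hb _ i
    simp only [Pi.add_apply, Pi.smul_apply, smul_eq_mul]
    have h1 := mul_nonpos_of_nonneg_of_nonpos ha (hx i)
    have h2 := mul_nonpos_of_nonneg_of_nonpos hb (hy i)
    (clear * - h1 h2; linarith)
  have hNclosed : IsClosed N := by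
    have : N = ⋂ i, {x | x i ≤ 0} := by ext x; simp only [hN, Set.mem_ofPred_eq, Set.mem_iInter]
    rw [this]
    exact isClosed_iInter fun i => isClosed_le (continuous_apply i) continuous_const
  by_cases hd : Disjoint K N
  · exfalso
    obtain ⟨f, u, w, h1, h2, h3⟩ := geometric_hahn_banach_compact_closed hKconv hKcomp hNconv
      hNclosed hd
    have hfsum : ∀ x : ι → ℝ, f x = ∑ i, x i * f (Pi.single i 1) := by
      intro x
      conv_lhs => rw [← Finset.univ_sum_single x]
      rw [map_sum]
      refine Finset.sum_congr rfl fun i _ => ?_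
      have : Pi.single i (x i) = x i • (Pi.single i 1 : ι → ℝ) := by
        rw [← Pi.single_smul]; simp
      rw [this, map_smul, smul_eq_mul]
    have hw0 : w < 0 := by
      have := h3 0 (fun i => le_rfl)
      simpa using this
    have hneg : ∀ i, f (Pi.single i 1) ≤ 0 := by
      intro i
      by_contra hcon
      push Not at hcon
      have h4 := h3 (Pi.single i (-(-w / f (Pi.single i 1)))) (by
        intro j
        by_cases hj : j = i
        · subst hj
          simp only [Pi.single_eq_same, Left.neg_nonpos_iff]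
          have : 0 < -w := by linarith only [hw0]
          (clear * - this hcon; positivity)
        · simp [Pi.single_eq_of_ne hj])
      have h5 : Pi.single i (-(-w / f (Pi.single i 1)))
          = (-(-w / f (Pi.single i 1))) • (Pi.single i 1 : ι → ℝ) := by
        rw [← Pi.single_smul]; simp
      rw [h5, map_smul, smul_eq_mul] at h4
      have h6 : -(-w / f (Pi.single i 1)) * f (Pi.single i 1) = w := by
        field_simp
      linarith
    set W : ℝ := ∑ i, -f (Pi.single i 1) with hW
    have hW0 : 0 ≤ W := Finset.sum_nonneg fun i _ => by have := hneg i; linarith only [this]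
    have hpos : ∀ z, 0 < ∑ i, (-f (Pi.single i 1)) * v z i := by
      intro z
      have h4 := h1 (L (Pi.single z 1)) ⟨_, by
        refine ⟨fun j => ?_, ?_⟩
        · by_cases hj : j = z
          · subst hj; simp only [Pi.single_eq_same, zero_le_one]
          · simp [Pi.single_eq_of_ne hj]
        · simp, rfl⟩
      rw [hfsum] at h4
      have h5 : ∀ i, L (Pi.single z 1) i = v z i := by
        intro i
        rw [hLa, Finset.sum_eq_single z]
        · simp
        · intro y _ hy; simp [Pi.single_eq_of_ne hy]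
        · simp
      simp only [h5] at h4
      have h6 : ∑ i, (-f (Pi.single i 1)) * v z i = -∑ i, v z i * f (Pi.single i 1) := by
        rw [← Finset.sum_neg_distrib]
        exact Finset.sum_congr rfl fun i _ => by ring
      rw [h6]
      linarith only [h2, hw0, h4]
    have hWpos : 0 < W := by
      rcases hW0.lt_or_eq with hlt | heq
      · exact hlt
      · exfalso
        have h4 := (Finset.sum_eq_zero_iff_of_nonneg (fun i _ => by
          have := hneg i; linarith only [this])).1 heq.symm
        have h5 := hpos (Classical.arbitrary Z)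
        rw [Finset.sum_eq_zero (fun i hi => by rw [h4 i hi, zero_mul])] at h5
        exact lt_irrefl _ h5
    obtain ⟨z, hz⟩ := h (fun i => -f (Pi.single i 1) / W)
      (fun i => div_nonneg (by have := hneg i; linarith only [this]) hW0)
      (by rw [← Finset.sum_div, ← hW, div_self hWpos.ne'])
    have h4 := hpos z
    have h5 : ∑ i, -f (Pi.single i 1) / W * v z i = (∑ i, -f (Pi.single i 1) * v z i) / W := by
      rw [Finset.sum_div]
      exact Finset.sum_congr rfl fun i _ => by ring
    rw [h5] at hz
    have := div_pos h4 hWpos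
    linarith only [hz, this]
  · obtain ⟨x, ⟨q, hq, rfl⟩, hx⟩ := Set.not_disjoint_iff.1 hd
    refine ⟨q, hq.1, hq.2, fun i => ?_⟩
    have := hx i
    rwa [hLa] at this

variable {X : Type} [MetricSpace X] {k : ℕ}

theorem policyCost_congr (s : Fin k → X) (a b : List X → Fin k) (σ : List X)
    (h : ∀ t < σ.length, a (σ.take (t + 1)) = b (σ.take (t + 1))) :
    policyCost s a σ = policyCost s b σ := by
  unfold policyCost
  congr 1
  funext t
  exact h t t.2

/-- Yao / minimax: if for every prior `w` on the finite set `F` of request sequences some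
deterministic policy has Bayes cost at most the Bayes value of `c * opt + B`, then some randomized
policy is good on every member of `F`. -/
theorem good_of_bayes [NeZero k] (s : Fin k → X) (c B : ℝ) (F : Finset (List X))
    (h : ∀ w : List X → ℝ, (∀ σ, 0 ≤ w σ) → ∑ σ ∈ F, w σ = 1 →
      ∃ a : List X → Fin k,
        ∑ σ ∈ F, w σ * policyCost s a σ ≤ ∑ σ ∈ F, w σ * (c * opt s σ + B)) :
    Good s c B (F : Set (List X)) := by
  classical
  set P : Finset (List X) := F.biUnion fun σ => (Finset.range σ.length).image fun t =>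
    σ.take (t + 1) with hP
  set pol : (P → Fin k) → List X → Fin k := fun z h => if hh : h ∈ P then z ⟨h, hh⟩ else 0
    with hpol
  have key : ∀ a : List X → Fin k, ∀ σ ∈ F,
      policyCost s (pol fun x => a x.1) σ = policyCost s a σ := by
    intro a σ hσ
    refine policyCost_congr s _ _ σ fun t ht => ?_
    have : σ.take (t + 1) ∈ P :=
      Finset.mem_biUnion.2 ⟨σ, hσ, Finset.mem_image.2 ⟨t, Finset.mem_range.2 ht, rfl⟩⟩
    simp only [hpol, dif_pos this]
  haveI : Nonempty (P → Fin k) := ⟨fun _ => 0⟩
  obtain ⟨q, hq0, hq1, hq⟩ := exists_mixture_nonpos (ι := F) (Z := P → Fin k)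
    (fun z σ => policyCost s (pol z) σ.1 - (c * opt s σ.1 + B)) (by
      intro w hw hw1
      obtain ⟨a, ha⟩ := h (fun σ => if hh : σ ∈ F then w ⟨σ, hh⟩ else 0)
        (fun σ => by split_ifs; exacts [hw _, le_rfl])
        (by
          rw [← hw1, ← Finset.sum_coe_sort F]
          exact Finset.sum_congr rfl fun σ _ => by simp)
      refine ⟨fun x => a x.1, ?_⟩
      rw [← Finset.sum_coe_sort F, ← Finset.sum_coe_sort F] at ha
      simp only [Finset.coe_mem, Subtype.coe_eta, dif_pos] at ha
      have : ∑ i : F, w i * (policyCost s (pol fun x => a x.1) i.1 - (c * opt s i.1 + B))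
          = ∑ i : F, w i * policyCost s a i.1 - ∑ i : F, w i * (c * opt s i.1 + B) := by
        rw [← Finset.sum_sub_distrib]
        refine Finset.sum_congr rfl fun i _ => ?_
        rw [key a i.1 i.2]; ring
      rw [this]
      linarith only [ha])
  have hm := hasCost_mixture q hq0 hq1 s (F : Set (List X)) (fun z σ => policyCost s (pol z) σ)
    (fun z _ => ⟨Unit, ⊤, Measure.dirac (), fun _ => pol z, inferInstance,
      fun _ => measurable_const, fun σ _ => by simp⟩)
  refine hm.mono fun σ hσ => ?_
  have h1 := hq ⟨σ, hσ⟩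
  have h2 : ∑ z, q z * (policyCost s (pol z) σ - (c * opt s σ + B))
      = ∑ z, q z * policyCost s (pol z) σ - (c * opt s σ + B) := by
    simp only [mul_sub]
    rw [Finset.sum_sub_distrib, ← Finset.sum_mul, hq1, one_mul]
  rw [h2] at h1
  linarith only [h1]

/-- black box in Bayesian form: on finitely many weighted sequences some deterministic policy is
at least as good as the randomized one. -/
theorem exists_policy_bayes [NeZero k] {U : Type} [MetricSpace U] (s : Fin k → U) {c B : ℝ}
    (hG : Good s c B Set.univ) {ι : Type} (I : Finset ι) (w : ι → ℝ) (hw : ∀ i, 0 ≤ w i)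
    (b : ι → List U) :
    ∃ a : List U → Fin k,
      ∑ i ∈ I, w i * policyCost s a (b i) ≤ ∑ i ∈ I, w i * (c * opt s (b i) + B) := by
  obtain ⟨Ω, m, P, A, hP, hA, h⟩ := hG
  have hint : ∀ σ, Integrable (fun ω => policyCost s (A ω) σ) P := by
    intro σ
    have := integrable_run (P := P) hA s σ (fun x _ => x)
    simpa only [policyCost_eq] using this
  have h1 : ∫ ω, ∑ i ∈ I, w i * policyCost s (A ω) (b i) ∂P
      ≤ ∑ i ∈ I, w i * (c * opt s (b i) + B) := by
    rw [integral_finsetSum]
    · refine Finset.sum_le_sum fun i _ => ?_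
      rw [integral_const_mul]
      exact mul_le_mul_of_nonneg_left (h (b i) (Set.mem_univ _)) (hw i)
    · intro i _
      exact (hint (b i)).const_mul _
  have hint2 : Integrable (fun ω => ∑ i ∈ I, w i * policyCost s (A ω) (b i)) P :=
    integrable_finsetSum I fun i _ => (hint (b i)).const_mul _
  obtain ⟨ω, hω⟩ := exists_le_integral hint2
  exact ⟨A ω, hω.trans h1⟩

end Vale.Agent.P304.Dyn
end
end

section

section

open Finset

namespace Vale.Agent.P304.Dyn

variable {J : Type} [DecidableEq J]

/-- The nonempty suffixes of a list: the nodes on the path from the root `[]` to the node `b`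
(the root itself is not included). -/
def sf (b : List J) : Finset (List J) := (range b.length).image fun i => b.drop i

theorem mem_sf {b N : List J} : N ∈ sf b ↔ N <:+ b ∧ N ≠ [] := by
  constructor
  · intro h
    obtain ⟨i, hi, rfl⟩ := mem_image.mp h
    refine ⟨List.drop_suffix _ _, ?_⟩
    rw [mem_range] at hi
    intro h0
    have := congrArg List.length h0
    simp only [List.length_drop, List.length_nil] at this
    omega
  · rintro ⟨h, h0⟩
    refine mem_image.mpr ⟨b.length - N.length, ?_, ?_⟩
    · have h1 := h.length_le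
      have h2 : 0 < N.length := List.length_pos_iff.mpr h0
      rw [mem_range]
      omega
    · exact (List.suffix_iff_eq_drop.mp h).symm

omit [DecidableEq J] in
/-- Two suffixes of the same list are comparable by their lengths. -/
theorem suffix_of_le {A B L : List J} (hA : A <:+ L) (hB : B <:+ L) (h : A.length ≤ B.length) :
    A <:+ B := List.suffix_of_suffix_length_le hA hB h

theorem sf_nil : sf ([] : List J) = ∅ := by simp [sf]

theorem sf_cons (j : J) (T : List J) : sf (j :: T) = insert (j :: T) (sf T) := by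
  ext N
  rw [mem_insert, mem_sf, mem_sf, List.suffix_cons_iff]
  constructor
  · rintro ⟨h | h, h0⟩
    · exact Or.inl h
    · exact Or.inr ⟨h, h0⟩
  · rintro (h | h)
    · exact ⟨Or.inl h, by simp [h]⟩
    · exact ⟨Or.inr h.1, h.2⟩

theorem cons_notMem_sf (j : J) (T : List J) : (j :: T) ∉ sf T := by
  rw [mem_sf]
  rintro ⟨h, -⟩
  have := h.length_le
  simp at this

/-- The total weight of the path from the root to `b`. -/
noncomputable def hgt (ρ : ℕ → ℝ) (b : List J) : ℝ := ∑ N ∈ sf b, ρ N.length

/-- The downward part of the way from the node `a` to the node `b`. -/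
noncomputable def dn (ρ : ℕ → ℝ) (a b : List J) : ℝ := ∑ N ∈ sf b \ sf a, ρ N.length

theorem dn_nonneg {ρ : ℕ → ℝ} (hρ : ∀ m, 0 ≤ ρ m) (a b : List J) : 0 ≤ dn ρ a b :=
  sum_nonneg fun _ _ => hρ _

theorem dn_self (ρ : ℕ → ℝ) (a : List J) : dn ρ a a = 0 := by simp only [dn, sdiff_self, bot_eq_empty, sum_empty]

theorem hgt_nonneg {ρ : ℕ → ℝ} (hρ : ∀ m, 0 ≤ ρ m) (a : List J) : 0 ≤ hgt ρ a :=
  sum_nonneg fun _ _ => hρ _

theorem dn_triangle {ρ : ℕ → ℝ} (hρ : ∀ m, 0 ≤ ρ m) (a b c : List J) :
    dn ρ a c ≤ dn ρ a b + dn ρ b c := by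
  unfold dn
  have h : sf c \ sf a ⊆ (sf b \ sf a) ∪ (sf c \ sf b) := by
    intro N hN
    simp only [mem_sdiff, mem_union] at hN ⊢
    tauto
  calc ∑ N ∈ sf c \ sf a, ρ N.length ≤ ∑ N ∈ (sf b \ sf a) ∪ (sf c \ sf b), ρ N.length :=
        sum_le_sum_of_subset_of_nonneg h fun _ _ _ => hρ _
    _ ≤ _ := by
        have := sum_union_inter (s₁ := sf b \ sf a) (s₂ := sf c \ sf b) (f := fun N => ρ N.length)
        have h2 : 0 ≤ ∑ N ∈ (sf b \ sf a) ∩ (sf c \ sf b), ρ N.length :=
          sum_nonneg fun _ _ => hρ _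
        linarith

theorem hgt_sub_hgt (ρ : ℕ → ℝ) (a b : List J) : hgt ρ b - hgt ρ a = dn ρ a b - dn ρ b a := by
  unfold hgt dn
  have h1 := sum_inter_add_sum_sdiff (sf b) (sf a) (fun N => ρ N.length)
  have h2 := sum_inter_add_sum_sdiff (sf a) (sf b) (fun N => ρ N.length)
  rw [inter_comm] at h2
  linarith only [h1, h2]

section Cnt

variable {M : ℕ}

/-- The number of tracks in the subtree of the node `N`. -/
def cnt (y : Fin M → List J) (N : List J) : ℕ := (univ.filter fun i => N <:+ y i).card

theorem cnt_nil (y : Fin M → List J) : cnt y [] = M := by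
  unfold cnt
  rw [filter_true_of_mem]
  · simp only [card_univ, Fintype.card_fin]
  · intro i _
    exact List.nil_suffix

theorem cnt_le (y : Fin M → List J) (N : List J) : cnt y N ≤ M := by
  unfold cnt
  exact (card_filter_le _ _).trans (by simp only [card_univ, Fintype.card_fin, Std.le_refl])

theorem cnt_mono (y : Fin M → List J) {N N' : List J} (h : N <:+ N') : cnt y N' ≤ cnt y N := by
  unfold cnt
  apply card_le_card
  intro i hi
  simp only [mem_filter, mem_univ, true_and] at hi ⊢
  exact h.trans hi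

theorem cnt_update (y : Fin M → List J) (i : Fin M) (v N : List J) :
    (cnt (Function.update y i v) N : ℝ) =
      cnt y N - (if N <:+ y i then 1 else 0) + (if N <:+ v then 1 else 0) := by
  unfold cnt
  have h1 : ∀ w : Fin M → List J, ((univ.filter fun j => N <:+ w j).card : ℝ) =
      ∑ j, if N <:+ w j then (1 : ℝ) else 0 := by
    intro w
    rw [sum_boole]
  rw [h1, h1, ← add_sum_erase _ _ (mem_univ i), ← add_sum_erase univ _ (mem_univ i)]
  have h2 : ∑ x ∈ univ.erase i, (if N <:+ Function.update y i v x then (1 : ℝ) else 0) =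
      ∑ x ∈ univ.erase i, (if N <:+ y x then (1 : ℝ) else 0) := by
    apply sum_congr rfl
    intro x hx
    rw [Function.update_of_ne (ne_of_mem_erase hx)]
  rw [h2, Function.update_self]
  ring

end Cnt

section Pot

variable {M : ℕ} {X : Type} [Fintype X]

/-- The mass of the places whose address passes through the node `N`. -/
noncomputable def pm (p : X → ℝ) (ad : X → List J) (N : List J) : ℝ :=
  ∑ u, if N <:+ ad u then p u else 0

theorem pm_nil (p : X → ℝ) (ad : X → List J) : pm p ad [] = ∑ u, p u := by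
  unfold pm
  apply sum_congr rfl
  intro u _
  rw [if_pos List.nil_suffix]

theorem pm_nonneg {p : X → ℝ} (hp : ∀ u, 0 ≤ p u) (ad : X → List J) (N : List J) :
    0 ≤ pm p ad N := by
  unfold pm
  apply sum_nonneg
  intro u _
  split_ifs
  · exact hp u
  · exact le_rfl

/-- The potential of the tracks `y` with respect to the mass `p` at the addresses `ad`. -/
noncomputable def pot (ρ : ℕ → ℝ) (lam : ℝ) (p : X → ℝ) (ad : X → List J)
    (y : Fin M → List J) : ℝ :=
  lam * ∑ i, hgt ρ (y i) - ∑ u, p u * ∑ N ∈ sf (ad u), ρ N.length * Real.log (cnt y N + 1)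

/-- `y'` is a minimizer of the potential plus the downward movement from `y`. -/
def IsStep (n : ℕ) (ρ : ℕ → ℝ) (lam c : ℝ) (p : X → ℝ) (ad : X → List J)
    (y y' : Fin M → List J) : Prop :=
  (∀ i, (y' i).length ≤ n) ∧ ∀ z : Fin M → List J, (∀ i, (z i).length ≤ n) →
    pot ρ lam p ad y' + c * ∑ i, dn ρ (y i) (y' i) ≤ pot ρ lam p ad z + c * ∑ i, dn ρ (y i) (z i)

theorem exists_isStep [Finite J] (n : ℕ) (ρ : ℕ → ℝ) (lam c : ℝ) (p : X → ℝ) (ad : X → List J)
    (y : Fin M → List J) : ∃ y', IsStep n ρ lam c p ad y y' := by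
  have hfin : Set.Finite {z : Fin M → List J | ∀ i, z i ∈ {l : List J | l.length ≤ n}} :=
    Set.Finite.pi' fun _ => List.finite_length_le J n
  obtain ⟨y', h1, h2⟩ := Set.exists_min_image _
    (fun z => pot ρ lam p ad z + c * ∑ i, dn ρ (y i) (z i)) hfin ⟨fun _ => [], by simp only [Set.mem_ofPred_eq, List.length_nil, zero_le, implies_true]⟩
  exact ⟨y', h1, fun z hz => h2 z hz⟩

theorem IsStep.cost_le {n : ℕ} {ρ : ℕ → ℝ} {lam c : ℝ} {p : X → ℝ} {ad : X → List J}
    {y y' : Fin M → List J} (h : IsStep n ρ lam c p ad y y') (hy : ∀ i, (y i).length ≤ n) :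
    c * ∑ i, dn ρ (y i) (y' i) ≤ pot ρ lam p ad y - pot ρ lam p ad y' := by
  have h1 := h.2 y hy
  simp only [dn_self, sum_const_zero, mul_zero] at h1
  linarith only [h1]

/-- Exchange of the sums over the places and over the nodes. -/
theorem sum_swap (p : X → ℝ) (ad : X → List J) (f : List J → ℝ) (S : Finset (List J))
    (hS : ∀ u, sf (ad u) ⊆ S) (hS0 : [] ∉ S) :
    ∑ u, p u * ∑ N ∈ sf (ad u), f N = ∑ N ∈ S, pm p ad N * f N := by
  unfold pm
  simp_rw [sum_mul]
  rw [sum_comm]
  apply sum_congr rfl
  intro u _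
  rw [mul_sum, ← sum_subset (hS u)]
  · apply sum_congr rfl
    intro N hN
    rw [if_pos (mem_sf.mp hN).1]
  · intro N hN hN'
    rw [if_neg]
    · simp
    · intro h
      exact hN' (mem_sf.mpr ⟨h, fun h0 => hS0 (h0 ▸ hN)⟩)

/-- The effect on the logarithmic part of moving one track. -/
theorem log_part_ge {ρ : ℕ → ℝ} (hρ : ∀ m, 0 ≤ ρ m) {p : X → ℝ} (hp : ∀ u, 0 ≤ p u)
    (ad : X → List J) (y : Fin M → List J) (i : Fin M) (v : List J) :
    ∑ N ∈ sf v \ sf (y i), ρ N.length * (pm p ad N / (cnt y N + 2)) -
      ∑ N ∈ sf (y i) \ sf v, ρ N.length * (pm p ad N / cnt y N) ≤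
    (∑ u, p u * ∑ N ∈ sf (ad u), ρ N.length * Real.log (cnt (Function.update y i v) N + 1)) -
      ∑ u, p u * ∑ N ∈ sf (ad u), ρ N.length * Real.log (cnt y N + 1) := by
  set S : Finset (List J) := (univ.biUnion fun u => sf (ad u)) ∪ (sf v ∪ sf (y i)) with hSdef
  have hS : ∀ u, sf (ad u) ⊆ S := fun u =>
    (subset_biUnion_of_mem (fun u => sf (ad u)) (mem_univ u)).trans subset_union_left
  have hS0 : [] ∉ S := by
    rw [hSdef]
    simp only [mem_union, mem_biUnion, mem_sf]
    (clear * -; tauto)
  rw [sum_swap p ad _ S hS hS0, sum_swap p ad _ S hS hS0, ← sum_sub_distrib]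
  have hA : sf v \ sf (y i) ⊆ S := fun N hN =>
    mem_union_right _ (mem_union_left _ (mem_sdiff.mp hN).1)
  have hB : sf (y i) \ sf v ⊆ S := fun N hN =>
    mem_union_right _ (mem_union_right _ (mem_sdiff.mp hN).1)
  have e1 : ∑ N ∈ sf v \ sf (y i), ρ N.length * (pm p ad N / (cnt y N + 2)) =
      ∑ N ∈ S, if N ∈ sf v \ sf (y i) then ρ N.length * (pm p ad N / (cnt y N + 2)) else 0 := by
    rw [← sum_filter, filter_mem_eq_inter, inter_eq_right.mpr hA]
  have e2 : ∑ N ∈ sf (y i) \ sf v, ρ N.length * (pm p ad N / cnt y N) =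
      ∑ N ∈ S, if N ∈ sf (y i) \ sf v then ρ N.length * (pm p ad N / cnt y N) else 0 := by
    rw [← sum_filter, filter_mem_eq_inter, inter_eq_right.mpr hB]
  rw [e1, e2, ← sum_sub_distrib]
  apply sum_le_sum
  intro N hN
  have hN0 : N ≠ [] := fun h0 => hS0 (h0 ▸ hN)
  have hc := cnt_update y i v N
  have hq : 0 ≤ pm p ad N * ρ N.length := mul_nonneg (pm_nonneg hp ad N) (hρ _)
  by_cases h1 : N <:+ v <;> by_cases h2 : N <:+ y i
  · have m1 : N ∉ sf v \ sf (y i) := by simp [mem_sf, h1, h2, hN0]
    have m2 : N ∉ sf (y i) \ sf v := by simp only [mem_sdiff, mem_sf, h2, ne_eq, hN0, not_false_eq_true, and_self, h1, not_true_eq_false, and_false]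
    rw [if_neg m1, if_neg m2, hc, if_pos h1, if_pos h2]
    simp only [sub_self, sub_add_cancel, Std.le_refl]
  · have m1 : N ∈ sf v \ sf (y i) := by simp [mem_sf, h1, h2, hN0]
    have m2 : N ∉ sf (y i) \ sf v := by simp only [mem_sdiff, mem_sf, ne_eq, h1, true_and, Decidable.not_not, not_and, and_imp, imp_self, implies_true]
    rw [if_pos m1, if_neg m2, hc, if_pos h1, if_neg h2]
    have hx : (0 : ℝ) < (cnt y N : ℝ) + 1 := by (clear * -; positivity)
    have e0 : (cnt y N : ℝ) - 0 + 1 + 1 = cnt y N + 2 := by ring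
    have hlog : 1 / ((cnt y N : ℝ) + 2) ≤
        Real.log ((cnt y N : ℝ) - 0 + 1 + 1) - Real.log ((cnt y N : ℝ) + 1) := by
      rw [e0, ← Real.log_div (by (clear * -; positivity)) hx.ne']
      have h3 := Real.one_sub_inv_le_log_of_pos
        (show 0 < ((cnt y N : ℝ) + 2) / ((cnt y N : ℝ) + 1) by (clear * -; positivity))
      refine le_trans (le_of_eq ?_) h3
      field_simp
      ring
    have := mul_le_mul_of_nonneg_left hlog hq
    calc _ = pm p ad N * ρ N.length * (1 / ((cnt y N : ℝ) + 2)) := by ring
      _ ≤ _ := this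
      _ = _ := by ring
  · have m1 : N ∉ sf v \ sf (y i) := by simp only [mem_sdiff, mem_sf, ne_eq, h2, true_and, Decidable.not_not, not_and, and_imp, imp_self, implies_true]
    have m2 : N ∈ sf (y i) \ sf v := by simp [mem_sf, h1, h2, hN0]
    rw [if_neg m1, if_pos m2, hc, if_neg h1, if_pos h2]
    have hpos : 1 ≤ cnt y N := by
      unfold cnt
      rw [Nat.one_le_iff_ne_zero, Ne, card_eq_zero, filter_eq_empty_iff]
      exact fun h => h (mem_univ i) h2
    have hx : (0 : ℝ) < (cnt y N : ℝ) := by exact_mod_cast hpos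
    have hlog : Real.log ((cnt y N : ℝ) + 1) - Real.log ((cnt y N : ℝ) - 1 + 0 + 1) ≤
        1 / (cnt y N : ℝ) := by
      have e : (cnt y N : ℝ) - 1 + 0 + 1 = cnt y N := by ring
      rw [e, ← Real.log_div (by (clear * - hpos; positivity)) hx.ne']
      refine (Real.log_le_sub_one_of_pos (by (clear * - hpos; positivity))).trans (le_of_eq ?_)
      field_simp
      ring
    have := mul_le_mul_of_nonneg_left hlog hq
    have e3 : pm p ad N * ρ N.length * (1 / (cnt y N : ℝ)) =
        ρ N.length * (pm p ad N / cnt y N) := by ring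
    rw [e3] at this
    linarith only [this]
  · have m1 : N ∉ sf v \ sf (y i) := by simp [mem_sf, h1]
    have m2 : N ∉ sf (y i) \ sf v := by simp only [mem_sdiff, mem_sf, h2, ne_eq, false_and, not_and, Decidable.not_not, not_false_eq_true]
    rw [if_neg m1, if_neg m2, hc, if_neg h1, if_neg h2]
    simp only [sub_self, sub_zero, add_zero, Std.le_refl]

/-- The optimality inequality for moving the track `i` of a minimizer to `v`. -/
theorem IsStep.move {n : ℕ} {ρ : ℕ → ℝ} (hρ : ∀ m, 0 ≤ ρ m) {lam c : ℝ}
    {p : X → ℝ} (hp : ∀ u, 0 ≤ p u) {ad : X → List J} {y y' : Fin M → List J}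
    (h : IsStep n ρ lam c p ad y y') (i : Fin M) (v : List J) (hv : v.length ≤ n) :
    ∑ N ∈ sf v \ sf (y' i), ρ N.length * (pm p ad N / (cnt y' N + 2)) +
      lam * (∑ N ∈ sf (y' i) \ sf v, ρ N.length) ≤
    ∑ N ∈ sf (y' i) \ sf v, ρ N.length * (pm p ad N / cnt y' N) +
      lam * (∑ N ∈ sf v \ sf (y' i), ρ N.length) +
      c * (dn ρ (y i) v - dn ρ (y i) (y' i)) := by
  have h1 := h.2 (Function.update y' i v) (by
    intro j
    by_cases hj : j = i
    · subst hj; rw [Function.update_self]; exact hv
    · rw [Function.update_of_ne hj]; exact h.1 j)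
  have h2 := log_part_ge hρ hp ad y' i v
  unfold pot at h1
  have h3 : ∑ j, hgt ρ (Function.update y' i v j) = ∑ j, hgt ρ (y' j) + (hgt ρ v - hgt ρ (y' i)) := by
    rw [← add_sum_erase _ _ (mem_univ i), ← add_sum_erase univ (fun j => hgt ρ (y' j)) (mem_univ i),
      Function.update_self]
    have : ∑ x ∈ univ.erase i, hgt ρ (Function.update y' i v x) =
        ∑ x ∈ univ.erase i, hgt ρ (y' x) := by
      apply sum_congr rfl
      intro x hx
      rw [Function.update_of_ne (ne_of_mem_erase hx)]
    rw [this]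
    ring
  have h4 : ∑ j, dn ρ (y j) (Function.update y' i v j) =
      ∑ j, dn ρ (y j) (y' j) + (dn ρ (y i) v - dn ρ (y i) (y' i)) := by
    rw [← add_sum_erase _ _ (mem_univ i),
      ← add_sum_erase univ (fun j => dn ρ (y j) (y' j)) (mem_univ i), Function.update_self]
    have : ∑ x ∈ univ.erase i, dn ρ (y x) (Function.update y' i v x) =
        ∑ x ∈ univ.erase i, dn ρ (y x) (y' x) := by
      apply sum_congr rfl
      intro x hx
      rw [Function.update_of_ne (ne_of_mem_erase hx)]
    rw [this]
    ring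
  have h5 := hgt_sub_hgt ρ (y' i) v
  rw [h3, h4] at h1
  unfold dn at h5
  rw [h5] at h1
  linarith

/-- (C2) The number of tracks in a subtree is at most its mass divided by `lam`. -/
theorem IsStep.cnt_le_pm [Finite J] {n : ℕ} {ρ : ℕ → ℝ} (hρ : ∀ m, 0 < ρ m) {lam c : ℝ}
    (hc : 0 ≤ c) {p : X → ℝ} (hp : ∀ u, 0 ≤ p u) {ad : X → List J} {y y' : Fin M → List J}
    (h : IsStep n ρ lam c p ad y y') : ∀ N : List J, N ≠ [] → lam * cnt y' N ≤ pm p ad N := by
  have key : ∀ (d : ℕ) (N : List J), N ≠ [] → n < N.length + d → lam * cnt y' N ≤ pm p ad N := by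
    intro d
    induction d with
    | zero =>
      intro N _ hN
      have : cnt y' N = 0 := by
        unfold cnt
        rw [card_eq_zero, filter_eq_empty_iff]
        intro i _ hi
        have := hi.length_le
        have := h.1 i
        omega
      rw [this]
      simpa only [CharP.cast_eq_zero, mul_zero, ge_iff_le] using pm_nonneg hp ad N
    | succ d ih =>
      intro N hN0 hN
      by_cases hex : ∃ i, y' i = N
      · obtain ⟨i, hi⟩ := hex
        obtain ⟨j, T, rfl⟩ := List.exists_cons_of_ne_nil hN0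
        have h1 := h.move (fun m => (hρ m).le) hp i T (by
          have := h.1 i
          rw [hi] at this
          simp only [List.length_cons, Order.add_one_le_iff] at this
          omega)
        have e1 : sf T \ sf (y' i) = ∅ := by
          rw [hi, sf_cons]
          rw [sdiff_eq_empty_iff_subset]
          exact subset_insert _ _
        have e2 : sf (y' i) \ sf T = {j :: T} := by
          rw [hi, sf_cons, insert_sdiff_of_notMem _ (cons_notMem_sf j T), sdiff_self]
          rfl
        rw [e1, e2, sum_empty, sum_empty, sum_singleton, sum_singleton] at h1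
        have h2 : dn ρ (y i) T ≤ dn ρ (y i) (y' i) := by
          unfold dn
          apply sum_le_sum_of_subset_of_nonneg
          · rw [hi, sf_cons]
            exact sdiff_subset_sdiff (subset_insert _ _) le_rfl
          · intro _ _ _
            exact (hρ _).le
        have h3 : c * (dn ρ (y i) T - dn ρ (y i) (y' i)) ≤ 0 :=
          mul_nonpos_of_nonneg_of_nonpos hc (by linarith only [h2])
        have hpos : 1 ≤ cnt y' (j :: T) := by
          unfold cnt
          rw [Nat.one_le_iff_ne_zero, Ne, card_eq_zero, filter_eq_empty_iff]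
          exact fun h => h (mem_univ i) (by rw [hi])
        have hx : (0 : ℝ) < (cnt y' (j :: T) : ℝ) := by exact_mod_cast hpos
        have h4 : lam * ρ (j :: T).length ≤ ρ (j :: T).length * (pm p ad (j :: T) / cnt y' (j :: T)) := by
          linarith only [h1, h3]
        have h5 : lam ≤ pm p ad (j :: T) / cnt y' (j :: T) := by
          rw [mul_comm] at h4
          exact le_of_mul_le_mul_left h4 (hρ _)
        rwa [le_div_iff₀ hx] at h5
      · have hJ : Fintype J := Fintype.ofFinite J
        have hsum : cnt y' N ≤ ∑ j : J, cnt y' (j :: N) := by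
          unfold cnt
          have hsub : (univ.filter fun i => N <:+ y' i) ⊆
              (univ : Finset J).biUnion fun j => univ.filter fun i => (j :: N) <:+ y' i := by
            intro i hi
            simp only [mem_filter, mem_univ, true_and, mem_biUnion] at hi ⊢
            obtain ⟨L, hL⟩ := hi
            rcases List.eq_nil_or_concat' L with h0 | ⟨L', b, h0⟩
            · exfalso
              apply hex
              refine ⟨i, ?_⟩
              rw [← hL, h0]
              rfl
            · refine ⟨b, L', ?_⟩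
              rw [← hL, h0]
              simp
          exact (card_le_card hsub).trans card_biUnion_le
        have hpsum : ∑ j : J, pm p ad (j :: N) ≤ pm p ad N := by
          unfold pm
          rw [sum_comm]
          apply sum_le_sum
          intro u _
          by_cases hu : ∃ j : J, (j :: N) <:+ ad u
          · obtain ⟨j, hj⟩ := hu
            rw [sum_eq_single j]
            · rw [if_pos hj, if_pos ((List.suffix_cons j N).trans hj)]
            · intro b _ hb
              rw [if_neg]
              intro hb'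
              apply hb
              have := (suffix_of_le hb' hj (by simp)).eq_of_length (by simp)
              simpa using this
            · intro hj
              exact absurd (mem_univ j) hj
          · rw [sum_eq_zero]
            · split_ifs
              · exact hp u
              · exact le_rfl
            · intro j _
              rw [if_neg]
              exact fun hj => hu ⟨j, hj⟩
        by_cases hl : 0 ≤ lam
        · calc lam * (cnt y' N : ℝ) ≤ lam * ((∑ j : J, cnt y' (j :: N) : ℕ) : ℝ) :=
                mul_le_mul_of_nonneg_left (by exact_mod_cast hsum) hl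
            _ = ∑ j : J, lam * (cnt y' (j :: N) : ℝ) := by rw [Nat.cast_sum, mul_sum]
            _ ≤ ∑ j : J, pm p ad (j :: N) := by
                apply sum_le_sum
                intro j _
                exact ih (j :: N) (by simp) (by simp only [List.length_cons]; omega)
            _ ≤ pm p ad N := hpsum
        · push Not at hl
          exact (mul_nonpos_of_nonpos_of_nonneg hl.le (Nat.cast_nonneg _)).trans
            (pm_nonneg hp ad N)
  intro N hN
  exact key (n + 1) N hN (by omega)

end Pot

/-- The sequence lemma behind (C3). -/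
theorem chain_seq (n : ℕ) (hn : 0 < n) (ρ q t : ℕ → ℝ) (e : ℝ) (he : 0 ≤ e) (hρ : ∀ m, 0 < ρ m)
    (ht : ∀ m, 0 < t m) (htm : ∀ m, m < n → t (m + 1) ≤ t m)
    (h : ∀ m, m < n → (t m - t (m + 1)) * ∑ j ∈ Ico (m + 1) (n + 1), ρ j * (q j / t j) ≤
      (q m - q (m + 1)) * ∑ j ∈ Ico (m + 1) (n + 1), ρ j +
        e * (t m - t (m + 1)) * ∑ j ∈ Ico (m + 1) (n + 1), ρ j) :
    q n / t n ≤ q 0 / t 0 + e * Real.log (t 0 / t n) := by
  -- claim by decreasing induction
  have hlog : ∀ m, m < n → 1 - t (m + 1) / t m ≤ Real.log (t m / t (m + 1)) := by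
    intro m _
    have := Real.one_sub_inv_le_log_of_pos (show 0 < t m / t (m + 1) from div_pos (ht _) (ht _))
    rwa [inv_div] at this
  have hK : ∀ m, m < n → ∀ x : ℝ,
      x * ∑ j ∈ Ico (m + 1) (n + 1), ρ j ≤ ∑ j ∈ Ico (m + 1) (n + 1), ρ j * (q j / t j) →
      x ≤ q (m + 1) / t (m + 1) → x - e * Real.log (t m / t (m + 1)) ≤ q m / t m := by
    intro m hm x hx1 hx2
    have hR : 0 < ∑ j ∈ Ico (m + 1) (n + 1), ρ j :=
      sum_pos (fun j _ => hρ j) ⟨m + 1, by simp only [mem_Ico, Std.le_refl, Order.lt_add_one_iff, Order.add_one_le_iff, true_and]; omega⟩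
    have h1 := h m hm
    have hs : 0 ≤ t m - t (m + 1) := by linarith only [htm m hm]
    have h2 : (t m - t (m + 1)) * x ≤ (q m - q (m + 1)) + e * (t m - t (m + 1)) := by
      have h3 : ((t m - t (m + 1)) * x) * ∑ j ∈ Ico (m + 1) (n + 1), ρ j ≤
          ((q m - q (m + 1)) + e * (t m - t (m + 1))) * ∑ j ∈ Ico (m + 1) (n + 1), ρ j := by
        have := mul_le_mul_of_nonneg_left hx1 hs
        nlinarith only [h1, this]
      exact le_of_mul_le_mul_right h3 hR
    rw [le_div_iff₀ (ht (m + 1))] at hx2
    have h4 : x * t m ≤ q m + e * (t m - t (m + 1)) := by nlinarith only [hx2, h2]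
    have h5 : x ≤ q m / t m + e * (1 - t (m + 1) / t m) := by
      have h6 : q m / t m + e * (1 - t (m + 1) / t m) = (q m + e * (t m - t (m + 1))) / t m := by
        (clear * - ht; field_simp [(ht m).ne'])
      rw [h6, le_div_iff₀ (ht m)]
      exact h4
    have h7 := mul_le_mul_of_nonneg_left (hlog m hm) he
    linarith only [h5, h7]
  have key : ∀ d m, m + d + 1 = n →
      (q n / t n - e * Real.log (t (m + 1) / t n)) * ∑ j ∈ Ico (m + 1) (n + 1), ρ j ≤
        ∑ j ∈ Ico (m + 1) (n + 1), ρ j * (q j / t j) ∧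
      q n / t n - e * Real.log (t (m + 1) / t n) ≤ q (m + 1) / t (m + 1) := by
    intro d
    induction d with
    | zero =>
      intro m hm
      have hm' : m + 1 = n := by omega
      rw [hm', Nat.Ico_succ_singleton, sum_singleton, sum_singleton, div_self (ht n).ne',
        Real.log_one, mul_zero, sub_zero]
      exact ⟨by rw [mul_comm], le_rfl⟩
    | succ d ih =>
      intro m hm
      obtain ⟨i1, i2⟩ := ih (m + 1) (by omega)
      have hmn : m + 1 < n := by omega
      have h3 := hK (m + 1) hmn _ i1 i2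
      have e1 : Real.log (t (m + 1) / t n) =
          Real.log (t (m + 1) / t (m + 1 + 1)) + Real.log (t (m + 1 + 1) / t n) := by
        rw [← Real.log_mul (div_pos (ht _) (ht _)).ne' (div_pos (ht _) (ht _)).ne']
        congr 1
        (clear * - ht; field_simp [(ht (m + 1 + 1)).ne', (ht n).ne'])
      have h4 : q n / t n - e * Real.log (t (m + 1) / t n) ≤ q (m + 1) / t (m + 1) := by
        rw [e1]
        linarith only [h3]
      refine ⟨?_, h4⟩
      have hl0 : 0 ≤ Real.log (t (m + 1) / t (m + 1 + 1)) := by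
        apply Real.log_nonneg
        rw [le_div_iff₀ (ht _), one_mul]
        exact htm (m + 1) hmn
      have e2 : Ico (m + 1) (n + 1) = insert (m + 1) (Ico (m + 1 + 1) (n + 1)) := by
        ext j; simp only [mem_Ico, mem_insert]; omega
      have e3 : (m + 1) ∉ Ico (m + 1 + 1) (n + 1) := by simp only [mem_Ico, add_le_iff_nonpos_right, nonpos_iff_eq_zero, one_ne_zero, Order.lt_add_one_iff, Order.add_one_le_iff, false_and, not_false_eq_true]
      rw [e2, sum_insert e3, sum_insert e3, mul_add]
      have hR : 0 ≤ ∑ j ∈ Ico (m + 1 + 1) (n + 1), ρ j := sum_nonneg fun j _ => (hρ j).le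
      have h5 : (q n / t n - e * Real.log (t (m + 1) / t n)) * ∑ j ∈ Ico (m + 1 + 1) (n + 1), ρ j ≤
          (q n / t n - e * Real.log (t (m + 1 + 1) / t n)) *
            ∑ j ∈ Ico (m + 1 + 1) (n + 1), ρ j := by
        apply mul_le_mul_of_nonneg_right _ hR
        rw [e1]
        have := mul_nonneg he hl0
        linarith only [this]
      have h6 := mul_le_mul_of_nonneg_left h4 (hρ (m + 1)).le
      linarith only [i1, h5, h6]
  obtain ⟨k1, k2⟩ := key (n - 1) 0 (by omega)
  have h8 := hK 0 hn _ k1 k2
  have e1 : Real.log (t 0 / t n) =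
      Real.log (t 0 / t (0 + 1)) + Real.log (t (0 + 1) / t n) := by
    rw [← Real.log_mul (div_pos (ht _) (ht _)).ne' (div_pos (ht _) (ht _)).ne']
    congr 1
    (clear * - ht; field_simp [(ht (0 + 1)).ne', (ht n).ne'])
  rw [e1]
  linarith only [h8]

section Dom

variable {M : ℕ} {X : Type} [Fintype X]

omit [DecidableEq J] in
theorem drop_suffix_drop {b : List J} {m j : ℕ} (h : m ≤ j) :
    b.drop (b.length - m) <:+ b.drop (b.length - j) :=
  List.drop_suffix_drop_left b (by omega)

omit [DecidableEq J] in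
theorem length_drop_sub {b : List J} {m : ℕ} (h : m ≤ b.length) :
    (b.drop (b.length - m)).length = m := by
  rw [List.length_drop]
  omega

/-- (C3) Domination at the leaves, sharp form. -/
theorem IsStep.dom' {n : ℕ} {ρ : ℕ → ℝ} (hρ : ∀ m, 0 < ρ m) {lam c : ℝ} (hlam : 0 ≤ lam)
    (hc : 0 ≤ c) {p : X → ℝ} (hp : ∀ u, 0 ≤ p u) {ad : X → List J} {y y' : Fin M → List J}
    (h : IsStep n ρ lam c p ad y y') {b : List J} (hb : b.length = n) (hn : 0 < n) :
    pm p ad b / (cnt y' b + 2) ≤
      (∑ u, p u) / (M + 2) + (c + lam) * Real.log (((M : ℝ) + 2) / (cnt y' b + 2)) := by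
  set B : ℕ → List J := fun m => b.drop (b.length - m) with hBdef
  have hBn : B n = b := by rw [hBdef]; simp [hb]
  have hB0 : B 0 = [] := by rw [hBdef]; simp only [tsub_zero, List.drop_length]
  have hBlen : ∀ m, m ≤ n → (B m).length = m := fun m hm => length_drop_sub (by omega)
  have hBsuf : ∀ m j, m ≤ j → B m <:+ B j := fun m j hmj => drop_suffix_drop hmj
  have hBb : ∀ m, B m <:+ b := fun m => List.drop_suffix _ _
  have hmain := chain_seq n hn ρ (fun m => pm p ad (B m)) (fun m => (cnt y' (B m) : ℝ) + 2)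
    (c + lam) (by (clear * - hc hlam; positivity)) hρ (fun m => by positivity)
    (fun m _ => by
      have := cnt_mono y' (hBsuf m (m + 1) (by omega))
      have h2 : (cnt y' (B (m + 1)) : ℝ) ≤ cnt y' (B m) := by exact_mod_cast this
      linarith only [h2])
    (fun m hm => by
      set R := ∑ j ∈ Ico (m + 1) (n + 1), ρ j with hR
      set A := ∑ j ∈ Ico (m + 1) (n + 1), ρ j * (pm p ad (B j) / ((cnt y' (B j) : ℝ) + 2)) with hA
      set T : Finset (Fin M) := univ.filter fun i => B m <:+ y' i ∧ ¬ B (m + 1) <:+ y' i with hT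
      have hR0 : 0 ≤ R := sum_nonneg fun j _ => (hρ j).le
      have hTcard : (T.card : ℝ) = cnt y' (B m) - cnt y' (B (m + 1)) := by
        have h1 : cnt y' (B m) = T.card + cnt y' (B (m + 1)) := by
          unfold cnt
          rw [hT, ← card_union_of_disjoint]
          · congr 1
            ext i
            simp only [mem_filter, mem_univ, true_and, mem_union]
            constructor
            · intro hi
              by_cases h2 : B (m + 1) <:+ y' i
              · exact Or.inr h2
              · exact Or.inl ⟨hi, h2⟩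
            · rintro (hi | hi)
              · exact hi.1
              · exact (hBsuf m (m + 1) (by omega)).trans hi
          · rw [disjoint_filter]
            rintro i _ ⟨_, h2⟩
            exact h2
        rw [h1]
        push_cast
        ring
      -- the set of nodes on the path of `b` below the track
      have hsd : ∀ i ∈ T, ∀ f : List J → ℝ, ∑ N ∈ sf b \ sf (y' i), f N =
          ∑ j ∈ Ico (m + 1) (n + 1), f (B j) := by
        intro i hi f
        rw [hT, mem_filter] at hi
        obtain ⟨-, hi1, hi2⟩ := hi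
        have hset : sf b \ sf (y' i) = (Ico (m + 1) (n + 1)).image B := by
          ext N
          simp only [mem_sdiff, mem_sf, mem_image, mem_Ico]
          constructor
          · rintro ⟨⟨h1, h2⟩, h3⟩
            have hNl : N = B N.length := List.suffix_iff_eq_drop.mp h1
            have hle : N.length ≤ n := hb ▸ h1.length_le
            refine ⟨N.length, ⟨?_, by omega⟩, hNl.symm⟩
            by_contra h4
            apply h3
            refine ⟨?_, h2⟩
            rw [hNl]
            exact (hBsuf _ m (by omega)).trans hi1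
          · rintro ⟨j, ⟨hj1, hj2⟩, rfl⟩
            refine ⟨⟨hBb j, ?_⟩, ?_⟩
            · intro h0
              have := hBlen j (by omega)
              rw [h0] at this
              simp at this
              omega
            · rintro ⟨h1, -⟩
              exact hi2 ((hBsuf (m + 1) j (by omega)).trans h1)
        rw [hset, sum_image]
        intro j hj j' hj' hjj
        have e1 := hBlen j (by have := (mem_Ico.mp hj).2; omega)
        have e2 := hBlen j' (by have := (mem_Ico.mp hj').2; omega)
        rw [← e1, ← e2, hjj]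
      have hone : ∀ i ∈ T, A ≤ ∑ N ∈ sf (y' i) \ sf b, ρ N.length * (pm p ad N / cnt y' N) +
          (c + lam) * R := by
        intro i hi
        have h1 := h.move (fun m => (hρ m).le) hp i b hb.le
        rw [hsd i hi, hsd i hi] at h1
        have h2 : ∑ j ∈ Ico (m + 1) (n + 1), ρ (B j).length * (pm p ad (B j) / (cnt y' (B j) + 2)) =
            A := by
          apply sum_congr rfl
          intro j hj
          rw [hBlen j (by have := (mem_Ico.mp hj).2; omega)]
        have h3 : ∑ j ∈ Ico (m + 1) (n + 1), ρ (B j).length = R := by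
          apply sum_congr rfl
          intro j hj
          rw [hBlen j (by have := (mem_Ico.mp hj).2; omega)]
        have h4 : dn ρ (y i) b - dn ρ (y i) (y' i) ≤ R := by
          have h5 := dn_triangle (fun m => (hρ m).le) (y i) (y' i) b
          have h6 : dn ρ (y' i) b = R := by
            unfold dn
            rw [hsd i hi, h3]
          linarith only [h5, h6]
        rw [h2, h3] at h1
        have h7 : 0 ≤ lam * ∑ N ∈ sf (y' i) \ sf b, ρ N.length :=
          mul_nonneg hlam (sum_nonneg fun _ _ => (hρ _).le)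
        have h8 := mul_le_mul_of_nonneg_left h4 hc
        linarith only [h1, h7, h8]
      have hsum : (T.card : ℝ) * A ≤
          (∑ i ∈ T, ∑ N ∈ sf (y' i) \ sf b, ρ N.length * (pm p ad N / cnt y' N)) +
          T.card * ((c + lam) * R) := by
        have := sum_le_sum hone
        rw [sum_add_distrib, sum_const, sum_const, nsmul_eq_mul, nsmul_eq_mul] at this
        exact this
      set D : Finset (List J) := T.biUnion fun i => sf (y' i) \ sf b with hD
      have hDprop : ∀ N ∈ D, N.length ≤ n ∧ m < N.length ∧ B m <:+ N ∧ ¬ B (m + 1) <:+ N := by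
        intro N hN
        rw [hD, mem_biUnion] at hN
        obtain ⟨i, hi, hN⟩ := hN
        rw [hT, mem_filter] at hi
        obtain ⟨-, hi1, hi2⟩ := hi
        rw [mem_sdiff, mem_sf, mem_sf] at hN
        obtain ⟨⟨h1, h2⟩, h3⟩ := hN
        have hlt : m < N.length := by
          by_contra h4
          apply h3
          refine ⟨?_, h2⟩
          have : N <:+ B m := suffix_of_le h1 hi1 (by rw [hBlen m hm.le]; omega)
          exact this.trans (hBb m)
        refine ⟨h1.length_le.trans (h.1 i), hlt, ?_, ?_⟩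
        · exact suffix_of_le hi1 h1 (by rw [hBlen m hm.le]; omega)
        · intro h4
          exact hi2 (h4.trans h1)
      have hD1 : (∑ i ∈ T, ∑ N ∈ sf (y' i) \ sf b, ρ N.length * (pm p ad N / cnt y' N)) ≤
          ∑ N ∈ D, ρ N.length * pm p ad N := by
        have e1 : ∀ i ∈ T, ∑ N ∈ sf (y' i) \ sf b, ρ N.length * (pm p ad N / cnt y' N) =
            ∑ N ∈ D, if N ∈ sf (y' i) \ sf b then ρ N.length * (pm p ad N / cnt y' N) else 0 := by
          intro i hi
          rw [← sum_filter, filter_mem_eq_inter, inter_eq_right.mpr]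
          exact subset_biUnion_of_mem (fun i => sf (y' i) \ sf b) hi
        rw [sum_congr rfl e1, sum_comm]
        apply sum_le_sum
        intro N hN
        rw [← sum_filter, sum_const, nsmul_eq_mul]
        have h1 : (T.filter fun i => N ∈ sf (y' i) \ sf b).card ≤ cnt y' N := by
          unfold cnt
          apply card_le_card
          intro i hi
          simp only [mem_sdiff, mem_sf, mem_filter, mem_univ, true_and] at hi ⊢
          exact hi.2.1.1
        have h2 : 0 < cnt y' N := by
          rw [hD, mem_biUnion] at hN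
          obtain ⟨i, hi, hN⟩ := hN
          unfold cnt
          rw [card_pos]
          refine ⟨i, ?_⟩
          simp only [mem_filter, mem_univ, true_and]
          exact (mem_sf.mp (mem_sdiff.mp hN).1).1
        have h3 : (0 : ℝ) < cnt y' N := by exact_mod_cast h2
        have h4 : ((T.filter fun i => N ∈ sf (y' i) \ sf b).card : ℝ) ≤ cnt y' N := by
          exact_mod_cast h1
        have h5 : 0 ≤ ρ N.length * (pm p ad N / cnt y' N) :=
          mul_nonneg (hρ _).le (div_nonneg (pm_nonneg hp ad N) h3.le)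
        calc _ ≤ (cnt y' N : ℝ) * (ρ N.length * (pm p ad N / cnt y' N)) :=
              mul_le_mul_of_nonneg_right h4 h5
          _ = ρ N.length * pm p ad N := by
              (clear * - h2; field_simp)
      have hD2 : ∑ N ∈ D, ρ N.length * pm p ad N ≤
          (pm p ad (B m) - pm p ad (B (m + 1))) * R := by
        have e1 : ∑ N ∈ D, ρ N.length * pm p ad N =
            ∑ u, ∑ N ∈ D, ρ N.length * (if N <:+ ad u then p u else 0) := by
          unfold pm
          simp_rw [mul_sum]
          rw [sum_comm]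
        have e2 : pm p ad (B m) - pm p ad (B (m + 1)) =
            ∑ u, ((if B m <:+ ad u then p u else 0) - (if B (m + 1) <:+ ad u then p u else 0)) := by
          unfold pm
          rw [sum_sub_distrib]
        rw [e1, e2, sum_mul]
        apply sum_le_sum
        intro u _
        by_cases hex : ∃ N ∈ D, N <:+ ad u
        · obtain ⟨N₀, hN₀, hN₀u⟩ := hex
          obtain ⟨-, a2, a3, a4⟩ := hDprop N₀ hN₀
          have g1 : B m <:+ ad u := a3.trans hN₀u
          have g2 : ¬ B (m + 1) <:+ ad u := by
            intro h5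
            exact a4 (suffix_of_le h5 hN₀u (by rw [hBlen (m + 1) hm]; omega))
          rw [if_pos g1, if_neg g2, sub_zero]
          have e3 : ∑ N ∈ D, ρ N.length * (if N <:+ ad u then p u else 0) =
              p u * ∑ N ∈ D.filter (fun N => N <:+ ad u), ρ N.length := by
            rw [mul_sum, sum_filter]
            apply sum_congr rfl
            intro N _
            split_ifs <;> ring
          rw [e3]
          apply mul_le_mul_of_nonneg_left _ (hp u)
          have e4 : ∑ N ∈ D.filter (fun N => N <:+ ad u), ρ N.length =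
              ∑ j ∈ (D.filter (fun N => N <:+ ad u)).image List.length, ρ j := by
            rw [sum_image]
            intro N hN N' hN' hl
            have b1 := (mem_filter.mp (mem_coe.mp hN)).2
            have b2 := (mem_filter.mp (mem_coe.mp hN')).2
            exact (suffix_of_le b1 b2 hl.le).eq_of_length hl
          rw [e4, hR]
          apply sum_le_sum_of_subset_of_nonneg
          · intro j hj
            rw [mem_image] at hj
            obtain ⟨N, hN, rfl⟩ := hj
            obtain ⟨c1, c2, -, -⟩ := hDprop N (mem_filter.mp hN).1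
            rw [mem_Ico]
            omega
          · intro j _ _
            exact (hρ j).le
        · have e5 : ∑ N ∈ D, ρ N.length * (if N <:+ ad u then p u else 0) = 0 := by
            apply sum_eq_zero
            intro N hN
            rw [if_neg fun h5 => hex ⟨N, hN, h5⟩, mul_zero]
          rw [e5]
          apply mul_nonneg _ hR0
          by_cases g2 : B (m + 1) <:+ ad u
          · rw [if_pos g2, if_pos ((hBsuf m (m + 1) (by omega)).trans g2), sub_self]
          · rw [if_neg g2, sub_zero]
            split_ifs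
            · exact hp u
            · exact le_rfl
      have hfin : (T.card : ℝ) * A ≤ (pm p ad (B m) - pm p ad (B (m + 1))) * R +
          T.card * ((c + lam) * R) := by linarith only [hsum, hD1, hD2]
      rw [hTcard] at hfin
      have e6 : (cnt y' (B m) : ℝ) + 2 - (cnt y' (B (m + 1)) + 2) =
          cnt y' (B m) - cnt y' (B (m + 1)) := by ring
      rw [e6]
      linarith only [hfin])
  simp only [hBn, hB0, pm_nil, cnt_nil] at hmain
  exact hmain

/-- (C3) Domination at the leaves. -/
theorem IsStep.dom {n : ℕ} {ρ : ℕ → ℝ} (hρ : ∀ m, 0 < ρ m) {lam c : ℝ} (hlam : 0 ≤ lam)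
    (hc : 0 ≤ c) {p : X → ℝ} (hp : ∀ u, 0 ≤ p u) {ad : X → List J} {y y' : Fin M → List J}
    (h : IsStep n ρ lam c p ad y y') {b : List J} (hb : b.length = n) (hn : 0 < n) :
    pm p ad b / (cnt y' b + 2) ≤
      (∑ u, p u) / (M + 2) + (c + lam) * Real.log (((M : ℝ) + 2) / 2) := by
  refine (h.dom' hρ hlam hc hp hb hn).trans ?_
  have h1 : Real.log (((M : ℝ) + 2) / (cnt y' b + 2)) ≤ Real.log (((M : ℝ) + 2) / 2) := by
    apply Real.log_le_log (by positivity)
    apply div_le_div_of_nonneg_left (by positivity) (by norm_num)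
    have : (0 : ℝ) ≤ cnt y' b := Nat.cast_nonneg _
    linarith
  have h2 := mul_le_mul_of_nonneg_left h1 (add_nonneg hc hlam)
  (clear * - h2; linarith)

theorem log_cnt_nonneg (y : Fin M → List J) (N : List J) : 0 ≤ Real.log ((cnt y N : ℝ) + 1) := by
  apply Real.log_nonneg
  have : (0 : ℝ) ≤ cnt y N := Nat.cast_nonneg _
  linarith only []

theorem log_cnt_le (y : Fin M → List J) (N : List J) :
    Real.log ((cnt y N : ℝ) + 1) ≤ Real.log ((M : ℝ) + 1) := by
  apply Real.log_le_log (by positivity)
  have : (cnt y N : ℝ) ≤ M := by exact_mod_cast cnt_le y N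
  linarith

/-- The change of the logarithmic part when a unit of mass goes from the address `A` to `A'`. -/
theorem addr_change {ρ : ℕ → ℝ} (hρ : ∀ m, 0 ≤ ρ m) (y : Fin M → List J) (A A' : List J) :
    ∑ N ∈ sf A, ρ N.length * Real.log (cnt y N + 1) -
      ∑ N ∈ sf A', ρ N.length * Real.log (cnt y N + 1) ≤ Real.log (M + 1) * dn ρ A' A := by
  have h1 := sum_inter_add_sum_sdiff (sf A) (sf A')
    (fun N => ρ N.length * Real.log ((cnt y N : ℝ) + 1))
  have h2 := sum_inter_add_sum_sdiff (sf A') (sf A)
    (fun N => ρ N.length * Real.log ((cnt y N : ℝ) + 1))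
  rw [inter_comm] at h2
  have h3 : 0 ≤ ∑ N ∈ sf A' \ sf A, ρ N.length * Real.log ((cnt y N : ℝ) + 1) :=
    sum_nonneg fun N _ => mul_nonneg (hρ _) (log_cnt_nonneg y N)
  have h4 : ∑ N ∈ sf A \ sf A', ρ N.length * Real.log ((cnt y N : ℝ) + 1) ≤
      Real.log ((M : ℝ) + 1) * dn ρ A' A := by
    unfold dn
    rw [mul_sum]
    apply sum_le_sum
    intro N _
    rw [mul_comm]
    exact mul_le_mul_of_nonneg_right (log_cnt_le y N) (hρ _)
  linarith

/-- Change of the addresses of all places. -/
theorem pot_addr_le {ρ : ℕ → ℝ} (hρ : ∀ m, 0 ≤ ρ m) (lam : ℝ) {p : X → ℝ} (hp : ∀ u, 0 ≤ p u)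
    (ad ad' : X → List J) (y : Fin M → List J) :
    pot ρ lam p ad' y ≤ pot ρ lam p ad y +
      Real.log (M + 1) * ∑ u, p u * dn ρ (ad' u) (ad u) := by
  unfold pot
  have h : ∑ u, p u * ∑ N ∈ sf (ad u), ρ N.length * Real.log (cnt y N + 1) -
      ∑ u, p u * ∑ N ∈ sf (ad' u), ρ N.length * Real.log (cnt y N + 1) ≤
      Real.log (M + 1) * ∑ u, p u * dn ρ (ad' u) (ad u) := by
    rw [← sum_sub_distrib, mul_sum]
    apply sum_le_sum
    intro u _
    have h1 := mul_le_mul_of_nonneg_left (addr_change hρ y (ad u) (ad' u)) (hp u)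
    linarith
  linarith only [h]

/-- (C3), applied form. -/
theorem IsStep.one_le_cnt_of {n : ℕ} {ρ : ℕ → ℝ} (hρ : ∀ m, 0 < ρ m) {lam c k : ℝ}
    (hlam : 0 ≤ lam) (hc : 0 ≤ c) {p : X → ℝ} (hp : ∀ u, 0 ≤ p u) (hk : ∑ u, p u ≤ k)
    (hconst : k / (M + 2) + (c + lam) * Real.log (((M : ℝ) + 2) / 2) < 1 / 2)
    {ad : X → List J} {y y' : Fin M → List J} (h : IsStep n ρ lam c p ad y y') {u : X}
    (hb : (ad u).length = n) (hn : 0 < n) (hpu : 1 ≤ p u) : 1 ≤ cnt y' (ad u) := by
  have h1 := h.dom hρ hlam hc hp hb hn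
  have h2 : (∑ u, p u) / ((M : ℝ) + 2) ≤ k / (M + 2) := by gcongr
  have h3 : 1 ≤ pm p ad (ad u) := by
    unfold pm
    have h4 := single_le_sum (f := fun v => if ad u <:+ ad v then p v else 0)
      (fun v _ => by
        split_ifs
        · exact hp v
        · exact le_rfl) (mem_univ u)
    have h5 : (if ad u <:+ ad u then p u else 0) = p u := if_pos List.suffix_rfl
    simp only [h5] at h4
    linarith only [hpu, h4]
  have h6 : pm p ad (ad u) / ((cnt y' (ad u) : ℝ) + 2) < 1 / 2 := by linarith only [hconst, h1, h2]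
  have h7 : (0 : ℝ) < (cnt y' (ad u) : ℝ) + 2 := by positivity
  rw [div_lt_iff₀ h7] at h6
  have h8 : (0 : ℝ) < cnt y' (ad u) := by linarith only [h3, h6]
  have h9 : 0 < cnt y' (ad u) := by exact_mod_cast h8
  omega

end Dom

end Vale.Agent.P304.Dyn
end
end

section

section

open MeasureTheory Filter Topology
open scoped ENNReal NNReal

namespace Vale.Agent.P304

/-- address space with `n` levels of weights `W`. -/
structure Addr (n : ℕ) (W : Fin n → {x : ℝ≥0 // 0 < x}) : Type where
  /-- the address -/
  val : Fin n → ℕ × ℕ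

namespace Addr

variable {n : ℕ} {W : Fin n → {x : ℝ≥0 // 0 < x}}

/-- the ultrametric. -/
noncomputable def nd (a b : Addr n W) : ℝ≥0 :=
  Finset.univ.sup fun j => if a.val j = b.val j then (0 : ℝ≥0) else (W j).1

theorem nd_comm (a b : Addr n W) : nd a b = nd b a := by
  unfold nd
  congr 1
  funext j
  simp only [eq_comm]

theorem nd_self (a : Addr n W) : nd a a = 0 := by
  unfold nd
  simp only [↓reduceIte, Finset.sup_eq_zero, Finset.mem_univ, imp_self, implies_true]

theorem le_nd (a b : Addr n W) (j : Fin n) (h : a.val j ≠ b.val j) : (W j).1 ≤ nd a b := by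
  unfold nd
  have := Finset.le_sup (f := fun j => if a.val j = b.val j then (0 : ℝ≥0) else (W j).1)
    (Finset.mem_univ j)
  simpa only [ge_iff_le, h, ↓reduceIte] using this

theorem nd_max (a b c : Addr n W) : nd a c ≤ max (nd a b) (nd b c) := by
  conv_lhs => unfold nd
  refine Finset.sup_le fun j _ => ?_
  split_ifs with h
  · exact zero_le
  · by_cases h1 : a.val j = b.val j
    · have h2 : b.val j ≠ c.val j := fun h3 => h (h1.trans h3)
      exact le_max_of_le_right (le_nd b c j h2)
    · exact le_max_of_le_left (le_nd a b j h1)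

theorem nd_le_sum (a b : Addr n W) :
    nd a b ≤ ∑ j, if a.val j = b.val j then (0 : ℝ≥0) else (W j).1 := by
  unfold nd
  refine Finset.sup_le fun j _ => ?_
  exact Finset.single_le_sum (f := fun j => if a.val j = b.val j then (0 : ℝ≥0) else (W j).1)
    (fun _ _ => zero_le) (Finset.mem_univ j)

noncomputable instance : MetricSpace (Addr n W) where
  dist a b := (nd a b : ℝ)
  dist_self a := by simp [nd_self]
  dist_comm a b := by simp [nd_comm a b]
  dist_triangle a b c := by
    have h := nd_max a b c
    have h2 : nd a c ≤ nd a b + nd b c := h.trans (max_le_add_of_nonneg zero_le zero_le)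
    exact_mod_cast h2
  eq_of_dist_eq_zero := by
    intro a b h
    have h0 : nd a b = 0 := by exact_mod_cast h
    cases a with
    | mk a =>
      cases b with
      | mk b =>
        congr
        funext j
        by_contra hj
        have h1 := le_nd (W := W) ⟨a⟩ ⟨b⟩ j hj
        rw [h0] at h1
        exact absurd (W j).2 (not_lt.2 h1)

theorem dist_eq (a b : Addr n W) : dist a b = (nd a b : ℝ) := rfl

instance : IsUltrametricDist (Addr n W) where
  dist_triangle_max a b c := by
    simp only [dist_eq]
    exact_mod_cast nd_max a b c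

theorem card_top (hn : 1 ≤ n) : ENat.card (Addr n W) = ⊤ := by
  haveI : Infinite (Addr n W) := by
    refine Infinite.of_injective (fun m : ℕ => (⟨fun _ => (m, 0)⟩ : Addr n W)) ?_
    intro a b h
    have h1 := congrArg (fun x : Addr n W => (x.val ⟨0, hn⟩).1) h
    exact h1
  exact ENat.card_eq_top_of_infinite

end Addr

theorem le_Rult {k : ℕ} {Y : Type} [MetricSpace Y] [IsUltrametricDist Y] [Finite Y]
    (hY : ((k + 1 : ℕ) : ℕ∞) ≤ ENat.card Y) (s : Fin k → Y) : ratio s ≤ Rult k := by
  unfold Rult
  exact le_iSup_of_le Y (le_iSup_of_le inferInstance (le_iSup_of_le inferInstance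
    (le_iSup_of_le inferInstance (le_iSup_of_le hY
      (le_iSup (fun s : Fin k → Y => ratio s) s)))))

theorem one_le_Rult {k : ℕ} [NeZero k] : 1 ≤ Rult k := by
  by_contra hcon
  push Not at hcon
  set U := Addr 1 (fun _ => ⟨1, one_pos⟩)
  haveI : Infinite U := by
    rw [← ENat.card_eq_top]
    exact Addr.card_top le_rfl
  obtain ⟨T, hT⟩ := Infinite.exists_subset_card_eq U (k + 1)
  have hY : ((k + 1 : ℕ) : ℕ∞) ≤ ENat.card T := by
    rw [ENat.card_eq_coe_fintype_card, Fintype.card_coe, hT]
  haveI : Nonempty T := by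
    rw [← Fintype.card_pos_iff, Fintype.card_coe, hT]; omega
  have h1 := le_Rult hY (fun _ : Fin k => (Classical.arbitrary T))
  have h2 := h1.trans_lt hcon
  obtain ⟨c, hc1, hc2⟩ := ENNReal.lt_iff_exists_nnreal_btwn.1 h2
  have h3 := one_le_of_isCompetitive hY _ (isCompetitive_of_ratio_lt hc1)
  have h4 : (c : ℝ) < 1 := by exact_mod_cast hc2
  linarith only [h3, h4]

end Vale.Agent.P304
end
end

section

section

/-! # P304-Dyn-Z3b: conditional expectations along histories

`F` finite set of request sequences, `w` weights. `wt F w h` = weight of the sequences extending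
`h`; `ce F w g h` = conditional expectation of `g` given the history `h`.
`tower`: group the sum by the history `σ.take m`. -/

set_option linter.all false

open Finset

namespace Vale.Agent.P304.Dyn

open Vale.Agent.P304

variable {X : Type} {k : ℕ}

open Classical in
/-- weight of the set of sequences extending `h`. -/
noncomputable def wt (F : Finset (List X)) (w : List X → ℝ) (h : List X) : ℝ :=
  ∑ σ ∈ F with h <+: σ, w σ

open Classical in
/-- conditional expectation of `g` given the history `h`. -/
noncomputable def ce (F : Finset (List X)) (w : List X → ℝ) (g : List X → ℝ) (h : List X) : ℝ :=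
  (∑ σ ∈ F with h <+: σ, w σ * g σ) / wt F w h

open Classical in
/-- occupation numbers of the configuration `v`. -/
noncomputable def oc (v : Fin k → X) (u : X) : ℝ := ∑ j, if v j = u then 1 else 0

open Classical in
/-- occupation numbers of the pair of configurations `v`, `v'`. -/
noncomputable def oc2 (v v' : Fin k → X) (x y : X) : ℝ := ∑ j, if v j = x ∧ v' j = y then 1 else 0

open Classical in
theorem take_fiber {F : Finset (List X)} {m : ℕ} {h : List X} (hm : h.length = m) :
    (F.filter (fun σ => m ≤ σ.length)).filter (fun σ => σ.take m = h) =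
      F.filter (fun σ => h <+: σ) := by
  ext σ
  simp only [Finset.mem_filter]
  constructor
  · rintro ⟨⟨hF, _⟩, h2⟩
    exact ⟨hF, h2 ▸ List.take_prefix m σ⟩
  · rintro ⟨hF, h2⟩
    refine ⟨⟨hF, hm ▸ h2.length_le⟩, ?_⟩
    rw [← hm]
    exact (List.prefix_iff_eq_take.1 h2).symm

theorem tower {F : Finset (List X)} {w : List X → ℝ} (hw : ∀ σ ∈ F, 0 ≤ w σ) (m : ℕ)
    (ψ : List X → ℝ) (g : List X → ℝ) :
    ∑ σ ∈ F with m ≤ σ.length, w σ * (ψ (σ.take m) * ce F w g (σ.take m)) =
      ∑ σ ∈ F with m ≤ σ.length, w σ * (ψ (σ.take m) * g σ) := by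
  classical
  have hmap : ∀ σ ∈ F.filter (fun σ => m ≤ σ.length), σ.take m ∈
      (F.filter (fun σ => m ≤ σ.length)).image (fun σ => σ.take m) :=
    fun σ hσ => Finset.mem_image_of_mem _ hσ
  rw [← Finset.sum_fiberwise_of_maps_to hmap, ← Finset.sum_fiberwise_of_maps_to hmap]
  refine Finset.sum_congr rfl fun h hh => ?_
  obtain ⟨σ₀, hσ₀, rfl⟩ := Finset.mem_image.1 hh
  have hlen : (σ₀.take m).length = m := by
    rw [List.length_take]
    exact min_eq_left (Finset.mem_filter.1 hσ₀).2
  have hfib := take_fiber (F := F) hlen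
  generalize σ₀.take m = h at hlen hfib
  have e1 : ∑ σ ∈ F.filter (fun σ => m ≤ σ.length) with σ.take m = h,
      w σ * (ψ (σ.take m) * ce F w g (σ.take m)) = (∑ σ ∈ F with h <+: σ, w σ) *
        (ψ h * ce F w g h) := by
    rw [hfib, Finset.sum_mul]
    refine Finset.sum_congr rfl fun σ hσ => ?_
    have : σ.take m = h := by
      rw [← hlen]
      exact (List.prefix_iff_eq_take.1 (Finset.mem_filter.1 hσ).2).symm
    rw [this]
  have e2 : ∑ σ ∈ F.filter (fun σ => m ≤ σ.length) with σ.take m = h,
      w σ * (ψ (σ.take m) * g σ) = ψ h * ∑ σ ∈ F with h <+: σ, w σ * g σ := by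
    rw [hfib, Finset.mul_sum]
    refine Finset.sum_congr rfl fun σ hσ => ?_
    have : σ.take m = h := by
      rw [← hlen]
      exact (List.prefix_iff_eq_take.1 (Finset.mem_filter.1 hσ).2).symm
    rw [this]
    ring
  rw [e1, e2]
  change wt F w h * (ψ h * ((∑ σ ∈ F with h <+: σ, w σ * g σ) / wt F w h)) = _
  by_cases h0 : wt F w h = 0
  · have hz : ∀ σ ∈ F.filter (fun σ => h <+: σ), w σ = 0 := by
      have := (Finset.sum_eq_zero_iff_of_nonneg
        (fun σ hσ => hw σ (Finset.mem_filter.1 hσ).1)).1 h0
      exact this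
    rw [h0, Finset.sum_eq_zero (fun σ hσ => by rw [hz σ hσ, zero_mul])]
    ring
  · (clear * - h0; field_simp)

/-- conditional expectation is constant on constants (when the history has positive weight). -/
theorem ce_const {F : Finset (List X)} {w : List X → ℝ} {h : List X} (hh : 0 < wt F w h)
    (c : ℝ) : ce F w (fun _ => c) h = c := by
  classical
  unfold ce
  rw [← Finset.sum_mul]
  change wt F w h * c / wt F w h = c
  field_simp

theorem ce_mono {F : Finset (List X)} {w : List X → ℝ} (hw : ∀ σ ∈ F, 0 ≤ w σ) {g g' : List X → ℝ}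
    {h : List X} (hg : ∀ σ ∈ F, h <+: σ → g σ ≤ g' σ) : ce F w g h ≤ ce F w g' h := by
  classical
  unfold ce
  refine div_le_div_of_nonneg_right ?_ (Finset.sum_nonneg fun σ hσ =>
    hw σ (Finset.mem_filter.1 hσ).1)
  refine Finset.sum_le_sum fun σ hσ => ?_
  have := Finset.mem_filter.1 hσ
  exact mul_le_mul_of_nonneg_left (hg σ this.1 this.2) (hw σ this.1)

theorem ce_sum {ι : Type} {F : Finset (List X)} {w : List X → ℝ} (I : Finset ι)
    (g : ι → List X → ℝ) (h : List X) :
    ce F w (fun σ => ∑ i ∈ I, g i σ) h = ∑ i ∈ I, ce F w (g i) h := by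
  classical
  unfold ce
  rw [← Finset.sum_div, Finset.sum_comm]
  congr 1
  exact Finset.sum_congr rfl fun σ _ => Finset.mul_sum _ _ _

theorem ce_congr {F : Finset (List X)} {w : List X → ℝ} {g g' : List X → ℝ}
    {h : List X} (hg : ∀ σ ∈ F, h <+: σ → g σ = g' σ) : ce F w g h = ce F w g' h := by
  classical
  unfold ce
  congr 1
  refine Finset.sum_congr rfl fun σ hσ => ?_
  have := Finset.mem_filter.1 hσ
  rw [hg σ this.1 this.2]

theorem oc_nonneg (v : Fin k → X) (u : X) : 0 ≤ oc v u := by
  classical
  exact Finset.sum_nonneg fun j _ => by split_ifs <;> norm_num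

theorem oc2_nonneg (v v' : Fin k → X) (x y : X) : 0 ≤ oc2 v v' x y := by
  classical
  exact Finset.sum_nonneg fun j _ => by split_ifs <;> norm_num

theorem one_le_oc (v : Fin k → X) (j : Fin k) : 1 ≤ oc v (v j) := by
  classical
  unfold oc
  have := Finset.single_le_sum (f := fun i : Fin k => if v i = v j then (1 : ℝ) else 0)
    (fun i _ => by split_ifs <;> norm_num) (Finset.mem_univ j)
  simpa only [sum_boole, Nat.one_le_cast, one_le_card, ↓reduceIte] using this

theorem sum_oc [Fintype X] (v : Fin k → X) (ψ : X → ℝ) : ∑ u, oc v u * ψ u = ∑ j, ψ (v j) := by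
  classical
  unfold oc
  simp only [sum_mul]
  rw [Finset.sum_comm]
  refine Finset.sum_congr rfl fun j _ => ?_
  simp only [ite_mul, one_mul, zero_mul]
  rw [Finset.sum_ite_eq]
  simp only [mem_univ, ↓reduceIte]

theorem sum_oc2 [Fintype X] (v v' : Fin k → X) (ψ : X → X → ℝ) :
    ∑ x, ∑ y, oc2 v v' x y * ψ x y = ∑ j, ψ (v j) (v' j) := by
  classical
  unfold oc2
  have e : ∀ x, ∑ y, (∑ j, if v j = x ∧ v' j = y then (1 : ℝ) else 0) * ψ x y =
      ∑ j, if v j = x then ψ x (v' j) else 0 := by
    intro x
    simp only [Finset.sum_mul]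
    rw [Finset.sum_comm]
    refine Finset.sum_congr rfl fun j _ => ?_
    by_cases h : v j = x
    · simp only [h, true_and, ite_mul, one_mul, zero_mul]
      rw [Finset.sum_ite_eq]
      simp only [mem_univ, ↓reduceIte]
    · simp only [h, false_and, ↓reduceIte, zero_mul, sum_const_zero]
  simp only [e]
  rw [Finset.sum_comm]
  refine Finset.sum_congr rfl fun j _ => ?_
  rw [Finset.sum_ite_eq]
  simp

theorem sum_oc2_left [Fintype X] (v v' : Fin k → X) (y : X) : ∑ x, oc2 v v' x y = oc v' y := by
  classical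
  unfold oc2 oc
  rw [Finset.sum_comm]
  refine Finset.sum_congr rfl fun j _ => ?_
  by_cases h : v' j = y
  · simp only [h, and_true, sum_ite_eq, mem_univ, ↓reduceIte]
  · simp only [h, and_false, ↓reduceIte, sum_const_zero]

theorem sum_oc2_right [Fintype X] (v v' : Fin k → X) (x : X) : ∑ y, oc2 v v' x y = oc v x := by
  classical
  unfold oc2 oc
  rw [Finset.sum_comm]
  refine Finset.sum_congr rfl fun j _ => ?_
  by_cases h : v j = x
  · simp only [h, true_and, sum_ite_eq, mem_univ, ↓reduceIte]
  · simp only [h, false_and, ↓reduceIte, sum_const_zero]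

end Vale.Agent.P304.Dyn
end
end

section

section

/-! # P304-Dyn: the interface between the metric part and the game part

An engine for the finite metric space `X` with error `ε`: a set `S` of states; in the state `s` and for
the random seed `ω : Ω` (uniform on a finite set) the `M` tracks are at the physical places
`loc s ω i` and at the virtual places `na s ω i` (in the ultrametric space `Addr n W`), and every
location `x` has the virtual address `ad s ω x`. `Inv p s`: the state `s` is balanced with respect to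
the mass distribution `p` (total mass `k`) of the hidden servers. Potential
`∑ x, p x * psi s x + cc s`, linear in `p`. -/

set_option linter.all false

open Finset
open scoped NNReal

namespace Vale.Agent.P304.Dyn

open Vale.Agent.P304

/-- The interface. -/
structure Eng (X : Type) [MetricSpace X] [Fintype X] (k n : ℕ) (W : Fin n → {x : ℝ≥0 // 0 < x})
    (p0 : X → ℝ) (Cg Ck B ε : ℝ) : Type 1 where
  M : ℕ
  kM : k ≤ M
  Ω : Type
  fin : Fintype Ω
  ne : Nonempty Ω
  S : Type
  loc : S → Ω → Fin M → X
  na : S → Ω → Fin M → Addr n W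
  ad : S → Ω → X → Addr n W
  psi : S → X → ℝ
  cc : S → ℝ
  Inv : (X → ℝ) → S → Prop
  s0 : S
  inv0 : Inv p0 s0
  pot0 : ∑ x, p0 x * psi s0 x + cc s0 ≤ B
  psi_nonneg : ∀ p s, Inv p s → ∀ x, 0 ≤ psi s x
  cc_nonneg : ∀ p s, Inv p s → 0 ≤ cc s
  cover : ∀ p s, Inv p s → ∀ u, 1 ≤ p u → ∀ ω, ∃ i, loc s ω i = u ∧ na s ω i = ad s ω u
  geom : ∀ p s, Inv p s → ∀ u, 1 ≤ p u → ∀ ω i,
    dist (loc s ω i) u ≤ Cg * dist (na s ω i) (ad s ω u)
  step : ∀ p s, Inv p s → ∀ q : X → X → ℝ, (∀ x y, 0 ≤ q x y) → ∑ x, ∑ y, q x y = k →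
    ∃ s', Inv (fun y => ∑ x, q x y) s' ∧
      (∑ ω, (∑ i, dist (loc s ω i) (loc s' ω i) + ∑ i, dist (na s ω i) (na s' ω i) +
        ∑ x, ∑ y, q x y * dist (ad s ω x) (ad s' ω y))) / (Fintype.card Ω : ℝ) +
        (∑ y, (∑ x, q x y) * psi s' y + cc s') ≤
      (∑ x, (∑ y, q x y) * psi s x + cc s) + Ck * ∑ x, ∑ y, q x y * dist x y + ε

attribute [instance] Eng.fin Eng.ne

end Vale.Agent.P304.Dyn
end
end

section

section

/-! # P304-Dyn-Z5/Z6: the state process and its expected cost

`pp h` = conditional law (occupation numbers) of the offline servers after the history `h`,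
`plan h` = conditional transport plan of the last step (`h ≠ []`).
-/

set_option linter.all false

open Finset
open scoped NNReal

namespace Vale.Agent.P304.Dyn

open Vale.Agent.P304

variable {X : Type} {k : ℕ}

/-- conditional law of the offline servers after `h`. -/
noncomputable def pp (F : Finset (List X)) (w : List X → ℝ) (c : List X → ℕ → Fin k → X)
    (h : List X) (y : X) : ℝ := ce F w (fun σ => oc (c σ h.length) y) h

/-- conditional transport plan of the last step. -/
noncomputable def plan (F : Finset (List X)) (w : List X → ℝ) (c : List X → ℕ → Fin k → X)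
    (h : List X) (x y : X) : ℝ :=
  ce F w (fun σ => oc2 (c σ (h.length - 1)) (c σ h.length) x y) h

theorem wt_le_of_prefix {F : Finset (List X)} {w : List X → ℝ} (hw : ∀ σ ∈ F, 0 ≤ w σ)
    {h h' : List X} (hh : h <+: h') : wt F w h' ≤ wt F w h := by
  classical
  unfold wt
  refine Finset.sum_le_sum_of_subset_of_nonneg ?_ ?_
  · intro σ hσ
    rw [Finset.mem_filter] at hσ ⊢
    exact ⟨hσ.1, hh.trans hσ.2⟩
  · intro σ hσ _
    exact hw σ (Finset.mem_filter.1 hσ).1

theorem one_le_pp {F : Finset (List X)} {w : List X → ℝ} (hw : ∀ σ ∈ F, 0 ≤ w σ)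
    {c : List X → ℕ → Fin k → X}
    (hc : ∀ σ ∈ F, ∀ (t : ℕ) (ht : t < σ.length), ∃ j, c σ (t + 1) j = σ[t])
    {h : List X} {r : X} (hh : 0 < wt F w (h ++ [r])) : 1 ≤ pp F w c (h ++ [r]) r := by
  unfold pp
  rw [← ce_const (w := w) hh 1]
  refine ce_mono hw fun σ hσ hp => ?_
  have hlen : h.length < σ.length := by
    have := hp.length_le
    simp only [List.length_append, List.length_singleton] at this
    omega
  obtain ⟨j, hj⟩ := hc σ hσ h.length hlen
  have h1 : σ[h.length] = r := by
    have h2 := hp.getElem (i := h.length) (by simp only [List.length_append, List.length_cons, List.length_nil, zero_add, lt_add_iff_pos_right, Order.lt_one_iff])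
    rw [← h2]
    simp only [Std.le_refl, List.getElem_append_right, tsub_self, List.getElem_cons_zero]
  rw [h1] at hj
  have h3 := one_le_oc (c σ (h.length + 1)) j
  rw [hj] at h3
  simpa only [List.length_append, List.length_cons, List.length_nil, zero_add, ge_iff_le] using h3

theorem plan_nonneg {F : Finset (List X)} {w : List X → ℝ} (hw : ∀ σ ∈ F, 0 ≤ w σ)
    {c : List X → ℕ → Fin k → X} {h : List X} (hh : 0 < wt F w h) (x y : X) :
    0 ≤ plan F w c h x y := by
  unfold plan
  have h1 : ce F w (fun _ => (0 : ℝ)) h ≤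
      ce F w (fun σ => oc2 (c σ (h.length - 1)) (c σ h.length) x y) h :=
    ce_mono hw fun σ _ _ => oc2_nonneg _ _ _ _
  rwa [ce_const hh] at h1

theorem sum_plan_left [Fintype X] {F : Finset (List X)} {w : List X → ℝ}
    {c : List X → ℕ → Fin k → X} {h : List X} (y : X) :
    ∑ x, plan F w c h x y = pp F w c h y := by
  unfold plan pp
  rw [← ce_sum]
  exact ce_congr fun σ _ _ => sum_oc2_left _ _ _

theorem sum_plan_right [Fintype X] {F : Finset (List X)} {w : List X → ℝ}
    {c : List X → ℕ → Fin k → X} {h : List X} (x : X) :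
    ∑ y, plan F w c h x y = ce F w (fun σ => oc (c σ (h.length - 1)) x) h := by
  unfold plan
  rw [← ce_sum]
  exact ce_congr fun σ _ _ => sum_oc2_right _ _ _

theorem sum_plan [Fintype X] {F : Finset (List X)} {w : List X → ℝ}
    {c : List X → ℕ → Fin k → X} {h : List X} (hh : 0 < wt F w h) :
    ∑ x, ∑ y, plan F w c h x y = k := by
  have h1 : ∀ x, ∑ y, plan F w c h x y = ce F w (fun σ => oc (c σ (h.length - 1)) x) h :=
    fun x => sum_plan_right x
  rw [Finset.sum_congr rfl fun x _ => h1 x, ← ce_sum, ← ce_const (w := w) hh (k : ℝ)]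
  refine ce_congr fun σ _ _ => ?_
  have h2 := sum_oc (c σ (h.length - 1)) (fun _ => (1 : ℝ))
  simpa only [mul_one, sum_const, card_univ, Fintype.card_fin, nsmul_eq_mul] using h2

variable [MetricSpace X] [Fintype X] {n : ℕ} {W : Fin n → {x : ℝ≥0 // 0 < x}}
  {Cg Ck B ε : ℝ} {s : Fin k → X}

/-- the cost of one step, averaged over the random seed. -/
noncomputable def stepCost {p0 : X → ℝ} (E : Eng X k n W p0 Cg Ck B ε) (a a' : E.S)
    (q : X → X → ℝ) : ℝ :=
  (∑ ω, (∑ i, dist (E.loc a ω i) (E.loc a' ω i) + ∑ i, dist (E.na a ω i) (E.na a' ω i) +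
        ∑ x, ∑ y, q x y * dist (E.ad a ω x) (E.ad a' ω y))) / (Fintype.card E.Ω : ℝ)

end Vale.Agent.P304.Dyn
end
end

section

section

/-! # P304-Dyn-Z6: the state process

Recursion on the history (reverse recursion; e.g. `List.reverseRecOn`, or define the states of prefixes
by a foldl), using `Eng.step` with `q := plan F w c (h ++ [r])` when `0 < wt F w (h ++ [r])` (then also
`0 < wt F w h` by `wt_le_of_prefix`) and `Inv (pp F w c h) (st h)`; otherwise any value. Row sums / column
sums of the plan by `ce_sum`, `sum_oc2_left`, `sum_oc2_right`; total mass `k` by `ce_const`;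
`pp F w c [] = oc s` by `ce_congr`, `ce_const`. -/

set_option linter.all false

open Finset
open scoped NNReal

namespace Vale.Agent.P304.Dyn

open Vale.Agent.P304

variable {X : Type} {k : ℕ} [MetricSpace X] [Fintype X] {n : ℕ} {W : Fin n → {x : ℝ≥0 // 0 < x}}
  {Cg Ck B ε : ℝ} {s : Fin k → X}

/-- states as a function of the reversed history. -/
noncomputable def stRev {S : Type} (s0 : S) (f : List X → X → S → S) : List X → S
  | [] => s0
  | r :: h => f h.reverse r (stRev s0 f h)

theorem exists_states (E : Eng X k n W (oc s) Cg Ck B ε) {F : Finset (List X)}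
    {w : List X → ℝ} (hw : ∀ σ ∈ F, 0 ≤ w σ) {c : List X → ℕ → Fin k → X}
    (hc0 : ∀ σ ∈ F, c σ 0 = s) :
    ∃ st : List X → E.S, st [] = E.s0 ∧
      (∀ h, 0 < wt F w h → E.Inv (pp F w c h) (st h)) ∧
      ∀ h r, 0 < wt F w (h ++ [r]) →
        stepCost E (st h) (st (h ++ [r])) (plan F w c (h ++ [r])) +
          (∑ y, pp F w c (h ++ [r]) y * E.psi (st (h ++ [r])) y + E.cc (st (h ++ [r]))) ≤
        (∑ x, (∑ y, plan F w c (h ++ [r]) x y) * E.psi (st h) x + E.cc (st h)) +
          Ck * ∑ x, ∑ y, plan F w c (h ++ [r]) x y * dist x y + ε := by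
  classical
  have key : ∀ (h : List X) (r : X) (a : E.S), ∃ a' : E.S, 0 < wt F w (h ++ [r]) →
      E.Inv (pp F w c h) a → E.Inv (pp F w c (h ++ [r])) a' ∧
        stepCost E a a' (plan F w c (h ++ [r])) +
          (∑ y, pp F w c (h ++ [r]) y * E.psi a' y + E.cc a') ≤
        (∑ x, (∑ y, plan F w c (h ++ [r]) x y) * E.psi a x + E.cc a) +
          Ck * ∑ x, ∑ y, plan F w c (h ++ [r]) x y * dist x y + ε := by
    intro h r a
    by_cases h1 : 0 < wt F w (h ++ [r])
    · by_cases h2 : E.Inv (pp F w c h) a
      · obtain ⟨a', h3, h4⟩ := E.step (pp F w c h) a h2 (plan F w c (h ++ [r]))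
          (fun x y => plan_nonneg hw h1 x y) (sum_plan h1)
        refine ⟨a', fun _ _ => ?_⟩
        have h5 : (fun y => ∑ x, plan F w c (h ++ [r]) x y) = pp F w c (h ++ [r]) := by
          funext y
          exact sum_plan_left y
        rw [h5] at h3
        refine ⟨h3, ?_⟩
        have h6 : ∀ y, ∑ x, plan F w c (h ++ [r]) x y = pp F w c (h ++ [r]) y :=
          fun y => sum_plan_left y
        simp only [h6] at h4
        exact h4
      · exact ⟨a, fun _ h3 => absurd h3 h2⟩
    · exact ⟨a, fun h3 => absurd h3 h1⟩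
  choose f hf using key
  obtain ⟨st, hst0, hst⟩ : ∃ st : List X → E.S, st [] = E.s0 ∧
      ∀ h r, st (h ++ [r]) = f h r (st h) :=
    ⟨fun h => stRev E.s0 f h.reverse, by simp only [List.reverse_nil, stRev], fun h r => by simp [stRev]⟩
  have inv : ∀ h, 0 < wt F w h → E.Inv (pp F w c h) (st h) := by
    intro h
    induction h using List.reverseRecOn with
    | nil =>
      intro hh
      have h1 : pp F w c [] = oc s := by
        funext y
        unfold pp
        rw [← ce_const (w := w) hh (oc s y)]
        refine ce_congr fun σ hσ _ => ?_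
        simp only [List.length_nil]
        rw [hc0 σ hσ]
      rw [h1, hst0]
      exact E.inv0
    | append_singleton h r ih =>
      intro hh
      have h1 : 0 < wt F w h := lt_of_lt_of_le hh (wt_le_of_prefix hw (List.prefix_append _ _))
      rw [hst]
      exact (hf h r (st h) hh (ih h1)).1
  refine ⟨st, hst0, inv, fun h r hh => ?_⟩
  have h1 : 0 < wt F w h := lt_of_lt_of_le hh (wt_le_of_prefix hw (List.prefix_append _ _))
  rw [hst]
  exact (hf h r (st h) hh (inv h h1)).2

end Vale.Agent.P304.Dyn
end
end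

section

section

/-! # P304-Dyn-Z7: the expected cost of the state process

Multiply the step inequality for `h = σ.take t`, `r = σ[t]` by `w σ` and sum over
`σ ∈ F`, `t < σ.length`; by `tower` the plan terms become the actual offline quantities; the
potentials telescope along every sequence. -/

set_option linter.all false

open Finset
open scoped NNReal

namespace Vale.Agent.P304.Dyn

open Vale.Agent.P304

variable {X : Type} {k : ℕ}

theorem path_plan [Fintype X] {F : Finset (List X)} {w : List X → ℝ} (hw : ∀ σ ∈ F, 0 ≤ w σ)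
    (c : List X → ℕ → Fin k → X) (m : ℕ) (Φ : List X → X → X → ℝ) :
    ∑ σ ∈ F with m + 1 ≤ σ.length,
        w σ * ∑ x, ∑ y, plan F w c (σ.take (m + 1)) x y * Φ (σ.take (m + 1)) x y
      = ∑ σ ∈ F with m + 1 ≤ σ.length,
        w σ * ∑ j, Φ (σ.take (m + 1)) (c σ m j) (c σ (m + 1) j) := by
  have h1 : ∀ σ ∈ F.filter (fun σ => m + 1 ≤ σ.length),
      w σ * ∑ x, ∑ y, plan F w c (σ.take (m + 1)) x y * Φ (σ.take (m + 1)) x y
      = ∑ x, ∑ y, w σ * (Φ (σ.take (m + 1)) x y *
          ce F w (fun σ => oc2 (c σ m) (c σ (m + 1)) x y) (σ.take (m + 1))) := by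
    intro σ hσ
    have hlen : m + 1 ≤ σ.length := (Finset.mem_filter.1 hσ).2
    rw [Finset.mul_sum]
    refine Finset.sum_congr rfl fun x _ => ?_
    rw [Finset.mul_sum]
    refine Finset.sum_congr rfl fun y _ => ?_
    have h2 : (σ.take (m + 1)).length = m + 1 := by simp only [List.length_take, inf_eq_left, Order.add_one_le_iff]; omega
    unfold plan
    rw [h2, Nat.add_sub_cancel]
    ring
  rw [Finset.sum_congr rfl h1, Finset.sum_comm]
  have h3 : ∀ x, ∑ σ ∈ F with m + 1 ≤ σ.length, ∑ y, w σ * (Φ (σ.take (m + 1)) x y *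
          ce F w (fun σ => oc2 (c σ m) (c σ (m + 1)) x y) (σ.take (m + 1)))
      = ∑ y, ∑ σ ∈ F with m + 1 ≤ σ.length, w σ * (Φ (σ.take (m + 1)) x y *
          oc2 (c σ m) (c σ (m + 1)) x y) := by
    intro x
    rw [Finset.sum_comm]
    exact Finset.sum_congr rfl fun y _ =>
      tower hw (m + 1) (fun h => Φ h x y) (fun σ => oc2 (c σ m) (c σ (m + 1)) x y)
  rw [Finset.sum_congr rfl fun x _ => h3 x]
  have h4 : ∀ x : X, ∑ y, ∑ σ ∈ F with m + 1 ≤ σ.length, w σ * (Φ (σ.take (m + 1)) x y *
          oc2 (c σ m) (c σ (m + 1)) x y)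
      = ∑ σ ∈ F with m + 1 ≤ σ.length, ∑ y, w σ * (Φ (σ.take (m + 1)) x y *
          oc2 (c σ m) (c σ (m + 1)) x y) := fun x => Finset.sum_comm
  rw [Finset.sum_congr rfl fun x _ => h4 x, Finset.sum_comm]
  refine Finset.sum_congr rfl fun σ _ => ?_
  rw [← sum_oc2 (c σ m) (c σ (m + 1)) (Φ (σ.take (m + 1))), Finset.mul_sum]
  refine Finset.sum_congr rfl fun x _ => ?_
  rw [Finset.mul_sum]
  exact Finset.sum_congr rfl fun y _ => by ring

theorem path_pp [Fintype X] {F : Finset (List X)} {w : List X → ℝ} (hw : ∀ σ ∈ F, 0 ≤ w σ)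
    (c : List X → ℕ → Fin k → X) (m : ℕ) (Φ : List X → X → ℝ) :
    ∑ σ ∈ F with m ≤ σ.length,
        w σ * ∑ y, pp F w c (σ.take m) y * Φ (σ.take m) y
      = ∑ σ ∈ F with m ≤ σ.length, w σ * ∑ j, Φ (σ.take m) (c σ m j) := by
  have h1 : ∀ σ ∈ F.filter (fun σ => m ≤ σ.length),
      w σ * ∑ y, pp F w c (σ.take m) y * Φ (σ.take m) y
      = ∑ y, w σ * (Φ (σ.take m) y * ce F w (fun σ => oc (c σ m) y) (σ.take m)) := by
    intro σ hσ
    have hlen : m ≤ σ.length := (Finset.mem_filter.1 hσ).2
    rw [Finset.mul_sum]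
    refine Finset.sum_congr rfl fun y _ => ?_
    have h2 : (σ.take m).length = m := by simp only [List.length_take, inf_eq_left]; omega
    unfold pp
    rw [h2]
    ring
  rw [Finset.sum_congr rfl h1, Finset.sum_comm]
  rw [Finset.sum_congr rfl fun y _ =>
      tower hw m (fun h => Φ h y) (fun σ => oc (c σ m) y), Finset.sum_comm]
  refine Finset.sum_congr rfl fun σ _ => ?_
  rw [← sum_oc (c σ m) (Φ (σ.take m)), Finset.mul_sum]
  exact Finset.sum_congr rfl fun y _ => by ring

theorem wt_pos_of_mem {F : Finset (List X)} {w : List X → ℝ} (hw : ∀ σ ∈ F, 0 ≤ w σ) {σ : List X}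
    (hσ : σ ∈ F) (h0 : 0 < w σ) {h : List X} (hh : h <+: σ) : 0 < wt F w h := by
  classical
  unfold wt
  refine Finset.sum_pos' (fun τ hτ => hw τ (Finset.mem_filter.1 hτ).1) ⟨σ, ?_, h0⟩
  exact Finset.mem_filter.2 ⟨hσ, hh⟩

variable [MetricSpace X] [Fintype X] {n : ℕ} {W : Fin n → {x : ℝ≥0 // 0 < x}}
  {Cg Ck B ε : ℝ} {s : Fin k → X}

theorem expected_cost (E : Eng X k n W (oc s) Cg Ck B ε) (hCk : 0 ≤ Ck) (hε : 0 ≤ ε)
    {F : Finset (List X)} {w : List X → ℝ} (hw : ∀ σ ∈ F, 0 ≤ w σ) (hw1 : ∑ σ ∈ F, w σ = 1)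
    {c : List X → ℕ → Fin k → X} (hc0 : ∀ σ ∈ F, c σ 0 = s) {N : ℕ}
    (hN : ∀ σ ∈ F, σ.length ≤ N) {st : List X → E.S} (h0 : st [] = E.s0)
    (hInv : ∀ h, 0 < wt F w h → E.Inv (pp F w c h) (st h))
    (hstep : ∀ h r, 0 < wt F w (h ++ [r]) →
        stepCost E (st h) (st (h ++ [r])) (plan F w c (h ++ [r])) +
          (∑ y, pp F w c (h ++ [r]) y * E.psi (st (h ++ [r])) y + E.cc (st (h ++ [r]))) ≤
        (∑ x, (∑ y, plan F w c (h ++ [r]) x y) * E.psi (st h) x + E.cc (st h)) +
          Ck * ∑ x, ∑ y, plan F w c (h ++ [r]) x y * dist x y + ε) :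
    ∑ σ ∈ F, w σ * ∑ t ∈ range σ.length,
      (∑ ω, (∑ i, dist (E.loc (st (σ.take t)) ω i) (E.loc (st (σ.take (t + 1))) ω i) +
        ∑ i, dist (E.na (st (σ.take t)) ω i) (E.na (st (σ.take (t + 1))) ω i) +
        ∑ j, dist (E.ad (st (σ.take t)) ω (c σ t j))
          (E.ad (st (σ.take (t + 1))) ω (c σ (t + 1) j)))) / (Fintype.card E.Ω : ℝ) ≤
    B + Ck * ∑ σ ∈ F, w σ * ∑ t ∈ range σ.length, ∑ j, dist (c σ t j) (c σ (t + 1) j) +
      N * ε := by
  classical
  -- pathwise quantities
  set A : List X → ℕ → ℝ := fun σ t =>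
    (∑ ω, (∑ i, dist (E.loc (st (σ.take t)) ω i) (E.loc (st (σ.take (t + 1))) ω i) +
        ∑ i, dist (E.na (st (σ.take t)) ω i) (E.na (st (σ.take (t + 1))) ω i) +
        ∑ j, dist (E.ad (st (σ.take t)) ω (c σ t j))
          (E.ad (st (σ.take (t + 1))) ω (c σ (t + 1) j)))) / (Fintype.card E.Ω : ℝ) with hA
  set P : List X → ℕ → ℝ := fun σ t =>
    ∑ j, E.psi (st (σ.take t)) (c σ t j) + E.cc (st (σ.take t)) with hP
  set O : List X → ℕ → ℝ := fun σ t => ∑ j, dist (c σ t j) (c σ (t + 1) j) with hO
  -- one time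
  have key : ∀ t, ∑ σ ∈ F with t + 1 ≤ σ.length, w σ * (A σ t + P σ (t + 1))
      ≤ ∑ σ ∈ F with t + 1 ≤ σ.length, w σ * (P σ t + Ck * O σ t + ε) := by
    intro t
    -- sum of the step inequalities
    have h1 : ∑ σ ∈ F with t + 1 ≤ σ.length, w σ *
        (stepCost E (st (σ.take t)) (st (σ.take (t + 1))) (plan F w c (σ.take (t + 1))) +
          (∑ y, pp F w c (σ.take (t + 1)) y * E.psi (st (σ.take (t + 1))) y
            + E.cc (st (σ.take (t + 1)))))
        ≤ ∑ σ ∈ F with t + 1 ≤ σ.length, w σ *
        ((∑ x, (∑ y, plan F w c (σ.take (t + 1)) x y) * E.psi (st (σ.take t)) x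
            + E.cc (st (σ.take t))) +
          Ck * ∑ x, ∑ y, plan F w c (σ.take (t + 1)) x y * dist x y + ε) := by
      refine Finset.sum_le_sum fun σ hσ => ?_
      obtain ⟨hσF, hlen⟩ := Finset.mem_filter.1 hσ
      rcases (hw σ hσF).lt_or_eq with hpos | hzero
      · have hlt : t < σ.length := hlen
        have e1 : σ.take (t + 1) = σ.take t ++ [σ[t]] := by
          rw [List.take_succ_eq_append_getElem hlt]
        have h2 := hstep (σ.take t) σ[t] (by
          rw [← e1]; exact wt_pos_of_mem hw hσF hpos (List.take_prefix _ _))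
        rw [← e1] at h2
        exact mul_le_mul_of_nonneg_left h2 hpos.le
      · rw [← hzero]; simp only [zero_mul, Std.le_refl]
    -- conversion of the left side
    have h2 : ∑ σ ∈ F with t + 1 ≤ σ.length, w σ *
        (stepCost E (st (σ.take t)) (st (σ.take (t + 1))) (plan F w c (σ.take (t + 1))) +
          (∑ y, pp F w c (σ.take (t + 1)) y * E.psi (st (σ.take (t + 1))) y
            + E.cc (st (σ.take (t + 1)))))
        = ∑ σ ∈ F with t + 1 ≤ σ.length, w σ * (A σ t + P σ (t + 1)) := by
      have e1 := path_plan hw c t (fun h x y =>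
        (∑ ω, dist (E.ad (st (h.take t)) ω x) (E.ad (st h) ω y)) / (Fintype.card E.Ω : ℝ))
      have e2 := path_pp hw c (t + 1) (fun h y => E.psi (st h) y)
      have e3 : ∀ σ ∈ F.filter (fun σ => t + 1 ≤ σ.length), (σ.take (t + 1)).take t = σ.take t := by
        intro σ _
        rw [List.take_take]; congr 1; omega
      have e4 : ∀ σ ∈ F.filter (fun σ => t + 1 ≤ σ.length), w σ *
        (stepCost E (st (σ.take t)) (st (σ.take (t + 1))) (plan F w c (σ.take (t + 1))) +
          (∑ y, pp F w c (σ.take (t + 1)) y * E.psi (st (σ.take (t + 1))) y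
            + E.cc (st (σ.take (t + 1)))))
          = w σ * ((∑ ω, (∑ i, dist (E.loc (st (σ.take t)) ω i) (E.loc (st (σ.take (t + 1))) ω i) +
              ∑ i, dist (E.na (st (σ.take t)) ω i) (E.na (st (σ.take (t + 1))) ω i)))
              / (Fintype.card E.Ω : ℝ) + E.cc (st (σ.take (t + 1))))
            + w σ * ∑ x, ∑ y, plan F w c (σ.take (t + 1)) x y *
              ((∑ ω, dist (E.ad (st ((σ.take (t + 1)).take t)) ω x) (E.ad (st (σ.take (t + 1))) ω y))
                / (Fintype.card E.Ω : ℝ))
            + w σ * ∑ y, pp F w c (σ.take (t + 1)) y * E.psi (st (σ.take (t + 1))) y := by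
        intro σ hσ
        rw [e3 σ hσ]
        unfold stepCost
        have e5 : ∑ x, ∑ y, plan F w c (σ.take (t + 1)) x y *
              ((∑ ω, dist (E.ad (st (σ.take t)) ω x) (E.ad (st (σ.take (t + 1))) ω y))
                / (Fintype.card E.Ω : ℝ))
            = (∑ ω, ∑ x, ∑ y, plan F w c (σ.take (t + 1)) x y *
              dist (E.ad (st (σ.take t)) ω x) (E.ad (st (σ.take (t + 1))) ω y))
                / (Fintype.card E.Ω : ℝ) := by
          have e7 : ∑ ω, ∑ x, ∑ y, plan F w c (σ.take (t + 1)) x y *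
              dist (E.ad (st (σ.take t)) ω x) (E.ad (st (σ.take (t + 1))) ω y)
              = ∑ x, ∑ y, ∑ ω, plan F w c (σ.take (t + 1)) x y *
              dist (E.ad (st (σ.take t)) ω x) (E.ad (st (σ.take (t + 1))) ω y) := by
            rw [Finset.sum_comm]
            exact Finset.sum_congr rfl fun x _ => Finset.sum_comm
          rw [e7, Finset.sum_div]
          refine Finset.sum_congr rfl fun x _ => ?_
          rw [Finset.sum_div]
          refine Finset.sum_congr rfl fun y _ => ?_
          rw [← Finset.mul_sum]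
          ring
        rw [e5]
        simp only [sum_add_distrib, add_div]
        ring
      rw [Finset.sum_congr rfl e4, Finset.sum_add_distrib, Finset.sum_add_distrib, e1, e2,
        ← Finset.sum_add_distrib, ← Finset.sum_add_distrib]
      refine Finset.sum_congr rfl fun σ hσ => ?_
      rw [e3 σ hσ]
      have e6 : ∑ j, (∑ ω, dist (E.ad (st (σ.take t)) ω (c σ t j))
            (E.ad (st (σ.take (t + 1))) ω (c σ (t + 1) j))) / (Fintype.card E.Ω : ℝ)
          = (∑ ω, ∑ j, dist (E.ad (st (σ.take t)) ω (c σ t j))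
            (E.ad (st (σ.take (t + 1))) ω (c σ (t + 1) j))) / (Fintype.card E.Ω : ℝ) := by
        rw [← Finset.sum_div, Finset.sum_comm]
      rw [e6]
      simp only [hA, hP, Finset.sum_add_distrib, add_div]
      ring
    have h3 : ∑ σ ∈ F with t + 1 ≤ σ.length, w σ *
        ((∑ x, (∑ y, plan F w c (σ.take (t + 1)) x y) * E.psi (st (σ.take t)) x
            + E.cc (st (σ.take t))) +
          Ck * ∑ x, ∑ y, plan F w c (σ.take (t + 1)) x y * dist x y + ε)
        = ∑ σ ∈ F with t + 1 ≤ σ.length, w σ * (P σ t + Ck * O σ t + ε) := by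
      have e1 := path_plan hw c t (fun h x _ => E.psi (st (h.take t)) x)
      have e2 := path_plan hw c t (fun _ x y => dist x y)
      have e3 : ∀ σ ∈ F.filter (fun σ => t + 1 ≤ σ.length), (σ.take (t + 1)).take t = σ.take t := by
        intro σ _
        rw [List.take_take]; congr 1; omega
      have e4 : ∀ σ ∈ F.filter (fun σ => t + 1 ≤ σ.length), w σ *
        ((∑ x, (∑ y, plan F w c (σ.take (t + 1)) x y) * E.psi (st (σ.take t)) x
            + E.cc (st (σ.take t))) +
          Ck * ∑ x, ∑ y, plan F w c (σ.take (t + 1)) x y * dist x y + ε)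
          = w σ * (E.cc (st (σ.take t)) + ε)
            + w σ * ∑ x, ∑ y, plan F w c (σ.take (t + 1)) x y *
                E.psi (st ((σ.take (t + 1)).take t)) x
            + Ck * (w σ * ∑ x, ∑ y, plan F w c (σ.take (t + 1)) x y * dist x y) := by
        intro σ hσ
        rw [e3 σ hσ]
        simp only [sum_mul]
        ring
      rw [Finset.sum_congr rfl e4, Finset.sum_add_distrib, Finset.sum_add_distrib,
        ← Finset.mul_sum, e1, e2, Finset.mul_sum, ← Finset.sum_add_distrib,
        ← Finset.sum_add_distrib]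
      refine Finset.sum_congr rfl fun σ hσ => ?_
      rw [e3 σ hσ]
      simp only [hP, hO]
      ring
    rw [h2, h3] at h1
    exact h1
  -- sum over the times
  have hswap : ∀ f : List X → ℕ → ℝ, ∑ t ∈ range N, ∑ σ ∈ F with t + 1 ≤ σ.length, w σ * f σ t
      = ∑ σ ∈ F, w σ * ∑ t ∈ range σ.length, f σ t := by
    intro f
    simp only [Finset.sum_filter]
    rw [Finset.sum_comm]
    refine Finset.sum_congr rfl fun σ hσ => ?_
    rw [Finset.mul_sum, ← Finset.sum_filter]
    refine Finset.sum_congr ?_ fun _ _ => rfl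
    ext t
    simp only [Finset.mem_filter, Finset.mem_range]
    have := hN σ hσ
    omega
  have h1 := Finset.sum_le_sum fun t (_ : t ∈ range N) => key t
  rw [hswap, hswap] at h1
  -- telescoping
  have h2 : ∀ σ ∈ F, w σ * ∑ t ∈ range σ.length, A σ t
      ≤ w σ * (∑ t ∈ range σ.length, (A σ t + P σ (t + 1))
        - ∑ t ∈ range σ.length, P σ t + B) := by
    intro σ hσ
    rcases (hw σ hσ).lt_or_eq with hpos | hzero
    · refine mul_le_mul_of_nonneg_left ?_ hpos.le
      rw [Finset.sum_add_distrib]
      have h3 : ∑ t ∈ range σ.length, P σ (t + 1) - ∑ t ∈ range σ.length, P σ t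
          = P σ σ.length - P σ 0 := by
        rw [← Finset.sum_sub_distrib, Finset.sum_range_sub]
      have h4 : P σ 0 ≤ B := by
        have h5 := E.pot0
        simp only [hP, List.take_zero, h0, hc0 σ hσ]
        rwa [sum_oc] at h5
      have h5 : 0 ≤ P σ σ.length := by
        have hI := hInv σ (wt_pos_of_mem hw hσ hpos (List.prefix_refl _))
        simp only [hP, List.take_length]
        exact add_nonneg (Finset.sum_nonneg fun j _ => E.psi_nonneg _ _ hI _)
          (E.cc_nonneg _ _ hI)
      linarith only [h3, h4, h5]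
    · rw [← hzero]; simp only [zero_mul, Std.le_refl]
  have h3 := Finset.sum_le_sum h2
  have h4 : ∑ σ ∈ F, w σ * (∑ t ∈ range σ.length, (A σ t + P σ (t + 1))
        - ∑ t ∈ range σ.length, P σ t + B)
      = ∑ σ ∈ F, w σ * ∑ t ∈ range σ.length, (A σ t + P σ (t + 1))
        - ∑ σ ∈ F, w σ * ∑ t ∈ range σ.length, P σ t + B := by
    simp only [mul_add, mul_sub]
    rw [Finset.sum_add_distrib, Finset.sum_sub_distrib, ← Finset.sum_mul, hw1, one_mul]
  rw [h4] at h3
  have h5 : ∑ σ ∈ F, w σ * ∑ t ∈ range σ.length, (P σ t + Ck * O σ t + ε)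
      ≤ ∑ σ ∈ F, w σ * ∑ t ∈ range σ.length, P σ t
        + Ck * ∑ σ ∈ F, w σ * ∑ t ∈ range σ.length, O σ t + N * ε := by
    have h6 : ∀ σ ∈ F, w σ * ∑ t ∈ range σ.length, (P σ t + Ck * O σ t + ε)
        ≤ w σ * ∑ t ∈ range σ.length, P σ t
          + Ck * (w σ * ∑ t ∈ range σ.length, O σ t) + w σ * (N * ε) := by
      intro σ hσ
      rw [Finset.sum_add_distrib, Finset.sum_add_distrib, ← Finset.mul_sum, Finset.sum_const,
        Finset.card_range, nsmul_eq_mul]
      have h7 : (σ.length : ℝ) * ε ≤ N * ε :=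
        mul_le_mul_of_nonneg_right (by exact_mod_cast hN σ hσ) hε
      have h8 := mul_le_mul_of_nonneg_left h7 (hw σ hσ)
      nlinarith only [h8]
    refine (Finset.sum_le_sum h6).trans (le_of_eq ?_)
    rw [Finset.sum_add_distrib, Finset.sum_add_distrib, ← Finset.mul_sum, ← Finset.sum_mul, hw1,
      one_mul]
  linarith only [h1, h3, h5]

end Vale.Agent.P304.Dyn
end
end

section

section

/-!
# P304: online configurations give lazy policies
-/

namespace Vale.Agent.P304.Dyn

variable {X : Type} [MetricSpace X] {k : ℕ}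

/-- the server moved by the lazy policy: `L` is the present lazy configuration, `C` the target
configuration, one server of which stands at `r`. -/
noncomputable def lazyChoice [NeZero k] (L C : Fin k → X) (r : X) : Fin k :=
  open Classical in
  (Classical.choose (exists_mdist L C)) (if h : ∃ j, C j = r then Classical.choose h else 0)

theorem lazyChoice_spec [NeZero k] (L C : Fin k → X) (r : X) (h : ∃ j, C j = r) :
    dist (L (lazyChoice L C r)) r + mdist (Function.update L (lazyChoice L C r) r) C
      ≤ mdist L C := by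
  classical
  have hπ := Classical.choose_spec (exists_mdist L C)
  set π := Classical.choose (exists_mdist L C) with hπd
  have hj := Classical.choose_spec h
  set j := Classical.choose h with hjd
  have hch : lazyChoice L C r = π j := by
    unfold lazyChoice
    rw [dif_pos h]
  rw [hch, hπ]
  refine (add_le_add_right (mdist_le π _ C) _).trans ?_
  have h1 := lab_update π L C j r
  have h2 : Function.update C j r = C := by
    rw [← hj]; exact Function.update_eq_self j C
  rw [h2, hj, dist_self, add_zero] at h1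
  exact h1

/-- the lazy configuration, as a function of the reversed history. -/
noncomputable def lazyConf [NeZero k] (Cf : List X → Fin k → X) : List X → Fin k → X
  | [] => Cf []
  | r :: h => Function.update (lazyConf Cf h)
      (lazyChoice (lazyConf Cf h) (Cf (r :: h).reverse) r) r

/-- the lazy policy. -/
noncomputable def lazyPol [NeZero k] (Cf : List X → Fin k → X) (h : List X) : Fin k :=
  match h.reverse with
  | [] => 0
  | r :: h' => lazyChoice (lazyConf Cf h') (Cf (r :: h').reverse) r

theorem lazyPol_snoc [NeZero k] (Cf : List X → Fin k → X) (h : List X) (r : X) :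
    lazyPol Cf (h ++ [r]) = lazyChoice (lazyConf Cf h.reverse) (Cf (h ++ [r])) r := by
  unfold lazyPol
  simp only [List.reverse_append, List.reverse_cons, List.reverse_nil, List.nil_append, List.cons_append, List.reverse_reverse]

theorem runPos_lazy [NeZero k] (Cf : List X → Fin k → X) (σ : List X) :
    runPos (lazyPol Cf) [] (Cf []) σ = lazyConf Cf σ.reverse := by
  induction σ using List.reverseRecOn with
  | nil => rfl
  | append_singleton σ r ih =>
    rw [runPos_append, ih]
    simp only [runPos, List.nil_append, lazyPol_snoc, List.reverse_append, List.reverse_cons, List.reverse_nil, List.singleton_append, lazyConf, List.reverse_reverse]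

/-- Configurations depending on the history only, one server of which stands at the last request,
give a policy which is at most as expensive. -/
theorem policyCost_lazy [NeZero k] (Cf : List X → Fin k → X) (σ : List X)
    (hserve : ∀ h r, h ++ [r] <+: σ → ∃ j, Cf (h ++ [r]) j = r) :
    policyCost (Cf []) (lazyPol Cf) σ
      ≤ ∑ t ∈ Finset.range σ.length, mdist (Cf (σ.take t)) (Cf (σ.take (t + 1))) := by
  have key : ∀ σ : List X, (∀ h r, h ++ [r] <+: σ → ∃ j, Cf (h ++ [r]) j = r) →
      runCost (lazyPol Cf) [] (Cf []) σ + mdist (lazyConf Cf σ.reverse) (Cf σ)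
      ≤ ∑ t ∈ Finset.range σ.length, mdist (Cf (σ.take t)) (Cf (σ.take (t + 1))) := by
    intro σ
    induction σ using List.reverseRecOn with
    | nil => intro _; simp [runCost, lazyConf, mdist_self]
    | append_singleton σ r ih =>
      intro hs
      have ih := ih fun h r' hh => hs h r' (hh.trans (List.prefix_append _ _))
      rw [runCost_append, runPos_lazy, List.length_append, List.length_singleton,
        Finset.sum_range_succ]
      have h1 : ∀ t ∈ Finset.range σ.length,
          mdist (Cf ((σ ++ [r]).take t)) (Cf ((σ ++ [r]).take (t + 1)))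
            = mdist (Cf (σ.take t)) (Cf (σ.take (t + 1))) := by
        intro t ht
        have ht' : t < σ.length := Finset.mem_range.1 ht
        rw [List.take_append_of_le_length (by omega), List.take_append_of_le_length (by (clear * - ht'; omega))]
      rw [Finset.sum_congr rfl h1]
      have h2 : (σ ++ [r]).take σ.length = σ := by simp
      have h3 : (σ ++ [r]).take (σ.length + 1) = σ ++ [r] := by simp only [List.take_eq_self_iff, List.length_append, List.length_cons, List.length_nil, zero_add, Std.le_refl]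
      rw [h2, h3]
      have h4 := lazyChoice_spec (lazyConf Cf σ.reverse) (Cf (σ ++ [r])) r
        (hs σ r (List.prefix_refl _))
      have h5 := mdist_triangle (lazyConf Cf σ.reverse) (Cf σ) (Cf (σ ++ [r]))
      have h6 : lazyConf Cf (σ ++ [r]).reverse = Function.update (lazyConf Cf σ.reverse)
          (lazyChoice (lazyConf Cf σ.reverse) (Cf (σ ++ [r])) r) r := by
        simp [lazyConf]
      rw [h6]
      simp only [runCost, List.nil_append, lazyPol_snoc, add_zero]
      (clear hserve h1 h2 h3 h6; linarith)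
  have h1 := key σ hserve
  have h2 := mdist_nonneg (lazyConf Cf σ.reverse) (Cf σ)
  rw [policyCost_eq]
  linarith

/-- offline version: the optimum is at most the total movement of any sequence of configurations
covering the requests. -/
theorem opt_le_conf [NeZero k] (C : ℕ → Fin k → X) (σ : List X)
    (hserve : ∀ t (ht : t < σ.length), ∃ j, C (t + 1) j = σ[t]) :
    opt (C 0) σ ≤ ∑ t ∈ Finset.range σ.length, mdist (C t) (C (t + 1)) := by
  have h1 := policyCost_lazy (fun h => C h.length) σ (by
    intro h r hh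
    have h2 : h.length < σ.length := by
      have := hh.length_le
      simp only [List.length_append, List.length_singleton] at this
      omega
    obtain ⟨j, hj⟩ := hserve h.length h2
    refine ⟨j, ?_⟩
    simp only [List.length_append, List.length_singleton]
    rw [hj]
    have h3 := hh.getElem (i := h.length) (by simp)
    rw [← h3]
    simp)
  refine ((opt_le_serviceCost _ _ _).trans h1).trans (le_of_eq ?_)
  refine Finset.sum_congr rfl fun t ht => ?_
  have ht' : t < σ.length := Finset.mem_range.1 ht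
  simp only [List.length_take]
  rw [min_eq_left (by omega), min_eq_left (by (clear * - ht'; omega))]

end Vale.Agent.P304.Dyn
end
end

section

section

/-! # P304-Dyn-Z2: positions of an optimal offline service, and upper bounds for the optimum -/

open Finset

namespace Vale.Agent.P304.Dyn

open Vale.Agent.P304

variable {X : Type} [MetricSpace X] {k : ℕ}

theorem exists_opos [NeZero k] (s : Fin k → X) (σ : List X) :
    ∃ c : ℕ → Fin k → X, c 0 = s ∧ (∀ (t : ℕ) (ht : t < σ.length), ∃ j, c (t + 1) j = σ[t]) ∧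
      ∑ t ∈ range σ.length, ∑ j, dist (c t j) (c (t + 1) j) ≤ opt s σ := by
  classical
  induction σ generalizing s with
  | nil => exact ⟨fun _ => s, rfl, by simp only [List.length_nil, not_lt_zero, IsEmpty.forall_iff, implies_true], by simp [opt_nil]⟩
  | cons r σ ih =>
    obtain ⟨i, hi⟩ := exists_opt_cons s r σ
    obtain ⟨c, h0, h1, h2⟩ := ih (Function.update s i r)
    refine ⟨fun t => match t with
      | 0 => s
      | t + 1 => c t, rfl, ?_, ?_⟩
    · intro t ht
      cases t with
      | zero => exact ⟨i, by simp only [h0, Function.update_self, List.getElem_cons_zero]⟩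
      | succ t =>
        simp only [List.getElem_cons_succ]
        exact h1 t (by simpa only [List.length_cons, Order.lt_add_one_iff, Order.add_one_le_iff] using ht)
    · rw [List.length_cons, Finset.sum_range_succ', hi]
      simp only
      have h3 : ∑ j, dist (s j) (c 0 j) = dist (s i) r := by
        rw [h0, Finset.sum_eq_single i]
        · simp
        · intro j _ hj; simp only [Function.update_of_ne hj, dist_self]
        · simp only [mem_univ, not_true_eq_false, Function.update_self, dist_eq_zero, IsEmpty.forall_iff]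
      rw [h3]
      linarith only [h2]

theorem opt_le_config [NeZero k] (V0 : Fin k → X) (c : ℕ → Fin k → X) (l : List X)
    (h : ∀ (t : ℕ) (ht : t < l.length), ∃ j, c (t + 1) j = l[t]) :
    opt V0 l ≤ ∑ j, dist (V0 j) (c 0 j) +
      ∑ t ∈ range l.length, ∑ j, dist (c t j) (c (t + 1) j) := by
  have h1 := opt_le_conf c l h
  have h2 := opt_lab 1 l V0 (c 0)
  have h3 : ∑ t ∈ range l.length, mdist (c t) (c (t + 1))
      ≤ ∑ t ∈ range l.length, ∑ j, dist (c t j) (c (t + 1) j) :=
    Finset.sum_le_sum fun t _ => by simpa only [lab, Equiv.Perm.coe_one, id_eq] using mdist_le 1 (c t) (c (t + 1))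
  have h4 : lab 1 V0 (c 0) = ∑ j, dist (V0 j) (c 0 j) := by simp only [lab, Equiv.Perm.coe_one, id_eq]
  linarith only [h1, h2, h3, h4]

end Vale.Agent.P304.Dyn
end
end

section

section

/-!
# P304: real servers ride on tracks
-/

namespace Vale.Agent.P304.Dyn

variable {X : Type} [MetricSpace X] {k : ℕ}
variable {U ι : Type} [MetricSpace U]

/-- put server `j` on the track `i`; if the track is occupied, swap. -/
noncomputable def rideStep [DecidableEq ι] (e : Fin k → ι) (j : Fin k) (i : ι) : Fin k → ι :=
  open Classical in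
  if h : ∃ j', e j' = i then e ∘ Equiv.swap j (Classical.choose h) else Function.update e j i

theorem rideStep_self [DecidableEq ι] (e : Fin k → ι) (j : Fin k) (i : ι) :
    rideStep e j i j = i := by
  unfold rideStep
  split_ifs with h
  · simp only [Function.comp, Equiv.swap_apply_left]
    exact Classical.choose_spec h
  · simp

theorem rideStep_injective [DecidableEq ι] {e : Fin k → ι} (he : Function.Injective e)
    (j : Fin k) (i : ι) : Function.Injective (rideStep e j i) := by
  unfold rideStep
  split_ifs with h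
  · exact he.comp (Equiv.injective _)
  · push Not at h
    intro x y hxy
    by_cases hx : x = j <;> by_cases hy : y = j
    · rw [hx, hy]
    · subst hx
      rw [Function.update_self, Function.update_of_ne hy] at hxy
      exact absurd hxy.symm (h y)
    · subst hy
      rw [Function.update_self, Function.update_of_ne hx] at hxy
      exact absurd hxy (h x)
    · rw [Function.update_of_ne hx, Function.update_of_ne hy] at hxy
      exact he hxy

theorem rideStep_cost [DecidableEq ι] (e : Fin k → ι) (j : Fin k)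
    (i : ι) (loc : ι → X) (na : ι → U) (V : Fin k → U) {Λ : ℝ} (hΛ : 0 ≤ Λ)
    (hcmp : ∀ i', dist (loc i') (loc i) ≤ Λ * dist (na i') (na i)) :
    mdist (fun l => loc (e l)) (fun l => loc (rideStep e j i l))
      + Λ * ∑ l, dist (Function.update V j (na i) l) (na (rideStep e j i l))
      ≤ Λ * ∑ l, dist (V l) (na (e l)) + Λ * dist (V j) (na i) := by
  classical
  by_cases h : ∃ j', e j' = i
  · have hj' := Classical.choose_spec h
    have hst : rideStep e j i = e ∘ Equiv.swap j (Classical.choose h) := by
      unfold rideStep; rw [dif_pos h]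
    set j' := Classical.choose h with hj'd
    have h1 : mdist (fun l => loc (e l)) (fun l => loc (rideStep e j i l)) ≤ 0 := by
      refine (mdist_le (Equiv.swap j j') _ _).trans (le_of_eq ?_)
      unfold lab
      rw [hst]
      simp only [Function.comp_apply, dist_self, Finset.sum_const_zero]
    have h2 : ∑ l, dist (Function.update V j (na i) l) (na (rideStep e j i l))
        ≤ ∑ l, dist (V l) (na (e l)) + dist (V j) (na i) := by
      rw [hst]
      by_cases hjj : j' = j
      · rw [hjj] at hj'
        rw [hjj, Equiv.swap_self]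
        simp only [Function.comp, Equiv.refl_apply]
        rw [← Finset.add_sum_erase _ _ (Finset.mem_univ j),
          ← Finset.add_sum_erase Finset.univ (fun l => dist (V l) (na (e l))) (Finset.mem_univ j)]
        rw [Function.update_self, hj', dist_self]
        have h3 : ∑ l ∈ Finset.univ.erase j, dist (Function.update V j (na i) l) (na (e l))
            = ∑ l ∈ Finset.univ.erase j, dist (V l) (na (e l)) :=
          Finset.sum_congr rfl fun l hl => by
            rw [Function.update_of_ne (Finset.ne_of_mem_erase hl)]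
        rw [h3]
        have := dist_nonneg (x := V j) (y := na i)
        linarith only [this]
      · have hmem : j' ∈ Finset.univ.erase j := Finset.mem_erase.2 ⟨hjj, Finset.mem_univ _⟩
        rw [← Finset.add_sum_erase _ _ (Finset.mem_univ j),
          ← Finset.add_sum_erase Finset.univ (fun l => dist (V l) (na (e l))) (Finset.mem_univ j),
          ← Finset.add_sum_erase _ _ hmem,
          ← Finset.add_sum_erase (Finset.univ.erase j) (fun l => dist (V l) (na (e l))) hmem]
        have h3 : ∑ l ∈ (Finset.univ.erase j).erase j',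
              dist (Function.update V j (na i) l) (na ((e ∘ Equiv.swap j j') l))
            = ∑ l ∈ (Finset.univ.erase j).erase j', dist (V l) (na (e l)) :=
          Finset.sum_congr rfl fun l hl => by
            have hl1 : l ≠ j' := Finset.ne_of_mem_erase hl
            have hl2 : l ≠ j := Finset.ne_of_mem_erase (Finset.mem_of_mem_erase hl)
            rw [Function.update_of_ne hl2, Function.comp, Equiv.swap_apply_of_ne_of_ne hl2 hl1]
        rw [h3]
        simp only [Function.comp, Equiv.swap_apply_left, Equiv.swap_apply_right,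
          Function.update_self, Function.update_of_ne hjj, hj', dist_self]
        have h4 := dist_triangle (V j') (na i) (na (e j))
        have h5 := dist_triangle (na i) (V j) (na (e j))
        rw [dist_comm (na i) (V j)] at h5
        linarith only [h4, h5]
    have h6 := mul_le_mul_of_nonneg_left h2 hΛ
    (clear * - h1 h6; linarith)
  · have hst : rideStep e j i = Function.update e j i := by
      unfold rideStep; rw [dif_neg h]
    rw [hst]
    have h1 : mdist (fun l => loc (e l)) (fun l => loc (Function.update e j i l))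
        ≤ Λ * dist (na (e j)) (na i) := by
      refine (mdist_le 1 _ _).trans ?_
      unfold lab
      rw [Finset.sum_eq_single j]
      · simpa only [Equiv.Perm.coe_one, id_eq, Function.update_self] using hcmp (e j)
      · intro l _ hl
        simp only [Equiv.Perm.coe_one, id_eq, Function.update_of_ne hl, dist_self]
      · simp only [Finset.mem_univ, not_true_eq_false, Equiv.Perm.coe_one, id_eq, Function.update_self, dist_eq_zero, IsEmpty.forall_iff]
    have h2 : ∑ l, dist (Function.update V j (na i) l) (na (Function.update e j i l))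
        = ∑ l ∈ Finset.univ.erase j, dist (V l) (na (e l)) := by
      rw [← Finset.add_sum_erase _ _ (Finset.mem_univ j), Function.update_self,
        Function.update_self, dist_self, zero_add]
      exact Finset.sum_congr rfl fun l hl => by
        rw [Function.update_of_ne (Finset.ne_of_mem_erase hl),
          Function.update_of_ne (Finset.ne_of_mem_erase hl)]
    rw [h2, ← Finset.add_sum_erase Finset.univ (fun l => dist (V l) (na (e l)))
      (Finset.mem_univ j)]
    have h3 := dist_triangle (na (e j)) (V j) (na i)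
    rw [dist_comm (na (e j)) (V j)] at h3
    have h4 := mul_le_mul_of_nonneg_left h3 hΛ
    rw [mul_add] at h4
    rw [mul_add]
    linarith only [h1, h4]

/-- the sequence of virtual requests. -/
def bseq (b : List X → U) (σ : List X) : List U :=
  List.ofFn fun t : Fin σ.length => b (σ.take (t + 1))

omit [MetricSpace X] [MetricSpace U] in
theorem bseq_snoc (b : List X → U) (σ : List X) (r : X) :
    bseq b (σ ++ [r]) = bseq b σ ++ [b (σ ++ [r])] := by
  unfold bseq
  apply List.ext_getElem
  · simp only [List.length_append, List.length_cons, List.length_nil, zero_add, List.ofFn_succ, Fin.val_cast, Fin.coe_ofNat_eq_mod, Nat.zero_mod, Fin.val_succ, List.length_ofFn, Nat.add_left_cancel_iff]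
  · intro n h1 h2
    simp only [List.length_append, List.length_singleton, List.length_ofFn] at h1
    rw [List.getElem_ofFn]
    by_cases hn : n < σ.length
    · rw [List.getElem_append_left (by simpa using hn), List.getElem_ofFn]
      simp only
      rw [List.take_append_of_le_length (by omega)]
    · have : n = σ.length := by omega
      subst this
      rw [List.getElem_append_right (by simp)]
      have h3 : (σ ++ [r]).take (σ.length + 1) = σ ++ [r] := List.take_of_length_le (by simp)
      simp [h3]

omit [MetricSpace X] [MetricSpace U] in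
theorem bseq_length (b : List X → U) (σ : List X) : (bseq b σ).length = σ.length := by
  simp [bseq]

/-- the track of every server, as a function of the reversed history. -/
noncomputable def rideE [DecidableEq ι] (b : List X → U) (istar : List X → ι) (e₀ : Fin k → ι)
    (aU : List U → Fin k) : List X → Fin k → ι
  | [] => e₀
  | r :: h => rideStep (rideE b istar e₀ aU h) (aU (bseq b (r :: h).reverse))
      (istar (r :: h).reverse)

omit [MetricSpace X] [MetricSpace U] in
theorem rideE_injective [DecidableEq ι] (b : List X → U) (istar : List X → ι) {e₀ : Fin k → ι}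
    (he₀ : Function.Injective e₀) (aU : List U → Fin k) (h : List X) :
    Function.Injective (rideE b istar e₀ aU h) := by
  induction h with
  | nil => exact he₀
  | cons r h ih => exact rideStep_injective ih _ _

/-- **Riding lemma.** The dynamic part gives, as functions of the history: positions `loc` and
node representatives `na` of the tracks, the virtual request `b` and a track `istar` which stands
at the requested leaf.  Then any policy `aU` for the virtual requests gives a real policy whose
cost is bounded by the physical movement of the tracks, their movement in the virtual space and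
the cost of `aU`. -/
theorem rideM [NeZero k] [Fintype ι] (loc : List X → ι → X) (na : List X → ι → U)
    (b : List X → U) (istar : List X → ι) {Λ : ℝ} (hΛ : 0 ≤ Λ) (e₀ : Fin k → ι)
    (he₀ : Function.Injective e₀) (s : Fin k → X) (sU : Fin k → U) (aU : List U → Fin k) :
    ∃ a : List X → Fin k, ∀ σ : List X,
      (∀ h r, h ++ [r] <+: σ → loc (h ++ [r]) (istar (h ++ [r])) = r ∧
        na (h ++ [r]) (istar (h ++ [r])) = b (h ++ [r]) ∧
        ∀ i, dist (loc (h ++ [r]) i) r ≤ Λ * dist (na (h ++ [r]) i) (b (h ++ [r]))) →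
      policyCost s a σ ≤ mdist s (fun j => loc [] (e₀ j))
        + ∑ t ∈ Finset.range σ.length, ∑ i, dist (loc (σ.take t) i) (loc (σ.take (t + 1)) i)
        + Λ * ∑ t ∈ Finset.range σ.length, ∑ i, dist (na (σ.take t) i) (na (σ.take (t + 1)) i)
        + Λ * policyCost sU aU (bseq b σ)
        + Λ * ∑ j, dist (sU j) (na [] (e₀ j)) := by
  classical
  set E : List X → Fin k → ι := fun h => rideE b istar e₀ aU h.reverse with hE
  have hEinj : ∀ h, Function.Injective (E h) := fun h => rideE_injective b istar he₀ aU _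
  have hE0 : E [] = e₀ := rfl
  have hEs : ∀ h r, E (h ++ [r])
      = rideStep (E h) (aU (bseq b (h ++ [r]))) (istar (h ++ [r])) := by
    intro h r
    simp only [hE, List.reverse_append, List.reverse_cons, List.reverse_nil, List.nil_append, List.cons_append, rideE, List.reverse_reverse]
  set Cf : List X → Fin k → X := fun h l => loc h (E h l) with hCf
  set Ψ : List X → ℝ := fun h => ∑ l, dist (runPos aU [] sU (bseq b h) l) (na h (E h l)) with hΨ
  have hsum : ∀ (e : Fin k → ι), Function.Injective e → ∀ f : ι → ℝ, (∀ i, 0 ≤ f i) →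
      ∑ l, f (e l) ≤ ∑ i, f i := by
    intro e he f hf
    rw [← Finset.sum_image (s := Finset.univ) (g := e) (f := f) (fun x _ y _ h => he h)]
    exact Finset.sum_le_univ_sum_of_nonneg hf
  have key : ∀ σ : List X,
      (∀ h r, h ++ [r] <+: σ → loc (h ++ [r]) (istar (h ++ [r])) = r ∧
        na (h ++ [r]) (istar (h ++ [r])) = b (h ++ [r]) ∧
        ∀ i, dist (loc (h ++ [r]) i) r ≤ Λ * dist (na (h ++ [r]) i) (b (h ++ [r]))) →
      ∑ t ∈ Finset.range σ.length, mdist (Cf (σ.take t)) (Cf (σ.take (t + 1))) + Λ * Ψ σ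
      ≤ ∑ t ∈ Finset.range σ.length, ∑ i, dist (loc (σ.take t) i) (loc (σ.take (t + 1)) i)
        + Λ * ∑ t ∈ Finset.range σ.length, ∑ i, dist (na (σ.take t) i) (na (σ.take (t + 1)) i)
        + Λ * runCost aU [] sU (bseq b σ) + Λ * Ψ [] := by
    intro σ
    induction σ using List.reverseRecOn with
    | nil => intro _; simp only [List.length_nil, Finset.range_zero, List.take_nil, Finset.sum_const, Finset.card_empty, zero_nsmul, zero_add, dist_self, Finset.sum_const_zero, mul_zero, add_zero, bseq, List.ofFn_zero, runCost, Std.le_refl]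
    | append_singleton σ r ih =>
      intro hs
      have ih := ih fun h r' hh => hs h r' (hh.trans (List.prefix_append _ _))
      obtain ⟨h1, h2, h3⟩ := hs σ r (List.prefix_refl _)
      rw [List.length_append, List.length_singleton, Finset.sum_range_succ,
        Finset.sum_range_succ, Finset.sum_range_succ]
      have htake : ∀ t ∈ Finset.range σ.length, (σ ++ [r]).take t = σ.take t ∧
          (σ ++ [r]).take (t + 1) = σ.take (t + 1) := by
        intro t ht
        have ht' : t < σ.length := Finset.mem_range.1 ht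
        exact ⟨List.take_append_of_le_length (by omega), List.take_append_of_le_length (by omega)⟩
      have e1 : ∑ t ∈ Finset.range σ.length,
          mdist (Cf ((σ ++ [r]).take t)) (Cf ((σ ++ [r]).take (t + 1)))
          = ∑ t ∈ Finset.range σ.length, mdist (Cf (σ.take t)) (Cf (σ.take (t + 1))) :=
        Finset.sum_congr rfl fun t ht => by rw [(htake t ht).1, (htake t ht).2]
      have e2 : ∑ t ∈ Finset.range σ.length, ∑ i,
          dist (loc ((σ ++ [r]).take t) i) (loc ((σ ++ [r]).take (t + 1)) i)
          = ∑ t ∈ Finset.range σ.length, ∑ i,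
            dist (loc (σ.take t) i) (loc (σ.take (t + 1)) i) :=
        Finset.sum_congr rfl fun t ht => by rw [(htake t ht).1, (htake t ht).2]
      have e3 : ∑ t ∈ Finset.range σ.length, ∑ i,
          dist (na ((σ ++ [r]).take t) i) (na ((σ ++ [r]).take (t + 1)) i)
          = ∑ t ∈ Finset.range σ.length, ∑ i,
            dist (na (σ.take t) i) (na (σ.take (t + 1)) i) :=
        Finset.sum_congr rfl fun t ht => by rw [(htake t ht).1, (htake t ht).2]
      have e4 : (σ ++ [r]).take σ.length = σ := by simp
      have e5 : (σ ++ [r]).take (σ.length + 1) = σ ++ [r] := by simp only [List.take_eq_self_iff, List.length_append, List.length_cons, List.length_nil, zero_add, Std.le_refl]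
      rw [e1, e2, e3, e4, e5]
      -- the virtual side
      set V := runPos aU [] sU (bseq b σ) with hV
      set j := aU (bseq b (σ ++ [r])) with hj
      have e6 : runCost aU [] sU (bseq b (σ ++ [r]))
          = runCost aU [] sU (bseq b σ) + dist (V j) (b (σ ++ [r])) := by
        rw [bseq_snoc, runCost_append, ← hV]
        simp only [List.nil_append, runCost, add_zero]
        rw [← bseq_snoc, ← hj]
      have e7 : runPos aU [] sU (bseq b (σ ++ [r])) = Function.update V j (b (σ ++ [r])) := by
        rw [bseq_snoc, runPos_append, ← hV]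
        simp only [runPos, List.nil_append]
        rw [← bseq_snoc, ← hj]
      -- tracks move
      have m1 : mdist (Cf σ) (fun l => loc (σ ++ [r]) (E σ l))
          ≤ ∑ i, dist (loc σ i) (loc (σ ++ [r]) i) := by
        refine (mdist_le 1 _ _).trans ?_
        unfold lab
        simp only [hCf, Equiv.Perm.coe_one, id]
        exact hsum (E σ) (hEinj σ) (fun i => dist (loc σ i) (loc (σ ++ [r]) i))
          fun i => dist_nonneg
      have m2 : ∑ l, dist (V l) (na (σ ++ [r]) (E σ l))
          ≤ Ψ σ + ∑ i, dist (na σ i) (na (σ ++ [r]) i) := by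
        have := hsum (E σ) (hEinj σ) (fun i => dist (na σ i) (na (σ ++ [r]) i))
          fun i => dist_nonneg
        have h4 : ∑ l, dist (V l) (na (σ ++ [r]) (E σ l))
            ≤ ∑ l, (dist (V l) (na σ (E σ l)) + dist (na σ (E σ l)) (na (σ ++ [r]) (E σ l))) :=
          Finset.sum_le_sum fun l _ => dist_triangle _ _ _
        rw [Finset.sum_add_distrib] at h4
        linarith only [this, h4]
      -- the ride step
      have m3 := rideStep_cost (E σ) j (istar (σ ++ [r])) (loc (σ ++ [r])) (na (σ ++ [r])) V hΛ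
        (by rw [h1, h2]; exact h3)
      rw [← hEs, h2] at m3
      have m4 : mdist (Cf σ) (Cf (σ ++ [r]))
          ≤ mdist (Cf σ) (fun l => loc (σ ++ [r]) (E σ l))
            + mdist (fun l => loc (σ ++ [r]) (E σ l)) (fun l => loc (σ ++ [r]) (E (σ ++ [r]) l)) :=
        mdist_triangle _ _ _
      have m5 : Ψ (σ ++ [r]) = ∑ l, dist (Function.update V j (b (σ ++ [r])) l)
          (na (σ ++ [r]) (E (σ ++ [r]) l)) := by
        simp only [hΨ, e7]
      rw [m5, e6]
      have m6 := mul_le_mul_of_nonneg_left m2 hΛ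
      rw [mul_add] at m6
      simp only [mul_add]
      linarith only [ih, m1, m3, m4, m6]
  -- change of the start
  obtain ⟨π, hπ⟩ := exists_mdist s (fun j => loc [] (e₀ j))
  refine ⟨fun h => π (lazyPol Cf h), fun σ hs => ?_⟩
  have h1 := sim π (lazyPol Cf) (fun h => π (lazyPol Cf h)) [] (fun h => rfl) σ [] s
    (fun j => loc [] (e₀ j))
  have h2 := lab_nonneg π (runPos (fun h => π (lazyPol Cf h)) [] s σ)
    (runPos (lazyPol Cf) ([] ++ []) (fun j => loc [] (e₀ j)) σ)
  have h3 := policyCost_lazy Cf σ (by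
    intro h r hh
    refine ⟨aU (bseq b (h ++ [r])), ?_⟩
    simp only [hCf, hEs, rideStep_self]
    exact (hs h r hh).1)
  have h4 := key σ hs
  have h5 : 0 ≤ Λ * Ψ σ := mul_nonneg hΛ (Finset.sum_nonneg fun l _ => dist_nonneg)
  rw [policyCost_eq] at h3
  rw [policyCost_eq, policyCost_eq]
  have h6 : Cf [] = fun j => loc [] (e₀ j) := rfl
  rw [h6] at h3
  have h7 : Ψ [] = ∑ j, dist (sU j) (na [] (e₀ j)) := rfl
  rw [h7] at h4
  rw [List.append_nil] at h1 h2
  (clear hΛ he₀ hE hEinj hE0 hEs hCf hΨ hsum key hs h6 h7; linarith)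

end Vale.Agent.P304.Dyn
end
end

section

section

/-! # P304-Dyn: a real step is composed of many small substeps (abstract form) -/

set_option linter.all false

open Finset

namespace Vale.Agent.P304.Dyn

/-- Composition: one info step and `N` substeps with the plan `q / N`. `tc` = expected movement of the
tracks, `ac` = expected distance of addresses. -/
theorem compose_steps {X S : Type} [Fintype X] (d : X → X → ℝ) {k Ck C1 del α0 : ℝ}
    (Inv : (X → ℝ) → S → Prop) (psi : S → X → ℝ) (cc : S → ℝ) (tc : S → S → ℝ)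
    (tc_tri : ∀ a b c, tc a c ≤ tc a b + tc b c)
    (ac : S → X → S → X → ℝ)
    (ac_tri : ∀ a x b y c z, ac a x c z ≤ ac a x b y + ac b y c z)
    (info : ∀ p s, Inv p s → ∀ p' : X → ℝ, (∀ x, 0 ≤ p' x) → ∑ x, p' x = k →
      ∃ s', Inv p' s' ∧ tc s s' + ∑ x, p' x * ac s x s' x + (∑ x, p' x * psi s' x + cc s') ≤
        ∑ x, p' x * psi s x + cc s)
    (sub : ∀ p s, Inv p s → ∀ a : X → X → ℝ, (∀ u v, 0 ≤ a u v) → (∀ u, ∑ v, a u v ≤ p u) →
      ∑ u, ∑ v, a u v ≤ α0 →
      ∃ s', Inv (fun y => p y + ∑ u, a u y - ∑ v, a y v) s' ∧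
        tc s s' + (∑ u, (p u - ∑ v, a u v) * ac s u s' u + ∑ u, ∑ v, a u v * ac s u s' v) +
          (∑ y, (p y + ∑ u, a u y - ∑ v, a y v) * psi s' y + cc s') ≤
        ∑ x, p x * psi s x + cc s + Ck * ∑ u, ∑ v, a u v * d u v +
          (C1 * (∑ u, ∑ v, a u v) ^ 2 + del))
    {N : ℕ} (hN : 0 < N) (hNα : k / N ≤ α0) {p : X → ℝ} {s : S} (hs : Inv p s)
    {q : X → X → ℝ} (hq : ∀ x y, 0 ≤ q x y) (hqk : ∑ x, ∑ y, q x y = k) :
    ∃ s', Inv (fun y => ∑ x, q x y) s' ∧
      tc s s' + ∑ x, ∑ y, q x y * ac s x s' y + (∑ y, (∑ x, q x y) * psi s' y + cc s') ≤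
        ∑ x, (∑ y, q x y) * psi s x + cc s + Ck * ∑ x, ∑ y, q x y * d x y +
          (C1 * k ^ 2 / N + N * del) := by
  have hN0 : (0 : ℝ) < N := by exact_mod_cast hN
  -- the intermediate masses
  set P : ℕ → X → ℝ := fun i u => (1 - i / N) * (∑ y, q u y) + (i / N) * ∑ x, q x u with hP
  have hind : ∀ i : ℕ, i ≤ N → ∃ s', Inv (P i) s' ∧
      tc s s' + ∑ x, ∑ y, q x y * ((1 - i / N) * ac s x s' x + (i / N) * ac s x s' y) +
        (∑ x, P i x * psi s' x + cc s') ≤
      ∑ x, (∑ y, q x y) * psi s x + cc s + (i / N) * (Ck * ∑ x, ∑ y, q x y * d x y) +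
        i * (C1 * (k / N) ^ 2 + del) := by
    intro i
    induction i with
    | zero =>
      intro _
      obtain ⟨s', h1, h2⟩ := info p s hs (fun x => ∑ y, q x y)
        (fun x => sum_nonneg fun y _ => hq x y) hqk
      have hP0 : P 0 = fun x => ∑ y, q x y := by
        funext u
        simp only [hP, CharP.cast_eq_zero, zero_div, sub_zero, one_mul, zero_mul, add_zero]
      refine ⟨s', by rw [hP0]; exact h1, ?_⟩
      rw [hP0]
      have h3 : ∑ x, ∑ y, q x y * ((1 - ((0 : ℕ) : ℝ) / N) * ac s x s' x +
          (((0 : ℕ) : ℝ) / N) * ac s x s' y) = ∑ x, (∑ y, q x y) * ac s x s' x := by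
        refine sum_congr rfl fun x _ => ?_
        rw [sum_mul]
        refine sum_congr rfl fun y _ => ?_
        simp only [CharP.cast_eq_zero, zero_div, sub_zero, one_mul, zero_mul, add_zero]
      rw [h3]
      simp only [CharP.cast_eq_zero, zero_div, zero_mul, add_zero]
      exact h2
    | succ i ih =>
      intro hi
      obtain ⟨s1, h1, h2⟩ := ih (by omega)
      set a : X → X → ℝ := fun u v => q u v / N with ha
      have hrow : ∀ u, ∑ v, a u v = (∑ v, q u v) / N := fun u => by
        simp only [ha]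
        rw [sum_div]
      have hcol : ∀ u, ∑ v, a v u = (∑ v, q v u) / N := fun u => by
        simp only [ha]
        rw [sum_div]
      have htot : ∑ u, ∑ v, a u v = k / N := by
        simp_rw [hrow]
        rw [← sum_div, hqk]
      have hi1 : ((i : ℝ) + 1) / N ≤ 1 := by
        rw [div_le_one hN0]
        exact_mod_cast hi
      have hi0 : (0 : ℝ) ≤ i / N := by (clear * - hN; positivity)
      obtain ⟨s', h3, h4⟩ := sub (P i) s1 h1 a (fun u v => div_nonneg (hq u v) hN0.le)
        (fun u => by
          rw [hrow]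
          simp only [hP]
          have h5 : 0 ≤ ∑ v, q u v := sum_nonneg fun v _ => hq u v
          have h6 : 0 ≤ ∑ v, q v u := sum_nonneg fun v _ => hq v u
          have h7 : 1 / (N : ℝ) ≤ 1 - i / N := by
            rw [add_div] at hi1
            linarith only [hi1]
          have h8 := mul_le_mul_of_nonneg_right h7 h5
          have h9 : 0 ≤ (i / N : ℝ) * ∑ x, q x u := mul_nonneg hi0 h6
          rw [div_eq_inv_mul, ← one_div]
          linarith only [h8, h9])
        (by rw [htot]; exact hNα)
      have hpush : (fun y => P i y + ∑ u, a u y - ∑ v, a y v) = P (i + 1) := by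
        funext y
        rw [hrow, hcol]
        simp only [hP]
        push_cast
        ring
      have hpush' : ∀ y, P i y + ∑ u, a u y - ∑ v, a y v = P (i + 1) y := fun y =>
        congrFun hpush y
      rw [hpush] at h3
      simp only [hpush'] at h4
      refine ⟨s', h3, ?_⟩
      rw [htot] at h4
      have htc := tc_tri s s1 s'
      have had : ∑ u, ∑ v, a u v * d u v = (1 / N) * ∑ x, ∑ y, q x y * d x y := by
        rw [mul_sum]
        refine sum_congr rfl fun x _ => ?_
        rw [mul_sum]
        refine sum_congr rfl fun y _ => ?_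
        simp only [ha]
        ring
      rw [had] at h4
      -- the address costs
      have hG : ∑ x, ∑ y, q x y * ((1 - ((i + 1 : ℕ) : ℝ) / N) * ac s x s' x +
            (((i + 1 : ℕ) : ℝ) / N) * ac s x s' y) ≤
          ∑ x, ∑ y, q x y * ((1 - i / N) * ac s x s1 x + (i / N) * ac s x s1 y) +
          (∑ u, (P i u - ∑ v, a u v) * ac s1 u s' u + ∑ u, ∑ v, a u v * ac s1 u s' v) := by
        have e1 : ∑ u, (P i u - ∑ v, a u v) * ac s1 u s' u =
            ∑ x, ∑ y, q x y * ((1 - ((i + 1 : ℕ) : ℝ) / N) * ac s1 x s' x +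
              (i / N) * ac s1 y s' y) := by
          have e2 : ∀ u, (P i u - ∑ v, a u v) * ac s1 u s' u =
              ∑ y, q u y * ((1 - ((i + 1 : ℕ) : ℝ) / N) * ac s1 u s' u) +
              ∑ y, q y u * ((i / N) * ac s1 u s' u) := by
            intro u
            rw [hrow, ← sum_mul, ← sum_mul]
            simp only [hP]
            push_cast
            ring
          simp_rw [e2, mul_add, sum_add_distrib]
          congr 1
          rw [sum_comm]
        rw [e1, ← sum_add_distrib, ← sum_add_distrib]
        refine sum_le_sum fun x _ => ?_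
        rw [← sum_add_distrib, ← sum_add_distrib]
        refine sum_le_sum fun y _ => ?_
        have t1 := ac_tri s x s1 x s' x
        have t2 := ac_tri s x s1 y s' y
        have t3 := ac_tri s x s1 x s' y
        have c1 : 0 ≤ 1 - ((i + 1 : ℕ) : ℝ) / N := by
          push_cast
          linarith only [hi1]
        have c3 : (0 : ℝ) ≤ 1 / N := by positivity
        have m1 := mul_le_mul_of_nonneg_left t1 c1
        have m2 := mul_le_mul_of_nonneg_left t2 hi0
        have m3 := mul_le_mul_of_nonneg_left t3 c3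
        have hsum : (1 - ((i + 1 : ℕ) : ℝ) / N) * ac s x s' x +
            (((i + 1 : ℕ) : ℝ) / N) * ac s x s' y ≤
            ((1 - i / N) * ac s x s1 x + (i / N) * ac s x s1 y) +
            (((1 - ((i + 1 : ℕ) : ℝ) / N) * ac s1 x s' x + (i / N) * ac s1 y s' y) +
              1 / N * ac s1 x s' y) := by
          have k1 : ((i + 1 : ℕ) : ℝ) / N = i / N + 1 / N := by
            push_cast
            ring
          rw [k1] at m1 ⊢
          nlinarith only [m1, m2, m3]
        have hm := mul_le_mul_of_nonneg_left hsum (hq x y)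
        have hfin : q x y * (((1 - i / N) * ac s x s1 x + (i / N) * ac s x s1 y) +
            (((1 - ((i + 1 : ℕ) : ℝ) / N) * ac s1 x s' x + (i / N) * ac s1 y s' y) +
              1 / N * ac s1 x s' y)) =
            q x y * ((1 - i / N) * ac s x s1 x + (i / N) * ac s x s1 y) +
            (q x y * ((1 - ((i + 1 : ℕ) : ℝ) / N) * ac s1 x s' x + (i / N) * ac s1 y s' y) +
              a x y * ac s1 x s' y) := by
          simp only [ha]
          ring
        rw [hfin] at hm
        exact hm
      have hi2 : ((i + 1 : ℕ) : ℝ) / N = i / N + 1 / N := by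
        push_cast
        ring
      have hrhs : ((i + 1 : ℕ) : ℝ) / N * (Ck * ∑ x, ∑ y, q x y * d x y) =
          i / N * (Ck * ∑ x, ∑ y, q x y * d x y) +
            Ck * (1 / N * ∑ x, ∑ y, q x y * d x y) := by
        rw [hi2]
        ring
      have hrhs2 : ((i + 1 : ℕ) : ℝ) * (C1 * (k / N) ^ 2 + del) =
          i * (C1 * (k / N) ^ 2 + del) + (C1 * (k / N) ^ 2 + del) := by
        push_cast
        ring
      rw [hrhs, hrhs2]
      linarith only [h2, h4, htc, hG]
  obtain ⟨s', h1, h2⟩ := hind N le_rfl
  have hNN : (N : ℝ) / N = 1 := div_self hN0.ne'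
  have hPN : P N = fun y => ∑ x, q x y := by
    funext u
    simp only [hP]
    rw [hNN]
    ring
  rw [hPN] at h1 h2
  refine ⟨s', h1, ?_⟩
  have h3 : ∑ x, ∑ y, q x y * ((1 - (N : ℝ) / N) * ac s x s' x + ((N : ℝ) / N) * ac s x s' y) =
      ∑ x, ∑ y, q x y * ac s x s' y := by
    refine sum_congr rfl fun x _ => sum_congr rfl fun y _ => ?_
    rw [hNN]
    ring
  rw [h3, hNN, one_mul] at h2
  have h4 : (N : ℝ) * (C1 * (k / N) ^ 2 + del) = C1 * k ^ 2 / N + N * del := by
    (clear * - hN; field_simp)
  rw [h4] at h2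
  exact h2

end Vale.Agent.P304.Dyn
end
end

section

section

/-! # P304-Dyn: the interface between the metric part and the game part, with the weight `La` for the
movement of the addresses

An engine for the finite metric space `X` with error `ε`: a set `S` of states; in the state `s` and for
the random seed `ω : Ω` (uniform on a finite set) the `M` tracks are at the physical places
`loc s ω i` and at the virtual places `na s ω i` (in the ultrametric space `Addr n W`), and every
location `x` has the virtual address `ad s ω x`. `Inv p s`: the state `s` is balanced with respect to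
the mass distribution `p` (total mass `k`) of the hidden servers. Potential
`∑ x, p x * psi s x + cc s`, linear in `p`. -/

set_option linter.all false

open Finset
open scoped NNReal

namespace Vale.Agent.P304.Dyn

open Vale.Agent.P304

/-- The interface. -/
structure EngL (X : Type) [MetricSpace X] [Fintype X] (k n : ℕ) (W : Fin n → {x : ℝ≥0 // 0 < x})
    (p0 : X → ℝ) (Cg La Ck B ε : ℝ) : Type 1 where
  M : ℕ
  kM : k ≤ M
  Ω : Type
  fin : Fintype Ω
  ne : Nonempty Ω
  S : Type
  loc : S → Ω → Fin M → X
  na : S → Ω → Fin M → Addr n W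
  ad : S → Ω → X → Addr n W
  psi : S → X → ℝ
  cc : S → ℝ
  Inv : (X → ℝ) → S → Prop
  s0 : S
  inv0 : Inv p0 s0
  pot0 : ∑ x, p0 x * psi s0 x + cc s0 ≤ B
  psi_nonneg : ∀ p s, Inv p s → ∀ x, 0 ≤ psi s x
  cc_nonneg : ∀ p s, Inv p s → 0 ≤ cc s
  cover : ∀ p s, Inv p s → ∀ u, 1 ≤ p u → ∀ ω, ∃ i, loc s ω i = u ∧ na s ω i = ad s ω u
  geom : ∀ p s, Inv p s → ∀ u, 1 ≤ p u → ∀ ω i,
    dist (loc s ω i) u ≤ Cg * dist (na s ω i) (ad s ω u)
  step : ∀ p s, Inv p s → ∀ q : X → X → ℝ, (∀ x y, 0 ≤ q x y) → ∑ x, ∑ y, q x y = k →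
    ∃ s', Inv (fun y => ∑ x, q x y) s' ∧
      (∑ ω, (∑ i, dist (loc s ω i) (loc s' ω i) + ∑ i, dist (na s ω i) (na s' ω i) +
        La * ∑ x, ∑ y, q x y * dist (ad s ω x) (ad s' ω y))) / (Fintype.card Ω : ℝ) +
        (∑ y, (∑ x, q x y) * psi s' y + cc s') ≤
      (∑ x, (∑ y, q x y) * psi s x + cc s) + Ck * ∑ x, ∑ y, q x y * dist x y + ε

attribute [instance] EngL.fin EngL.ne

end Vale.Agent.P304.Dyn
end
end

section

section

/-! # P304-Dyn: state process for the weighted engine (copy of Process/States/Cost with the weight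
`La`) -/

set_option linter.all false

open Finset
open scoped NNReal

namespace Vale.Agent.P304.Dyn

open Vale.Agent.P304

variable {X : Type} {k : ℕ}

variable [MetricSpace X] [Fintype X] {n : ℕ} {W : Fin n → {x : ℝ≥0 // 0 < x}}
  {Cg La Ck B ε : ℝ} {s : Fin k → X}

/-- the cost of one step, averaged over the random seed. -/
noncomputable def stepCostL {p0 : X → ℝ} (E : EngL X k n W p0 Cg La Ck B ε) (a a' : E.S)
    (q : X → X → ℝ) : ℝ :=
  (∑ ω, (∑ i, dist (E.loc a ω i) (E.loc a' ω i) + ∑ i, dist (E.na a ω i) (E.na a' ω i) +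
        La * ∑ x, ∑ y, q x y * dist (E.ad a ω x) (E.ad a' ω y))) / (Fintype.card E.Ω : ℝ)

theorem exists_statesL (E : EngL X k n W (oc s) Cg La Ck B ε) {F : Finset (List X)}
    {w : List X → ℝ} (hw : ∀ σ ∈ F, 0 ≤ w σ) {c : List X → ℕ → Fin k → X}
    (hc0 : ∀ σ ∈ F, c σ 0 = s) :
    ∃ st : List X → E.S, st [] = E.s0 ∧
      (∀ h, 0 < wt F w h → E.Inv (pp F w c h) (st h)) ∧
      ∀ h r, 0 < wt F w (h ++ [r]) →
        stepCostL E (st h) (st (h ++ [r])) (plan F w c (h ++ [r])) +
          (∑ y, pp F w c (h ++ [r]) y * E.psi (st (h ++ [r])) y + E.cc (st (h ++ [r]))) ≤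
        (∑ x, (∑ y, plan F w c (h ++ [r]) x y) * E.psi (st h) x + E.cc (st h)) +
          Ck * ∑ x, ∑ y, plan F w c (h ++ [r]) x y * dist x y + ε := by
  classical
  have key : ∀ (h : List X) (r : X) (a : E.S), ∃ a' : E.S, 0 < wt F w (h ++ [r]) →
      E.Inv (pp F w c h) a → E.Inv (pp F w c (h ++ [r])) a' ∧
        stepCostL E a a' (plan F w c (h ++ [r])) +
          (∑ y, pp F w c (h ++ [r]) y * E.psi a' y + E.cc a') ≤
        (∑ x, (∑ y, plan F w c (h ++ [r]) x y) * E.psi a x + E.cc a) +
          Ck * ∑ x, ∑ y, plan F w c (h ++ [r]) x y * dist x y + ε := by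
    intro h r a
    by_cases h1 : 0 < wt F w (h ++ [r])
    · by_cases h2 : E.Inv (pp F w c h) a
      · obtain ⟨a', h3, h4⟩ := E.step (pp F w c h) a h2 (plan F w c (h ++ [r]))
          (fun x y => plan_nonneg hw h1 x y) (sum_plan h1)
        refine ⟨a', fun _ _ => ?_⟩
        have h5 : (fun y => ∑ x, plan F w c (h ++ [r]) x y) = pp F w c (h ++ [r]) := by
          funext y
          exact sum_plan_left y
        rw [h5] at h3
        refine ⟨h3, ?_⟩
        have h6 : ∀ y, ∑ x, plan F w c (h ++ [r]) x y = pp F w c (h ++ [r]) y :=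
          fun y => sum_plan_left y
        simp only [h6] at h4
        exact h4
      · exact ⟨a, fun _ h3 => absurd h3 h2⟩
    · exact ⟨a, fun h3 => absurd h3 h1⟩
  choose f hf using key
  obtain ⟨st, hst0, hst⟩ : ∃ st : List X → E.S, st [] = E.s0 ∧
      ∀ h r, st (h ++ [r]) = f h r (st h) :=
    ⟨fun h => stRev E.s0 f h.reverse, by simp [stRev], fun h r => by simp [stRev]⟩
  have inv : ∀ h, 0 < wt F w h → E.Inv (pp F w c h) (st h) := by
    intro h
    induction h using List.reverseRecOn with
    | nil =>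
      intro hh
      have h1 : pp F w c [] = oc s := by
        funext y
        unfold pp
        rw [← ce_const (w := w) hh (oc s y)]
        refine ce_congr fun σ hσ _ => ?_
        simp only [List.length_nil]
        rw [hc0 σ hσ]
      rw [h1, hst0]
      exact E.inv0
    | append_singleton h r ih =>
      intro hh
      have h1 : 0 < wt F w h := lt_of_lt_of_le hh (wt_le_of_prefix hw (List.prefix_append _ _))
      rw [hst]
      exact (hf h r (st h) hh (ih h1)).1
  refine ⟨st, hst0, inv, fun h r hh => ?_⟩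
  have h1 : 0 < wt F w h := lt_of_lt_of_le hh (wt_le_of_prefix hw (List.prefix_append _ _))
  rw [hst]
  exact (hf h r (st h) hh (inv h h1)).2

theorem expected_costL (E : EngL X k n W (oc s) Cg La Ck B ε) (hCk : 0 ≤ Ck) (hε : 0 ≤ ε)
    {F : Finset (List X)} {w : List X → ℝ} (hw : ∀ σ ∈ F, 0 ≤ w σ) (hw1 : ∑ σ ∈ F, w σ = 1)
    {c : List X → ℕ → Fin k → X} (hc0 : ∀ σ ∈ F, c σ 0 = s) {N : ℕ}
    (hN : ∀ σ ∈ F, σ.length ≤ N) {st : List X → E.S} (h0 : st [] = E.s0)
    (hInv : ∀ h, 0 < wt F w h → E.Inv (pp F w c h) (st h))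
    (hstep : ∀ h r, 0 < wt F w (h ++ [r]) →
        stepCostL E (st h) (st (h ++ [r])) (plan F w c (h ++ [r])) +
          (∑ y, pp F w c (h ++ [r]) y * E.psi (st (h ++ [r])) y + E.cc (st (h ++ [r]))) ≤
        (∑ x, (∑ y, plan F w c (h ++ [r]) x y) * E.psi (st h) x + E.cc (st h)) +
          Ck * ∑ x, ∑ y, plan F w c (h ++ [r]) x y * dist x y + ε) :
    ∑ σ ∈ F, w σ * ∑ t ∈ range σ.length,
      (∑ ω, (∑ i, dist (E.loc (st (σ.take t)) ω i) (E.loc (st (σ.take (t + 1))) ω i) +
        ∑ i, dist (E.na (st (σ.take t)) ω i) (E.na (st (σ.take (t + 1))) ω i) +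
        La * ∑ j, dist (E.ad (st (σ.take t)) ω (c σ t j))
          (E.ad (st (σ.take (t + 1))) ω (c σ (t + 1) j)))) / (Fintype.card E.Ω : ℝ) ≤
    B + Ck * ∑ σ ∈ F, w σ * ∑ t ∈ range σ.length, ∑ j, dist (c σ t j) (c σ (t + 1) j) +
      N * ε := by
  classical
  -- pathwise quantities
  set A : List X → ℕ → ℝ := fun σ t =>
    (∑ ω, (∑ i, dist (E.loc (st (σ.take t)) ω i) (E.loc (st (σ.take (t + 1))) ω i) +
        ∑ i, dist (E.na (st (σ.take t)) ω i) (E.na (st (σ.take (t + 1))) ω i) +
        La * ∑ j, dist (E.ad (st (σ.take t)) ω (c σ t j))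
          (E.ad (st (σ.take (t + 1))) ω (c σ (t + 1) j)))) / (Fintype.card E.Ω : ℝ) with hA
  set P : List X → ℕ → ℝ := fun σ t =>
    ∑ j, E.psi (st (σ.take t)) (c σ t j) + E.cc (st (σ.take t)) with hP
  set O : List X → ℕ → ℝ := fun σ t => ∑ j, dist (c σ t j) (c σ (t + 1) j) with hO
  -- one time
  have key : ∀ t, ∑ σ ∈ F with t + 1 ≤ σ.length, w σ * (A σ t + P σ (t + 1))
      ≤ ∑ σ ∈ F with t + 1 ≤ σ.length, w σ * (P σ t + Ck * O σ t + ε) := by
    intro t
    -- sum of the step inequalities
    have h1 : ∑ σ ∈ F with t + 1 ≤ σ.length, w σ *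
        (stepCostL E (st (σ.take t)) (st (σ.take (t + 1))) (plan F w c (σ.take (t + 1))) +
          (∑ y, pp F w c (σ.take (t + 1)) y * E.psi (st (σ.take (t + 1))) y
            + E.cc (st (σ.take (t + 1)))))
        ≤ ∑ σ ∈ F with t + 1 ≤ σ.length, w σ *
        ((∑ x, (∑ y, plan F w c (σ.take (t + 1)) x y) * E.psi (st (σ.take t)) x
            + E.cc (st (σ.take t))) +
          Ck * ∑ x, ∑ y, plan F w c (σ.take (t + 1)) x y * dist x y + ε) := by
      refine Finset.sum_le_sum fun σ hσ => ?_
      obtain ⟨hσF, hlen⟩ := Finset.mem_filter.1 hσ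
      rcases (hw σ hσF).lt_or_eq with hpos | hzero
      · have hlt : t < σ.length := hlen
        have e1 : σ.take (t + 1) = σ.take t ++ [σ[t]] := by
          rw [List.take_succ_eq_append_getElem hlt]
        have h2 := hstep (σ.take t) σ[t] (by
          rw [← e1]; exact wt_pos_of_mem hw hσF hpos (List.take_prefix _ _))
        rw [← e1] at h2
        exact mul_le_mul_of_nonneg_left h2 hpos.le
      · rw [← hzero]; simp only [zero_mul, Std.le_refl]
    -- conversion of the left side
    have h2 : ∑ σ ∈ F with t + 1 ≤ σ.length, w σ *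
        (stepCostL E (st (σ.take t)) (st (σ.take (t + 1))) (plan F w c (σ.take (t + 1))) +
          (∑ y, pp F w c (σ.take (t + 1)) y * E.psi (st (σ.take (t + 1))) y
            + E.cc (st (σ.take (t + 1)))))
        = ∑ σ ∈ F with t + 1 ≤ σ.length, w σ * (A σ t + P σ (t + 1)) := by
      have e1 := path_plan hw c t (fun h x y =>
        La * ((∑ ω, dist (E.ad (st (h.take t)) ω x) (E.ad (st h) ω y)) / (Fintype.card E.Ω : ℝ)))
      have e2 := path_pp hw c (t + 1) (fun h y => E.psi (st h) y)
      have e3 : ∀ σ ∈ F.filter (fun σ => t + 1 ≤ σ.length), (σ.take (t + 1)).take t = σ.take t := by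
        intro σ _
        rw [List.take_take]; congr 1; omega
      have e4 : ∀ σ ∈ F.filter (fun σ => t + 1 ≤ σ.length), w σ *
        (stepCostL E (st (σ.take t)) (st (σ.take (t + 1))) (plan F w c (σ.take (t + 1))) +
          (∑ y, pp F w c (σ.take (t + 1)) y * E.psi (st (σ.take (t + 1))) y
            + E.cc (st (σ.take (t + 1)))))
          = w σ * ((∑ ω, (∑ i, dist (E.loc (st (σ.take t)) ω i) (E.loc (st (σ.take (t + 1))) ω i) +
              ∑ i, dist (E.na (st (σ.take t)) ω i) (E.na (st (σ.take (t + 1))) ω i)))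
              / (Fintype.card E.Ω : ℝ) + E.cc (st (σ.take (t + 1))))
            + w σ * ∑ x, ∑ y, plan F w c (σ.take (t + 1)) x y *
              (La * ((∑ ω, dist (E.ad (st ((σ.take (t + 1)).take t)) ω x)
                (E.ad (st (σ.take (t + 1))) ω y)) / (Fintype.card E.Ω : ℝ)))
            + w σ * ∑ y, pp F w c (σ.take (t + 1)) y * E.psi (st (σ.take (t + 1))) y := by
        intro σ hσ
        rw [e3 σ hσ]
        unfold stepCostL
        have e5 : ∑ x, ∑ y, plan F w c (σ.take (t + 1)) x y *
              (La * ((∑ ω, dist (E.ad (st (σ.take t)) ω x) (E.ad (st (σ.take (t + 1))) ω y))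
                / (Fintype.card E.Ω : ℝ)))
            = La * ((∑ ω, ∑ x, ∑ y, plan F w c (σ.take (t + 1)) x y *
              dist (E.ad (st (σ.take t)) ω x) (E.ad (st (σ.take (t + 1))) ω y))
                / (Fintype.card E.Ω : ℝ)) := by
          have e7 : ∑ ω, ∑ x, ∑ y, plan F w c (σ.take (t + 1)) x y *
              dist (E.ad (st (σ.take t)) ω x) (E.ad (st (σ.take (t + 1))) ω y)
              = ∑ x, ∑ y, ∑ ω, plan F w c (σ.take (t + 1)) x y *
              dist (E.ad (st (σ.take t)) ω x) (E.ad (st (σ.take (t + 1))) ω y) := by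
            rw [Finset.sum_comm]
            exact Finset.sum_congr rfl fun x _ => Finset.sum_comm
          rw [e7, Finset.sum_div, Finset.mul_sum]
          refine Finset.sum_congr rfl fun x _ => ?_
          rw [Finset.sum_div, Finset.mul_sum]
          refine Finset.sum_congr rfl fun y _ => ?_
          rw [← Finset.mul_sum]
          ring
        rw [e5]
        simp only [sum_add_distrib, ← mul_sum, add_div]
        ring
      rw [Finset.sum_congr rfl e4, Finset.sum_add_distrib, Finset.sum_add_distrib, e1, e2,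
        ← Finset.sum_add_distrib, ← Finset.sum_add_distrib]
      refine Finset.sum_congr rfl fun σ hσ => ?_
      rw [e3 σ hσ]
      have e6 : ∑ j, La * ((∑ ω, dist (E.ad (st (σ.take t)) ω (c σ t j))
            (E.ad (st (σ.take (t + 1))) ω (c σ (t + 1) j))) / (Fintype.card E.Ω : ℝ))
          = La * ((∑ ω, ∑ j, dist (E.ad (st (σ.take t)) ω (c σ t j))
            (E.ad (st (σ.take (t + 1))) ω (c σ (t + 1) j))) / (Fintype.card E.Ω : ℝ)) := by
        rw [← Finset.mul_sum, ← Finset.sum_div, Finset.sum_comm]
      rw [e6]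
      simp only [hA, hP, Finset.sum_add_distrib, add_div, ← Finset.mul_sum]
      ring
    have h3 : ∑ σ ∈ F with t + 1 ≤ σ.length, w σ *
        ((∑ x, (∑ y, plan F w c (σ.take (t + 1)) x y) * E.psi (st (σ.take t)) x
            + E.cc (st (σ.take t))) +
          Ck * ∑ x, ∑ y, plan F w c (σ.take (t + 1)) x y * dist x y + ε)
        = ∑ σ ∈ F with t + 1 ≤ σ.length, w σ * (P σ t + Ck * O σ t + ε) := by
      have e1 := path_plan hw c t (fun h x _ => E.psi (st (h.take t)) x)
      have e2 := path_plan hw c t (fun _ x y => dist x y)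
      have e3 : ∀ σ ∈ F.filter (fun σ => t + 1 ≤ σ.length), (σ.take (t + 1)).take t = σ.take t := by
        intro σ _
        rw [List.take_take]; congr 1; omega
      have e4 : ∀ σ ∈ F.filter (fun σ => t + 1 ≤ σ.length), w σ *
        ((∑ x, (∑ y, plan F w c (σ.take (t + 1)) x y) * E.psi (st (σ.take t)) x
            + E.cc (st (σ.take t))) +
          Ck * ∑ x, ∑ y, plan F w c (σ.take (t + 1)) x y * dist x y + ε)
          = w σ * (E.cc (st (σ.take t)) + ε)
            + w σ * ∑ x, ∑ y, plan F w c (σ.take (t + 1)) x y *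
                E.psi (st ((σ.take (t + 1)).take t)) x
            + Ck * (w σ * ∑ x, ∑ y, plan F w c (σ.take (t + 1)) x y * dist x y) := by
        intro σ hσ
        rw [e3 σ hσ]
        simp only [sum_mul]
        ring
      rw [Finset.sum_congr rfl e4, Finset.sum_add_distrib, Finset.sum_add_distrib,
        ← Finset.mul_sum, e1, e2, Finset.mul_sum, ← Finset.sum_add_distrib,
        ← Finset.sum_add_distrib]
      refine Finset.sum_congr rfl fun σ hσ => ?_
      rw [e3 σ hσ]
      simp only [hP, hO]
      ring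
    rw [h2, h3] at h1
    exact h1
  -- sum over the times
  have hswap : ∀ f : List X → ℕ → ℝ, ∑ t ∈ range N, ∑ σ ∈ F with t + 1 ≤ σ.length, w σ * f σ t
      = ∑ σ ∈ F, w σ * ∑ t ∈ range σ.length, f σ t := by
    intro f
    simp only [sum_filter]
    rw [Finset.sum_comm]
    refine Finset.sum_congr rfl fun σ hσ => ?_
    rw [Finset.mul_sum, ← Finset.sum_filter]
    refine Finset.sum_congr ?_ fun _ _ => rfl
    ext t
    simp only [Finset.mem_filter, Finset.mem_range]
    have := hN σ hσ
    omega
  have h1 := Finset.sum_le_sum fun t (_ : t ∈ range N) => key t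
  rw [hswap, hswap] at h1
  -- telescoping
  have h2 : ∀ σ ∈ F, w σ * ∑ t ∈ range σ.length, A σ t
      ≤ w σ * (∑ t ∈ range σ.length, (A σ t + P σ (t + 1))
        - ∑ t ∈ range σ.length, P σ t + B) := by
    intro σ hσ
    rcases (hw σ hσ).lt_or_eq with hpos | hzero
    · refine mul_le_mul_of_nonneg_left ?_ hpos.le
      rw [Finset.sum_add_distrib]
      have h3 : ∑ t ∈ range σ.length, P σ (t + 1) - ∑ t ∈ range σ.length, P σ t
          = P σ σ.length - P σ 0 := by
        rw [← Finset.sum_sub_distrib, Finset.sum_range_sub]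
      have h4 : P σ 0 ≤ B := by
        have h5 := E.pot0
        simp only [hP, List.take_zero, h0, hc0 σ hσ]
        rwa [sum_oc] at h5
      have h5 : 0 ≤ P σ σ.length := by
        have hI := hInv σ (wt_pos_of_mem hw hσ hpos (List.prefix_refl _))
        simp only [hP, List.take_length]
        exact add_nonneg (Finset.sum_nonneg fun j _ => E.psi_nonneg _ _ hI _)
          (E.cc_nonneg _ _ hI)
      linarith only [h3, h4, h5]
    · rw [← hzero]; simp only [zero_mul, Std.le_refl]
  have h3 := Finset.sum_le_sum h2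
  have h4 : ∑ σ ∈ F, w σ * (∑ t ∈ range σ.length, (A σ t + P σ (t + 1))
        - ∑ t ∈ range σ.length, P σ t + B)
      = ∑ σ ∈ F, w σ * ∑ t ∈ range σ.length, (A σ t + P σ (t + 1))
        - ∑ σ ∈ F, w σ * ∑ t ∈ range σ.length, P σ t + B := by
    simp only [mul_add, mul_sub]
    rw [Finset.sum_add_distrib, Finset.sum_sub_distrib, ← Finset.sum_mul, hw1, one_mul]
  rw [h4] at h3
  have h5 : ∑ σ ∈ F, w σ * ∑ t ∈ range σ.length, (P σ t + Ck * O σ t + ε)
      ≤ ∑ σ ∈ F, w σ * ∑ t ∈ range σ.length, P σ t
        + Ck * ∑ σ ∈ F, w σ * ∑ t ∈ range σ.length, O σ t + N * ε := by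
    have h6 : ∀ σ ∈ F, w σ * ∑ t ∈ range σ.length, (P σ t + Ck * O σ t + ε)
        ≤ w σ * ∑ t ∈ range σ.length, P σ t
          + Ck * (w σ * ∑ t ∈ range σ.length, O σ t) + w σ * (N * ε) := by
      intro σ hσ
      rw [Finset.sum_add_distrib, Finset.sum_add_distrib, ← Finset.mul_sum, Finset.sum_const,
        Finset.card_range, nsmul_eq_mul]
      have h7 : (σ.length : ℝ) * ε ≤ N * ε :=
        mul_le_mul_of_nonneg_right (by exact_mod_cast hN σ hσ) hε
      have h8 := mul_le_mul_of_nonneg_left h7 (hw σ hσ)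
      nlinarith only [h8]
    refine (Finset.sum_le_sum h6).trans (le_of_eq ?_)
    rw [Finset.sum_add_distrib, Finset.sum_add_distrib, ← Finset.mul_sum, ← Finset.sum_mul, hw1,
      one_mul]
  linarith only [h1, h3, h5]

end Vale.Agent.P304.Dyn
end
end

section

section

/-!
# P304, dynamic ultrametric: one scale

All distances are already divided by the scale `r`, so `D` is a pseudometric given as a function
and the scale is `1`.  See notes P304 (helper982), sections 1-3.
-/

open Finset

namespace Vale.Agent.P304.Dyn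

/-- Huber function. -/
noncomputable def phi (t : ℝ) : ℝ := if t ≤ 1 then t ^ 2 / 2 else t - 1 / 2

/-- a pseudometric given as a function -/
structure PM {X : Type} (D : X → X → ℝ) : Prop where
  self : ∀ x, D x x = 0
  symm : ∀ x y, D x y = D y x
  tri : ∀ x y z, D x z ≤ D x y + D y z

/-- the floor (a constant; the unit of mass is one server) -/
noncomputable def e0 : ℝ := 1 / 20

variable {X : Type} [Fintype X]

/-- the kernel -/
noncomputable def kern (D : X → X → ℝ) (u c : X) : ℝ := Real.exp (-(phi (D u c)))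

/-- smoothed token mass -/
noncomputable def SS (D : X → X → ℝ) (ν : X → ℝ) (u : X) : ℝ := e0 + ∑ c, kern D u c * ν c

/-- column load -/
noncomputable def col (D : X → X → ℝ) (p ν : X → ℝ) (c : X) : ℝ :=
  ∑ u, p u * kern D u c / SS D ν u

/-- the functional `F(p, ν) = ν(X) - ∫ p log S` -/
noncomputable def FF (D : X → X → ℝ) (p ν : X → ℝ) : ℝ :=
  ∑ c, ν c - ∑ u, p u * Real.log (SS D ν u)

/-- responsibilities -/
noncomputable def QQ (D : X → X → ℝ) (ν : X → ℝ) (u c : X) : ℝ := kern D u c * ν c / SS D ν u

/-- two-user overlap -/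
noncomputable def TT (D : X → X → ℝ) (ν : X → ℝ) (u u' : X) : ℝ :=
  ∑ c, ν c * kern D u c * kern D u' c / (SS D ν u * SS D ν u')

/-- the growth quantity `g` -/
noncomputable def gg (D : X → X → ℝ) (p ν : X → ℝ) (u : X) : ℝ :=
  ∑ u', p u' * min 1 (D u u') * TT D ν u u'

/-- `(p, ν)` is balanced (near-stationarity of `F(p, ·)`) -/
structure Bal (D : X → X → ℝ) (p ν : X → ℝ) : Prop where
  hp : ∀ u, 0 ≤ p u
  hν : ∀ c, 0 ≤ ν c
  hi : ∀ c, col D p ν c ≤ 8 / 5
  lo : ∀ c, 0 < ν c → 2 / 5 ≤ col D p ν c

/-- the dragging factor: when mass moves `u → v`, the fraction of the responsibility of the token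
at `c` that is dragged to `v` -/
noncomputable def ff (D : X → X → ℝ) (u v c : X) : ℝ :=
  if 1 / 32 < D u v then 0 else if 3 < D u c then 0 else
    if D u c ≤ 64 * D u v then 1 else 64 * D u v / D u c

/-- label kernel with truncation `τ` -/
noncomputable def MM (τ : ℝ) (D : X → X → ℝ) (u c : X) : ℝ :=
  min 1 (max 0 (Real.exp 3 * kern D u c - τ))

/-- first order change of `F` when mass moves `u → v` and tokens are dragged -/
noncomputable def drift (D : X → X → ℝ) (p ν : X → ℝ) (u v : X) : ℝ :=
  Real.log (SS D ν u) - Real.log (SS D ν v) +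
    ∑ c, QQ D ν u c * ff D u v c * ∑ u', p u' * (kern D u' c - kern D u' v) / SS D ν u'

end Vale.Agent.P304.Dyn
end
end

section

section

/-! MinHash with a uniformly random order of a finite set. -/

open Finset

namespace Vale.Agent.P304.Dyn

/-- expectation with respect to the uniform distribution on a finite type -/
noncomputable def EE {Ω : Type} [Fintype Ω] (f : Ω → ℝ) : ℝ := (∑ ω, f ω) / Fintype.card Ω

/-- orders of `G` -/
abbrev Ord (G : Type) [Fintype G] : Type := G ≃ Fin (Fintype.card G)

/-- the first element of `A` in the order `π` -/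
noncomputable def mh {G : Type} [Fintype G] (π : Ord G) (A : Finset G) : Option G :=
  open Classical in if h : A.Nonempty then some (A.exists_min_image π h).choose else none

section EE

variable {Ω : Type} [Fintype Ω]

theorem EE_nonneg {f : Ω → ℝ} (h : ∀ ω, 0 ≤ f ω) : 0 ≤ EE f := by
  exact div_nonneg (Finset.sum_nonneg fun ω _ => h ω) (Nat.cast_nonneg _)

theorem EE_mono {f g : Ω → ℝ} (h : ∀ ω, f ω ≤ g ω) : EE f ≤ EE g := by
  exact div_le_div_of_nonneg_right (Finset.sum_le_sum fun ω _ => h ω) (Nat.cast_nonneg _)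

theorem EE_add (f g : Ω → ℝ) : EE (fun ω => f ω + g ω) = EE f + EE g := by
  simp only [EE, sum_add_distrib, add_div]

theorem EE_sub (f g : Ω → ℝ) : EE (fun ω => f ω - g ω) = EE f - EE g := by
  simp only [EE, sum_sub_distrib, sub_div]

theorem EE_mul (c : ℝ) (f : Ω → ℝ) : EE (fun ω => c * f ω) = c * EE f := by
  simp only [EE, ← Finset.mul_sum, mul_div_assoc]

theorem EE_sum {ι : Type} (s : Finset ι) (f : ι → Ω → ℝ) :
    EE (fun ω => ∑ i ∈ s, f i ω) = ∑ i ∈ s, EE (f i) := by
  simp only [EE]
  rw [Finset.sum_comm, Finset.sum_div]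

theorem EE_const [Nonempty Ω] (c : ℝ) : EE (fun _ : Ω => c) = c := by
  have h : (Fintype.card Ω : ℝ) ≠ 0 := by exact_mod_cast Fintype.card_ne_zero
  simp only [EE, Finset.sum_const, Finset.card_univ, nsmul_eq_mul]
  field_simp

theorem EE_le_of_le [Nonempty Ω] {f : Ω → ℝ} {c : ℝ} (h : ∀ ω, f ω ≤ c) : EE f ≤ c := by
  exact (EE_mono h).trans (le_of_eq (EE_const c))

end EE

variable {G : Type} [Fintype G]

instance : Nonempty (Ord G) := ⟨Fintype.equivFin G⟩

theorem mh_mem {π : Ord G} {A : Finset G} {g : G} (h : mh π A = some g) : g ∈ A := by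
  classical
  unfold mh at h
  split_ifs at h with hA
  have := (A.exists_min_image π hA).choose_spec.1
  rw [Option.some.injEq] at h
  rw [← h]
  exact this

theorem mh_eq_some_iff {π : Ord G} {A : Finset G} {g : G} :
    mh π A = some g ↔ g ∈ A ∧ ∀ g' ∈ A, π g ≤ π g' := by
  classical
  constructor
  · intro h
    refine ⟨mh_mem h, ?_⟩
    unfold mh at h
    split_ifs at h with hA
    have := (A.exists_min_image π hA).choose_spec.2
    rw [Option.some.injEq] at h
    rw [← h]
    exact this
  · rintro ⟨hg, hmin⟩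
    have hA : A.Nonempty := ⟨g, hg⟩
    unfold mh
    rw [dif_pos hA, Option.some.injEq]
    have h1 := (A.exists_min_image π hA).choose_spec
    exact π.injective (le_antisymm (h1.2 g hg) (hmin _ h1.1))

theorem exists_mh {π : Ord G} {A : Finset G} (h : A.Nonempty) : ∃ g ∈ A, mh π A = some g := by
  obtain ⟨g, hg, hmin⟩ := A.exists_min_image π h
  exact ⟨g, hg, mh_eq_some_iff.2 ⟨hg, hmin⟩⟩

open Classical in
theorem EE_mh_eq [DecidableEq G] {A : Finset G} {g g' : G} (hg : g ∈ A) (hg' : g' ∈ A) :
    EE (fun π : Ord G => if mh π A = some g then (1 : ℝ) else 0)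
      = EE (fun π : Ord G => if mh π A = some g' then (1 : ℝ) else 0) := by
  unfold EE
  congr 1
  let e : Ord G ≃ Ord G :=
    { toFun := fun π => (Equiv.swap g g').trans π
      invFun := fun π => (Equiv.swap g g').trans π
      left_inv := fun π => by ext x; simp only [Equiv.trans_apply, Equiv.swap_apply_self]
      right_inv := fun π => by ext x; simp }
  refine Fintype.sum_equiv e _ _ fun π => ?_
  have hiff : mh π A = some g ↔ mh (e π) A = some g' := by
    rw [mh_eq_some_iff, mh_eq_some_iff]
    have he : ∀ x, (e π) x = π (Equiv.swap g g' x) := fun x => rfl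
    have hsw : ∀ x ∈ A, Equiv.swap g g' x ∈ A := by
      intro x hx
      by_cases h1 : x = g
      · subst h1; rw [Equiv.swap_apply_left]; exact hg'
      by_cases h2 : x = g'
      · subst h2; rw [Equiv.swap_apply_right]; exact hg
      rw [Equiv.swap_apply_of_ne_of_ne h1 h2]; exact hx
    constructor
    · rintro ⟨_, hmin⟩
      refine ⟨hg', fun x hx => ?_⟩
      rw [he, he, Equiv.swap_apply_right]
      exact hmin _ (hsw x hx)
    · rintro ⟨_, hmin⟩
      refine ⟨hg, fun x hx => ?_⟩
      have h1 := hmin _ (hsw x hx)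
      rw [he, he, Equiv.swap_apply_right, Equiv.swap_apply_self] at h1
      exact h1
  by_cases h : mh π A = some g
  · rw [if_pos h, if_pos (hiff.1 h)]
  · rw [if_neg h, if_neg (fun h' => h (hiff.2 h'))]

open Classical in
theorem EE_mh_one [DecidableEq G] {A : Finset G} {g : G} (hg : g ∈ A) :
    EE (fun π : Ord G => if mh π A = some g then (1 : ℝ) else 0) = 1 / A.card := by
  have hA : A.Nonempty := ⟨g, hg⟩
  have hcard : (A.card : ℝ) ≠ 0 := by
    exact_mod_cast (Finset.card_pos.2 hA).ne'
  have h1 : ∑ g' ∈ A, EE (fun π : Ord G => if mh π A = some g' then (1 : ℝ) else 0) = 1 := by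
    rw [← EE_sum]
    have : (fun π : Ord G => ∑ g' ∈ A, (if mh π A = some g' then (1 : ℝ) else 0))
        = fun _ => 1 := by
      funext π
      obtain ⟨a, ha, hmh⟩ := exists_mh (π := π) hA
      rw [Finset.sum_eq_single_of_mem a ha]
      · rw [if_pos hmh]
      · intro b _ hb
        rw [if_neg]
        intro h
        rw [hmh, Option.some.injEq] at h
        exact hb h.symm
    rw [this, EE_const]
  rw [Finset.sum_congr rfl (fun g' hg' => EE_mh_eq hg' hg), Finset.sum_const, nsmul_eq_mul] at h1
  field_simp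
  linarith

/-- the first element of `A` lies in `B ⊆ A` with probability `|B| / |A|` -/
theorem EE_mh_mem [DecidableEq G] {A B : Finset G} (hA : A.Nonempty) (hB : B ⊆ A) :
    EE (fun π : Ord G => open Classical in if ∃ g ∈ B, mh π A = some g then (1 : ℝ) else 0)
      = (B.card : ℝ) / A.card := by
  classical
  have hcard : (A.card : ℝ) ≠ 0 := by
    exact_mod_cast (Finset.card_pos.2 hA).ne'
  have h1 : (fun π : Ord G => if ∃ g ∈ B, mh π A = some g then (1 : ℝ) else 0)
      = fun π => ∑ g ∈ B, (if mh π A = some g then (1 : ℝ) else 0) := by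
    funext π
    by_cases h : ∃ g ∈ B, mh π A = some g
    · rw [if_pos h]
      obtain ⟨a, ha, hmh⟩ := h
      rw [Finset.sum_eq_single_of_mem a ha]
      · rw [if_pos hmh]
      · intro b _ hb
        rw [if_neg]
        intro h
        rw [hmh, Option.some.injEq] at h
        exact hb h.symm
    · rw [if_neg h]
      symm
      apply Finset.sum_eq_zero
      intro g hg
      rw [if_neg]
      intro h'
      exact h ⟨g, hg, h'⟩
  have h2 : EE (fun π : Ord G => if ∃ g ∈ B, mh π A = some g then (1 : ℝ) else 0)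
      = (B.card : ℝ) / A.card := by
    rw [h1, EE_sum, Finset.sum_congr rfl (fun g hg => EE_mh_one (hB hg)), Finset.sum_const,
      nsmul_eq_mul]
    ring
  convert h2 using 4

/-- MinHash bound -/
theorem EE_mh_ne [DecidableEq G] {A A' : Finset G} (hA : (A ∪ A').Nonempty) :
    EE (fun π : Ord G => open Classical in if mh π A = mh π A' then (0 : ℝ) else 1)
      ≤ ((A \ A').card + (A' \ A).card : ℝ) / (A ∪ A').card := by
  classical
  have hsub : (A \ A') ∪ (A' \ A) ⊆ A ∪ A' := by
    intro x hx
    simp only [Finset.mem_union, Finset.mem_sdiff] at hx ⊢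
    tauto
  have h1 := EE_mh_mem hA hsub
  have hdisj : Disjoint (A \ A') (A' \ A) := by
    rw [Finset.disjoint_left]
    intro x hx hx'
    simp only [Finset.mem_sdiff] at hx hx'
    (clear * - hx hx'; tauto)
  have h2 : (((A \ A') ∪ (A' \ A)).card : ℝ) = (A \ A').card + (A' \ A).card := by
    rw [Finset.card_union_of_disjoint hdisj]
    push_cast
    rfl
  rw [h2] at h1
  rw [← h1]
  apply EE_mono
  intro π
  by_cases h : mh π A = mh π A'
  · rw [if_pos h]
    split_ifs <;> norm_num
  · rw [if_neg h]
    rw [if_pos]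
    obtain ⟨a, ha, hmh⟩ := exists_mh (π := π) hA
    by_contra hcon
    apply h
    have hmin := (mh_eq_some_iff.1 hmh).2
    have hin : a ∈ A ∧ a ∈ A' := by
      by_contra h3
      apply hcon
      refine ⟨a, ?_, hmh⟩
      simp only [Finset.mem_union, Finset.mem_sdiff] at ha ⊢
      (clear * - h3 ha; tauto)
    have e1 : mh π A = some a :=
      mh_eq_some_iff.2 ⟨hin.1, fun x hx => hmin x (Finset.mem_union_left _ hx)⟩
    have e2 : mh π A' = some a :=
      mh_eq_some_iff.2 ⟨hin.2, fun x hx => hmin x (Finset.mem_union_right _ hx)⟩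
    rw [e1, e2]

end Vale.Agent.P304.Dyn
end
end

section

section

/-!
# P304: micro-tokens and labels (section 3, blueprint (b),(c),(f))
-/

open Finset

namespace Vale.Agent.P304.Dyn

/-- configuration of micro-tokens: location and alive flag -/
abbrev Conf (X J : Type) : Type := J → X × Bool

variable {X J : Type} [Fintype X] [Fintype J] [DecidableEq X] [DecidableEq J]

/-- token measure of a configuration -/
noncomputable def nuC (η : ℝ) (x : Conf X J) (c : X) : ℝ :=
  η * ((univ.filter fun j => x j = (c, true)).card : ℝ)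

/-- admissible change in the proximal step: kill alive tokens (in place) or revive dead ones -/
def Adm (x x' : Conf X J) : Prop :=
  ∀ j, x' j = x j ∨ ((x j).2 = true ∧ x' j = ((x j).1, false)) ∨ ((x j).2 = false ∧ (x' j).2 = true)

/-- number of changed tokens -/
def chg (x x' : Conf X J) : ℕ := (univ.filter fun j => x' j ≠ x j).card

/-- parameters of the label sampling: `Q` slots per token of full weight, `Ne` slots of the null
label, `B` an upper bound for both. -/
structure LPar (η : ℝ) (k : ℝ) (J : Type) [Fintype J] where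
  Q : ℕ
  Ne : ℕ
  B : ℕ
  hQ : 1 ≤ Q
  hNe : e0 * Q ≤ η * Ne
  hNe' : η * Ne ≤ e0 * Q + η
  hB1 : Q ≤ B
  hB2 : Ne ≤ B
  hη : 0 < η
  hη1 : η * k ≤ e0 ^ 2 / 100
  hJ : η * Fintype.card J ≤ e0 / 40 * Q
  hJ2 : 6 * k + 1 ≤ η * Fintype.card J
  hk : 1 ≤ k

/-- truncation parameter -/
noncomputable def tau (k : ℝ) : ℝ := e0 / (100 * k)

/-- radius (in units of the scale) -/
noncomputable def RR (k : ℝ) : ℝ := 7 / 2 + Real.log (1 / tau k)

/-- number of slots of token `j` seen from `u` -/
noncomputable def slots (k : ℝ) (Q : ℕ) (D : X → X → ℝ) (x : Conf X J) (u : X) (j : J) : ℕ :=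
  if (x j).2 = true then ⌊(Q : ℝ) * MM (tau k) D u (x j).1⌋₊ else 0

/-- ground set of the random order, for `n` levels -/
abbrev GG (n : ℕ) (J : Type) (B : ℕ) : Type := Fin n × Option J × Fin B

/-- the set of slots seen from `u` at level `l` -/
noncomputable def AA {n B : ℕ} (k : ℝ) (Q Ne : ℕ) (D : X → X → ℝ) (l : Fin n) (x : Conf X J)
    (u : X) : Finset (GG n J B) :=
  open Classical in univ.filter fun g => g.1 = l ∧
    match g.2.1 with
    | some j => (g.2.2 : ℕ) < slots k Q D x u j
    | none => (g.2.2 : ℕ) < Ne - ∑ j, slots k Q D x u j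

/-- the label of `u` at level `l` -/
noncomputable def lab {n B : ℕ} (k : ℝ) (Q Ne : ℕ) (D : X → X → ℝ) (π : Ord (GG n J B))
    (l : Fin n) (x : Conf X J) (u : X) : Option J :=
  (mh π (AA k Q Ne D l x u)).bind fun g => g.2.1

end Vale.Agent.P304.Dyn
end
end

section

section

/-! K1: elementary facts on the Huber function, kernel, `S`, `T`, `g`. -/

open Finset

namespace Vale.Agent.P304.Dyn

theorem phi_nonneg {t : ℝ} (ht : 0 ≤ t) : 0 ≤ phi t := by
  unfold phi
  split_ifs with h
  · positivity
  · have := not_le.mp h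
    linarith only [h]

/-- increments of `phi` -/
theorem phi_incr {s t : ℝ} (hs : 0 ≤ s) (hst : s ≤ t) : phi t - phi s ≤ (t - s) * min 1 t := by
  have hts : 0 ≤ t - s := sub_nonneg.mpr hst
  unfold phi
  by_cases h1 : t ≤ 1
  · have h2 : s ≤ 1 := hst.trans h1
    rw [if_pos h1, if_pos h2, min_eq_right h1]
    have h3 : 0 ≤ (t - s) * (t - s) := mul_nonneg hts hts
    linarith only [h3]
  · have h1' : 1 < t := not_le.mp h1
    rw [if_neg h1, min_eq_left h1'.le]
    by_cases h2 : s ≤ 1
    · rw [if_pos h2]
      have h3 : 0 ≤ (s - 1) * (s - 1) := mul_self_nonneg (s - 1)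
      linarith only [h3]
    · rw [if_neg h2]
      linarith only []

theorem phi_mono {s t : ℝ} (hs : 0 ≤ s) (hst : s ≤ t) : phi s ≤ phi t := by
  unfold phi
  by_cases h1 : t ≤ 1
  · have h2 : s ≤ 1 := hst.trans h1
    rw [if_pos h1, if_pos h2]
    have h3 : 0 ≤ (t - s) * (t + s) := mul_nonneg (by linarith only [hst]) (by linarith only [hs, hst])
    linarith only [h3]
  · have h1' : 1 < t := not_le.mp h1
    rw [if_neg h1]
    by_cases h2 : s ≤ 1
    · rw [if_pos h2]
      have h3 : s * s ≤ 1 := by
        have := mul_le_mul h2 h2 hs zero_le_one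
        linarith only [this]
      linarith only [h3, h1']
    · rw [if_neg h2]
      linarith only [hst]

theorem phi_ge {t : ℝ} : t - 1 / 2 ≤ phi t := by
  unfold phi
  split_ifs with h
  · have h3 : 0 ≤ (t - 1) * (t - 1) := mul_self_nonneg (t - 1)
    linarith only [h3]
  · exact le_rfl

theorem phi_gap {t : ℝ} (ht : 0 ≤ t) :
    21 / 100 * min (t ^ 2) t ≤ phi (3 * t / 4) - phi (3 * t / 8) := by
  unfold phi
  by_cases h1 : 3 * t / 4 ≤ 1
  · have h2 : 3 * t / 8 ≤ 1 := by linarith
    rw [if_pos h1, if_pos h2]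
    have h3 : min (t ^ 2) t ≤ t ^ 2 := min_le_left _ _
    have h4 : 0 ≤ t ^ 2 := sq_nonneg t
    linarith only [h3, h4]
  · have h1' : 1 < 3 * t / 4 := not_le.mp h1
    rw [if_neg h1]
    have h3 : min (t ^ 2) t ≤ t := min_le_right _ _
    by_cases h2 : 3 * t / 8 ≤ 1
    · rw [if_pos h2]
      have h5 : 0 ≤ (t - 4 / 3) * (8 / 3 - t) :=
        mul_nonneg (by linarith only [h1]) (by linarith only [h2])
      linarith only [h3, h5, h1']
    · rw [if_neg h2]
      linarith only [h3, ht]

theorem PM.nonneg {X : Type} {D : X → X → ℝ} (hD : PM D) (x y : X) : 0 ≤ D x y := by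
  have h1 := hD.tri x y x
  rw [hD.self x, hD.symm y x] at h1
  linarith only [h1]

variable {X : Type} [Fintype X] {D : X → X → ℝ} {p ν : X → ℝ}

theorem kern_pos (u c : X) : 0 < kern D u c := Real.exp_pos _

theorem kern_le_one (hD : PM D) (u c : X) : kern D u c ≤ 1 := by
  unfold kern
  rw [Real.exp_le_one_iff]
  linarith [phi_nonneg (hD.nonneg u c)]

theorem kern_symm (hD : PM D) (u c : X) : kern D u c = kern D c u := by
  unfold kern
  rw [hD.symm u c]

/-- `phi ≥ t - 1/2` -/
theorem kern_le_exp (u c : X) : kern D u c ≤ Real.exp (1 / 2 - D u c) := by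
  unfold kern
  apply Real.exp_le_exp.mpr
  linarith [phi_ge (t := D u c)]

/-- log-Lipschitz bound -/
theorem kern_le_exp_mul (hD : PM D) (u v c : X) : kern D u c ≤ Real.exp (D u v) * kern D v c := by
  unfold kern
  rw [← Real.exp_add]
  apply Real.exp_le_exp.mpr
  have huv := hD.nonneg u v
  have huc := hD.nonneg u c
  have hvc := hD.nonneg v c
  by_cases h : D u c ≤ D v c
  · have h1 := phi_incr huc h
    have h2 : (D v c - D u c) * min 1 (D v c) ≤ (D v c - D u c) * 1 :=
      mul_le_mul_of_nonneg_left (min_le_left _ _) (by linarith only [h])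
    have h3 := hD.tri v u c
    rw [hD.symm v u] at h3
    linarith only [h1, h2, h3]
  · have h' : D v c ≤ D u c := (not_le.mp h).le
    have h1 := phi_mono hvc h'
    linarith

/-- log-Lipschitz bound with respect to the second variable, with the factor `min 1 (max ..)`:
`kern u c ≤ kern u v + kern u c * (D c v) * min 1 (max (D u c) (D u v))`. -/
theorem kern_sub_le (hD : PM D) (u c v : X) :
    kern D u c - kern D u v ≤ kern D u c * (D c v * min 1 (max (D u c) (D u v))) := by
  have huv := hD.nonneg u v
  have huc := hD.nonneg u c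
  have hcv := hD.nonneg c v
  have hk := kern_pos (D := D) u c
  by_cases h : D u v ≤ D u c
  · have h1 : kern D u c ≤ kern D u v := by
      unfold kern
      apply Real.exp_le_exp.mpr
      linarith only [phi_mono huv h]
    have h2 : 0 ≤ min 1 (max (D u c) (D u v)) :=
      le_min zero_le_one (huc.trans (le_max_left _ _))
    have h3 : 0 ≤ kern D u c * (D c v * min 1 (max (D u c) (D u v))) :=
      mul_nonneg hk.le (mul_nonneg hcv h2)
    linarith only [h1, h3]
  · have h' : D u c ≤ D u v := (not_le.mp h).le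
    rw [max_eq_right h']
    have h1 : kern D u v = kern D u c * Real.exp (-(phi (D u v) - phi (D u c))) := by
      unfold kern
      rw [← Real.exp_add]
      congr 1
      ring
    have h2 := phi_incr huc h'
    have h3 := Real.add_one_le_exp (-(phi (D u v) - phi (D u c)))
    have h4 := hD.tri u c v
    have h5 : 0 ≤ min 1 (D u v) := le_min zero_le_one huv
    have h6 : (D u v - D u c) * min 1 (D u v) ≤ D c v * min 1 (D u v) :=
      mul_le_mul_of_nonneg_right (by linarith only [h4]) h5
    have h7 : 1 - Real.exp (-(phi (D u v) - phi (D u c))) ≤ D c v * min 1 (D u v) := by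
      linarith only [h2, h3, h6]
    have h8 := mul_le_mul_of_nonneg_left h7 hk.le
    rw [h1]
    linarith only [h8]

end Vale.Agent.P304.Dyn
end
end

section

section

/-! K1b: elementary facts on `S`, `Q`, `T`, `g`. -/

open Finset

namespace Vale.Agent.P304.Dyn

variable {X : Type} [Fintype X] {D : X → X → ℝ} {p ν : X → ℝ}

theorem SS_ge (hν : ∀ c, 0 ≤ ν c) (u : X) : e0 ≤ SS D ν u := by
  have h : 0 ≤ ∑ c, kern D u c * ν c :=
    sum_nonneg fun c _ => mul_nonneg (kern_pos u c).le (hν c)
  unfold SS
  linarith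

theorem SS_pos (hν : ∀ c, 0 ≤ ν c) (u : X) : 0 < SS D ν u :=
  lt_of_lt_of_le (by (clear * -; norm_num [e0])) (SS_ge hν u)

theorem SS_le (hD : PM D) (hν : ∀ c, 0 ≤ ν c) (u : X) : SS D ν u ≤ e0 + ∑ c, ν c := by
  have h : ∑ c, kern D u c * ν c ≤ ∑ c, ν c := sum_le_sum fun c _ => by
    have := mul_le_mul_of_nonneg_right (kern_le_one hD u c) (hν c)
    rwa [one_mul] at this
  unfold SS
  linarith

theorem SS_ratio (hD : PM D) (hν : ∀ c, 0 ≤ ν c) (u u' : X) :
    SS D ν u ≤ Real.exp (D u u') * SS D ν u' := by
  have h1 : ∑ c, kern D u c * ν c ≤ Real.exp (D u u') * ∑ c, kern D u' c * ν c := by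
    rw [mul_sum]
    refine sum_le_sum fun c _ => ?_
    rw [← mul_assoc]
    exact mul_le_mul_of_nonneg_right (kern_le_exp_mul hD u u' c) (hν c)
  have h2 : e0 ≤ Real.exp (D u u') * e0 := by
    have : 1 ≤ Real.exp (D u u') := Real.one_le_exp (hD.nonneg u u')
    have he : 0 < e0 := by norm_num [e0]
    (clear * - this he; nlinarith)
  unfold SS
  rw [mul_add]
  linarith only [h1, h2]

theorem QQ_nonneg (hν : ∀ c, 0 ≤ ν c) (u c : X) : 0 ≤ QQ D ν u c :=
  div_nonneg (mul_nonneg (kern_pos u c).le (hν c)) (SS_pos hν u).le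

theorem sum_QQ_le_one (hν : ∀ c, 0 ≤ ν c) (u : X) : ∑ c, QQ D ν u c ≤ 1 := by
  unfold QQ
  rw [← sum_div, div_le_one (SS_pos hν u)]
  unfold SS
  have : 0 < e0 := by norm_num [e0]
  linarith

theorem TT_nonneg (hν : ∀ c, 0 ≤ ν c) (u u' : X) : 0 ≤ TT D ν u u' :=
  sum_nonneg fun c _ => div_nonneg (mul_nonneg (mul_nonneg (hν c) (kern_pos u c).le)
    (kern_pos u' c).le) (mul_pos (SS_pos hν u) (SS_pos hν u')).le

theorem TT_eq_sum_QQ (u u' : X) : TT D ν u u' = ∑ c, QQ D ν u c * (kern D u' c / SS D ν u') := by
  unfold TT QQ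
  refine sum_congr rfl fun c _ => ?_
  rw [div_mul_div_comm]
  ring

theorem TT_le (hD : PM D) (hν : ∀ c, 0 ≤ ν c) (u u' : X) : TT D ν u u' ≤ 1 / SS D ν u := by
  have hS := SS_pos (D := D) hν u
  have hS' := SS_pos (D := D) hν u'
  unfold TT
  rw [← sum_div, div_le_div_iff₀ (mul_pos hS hS') hS, one_mul]
  have h1 : ∑ c, ν c * kern D u c * kern D u' c ≤ SS D ν u' := by
    have h2 : ∑ c, ν c * kern D u c * kern D u' c ≤ ∑ c, kern D u' c * ν c := by
      refine sum_le_sum fun c _ => ?_
      have h3 := mul_le_mul_of_nonneg_left (kern_le_one hD u c)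
        (mul_nonneg (kern_pos (D := D) u' c).le (hν c))
      linarith
    have he : 0 < e0 := by norm_num [e0]
    unfold SS
    linarith only [h2, he]
  nlinarith only [hS, h1]

theorem TT_le_exp (hD : PM D) (hν : ∀ c, 0 ≤ ν c) (u u' : X) :
    TT D ν u u' ≤ Real.exp (1 - D u u') * (∑ c, ν c) / (e0 * SS D ν u) := by
  have hS := SS_pos (D := D) hν u
  have hS' := SS_ge (D := D) hν u'
  have he : 0 < e0 := by (clear * -; norm_num [e0])
  have h1 : ∑ c, ν c * kern D u c * kern D u' c ≤ Real.exp (1 - D u u') * ∑ c, ν c := by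
    rw [mul_sum]
    refine sum_le_sum fun c _ => ?_
    have h2 : kern D u c * kern D u' c ≤ Real.exp (1 - D u u') := by
      calc kern D u c * kern D u' c ≤ Real.exp (1 / 2 - D u c) * Real.exp (1 / 2 - D u' c) :=
            mul_le_mul (kern_le_exp u c) (kern_le_exp u' c) (kern_pos _ _).le (Real.exp_pos _).le
        _ = Real.exp (1 - (D u c + D u' c)) := by rw [← Real.exp_add]; congr 1; ring
        _ ≤ Real.exp (1 - D u u') := by
            apply Real.exp_le_exp.2
            have := hD.tri u c u'
            rw [hD.symm c u'] at this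
            linarith only [this]
    have h3 := mul_le_mul_of_nonneg_left h2 (hν c)
    linarith only [h3]
  have h0 : 0 ≤ Real.exp (1 - D u u') * ∑ c, ν c :=
    mul_nonneg (Real.exp_pos _).le (sum_nonneg fun c _ => hν c)
  unfold TT
  rw [← sum_div]
  refine div_le_div₀ h0 h1 (mul_pos he hS) ?_
  rw [mul_comm e0]
  exact mul_le_mul_of_nonneg_left hS' hS.le

/-- ball bound (section 1b) -/
theorem ball_le [DecidableEq X] (hD : PM D) (h : Bal D p ν) (u : X) :
    ∑ u' ∈ univ.filter (fun u' => D u u' ≤ 1 / 4), p u' ≤ 11 / 5 * SS D ν u := by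
  have hS := SS_pos (D := D) h.hν u
  have h1 : ∑ u' ∈ univ.filter (fun u' => D u u' ≤ 1 / 4),
      p u' * (Real.exp (-(9 / 32)) / SS D ν u) ≤ 8 / 5 := by
    refine le_trans ?_ (h.hi u)
    unfold col
    refine le_trans (sum_le_sum fun u' hu' => ?_) (sum_le_sum_of_subset_of_nonneg
      (filter_subset (fun u' => D u u' ≤ 1 / 4) univ) fun u' _ _ =>
        div_nonneg (mul_nonneg (h.hp u') (kern_pos u' u).le) (SS_pos h.hν u').le)
    have hd : D u u' ≤ 1 / 4 := (mem_filter.1 hu').2
    have hd' : D u' u ≤ 1 / 4 := by rwa [hD.symm u' u]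
    have hd0 := hD.nonneg u' u
    have hS' := SS_pos (D := D) h.hν u'
    have hk : Real.exp (-(1 / 32)) ≤ kern D u' u := by
      unfold kern
      apply Real.exp_le_exp.2
      unfold phi
      rw [if_pos (by linarith only [hd'])]
      nlinarith only [hd', hd0]
    have hr : SS D ν u' ≤ Real.exp (1 / 4) * SS D ν u := by
      refine (SS_ratio hD h.hν u' u).trans (mul_le_mul_of_nonneg_right ?_ hS.le)
      exact Real.exp_le_exp.2 hd'
    rw [mul_div_assoc]
    refine mul_le_mul_of_nonneg_left ?_ (h.hp u')
    rw [div_le_div_iff₀ hS hS']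
    calc Real.exp (-(9 / 32)) * SS D ν u' ≤ Real.exp (-(9 / 32)) * (Real.exp (1 / 4) * SS D ν u) :=
          mul_le_mul_of_nonneg_left hr (Real.exp_pos _).le
      _ = Real.exp (-(1 / 32)) * SS D ν u := by
          rw [← mul_assoc, ← Real.exp_add]
          congr 2
          norm_num
      _ ≤ kern D u' u * SS D ν u := mul_le_mul_of_nonneg_right hk hS.le
  rw [← sum_mul] at h1
  set P := ∑ u' ∈ univ.filter (fun u' => D u u' ≤ 1 / 4), p u' with hP
  have hexp : Real.exp (9 / 32) ≤ 11 / 8 := by
    have h2 : |(9 / 32 : ℝ)| ≤ 1 := by rw [abs_of_pos (by norm_num)]; norm_num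
    have h3 := Real.abs_exp_sub_one_sub_id_le h2
    have h4 := (abs_le.1 h3).2
    norm_num at h4 ⊢
    linarith only [h4]
  have hprod : Real.exp (9 / 32) * Real.exp (-(9 / 32)) = 1 := by
    rw [← Real.exp_add]; simp
  have h5 : P * Real.exp (-(9 / 32)) ≤ 8 / 5 * SS D ν u := by
    rw [← mul_div_assoc, div_le_iff₀ hS] at h1
    exact h1
  calc P = Real.exp (9 / 32) * (P * Real.exp (-(9 / 32))) := by
        rw [mul_comm P, ← mul_assoc, hprod, one_mul]
    _ ≤ Real.exp (9 / 32) * (8 / 5 * SS D ν u) :=
        mul_le_mul_of_nonneg_left h5 (Real.exp_pos _).le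
    _ ≤ 11 / 8 * (8 / 5 * SS D ν u) := mul_le_mul_of_nonneg_right hexp (by (clear * - hS; positivity))
    _ = 11 / 5 * SS D ν u := by ring

theorem sum_nu_le (h : Bal D p ν) : ∑ c, ν c ≤ 5 / 2 * ∑ u, p u := by
  have h1 : ∀ c, ν c ≤ 5 / 2 * (ν c * col D p ν c) := by
    intro c
    rcases (h.hν c).eq_or_lt with h0 | h0
    · rw [← h0]; simp
    · have := mul_le_mul_of_nonneg_left (h.lo c h0) h0.le
      linarith
  have h2 : ∑ c, ν c * col D p ν c = ∑ u, p u * ∑ c, QQ D ν u c := by
    unfold col QQ
    simp only [mul_sum]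
    rw [sum_comm]
    refine sum_congr rfl fun u _ => sum_congr rfl fun c _ => ?_
    ring
  calc ∑ c, ν c ≤ ∑ c, 5 / 2 * (ν c * col D p ν c) := sum_le_sum fun c _ => h1 c
    _ = 5 / 2 * ∑ u, p u * ∑ c, QQ D ν u c := by rw [← mul_sum, h2]
    _ ≤ 5 / 2 * ∑ u, p u := by
        refine mul_le_mul_of_nonneg_left (sum_le_sum fun u _ => ?_) (by norm_num)
        have := mul_le_mul_of_nonneg_left (sum_QQ_le_one (D := D) h.hν u) (h.hp u)
        rwa [mul_one] at this

/-- `g ≤ 8/5` (section 1d) -/
theorem gg_le (hD : PM D) (h : Bal D p ν) (u : X) : gg D p ν u ≤ 8 / 5 := by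
  have h1 : gg D p ν u ≤ ∑ u', p u' * TT D ν u u' := by
    unfold gg
    refine sum_le_sum fun u' _ => ?_
    refine mul_le_mul_of_nonneg_right ?_ (TT_nonneg h.hν u u')
    have := mul_le_mul_of_nonneg_left (min_le_left 1 (D u u')) (h.hp u')
    rwa [mul_one] at this
  have h2 : ∑ u', p u' * TT D ν u u' = ∑ c, QQ D ν u c * col D p ν c := by
    simp only [TT_eq_sum_QQ, mul_sum, col]
    rw [sum_comm]
    refine sum_congr rfl fun c _ => sum_congr rfl fun u' _ => ?_
    ring
  rw [h2] at h1
  refine h1.trans ?_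
  calc ∑ c, QQ D ν u c * col D p ν c ≤ ∑ c, QQ D ν u c * (8 / 5) :=
        sum_le_sum fun c _ => mul_le_mul_of_nonneg_left (h.hi c) (QQ_nonneg h.hν u c)
    _ = (∑ c, QQ D ν u c) * (8 / 5) := by rw [sum_mul]
    _ ≤ 1 * (8 / 5) := mul_le_mul_of_nonneg_right (sum_QQ_le_one h.hν u) (by norm_num)
    _ = 8 / 5 := one_mul _

theorem gg_nonneg (hD : PM D) (h : Bal D p ν) (u : X) : 0 ≤ gg D p ν u :=
  sum_nonneg fun u' _ => mul_nonneg (mul_nonneg (h.hp u')
    (le_min zero_le_one (hD.nonneg u u'))) (TT_nonneg h.hν u u')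

/-- users at distance `≥ 1/4` (used many times) -/
theorem sum_out_TT_le [DecidableEq X] (hD : PM D) (h : Bal D p ν) (u : X) :
    ∑ u' ∈ univ.filter (fun u' => 1 / 4 ≤ D u u'), p u' * TT D ν u u' ≤ 4 * gg D p ν u := by
  unfold gg
  rw [mul_sum]
  refine le_trans (sum_le_sum fun u' hu' => ?_) (sum_le_sum_of_subset_of_nonneg
    (filter_subset (fun u' => 1 / 4 ≤ D u u') univ) fun u' _ _ => mul_nonneg (by norm_num)
      (mul_nonneg (mul_nonneg (h.hp u') (le_min zero_le_one (hD.nonneg u u')))
        (TT_nonneg h.hν u u')))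
  have hd : 1 / 4 ≤ D u u' := (mem_filter.1 hu').2
  have hm : 1 / 4 ≤ min 1 (D u u') := le_min (by norm_num) hd
  have h1 := mul_le_mul_of_nonneg_left hm (mul_nonneg (h.hp u') (TT_nonneg (D := D) h.hν u u'))
  nlinarith only [h1]

end Vale.Agent.P304.Dyn
end
end

section

section

/-! K2: far tokens are supported by outer users (section 1e). -/

open Finset

namespace Vale.Agent.P304.Dyn

variable {X : Type} [Fintype X] [DecidableEq X] {D : X → X → ℝ} {p ν : X → ℝ}

lemma K2_num : Real.exp (1 / 32) * Real.exp (1 / 2 - 11 / 4) * (8 / 5) ≤ 1 / 5 := by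
  have h1 : Real.exp (1 / 32) * Real.exp (1 / 2 - 11 / 4) = Real.exp (-(71 / 32)) := by
    rw [← Real.exp_add]
    norm_num
  have h2 : Real.exp (-(71 / 32)) ≤ Real.exp (-(3 * Real.log 2)) := by
    apply Real.exp_le_exp.mpr
    have := Real.log_two_lt_d9
    linarith only [this]
  have h3 : Real.exp (-(3 * Real.log 2)) = 1 / 8 := by
    rw [Real.exp_neg, mul_comm, Real.exp_mul, Real.exp_log (by norm_num)]
    norm_num
  rw [h1]
  rw [h3] at h2
  linarith only [h2]

/-- column load of a far token coming from outer users -/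
theorem col_out_far (hD : PM D) (h : Bal D p ν) (u c : X) (hc : 0 < ν c) (hf : 3 < D u c) :
    1 / 5 ≤ ∑ u' ∈ univ.filter (fun u' => 1 / 4 < D u u'), p u' * kern D u' c / SS D ν u' := by
  have h1 : 2 / 5 ≤ col D p ν c := h.lo c hc
  have hsplit := Finset.sum_filter_add_sum_filter_not univ (fun u' => 1 / 4 < D u u')
    (fun u' => p u' * kern D u' c / SS D ν u')
  have hcol : col D p ν c = ∑ u', p u' * kern D u' c / SS D ν u' := rfl
  have hin : ∑ u' ∈ univ.filter (fun u' => ¬ 1 / 4 < D u u'), p u' * kern D u' c / SS D ν u'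
      ≤ 1 / 5 := by
    have e1 : ∀ u' ∈ univ.filter (fun u' => ¬ 1 / 4 < D u u'),
        p u' * kern D u' c / SS D ν u' ≤
          (Real.exp (1 / 32) * Real.exp (1 / 2 - 11 / 4)) *
            (p u' * kern D u' u / SS D ν u') := by
      intro u' hu'
      rw [Finset.mem_filter] at hu'
      have hd : D u u' ≤ 1 / 4 := not_lt.mp hu'.2
      have hd0 : 0 ≤ D u' u := hD.nonneg u' u
      have hd' : D u' u ≤ 1 / 4 := by rw [hD.symm]; exact hd
      have hfar : 11 / 4 ≤ D u' c := by
        have := hD.tri u u' c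
        linarith only [hf, hu', this]
      have hk : kern D u' c ≤ Real.exp (1 / 2 - 11 / 4) :=
        (kern_le_exp u' c).trans (Real.exp_le_exp.mpr (by linarith only [hfar]))
      have hphi : phi (D u' u) ≤ 1 / 32 := by
        unfold phi
        rw [if_pos (by linarith only [hd'])]
        nlinarith only [hd', hd0]
      have hk2 : 1 ≤ Real.exp (1 / 32) * kern D u' u := by
        unfold kern
        rw [← Real.exp_add]
        apply Real.one_le_exp
        linarith only [hphi]
      have hS := SS_pos (D := D) h.hν u'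
      have hp := h.hp u'
      rw [mul_div_assoc', div_le_div_iff_of_pos_right hS]
      have hE : 0 < Real.exp (1 / 2 - 11 / 4) := Real.exp_pos _
      calc p u' * kern D u' c ≤ p u' * Real.exp (1 / 2 - 11 / 4) :=
            mul_le_mul_of_nonneg_left hk hp
        _ = (p u' * Real.exp (1 / 2 - 11 / 4)) * 1 := (mul_one _).symm
        _ ≤ (p u' * Real.exp (1 / 2 - 11 / 4)) * (Real.exp (1 / 32) * kern D u' u) :=
            mul_le_mul_of_nonneg_left hk2 (mul_nonneg hp hE.le)
        _ = Real.exp (1 / 32) * Real.exp (1 / 2 - 11 / 4) * (p u' * kern D u' u) := by ring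
    refine (Finset.sum_le_sum e1).trans ?_
    rw [← Finset.mul_sum]
    have e2 : ∑ u' ∈ univ.filter (fun u' => ¬ 1 / 4 < D u u'), p u' * kern D u' u / SS D ν u'
        ≤ 8 / 5 := by
      refine le_trans ?_ (h.hi u)
      apply Finset.sum_le_sum_of_subset_of_nonneg (Finset.filter_subset _ _)
      intro i _ _
      exact div_nonneg (mul_nonneg (h.hp i) (kern_pos _ _).le) (SS_pos h.hν i).le
    exact (mul_le_mul_of_nonneg_left e2 (by positivity)).trans K2_num
  rw [hcol] at h1
  linarith

/-- section 1e -/
theorem far_le (hD : PM D) (h : Bal D p ν) (u : X) :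
    ∑ c ∈ univ.filter (fun c => 3 < D u c), QQ D ν u c ≤ 20 * gg D p ν u := by
  have e1 : ∀ c ∈ univ.filter (fun c => 3 < D u c), QQ D ν u c ≤
      5 * ∑ u' ∈ univ.filter (fun u' => 1 / 4 < D u u'),
        p u' * (QQ D ν u c * (kern D u' c / SS D ν u')) := by
    intro c hc
    rw [Finset.mem_filter] at hc
    have hQ := QQ_nonneg (D := D) h.hν u c
    have e2 : ∑ u' ∈ univ.filter (fun u' => 1 / 4 < D u u'),
        p u' * (QQ D ν u c * (kern D u' c / SS D ν u')) =
        QQ D ν u c * ∑ u' ∈ univ.filter (fun u' => 1 / 4 < D u u'),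
          p u' * kern D u' c / SS D ν u' := by
      rw [Finset.mul_sum]
      refine Finset.sum_congr rfl fun u' _ => ?_
      ring
    rw [e2]
    rcases (h.hν c).eq_or_lt with h0 | h0
    · have : QQ D ν u c = 0 := by
        unfold QQ
        rw [← h0]
        simp
      rw [this]
      simp only [one_div, zero_mul, mul_zero, Std.le_refl]
    · have := col_out_far hD h u c h0 hc.2
      nlinarith only [hQ, this]
  refine (Finset.sum_le_sum e1).trans ?_
  rw [← Finset.mul_sum]
  have e3 : ∑ c ∈ univ.filter (fun c => 3 < D u c),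
      ∑ u' ∈ univ.filter (fun u' => 1 / 4 < D u u'),
        p u' * (QQ D ν u c * (kern D u' c / SS D ν u')) ≤
      ∑ u' ∈ univ.filter (fun u' => 1 / 4 ≤ D u u'), p u' * TT D ν u u' := by
    rw [Finset.sum_comm]
    have e4 : ∀ u', ∑ c ∈ univ.filter (fun c => 3 < D u c),
        p u' * (QQ D ν u c * (kern D u' c / SS D ν u')) ≤ p u' * TT D ν u u' := by
      intro u'
      rw [TT_eq_sum_QQ, ← Finset.mul_sum]
      apply mul_le_mul_of_nonneg_left _ (h.hp u')
      apply Finset.sum_le_sum_of_subset_of_nonneg (Finset.filter_subset _ _)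
      intro i _ _
      exact mul_nonneg (QQ_nonneg h.hν u i)
        (div_nonneg (kern_pos _ _).le (SS_pos h.hν u').le)
    refine (Finset.sum_le_sum fun u' _ => e4 u').trans ?_
    apply Finset.sum_le_sum_of_subset_of_nonneg
    · intro u' hu'
      rw [Finset.mem_filter] at hu' ⊢
      exact ⟨hu'.1, hu'.2.le⟩
    · intro i _ _
      exact mul_nonneg (h.hp i) (TT_nonneg h.hν u i)
  have e5 := sum_out_TT_le hD h u
  linarith

end Vale.Agent.P304.Dyn
end
end

section

section

set_option linter.all false

/-! K3: the drag lemma (section 2). -/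

open Finset

namespace Vale.Agent.P304.Dyn

variable {X : Type} [Fintype X] [DecidableEq X] {D : X → X → ℝ} {p ν : X → ℝ}

theorem ff_nonneg (hD : PM D) (u v c : X) : 0 ≤ ff D u v c := by
  have h1 := hD.nonneg u v
  have h2 := hD.nonneg u c
  unfold ff
  split_ifs
  · exact le_rfl
  · exact le_rfl
  · exact zero_le_one
  · (clear * - h1 h2; positivity)

theorem ff_le_one (hD : PM D) (u v c : X) : ff D u v c ≤ 1 := by
  have h1 := hD.nonneg u v
  have h2 := hD.nonneg u c
  unfold ff
  split_ifs with h3 h4 h5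
  · exact zero_le_one
  · exact zero_le_one
  · exact le_rfl
  · push Not at h5
    exact div_le_one_of_le₀ h5.le h2

/-- displacement bound: the expected displacement is at most `65 δ` -/
theorem ff_mul_le (hD : PM D) (u v c : X) : ff D u v c * (D u c + D u v) ≤ 65 * D u v := by
  have h1 := hD.nonneg u v
  have h2 := hD.nonneg u c
  unfold ff
  split_ifs with h3 h4 h5
  · rw [zero_mul]; positivity
  · rw [zero_mul]; (clear * - h1; positivity)
  · (clear * - h5; linarith)
  · push Not at h5
    have hs : 0 < D u c := lt_of_le_of_lt (by (clear * - h1; positivity)) h5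
    rw [div_mul_eq_mul_div, div_le_iff₀ hs]
    have h6 := mul_le_mul_of_nonneg_left h5.le h1
    linarith only [h6]

/-- Jensen -/
theorem exp_sum_le (w a : X → ℝ) (w0 : ℝ) (h : w0 + ∑ c, w c = 1) (hw : ∀ c, 0 ≤ w c)
    (hw0 : 0 ≤ w0) : Real.exp (∑ c, w c * a c) ≤ w0 + ∑ c, w c * Real.exp (a c) := by
  set A := ∑ c, w c * a c with hA
  have h1 : ∀ c, w c * (a c - A + 1) ≤ w c * Real.exp (a c - A) := fun c =>
    mul_le_mul_of_nonneg_left (Real.add_one_le_exp _) (hw c)
  have h2 : w0 * (-A + 1) ≤ w0 * Real.exp (-A) :=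
    mul_le_mul_of_nonneg_left (Real.add_one_le_exp _) hw0
  have h3 : ∑ c, w c * (a c - A + 1) ≤ ∑ c, w c * Real.exp (a c - A) :=
    Finset.sum_le_sum fun c _ => h1 c
  have h4 : ∑ c, w c * (a c - A + 1) = A - A * ∑ c, w c + ∑ c, w c := by
    rw [hA, Finset.mul_sum, ← Finset.sum_sub_distrib, ← Finset.sum_add_distrib]
    exact Finset.sum_congr rfl fun c _ => by ring
  have h5 : ∑ c, w c * Real.exp (a c - A) = Real.exp (-A) * ∑ c, w c * Real.exp (a c) := by
    rw [Finset.mul_sum]
    refine Finset.sum_congr rfl fun c _ => ?_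
    rw [sub_eq_add_neg, Real.exp_add]
    ring
  have h6 : 1 ≤ Real.exp (-A) * (w0 + ∑ c, w c * Real.exp (a c)) := by
    rw [mul_add, ← h5]
    have h7 : ∑ c, w c = 1 - w0 := by linarith only [h]
    rw [h7] at h4
    have h9 : w0 * (-A + 1) = w0 - A * w0 := by ring
    have h10 : A * (1 - w0) = A - A * w0 := by ring
    rw [h9] at h2
    rw [h10] at h4
    rw [mul_comm w0] at h2
    linarith only [h2, h3, h4]
  have h8 : Real.exp A * 1 ≤ Real.exp A * (Real.exp (-A) * (w0 + ∑ c, w c * Real.exp (a c))) :=
    mul_le_mul_of_nonneg_left h6 (Real.exp_pos _).le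
  rw [← mul_assoc, ← Real.exp_add, add_neg_cancel, Real.exp_zero, one_mul, mul_one] at h8
  exact h8

theorem e0_pos : 0 < e0 := by unfold e0; norm_num

/-- the increment of a single token (without dragging) -/
theorem log_sub_log_le (hD : PM D) (hν : ∀ c, 0 ≤ ν c) (u v : X) :
    Real.log (SS D ν u) - Real.log (SS D ν v) ≤
      ∑ c, QQ D ν u c * (D u v * min 1 (D u c + D u v)) := by
  have hu := SS_pos (D := D) hν u
  have hv := SS_pos (D := D) hν v
  set a : X → ℝ := fun c => phi (D u c) - phi (D v c) with ha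
  have hk : ∀ c, kern D u c * Real.exp (a c) = kern D v c := by
    intro c
    unfold kern
    rw [← Real.exp_add]
    congr 1
    simp only [ha]
    ring
  have h1 : e0 / SS D ν u + ∑ c, QQ D ν u c = 1 := by
    unfold QQ
    rw [← Finset.sum_div, ← add_div]
    exact div_self hu.ne'
  have h2 := exp_sum_le (fun c => QQ D ν u c) a (e0 / SS D ν u) h1
    (fun c => QQ_nonneg hν u c) (div_nonneg e0_pos.le hu.le)
  have h3 : e0 / SS D ν u + ∑ c, QQ D ν u c * Real.exp (a c) = SS D ν v / SS D ν u := by
    have h4 : ∀ c, QQ D ν u c * Real.exp (a c) = kern D v c * ν c / SS D ν u := by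
      intro c
      unfold QQ
      rw [← hk c]
      ring
    simp only [h4]
    rw [← Finset.sum_div, ← add_div]
    rfl
  rw [h3] at h2
  have h5 : ∑ c, QQ D ν u c * a c ≤ Real.log (SS D ν v / SS D ν u) := by
    rw [Real.le_log_iff_exp_le (div_pos hv hu)]
    exact h2
  rw [Real.log_div hv.ne' hu.ne'] at h5
  have h6 : Real.log (SS D ν u) - Real.log (SS D ν v) ≤ ∑ c, QQ D ν u c * (-a c) := by
    have : ∑ c, QQ D ν u c * (-a c) = -∑ c, QQ D ν u c * a c := by
      rw [← Finset.sum_neg_distrib]
      exact Finset.sum_congr rfl fun c _ => by ring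
    rw [this]
    linarith only [h5]
  refine h6.trans (Finset.sum_le_sum fun c _ => mul_le_mul_of_nonneg_left ?_ (QQ_nonneg hν u c))
  have hδ := hD.nonneg u v
  have hs := hD.nonneg u c
  have hvc := hD.nonneg v c
  have htri : D v c ≤ D u c + D u v := by
    have := hD.tri v u c
    rw [hD.symm v u] at this
    linarith only [this]
  have hneg : -a c = phi (D v c) - phi (D u c) := by simp only [ha]; ring
  rw [hneg]
  have hR : 0 ≤ D u v * min 1 (D u c + D u v) :=
    mul_nonneg hδ (le_min zero_le_one (by linarith only [hδ, hs]))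
  rcases le_total (D v c) (D u c) with h | h
  · have := phi_mono hvc h
    linarith only [hR, this]
  · refine (phi_incr hs h).trans ?_
    apply mul_le_mul (by linarith only [htri]) (min_le_min le_rfl htri) (le_min zero_le_one hvc) hδ

theorem min_add_le {a b : ℝ} (hb : 0 ≤ b) : min 1 (a + b) ≤ min 1 a + b := by
  rcases le_total 1 a with h | h
  · rw [min_eq_left h]
    exact (min_le_left _ _).trans (by linarith only [hb])
  · rw [min_eq_right h]
    exact min_le_right _ _

theorem min_mul_le {a b : ℝ} (hb : 1 ≤ b) : min 1 (b * a) ≤ b * min 1 a := by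
  rcases le_total 1 a with h | h
  · rw [min_eq_left h]
    exact (min_le_left _ _).trans (by linarith only [hb])
  · rw [min_eq_right h]
    exact min_le_right _ _

/-- for every single token at distance at most `3` the gain from the inner users together with the
outer users compensates the increment (sections 2, cases `s ≤ 64 δ` and `s > 64 δ`). -/
theorem token_drift_le (hD : PM D) (h : Bal D p ν) (u v c : X) (huv : D u v ≤ 1 / 32)
    (hc : 0 < ν c) (h3 : D u c ≤ 3) :
    D u v * min 1 (D u c + D u v) +
        ff D u v c * ∑ u', p u' * (kern D u' c - kern D u' v) / SS D ν u'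
      ≤ 500 * D u v * ∑ u', p u' * min 1 (D u u') * (kern D u' c / SS D ν u')
        + 8000 * D u v ^ 2 := by
  have hδ := hD.nonneg u v
  have hs := hD.nonneg u c
  set δ := D u v with hδd
  set s := D u c with hsd
  have hS : ∀ u', 0 < SS D ν u' := fun u' => SS_pos h.hν u'
  have hq : ∀ u', 0 ≤ p u' * kern D u' c / SS D ν u' := fun u' =>
    div_nonneg (mul_nonneg (h.hp u') (kern_pos u' c).le) (hS u').le
  have hm : ∀ u', 0 ≤ min 1 (D u u') := fun u' => le_min zero_le_one (hD.nonneg u u')
  set G := ∑ u', p u' * min 1 (D u u') * (kern D u' c / SS D ν u') with hG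
  have hGe : G = ∑ u', p u' * kern D u' c / SS D ν u' * min 1 (D u u') :=
    Finset.sum_congr rfl fun u' _ => by ring
  have hG0 : 0 ≤ G := by
    rw [hGe]
    exact Finset.sum_nonneg fun u' _ => mul_nonneg (hq u') (hm u')
  have hcol : ∑ u', p u' * kern D u' c / SS D ν u' ≤ 8 / 5 := h.hi c
  have hcol2 : 2 / 5 ≤ ∑ u', p u' * kern D u' c / SS D ν u' := h.lo c hc
  have hcv : D c v ≤ s + δ := by
    have := hD.tri c u v
    rw [hD.symm c u] at this
    exact this
  have h1c : ∀ u', D u' c ≤ D u u' + s := fun u' => by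
    have := hD.tri u' u c
    rw [hD.symm u' u] at this
    exact this
  have h1v : ∀ u', D u' v ≤ D u u' + δ := fun u' => by
    have := hD.tri u' u v
    rw [hD.symm u' u] at this
    exact this
  have hff : ff D u v c = if s ≤ 64 * δ then 1 else 64 * δ / s := by
    unfold ff
    rw [if_neg (not_lt.2 huv), if_neg (not_lt.2 h3)]
  rcases le_or_gt s (64 * δ) with hcase | hcase
  · rw [hff, if_pos hcase, one_mul]
    have hterm : ∀ u', p u' * (kern D u' c - kern D u' v) / SS D ν u' ≤
        65 * δ * (p u' * kern D u' c / SS D ν u' * min 1 (D u u'))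
          + 4160 * δ ^ 2 * (p u' * kern D u' c / SS D ν u') := by
      intro u'
      have e1 := kern_sub_le hD u' c v
      have e2 : min 1 (max (D u' c) (D u' v)) ≤ min 1 (D u u') + 64 * δ := by
        refine (min_le_min le_rfl (max_le ?_ ?_)).trans (min_add_le (a := D u u') (b := 64 * δ)
          (by (clear * - hδ; positivity)))
        · exact (h1c u').trans (by linarith only [hcase])
        · exact (h1v u').trans (by linarith only [hδ])
      have e3 : D c v * min 1 (max (D u' c) (D u' v)) ≤ (65 * δ) * (min 1 (D u u') + 64 * δ) :=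
        mul_le_mul (by linarith only [hcv, hcase]) e2
          (le_min zero_le_one ((hD.nonneg u' c).trans (le_max_left _ _))) (by (clear * - hδ; positivity))
      have e4 : kern D u' c - kern D u' v ≤
          kern D u' c * ((65 * δ) * (min 1 (D u u') + 64 * δ)) :=
        e1.trans (mul_le_mul_of_nonneg_left e3 (kern_pos u' c).le)
      have e5 : p u' * (kern D u' c - kern D u' v) / SS D ν u' ≤
          p u' * (kern D u' c * ((65 * δ) * (min 1 (D u u') + 64 * δ))) / SS D ν u' :=
        div_le_div_of_nonneg_right (mul_le_mul_of_nonneg_left e4 (h.hp u')) (hS u').le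
      refine e5.trans (le_of_eq ?_)
      ring
    have hsum : ∑ u', p u' * (kern D u' c - kern D u' v) / SS D ν u' ≤
        65 * δ * G + 4160 * δ ^ 2 * ∑ u', p u' * kern D u' c / SS D ν u' := by
      refine (Finset.sum_le_sum fun u' _ => hterm u').trans (le_of_eq ?_)
      rw [Finset.sum_add_distrib, ← Finset.mul_sum, ← Finset.mul_sum, hGe]
    have e6 : 4160 * δ ^ 2 * ∑ u', p u' * kern D u' c / SS D ν u' ≤ 4160 * δ ^ 2 * (8 / 5) :=
      mul_le_mul_of_nonneg_left hcol (by (clear * -; positivity))
    have e7 : δ * min 1 (s + δ) ≤ δ * (65 * δ) :=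
      mul_le_mul_of_nonneg_left ((min_le_right _ _).trans (by linarith only [hcase])) hδ
    have e8 : 0 ≤ δ * G := mul_nonneg hδ hG0
    have e9 : 0 ≤ δ ^ 2 := sq_nonneg δ
    have e10 : 65 * δ * G = 65 * (δ * G) := by ring
    have e11 : 500 * δ * G = 500 * (δ * G) := by ring
    have e12 : δ * (65 * δ) = 65 * δ ^ 2 := by ring
    rw [e10] at hsum
    rw [e11]
    rw [e12] at e7
    linarith only [hsum, e6, e7, e8, e9]
  · rw [hff, if_neg (not_le.2 hcase)]
    have hs0 : 0 < s := lt_of_le_of_lt (by (clear * - hδ; positivity)) hcase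
    set f := 64 * δ / s with hf
    have hf0 : 0 ≤ f := by (clear * - hδ hs0; positivity)
    have hfs : f * s = 64 * δ := by
      rw [hf]
      (clear * - hs0; field_simp)
    have hδs : δ ≤ s / 64 := by linarith only [hcase]
    classical
    set q : X → ℝ := fun u' => p u' * kern D u' c / SS D ν u' with hqd
    set cin := ∑ u' ∈ univ.filter (fun u' => D u u' < s / 4), q u' with hcin
    set cout := ∑ u' ∈ univ.filter (fun u' => ¬ D u u' < s / 4), q u' with hcout
    have hsplit : cin + cout = ∑ u', q u' :=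
      Finset.sum_filter_add_sum_filter_not univ (fun u' => D u u' < s / 4) q
    set Gout := ∑ u' ∈ univ.filter (fun u' => ¬ D u u' < s / 4), q u' * min 1 (D u u') with hGout
    have hGG : Gout ≤ G := by
      rw [hGe]
      exact Finset.sum_le_sum_of_subset_of_nonneg (Finset.filter_subset _ _)
        fun u' _ _ => mul_nonneg (hq u') (hm u')
    have hGout0 : 0 ≤ Gout := Finset.sum_nonneg fun u' _ => mul_nonneg (hq u') (hm u')
    have hcin0 : 0 ≤ cin := Finset.sum_nonneg fun u' _ => hq u'
    -- inner users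
    have hin : ∀ u', D u u' < s / 4 → f * (p u' * (kern D u' c - kern D u' v) / SS D ν u') ≤
        -(1344 / 100 * δ * min 1 s) * q u' := by
      intro u' hu'
      have hc1 : 3 * s / 4 ≤ D u' c := by
        have := hD.tri u u' c
        linarith only [hu', this]
      have hv1 : D u' v ≤ 3 * s / 8 := by
        have := h1v u'
        linarith only [hs, hcase, hu', this]
      have k1 : kern D u' c ≤ Real.exp (-(phi (3 * s / 4))) := by
        unfold kern
        apply Real.exp_le_exp.2
        have := phi_mono (by (clear * - hs0; positivity) : (0:ℝ) ≤ 3 * s / 4) hc1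
        linarith only [this]
      have k2 : Real.exp (-(phi (3 * s / 8))) ≤ kern D u' v := by
        unfold kern
        apply Real.exp_le_exp.2
        have := phi_mono (hD.nonneg u' v) hv1
        linarith only [this]
      have k3 : kern D u' c * (1 + 21 / 100 * min (s ^ 2) s) ≤ kern D u' v := by
        refine le_trans ?_ k2
        have g1 := phi_gap hs0.le
        have g2 : 1 + 21 / 100 * min (s ^ 2) s ≤ Real.exp (phi (3 * s / 4) - phi (3 * s / 8)) := by
          have := Real.add_one_le_exp (phi (3 * s / 4) - phi (3 * s / 8))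
          linarith only [g1, this]
        have g3 : 0 ≤ 1 + 21 / 100 * min (s ^ 2) s := by
          have : 0 ≤ min (s ^ 2) s := le_min (sq_nonneg _) hs0.le
          linarith only [this]
        calc kern D u' c * (1 + 21 / 100 * min (s ^ 2) s)
            ≤ Real.exp (-(phi (3 * s / 4))) * Real.exp (phi (3 * s / 4) - phi (3 * s / 8)) :=
              mul_le_mul k1 g2 g3 (Real.exp_pos _).le
          _ = Real.exp (-(phi (3 * s / 8))) := by
              rw [← Real.exp_add]
              congr 1
              ring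
      have k4 : f * (kern D u' c - kern D u' v) ≤ -(1344 / 100 * δ * min 1 s) * kern D u' c := by
        have g4 : kern D u' c - kern D u' v ≤ -(21 / 100 * min (s ^ 2) s) * kern D u' c := by
          linarith only [k3]
        have g5 : min (s ^ 2) s = s * min 1 s := by
          rcases le_total 1 s with h5 | h5
          · rw [min_eq_right (by nlinarith only [h5]), min_eq_left h5, mul_one]
          · rw [min_eq_left (by nlinarith only [h5, hs0]), min_eq_right h5, sq]
        calc f * (kern D u' c - kern D u' v)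
            ≤ f * (-(21 / 100 * min (s ^ 2) s) * kern D u' c) :=
              mul_le_mul_of_nonneg_left g4 hf0
          _ = -(21 / 100 * (f * s) * min 1 s) * kern D u' c := by
              rw [g5]
              ring
          _ = _ := by
              rw [hfs]
              ring
      have k5 : 0 ≤ p u' / SS D ν u' := div_nonneg (h.hp u') (hS u').le
      calc f * (p u' * (kern D u' c - kern D u' v) / SS D ν u')
          = (f * (kern D u' c - kern D u' v)) * (p u' / SS D ν u') := by ring
        _ ≤ (-(1344 / 100 * δ * min 1 s) * kern D u' c) * (p u' / SS D ν u') :=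
            mul_le_mul_of_nonneg_right k4 k5
        _ = _ := by
            simp only [hqd]
            ring
    -- outer users
    have hout : ∀ u', ¬ D u u' < s / 4 → f * (p u' * (kern D u' c - kern D u' v) / SS D ν u') ≤
        325 * δ * (q u' * min 1 (D u u')) := by
      intro u' hu'
      have hu2 : s ≤ 4 * D u u' := by
        have := not_lt.1 hu'
        linarith only [hu']
      have e1 := kern_sub_le hD u' c v
      have e2 : min 1 (max (D u' c) (D u' v)) ≤ 5 * min 1 (D u u') := by
        refine (min_le_min le_rfl (max_le ?_ ?_)).trans (min_mul_le (a := D u u') (b := 5)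
          (by norm_num))
        · exact (h1c u').trans (by linarith only [hu'])
        · exact (h1v u').trans (by linarith only [hs, hcase, hu'])
      have e3 : D c v * min 1 (max (D u' c) (D u' v)) ≤ (65 / 64 * s) * (5 * min 1 (D u u')) :=
        mul_le_mul (by linarith only [hcv, hcase]) e2
          (le_min zero_le_one ((hD.nonneg u' c).trans (le_max_left _ _))) (by (clear * - hs0; positivity))
      have e4 : f * (kern D u' c - kern D u' v) ≤
          325 * δ * min 1 (D u u') * kern D u' c := by
        calc f * (kern D u' c - kern D u' v)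
            ≤ f * (kern D u' c * ((65 / 64 * s) * (5 * min 1 (D u u')))) :=
              mul_le_mul_of_nonneg_left
                (e1.trans (mul_le_mul_of_nonneg_left e3 (kern_pos u' c).le)) hf0
          _ = 325 / 64 * (f * s) * min 1 (D u u') * kern D u' c := by ring
          _ = _ := by
              rw [hfs]
              ring
      have k5 : 0 ≤ p u' / SS D ν u' := div_nonneg (h.hp u') (hS u').le
      calc f * (p u' * (kern D u' c - kern D u' v) / SS D ν u')
          = (f * (kern D u' c - kern D u' v)) * (p u' / SS D ν u') := by ring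
        _ ≤ (325 * δ * min 1 (D u u') * kern D u' c) * (p u' / SS D ν u') :=
            mul_le_mul_of_nonneg_right e4 k5
        _ = _ := by
            simp only [hqd]
            ring
    have hsum : f * ∑ u', p u' * (kern D u' c - kern D u' v) / SS D ν u' ≤
        -(1344 / 100 * δ * min 1 s) * cin + 325 * δ * Gout := by
      rw [Finset.mul_sum, ← Finset.sum_filter_add_sum_filter_not univ (fun u' => D u u' < s / 4),
        hcin, hGout, Finset.mul_sum, Finset.mul_sum]
      exact add_le_add
        (Finset.sum_le_sum fun u' hu' => hin u' (Finset.mem_filter.1 hu').2)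
        (Finset.sum_le_sum fun u' hu' => hout u' (Finset.mem_filter.1 hu').2)
    have hms : 0 ≤ min 1 s := le_min zero_le_one hs0.le
    have hδm : 0 ≤ δ * min 1 s := mul_nonneg hδ hms
    have hinc : δ * min 1 (s + δ) ≤ 65 / 64 * (δ * min 1 s) := by
      have g1 : min 1 (s + δ) ≤ 65 / 64 * min 1 s :=
        (min_le_min le_rfl (by linarith only [hcase] : s + δ ≤ 65 / 64 * s)).trans
          (min_mul_le (by norm_num))
      calc δ * min 1 (s + δ) ≤ δ * (65 / 64 * min 1 s) := mul_le_mul_of_nonneg_left g1 hδ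
        _ = _ := by ring
    have hδG : 0 ≤ δ * G := mul_nonneg hδ hG0
    have hδGo : δ * Gout ≤ δ * G := mul_le_mul_of_nonneg_left hGG hδ
    have hsq : 0 ≤ δ ^ 2 := sq_nonneg δ
    have hsum' : f * ∑ u', p u' * (kern D u' c - kern D u' v) / SS D ν u' ≤
        -(1344 / 100) * (cin * (δ * min 1 s)) + 325 * (δ * Gout) := by
      refine hsum.trans (le_of_eq ?_)
      ring
    have rG : 500 * δ * G = 500 * (δ * G) := by ring
    rw [rG]
    rcases le_or_gt (1 / 5) cin with h5 | h5
    · have g1 : 1 / 5 * (δ * min 1 s) ≤ cin * (δ * min 1 s) := mul_le_mul_of_nonneg_right h5 hδm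
      linarith only [hsum', g1, hinc, hδGo, hδG, hsq, hδm]
    · have h6 : 1 / 5 ≤ cout := by linarith only [hcol2, hsplit, h5]
      have g2 : δ * min 1 (s + δ) ≤ 5 * cout * (δ * min 1 (s + δ)) := by
        have g3 : 0 ≤ δ * min 1 (s + δ) :=
          mul_nonneg hδ (le_min zero_le_one (by linarith only [hδ, hs]))
        exact le_mul_of_one_le_left g3 (by linarith only [hcol2, hsplit, h5])
      have g4 : cout * min 1 (s + δ) ≤ 65 / 16 * Gout := by
        rw [hcout, hGout, Finset.sum_mul, Finset.mul_sum]
        refine Finset.sum_le_sum fun u' hu' => ?_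
        have hu2 : s ≤ 4 * D u u' := by
          have := not_lt.1 (Finset.mem_filter.1 hu').2
          linarith only [this]
        have g5 : min 1 (s + δ) ≤ 65 / 16 * min 1 (D u u') :=
          (min_le_min le_rfl (by (clear * - hcase hu2; linarith) : s + δ ≤ 65 / 16 * D u u')).trans
            (min_mul_le (by norm_num))
        calc q u' * min 1 (s + δ) ≤ q u' * (65 / 16 * min 1 (D u u')) :=
              mul_le_mul_of_nonneg_left g5 (hq u')
          _ = _ := by ring
      have g6 : δ * (cout * min 1 (s + δ)) ≤ δ * (65 / 16 * Gout) :=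
        mul_le_mul_of_nonneg_left g4 hδ
      have g7 : 0 ≤ cin * (δ * min 1 s) := mul_nonneg hcin0 hδm
      have r1 : 5 * cout * (δ * min 1 (s + δ)) = 5 * (δ * (cout * min 1 (s + δ))) := by ring
      have r2 : δ * (65 / 16 * Gout) = 65 / 16 * (δ * Gout) := by ring
      rw [r1] at g2
      rw [r2] at g6
      linarith only [hsum', g2, g6, g7, hδGo, hδG, hsq]

/-- DRAG LEMMA, first order form -/
theorem drift_le (hD : PM D) (h : Bal D p ν) (u v : X) (huv : D u v ≤ 1 / 32) :
    drift D p ν u v ≤ 600 * D u v * gg D p ν u + 8000 * D u v ^ 2 := by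
  classical
  have hδ := hD.nonneg u v
  have h1 := log_sub_log_le hD h.hν u v
  have hgg := gg_nonneg hD h u
  set G : X → ℝ := fun c => ∑ u', p u' * min 1 (D u u') * (kern D u' c / SS D ν u') with hG
  have hG0 : ∀ c, 0 ≤ G c := fun c => Finset.sum_nonneg fun u' _ =>
    mul_nonneg (mul_nonneg (h.hp u') (le_min zero_le_one (hD.nonneg u u')))
      (div_nonneg (kern_pos u' c).le (SS_pos h.hν u').le)
  have h2 : drift D p ν u v ≤ ∑ c, QQ D ν u c * (D u v * min 1 (D u c + D u v) +
      ff D u v c * ∑ u', p u' * (kern D u' c - kern D u' v) / SS D ν u') := by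
    unfold drift
    simp only [mul_add, Finset.sum_add_distrib]
    refine add_le_add h1 (le_of_eq ?_)
    exact Finset.sum_congr rfl fun c _ => by ring
  have h3 : ∀ c, QQ D ν u c * (D u v * min 1 (D u c + D u v) +
      ff D u v c * ∑ u', p u' * (kern D u' c - kern D u' v) / SS D ν u') ≤
      500 * D u v * (QQ D ν u c * G c) + 8000 * D u v ^ 2 * QQ D ν u c +
        D u v * (if 3 < D u c then QQ D ν u c else 0) := by
    intro c
    have hQ := QQ_nonneg (D := D) h.hν u c
    have hδ2 : 0 ≤ D u v ^ 2 := sq_nonneg _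
    rcases (h.hν c).eq_or_lt with h0 | h0
    · have hQ0 : QQ D ν u c = 0 := by
        unfold QQ
        rw [← h0]
        simp
      rw [hQ0]
      simp only [zero_mul, mul_zero, add_zero, ite_self, Std.le_refl]
    · by_cases hfar : 3 < D u c
      · have hf : ff D u v c = 0 := by
          unfold ff
          rw [if_pos hfar, ite_self]
        rw [hf, zero_mul, add_zero, if_pos hfar]
        have e1 : D u v * min 1 (D u c + D u v) ≤ D u v * 1 :=
          mul_le_mul_of_nonneg_left (min_le_left _ _) hδ
        have e2 : QQ D ν u c * (D u v * min 1 (D u c + D u v)) ≤ QQ D ν u c * (D u v * 1) :=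
          mul_le_mul_of_nonneg_left e1 hQ
        have e3 : 0 ≤ 500 * D u v * (QQ D ν u c * G c) := by
          have := hG0 c
          (clear * - hδ hQ this; positivity)
        have e4 : 0 ≤ 8000 * D u v ^ 2 * QQ D ν u c := by (clear * - hQ; positivity)
        linarith only [e2, e3, e4]
      · rw [if_neg hfar, mul_zero, add_zero]
        have e1 := token_drift_le hD h u v c huv h0 (not_lt.1 hfar)
        refine (mul_le_mul_of_nonneg_left e1 hQ).trans (le_of_eq ?_)
        simp only [hG]
        ring
  have h4 : ∑ c, QQ D ν u c * G c = gg D p ν u := by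
    have e1 : gg D p ν u = ∑ u', ∑ c, p u' * min 1 (D u u') *
        (QQ D ν u c * (kern D u' c / SS D ν u')) := by
      unfold gg
      refine Finset.sum_congr rfl fun u' _ => ?_
      rw [TT_eq_sum_QQ, Finset.mul_sum]
    rw [e1, Finset.sum_comm]
    refine Finset.sum_congr rfl fun c _ => ?_
    rw [hG, Finset.mul_sum]
    refine Finset.sum_congr rfl fun u' _ => ?_
    ring
  have h5 : ∑ c, (if 3 < D u c then QQ D ν u c else 0) ≤ 20 * gg D p ν u := by
    rw [← Finset.sum_filter]
    exact far_le hD h u
  have h6 := sum_QQ_le_one (D := D) h.hν u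
  calc drift D p ν u v ≤ _ := h2
    _ ≤ ∑ c, (500 * D u v * (QQ D ν u c * G c) + 8000 * D u v ^ 2 * QQ D ν u c +
        D u v * (if 3 < D u c then QQ D ν u c else 0)) := Finset.sum_le_sum fun c _ => h3 c
    _ = 500 * D u v * gg D p ν u + 8000 * D u v ^ 2 * ∑ c, QQ D ν u c +
        D u v * ∑ c, (if 3 < D u c then QQ D ν u c else 0) := by
        rw [Finset.sum_add_distrib, Finset.sum_add_distrib, ← Finset.mul_sum, ← Finset.mul_sum,
          ← Finset.mul_sum, h4]
    _ ≤ _ := by
        have e1 : 8000 * D u v ^ 2 * ∑ c, QQ D ν u c ≤ 8000 * D u v ^ 2 * 1 :=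
          mul_le_mul_of_nonneg_left h6 (by (clear * -; positivity))
        have e2 := mul_le_mul_of_nonneg_left h5 hδ
        have e3 : 0 ≤ D u v * gg D p ν u := mul_nonneg hδ hgg
        linarith only [e1, e2, e3]

/-- large moves: no dragging, trivial bound -/
theorem drift_le_of_large (hD : PM D) (h : Bal D p ν) {k : ℝ} (hk : 1 ≤ k) (hpk : ∑ x, p x ≤ k)
    (u v : X) (huv : 1 / 32 < D u v) :
    drift D p ν u v ≤ Real.log (60 * k) := by
  have hf : ∀ c, ff D u v c = 0 := fun c => by
    unfold ff
    rw [if_pos huv]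
  unfold drift
  simp only [hf, mul_zero, zero_mul, sum_const_zero, add_zero]
  have hu := SS_pos (D := D) h.hν u
  have hv := SS_pos (D := D) h.hν v
  have h1 := SS_le hD h.hν u
  have h2 := sum_nu_le h
  have h3 := SS_ge (D := D) h.hν v
  rw [← Real.log_div hu.ne' hv.ne']
  apply Real.log_le_log (div_pos hu hv)
  rw [div_le_iff₀ hv]
  unfold e0 at h1 h3
  have h4 := mul_le_mul_of_nonneg_left h3 (by linarith only [hk] : 0 ≤ 60 * k)
  linarith only [h1, h2, h4, hpk, hk]

end Vale.Agent.P304.Dyn
end
end

section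

section

/-! K4: label kernel: flat top, own cut, relabelling caused by drags (section 3). -/

open Finset

namespace Vale.Agent.P304.Dyn

variable {X : Type} [Fintype X] [DecidableEq X] {D : X → X → ℝ} {p ν : X → ℝ} {τ : ℝ}

theorem k4_exp_sub_one_le {x : ℝ} (h0 : 0 ≤ x) (h1 : x ≤ 1) : Real.exp x - 1 ≤ x * (1 + x) := by
  have h := Real.abs_exp_sub_one_sub_id_le (x := x) (by rw [abs_of_nonneg h0]; exact h1)
  have h2 := (abs_le.1 h).2
  linarith only [h2]

theorem k4_exp3 : Real.exp 3 ≤ 201 / 10 := by
  have h := Real.exp_one_lt_d9.le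
  have h3 : Real.exp 3 = Real.exp 1 ^ 3 := by
    rw [← Real.exp_nat_mul]; norm_num
  rw [h3]
  calc Real.exp 1 ^ 3 ≤ (2.7182818286 : ℝ) ^ 3 := pow_le_pow_left₀ (Real.exp_pos 1).le h 3
    _ ≤ 201 / 10 := by norm_num

theorem k4_exp304 : Real.exp (3 + 1 / 25) ≤ 21 := by
  rw [Real.exp_add]
  have h1 : Real.exp (1 / 25 : ℝ) ≤ 1 + 1 / 25 * (1 + 1 / 25) := by
    have := k4_exp_sub_one_le (x := 1 / 25) (by norm_num) (by (clear * -; norm_num))
    linarith
  calc Real.exp 3 * Real.exp (1 / 25) ≤ (201 / 10) * (1 + 1 / 25 * (1 + 1 / 25)) :=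
        mul_le_mul k4_exp3 h1 (Real.exp_pos _).le (by norm_num)
    _ ≤ 21 := by norm_num

theorem MM_nonneg (u c : X) : 0 ≤ MM τ D u c :=
  le_min zero_le_one (le_max_left _ _)

theorem MM_le_one (u c : X) : MM τ D u c ≤ 1 := min_le_left _ _

/-- flat top -/
theorem MM_eq_one (hD : PM D) (h0 : 0 ≤ τ) (h1 : τ ≤ 1 / 10) (u c : X) (h : D u c ≤ 33 / 10) :
    MM τ D u c = 1 := by
  refine min_eq_left ?_
  refine le_trans ?_ (le_max_right _ _)
  have h2 : phi (D u c) ≤ 14 / 5 := by
    refine (phi_mono (hD.nonneg u c) h).trans ?_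
    unfold phi
    norm_num
  have h3 : Real.exp 3 * kern D u c = Real.exp (3 - phi (D u c)) := by
    rw [kern, ← Real.exp_add, ← sub_eq_add_neg]
  rw [h3]
  have h4 : 3 - phi (D u c) + 1 ≤ Real.exp (3 - phi (D u c)) := Real.add_one_le_exp _
  linarith only [h1, h2, h4]

/-- bounded support: `M > 0` implies `D ≤ 7/2 + log (1/τ)` -/
theorem MM_supp (h0 : 0 < τ) (u c : X) (h : 0 < MM τ D u c) :
    D u c ≤ 7 / 2 + Real.log (1 / τ) := by
  have h1 : 0 < max 0 (Real.exp 3 * kern D u c - τ) := lt_of_lt_of_le h (min_le_right _ _)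
  have h2 : τ < Real.exp 3 * kern D u c := by
    by_contra hc
    rw [max_eq_left (by linarith [not_lt.1 hc])] at h1
    exact lt_irrefl _ h1
  have h3 : τ < Real.exp (7 / 2 - D u c) := by
    refine lt_of_lt_of_le h2 ?_
    calc Real.exp 3 * kern D u c ≤ Real.exp 3 * Real.exp (1 / 2 - D u c) :=
          mul_le_mul_of_nonneg_left (kern_le_exp u c) (Real.exp_pos _).le
      _ = Real.exp (7 / 2 - D u c) := by rw [← Real.exp_add]; congr 1; ring
  have h4 : Real.log τ < 7 / 2 - D u c := (Real.log_lt_iff_lt_exp h0).2 h3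
  rw [one_div, Real.log_inv]
  linarith only [h4]

theorem MM_le (h0 : 0 ≤ τ) (u c : X) : MM τ D u c ≤ Real.exp 3 * kern D u c := by
  refine (min_le_right _ _).trans (max_le ?_ (by linarith only [h0]))
  exact mul_nonneg (Real.exp_pos _).le (kern_pos u c).le

theorem le_MM (hD : PM D) (h0 : 0 ≤ τ) (u c : X) : kern D u c - τ ≤ MM τ D u c := by
  have h1 := kern_le_one hD u c
  have h2 := (kern_pos (D := D) u c).le
  refine le_min (by linarith only [h0, h1]) (le_max_of_le_right ?_)
  have h3 : (1 : ℝ) ≤ Real.exp 3 := Real.one_le_exp (by norm_num)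
  have h4 : 1 * kern D u c ≤ Real.exp 3 * kern D u c := mul_le_mul_of_nonneg_right h3 h2
  linarith only [h4]

theorem abs_MM_sub_le (u u' c c' : X) :
    |MM τ D u c - MM τ D u' c'| ≤ Real.exp 3 * |kern D u c - kern D u' c'| := by
  unfold MM
  have h1 : |min 1 (max 0 (Real.exp 3 * kern D u c - τ)) -
      min 1 (max 0 (Real.exp 3 * kern D u' c' - τ))| ≤
      |max 0 (Real.exp 3 * kern D u c - τ) - max 0 (Real.exp 3 * kern D u' c' - τ)| := by
    rw [min_comm 1, min_comm 1]
    exact abs_inf_sub_inf_le_abs _ _ _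
  have h2 : |max 0 (Real.exp 3 * kern D u c - τ) - max 0 (Real.exp 3 * kern D u' c' - τ)| ≤
      |(Real.exp 3 * kern D u c - τ) - (Real.exp 3 * kern D u' c' - τ)| := by
    rw [max_comm 0, max_comm 0]
    exact abs_sup_sub_sup_le_abs _ _ _
  refine h1.trans (h2.trans ?_)
  have h3 : (Real.exp 3 * kern D u c - τ) - (Real.exp 3 * kern D u' c' - τ) =
      Real.exp 3 * (kern D u c - kern D u' c') := by ring
  rw [h3, abs_mul, abs_of_pos (Real.exp_pos 3)]

/-- own cut: only far tokens matter -/
theorem cut_le (hD : PM D) (h : Bal D p ν) (h0 : 0 ≤ τ) (h1 : τ ≤ 1 / 10) (u v : X)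
    (huv : D u v ≤ 1 / 32) :
    ∑ c, ν c * |MM τ D u c - MM τ D v c| / SS D ν u ≤ 500 * D u v * gg D p ν u := by
  have hδ := hD.nonneg u v
  have hS := SS_pos (D := D) h.hν u
  have hg := gg_nonneg hD h u
  have hexp : Real.exp (D u v) - 1 ≤ D u v * (33 / 32) := by
    refine (k4_exp_sub_one_le hδ (by linarith only [huv])).trans ?_
    exact mul_le_mul_of_nonneg_left (by linarith only [huv]) hδ
  have hterm : ∀ c, ν c * |MM τ D u c - MM τ D v c| / SS D ν u ≤
      if 3 < D u c then (201 / 10 * (33 / 32) * D u v) * QQ D ν u c else 0 := by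
    intro c
    by_cases hc : 3 < D u c
    · rw [if_pos hc]
      have hk := (kern_pos (D := D) u c).le
      have hk1 : kern D v c ≤ Real.exp (D u v) * kern D u c := by
        have := kern_le_exp_mul hD v u c
        rwa [hD.symm v u] at this
      have hk2 : kern D u c ≤ Real.exp (D u v) * kern D v c := kern_le_exp_mul hD u v c
      have hv := (kern_pos (D := D) v c).le
      have he1 : 1 ≤ Real.exp (D u v) := Real.one_le_exp hδ
      have h2 : |kern D u c - kern D v c| ≤ (Real.exp (D u v) - 1) * kern D u c := by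
        rw [abs_le]
        constructor
        · have h5 : (Real.exp (D u v) - 1) * kern D u c =
            Real.exp (D u v) * kern D u c - kern D u c := by ring
          linarith only [hk1]
        · by_cases hle : kern D v c ≤ kern D u c
          · have h6 : kern D u c - kern D v c ≤ (Real.exp (D u v) - 1) * kern D v c := by
              have h5 : (Real.exp (D u v) - 1) * kern D v c =
                Real.exp (D u v) * kern D v c - kern D v c := by ring
              linarith only [hk2]
            exact h6.trans (mul_le_mul_of_nonneg_left hle (by linarith only [he1]))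
          · have h6 : kern D u c - kern D v c ≤ 0 := by linarith only [hle]
            exact h6.trans (mul_nonneg (by linarith only [he1]) hk)
      have h3 : |MM τ D u c - MM τ D v c| ≤ 201 / 10 * (33 / 32) * D u v * kern D u c := by
        refine (abs_MM_sub_le u v c c).trans ?_
        calc Real.exp 3 * |kern D u c - kern D v c|
            ≤ 201 / 10 * ((D u v * (33 / 32)) * kern D u c) := by
              refine mul_le_mul k4_exp3 (h2.trans ?_) (abs_nonneg _) (by norm_num)
              exact mul_le_mul_of_nonneg_right hexp hk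
          _ = 201 / 10 * (33 / 32) * D u v * kern D u c := by ring
      have h4 : ν c * |MM τ D u c - MM τ D v c| / SS D ν u ≤
          ν c * (201 / 10 * (33 / 32) * D u v * kern D u c) / SS D ν u :=
        div_le_div_of_nonneg_right (mul_le_mul_of_nonneg_left h3 (h.hν c)) hS.le
      refine h4.trans (le_of_eq ?_)
      rw [QQ]; ring
    · rw [if_neg hc]
      have hc' := not_lt.1 hc
      have h2 : MM τ D u c = 1 := MM_eq_one hD h0 h1 u c (by linarith only [hc])
      have h3 : MM τ D v c = 1 := by
        refine MM_eq_one hD h0 h1 v c ?_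
        have := hD.tri v u c
        rw [hD.symm v u] at this
        linarith only [huv, hc, this]
      rw [h2, h3]
      simp
  calc ∑ c, ν c * |MM τ D u c - MM τ D v c| / SS D ν u
      ≤ ∑ c, (if 3 < D u c then (201 / 10 * (33 / 32) * D u v) * QQ D ν u c else 0) :=
        Finset.sum_le_sum fun c _ => hterm c
    _ = (201 / 10 * (33 / 32) * D u v) * ∑ c ∈ univ.filter (fun c => 3 < D u c), QQ D ν u c := by
        rw [← Finset.sum_filter, Finset.mul_sum]
    _ ≤ (201 / 10 * (33 / 32) * D u v) * (20 * gg D p ν u) :=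
        mul_le_mul_of_nonneg_left (far_le hD h u) (by (clear * - hδ; positivity))
    _ ≤ 500 * D u v * gg D p ν u := by
        have : 0 ≤ D u v * gg D p ν u := mul_nonneg hδ hg
        nlinarith only [this]

/-- relabelling caused by the drags `c → v` -/
theorem relabel_drag_le (hD : PM D) (h : Bal D p ν) (h0 : 0 ≤ τ) (h1 : τ ≤ 1 / 10) (u v : X) :
    ∑ c, QQ D ν u c * ff D u v c *
        ∑ u', p u' * |MM τ D u' c - MM τ D u' v| / SS D ν u'
      ≤ 200000 * D u v * gg D p ν u := by
  have hδ := hD.nonneg u v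
  have hg := gg_nonneg hD h u
  have hRHS : 0 ≤ 200000 * D u v * gg D p ν u := by (clear * - hδ hg; positivity)
  set K : ℝ := 201 / 10 * 22 with hK
  have hKpos : 0 ≤ K := by rw [hK]; (clear * -; norm_num)
  have hterm : ∀ c, QQ D ν u c * ff D u v c *
        ∑ u', p u' * |MM τ D u' c - MM τ D u' v| / SS D ν u' ≤
      QQ D ν u c * ((K * (65 * D u v)) *
        ∑ u' ∈ univ.filter (fun u' => 1 / 4 ≤ D u u'), p u' * (kern D u' c / SS D ν u')) := by
    intro c
    have hQ := QQ_nonneg (D := D) h.hν u c
    rw [mul_assoc]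
    refine mul_le_mul_of_nonneg_left ?_ hQ
    have hsum0 : 0 ≤ ∑ u' ∈ univ.filter (fun u' => 1 / 4 ≤ D u u'),
        p u' * (kern D u' c / SS D ν u') :=
      Finset.sum_nonneg fun u' _ => mul_nonneg (h.hp u')
        (div_nonneg (kern_pos u' c).le (SS_pos h.hν u').le)
    by_cases hf : ff D u v c = 0
    · rw [hf, zero_mul]
      (clear * - hδ hsum0; positivity)
    have hf1 : D u v ≤ 1 / 32 := by
      by_contra hcon
      exact hf (by unfold ff; rw [if_pos (not_le.1 hcon)])
    have hf2 : D u c ≤ 3 := by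
      by_contra hcon
      refine hf ?_
      unfold ff
      rw [if_neg (not_lt.2 hf1), if_pos (not_le.1 hcon)]
    have hf0 := ff_nonneg hD u v c
    have hcv : D c v ≤ D u c + D u v := by
      have := hD.tri c u v
      rwa [hD.symm c u] at this
    have hcv0 := hD.nonneg c v
    have hinner : ∑ u', p u' * |MM τ D u' c - MM τ D u' v| / SS D ν u' ≤
        (K * (D u c + D u v)) *
          ∑ u' ∈ univ.filter (fun u' => 1 / 4 ≤ D u u'), p u' * (kern D u' c / SS D ν u') := by
      rw [Finset.mul_sum, Finset.sum_filter]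
      refine Finset.sum_le_sum fun u' _ => ?_
      have hS := SS_pos (D := D) h.hν u'
      have hk := (kern_pos (D := D) u' c).le
      by_cases hu : 1 / 4 ≤ D u u'
      · rw [if_pos hu]
        have ha : kern D u' c - kern D u' v ≤ kern D u' c * D c v := by
          refine (kern_sub_le hD u' c v).trans (mul_le_mul_of_nonneg_left ?_ hk)
          exact mul_le_of_le_one_right hcv0 (min_le_left _ _)
        have hkv := (kern_pos (D := D) u' v).le
        have hb : kern D u' v - kern D u' c ≤ kern D u' v * D c v := by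
          refine (kern_sub_le hD u' v c).trans (mul_le_mul_of_nonneg_left ?_ hkv)
          rw [hD.symm v c]
          exact mul_le_of_le_one_right hcv0 (min_le_left _ _)
        have hvc : kern D u' v ≤ 21 * kern D u' c := by
          have h5 := kern_le_exp_mul hD v c u'
          rw [kern_symm hD v u', kern_symm hD c u', hD.symm v c] at h5
          refine h5.trans (mul_le_mul_of_nonneg_right ?_ hk)
          refine le_trans (Real.exp_le_exp.2 ?_) k4_exp304
          linarith only [hf1, hf2, hcv]
        have hd : |kern D u' c - kern D u' v| ≤ 22 * kern D u' c * (D u c + D u v) := by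
          have h6 : kern D u' c * D c v ≤ 22 * kern D u' c * (D u c + D u v) :=
            mul_le_mul (by linarith only [hk]) hcv hcv0 (by linarith only [hk])
          have h7 : kern D u' v * D c v ≤ 22 * kern D u' c * (D u c + D u v) :=
            mul_le_mul (by linarith only [hk, hvc]) hcv hcv0 (by linarith only [hk])
          rw [abs_le]
          constructor <;> linarith only [ha, h6, hb, h7]
        have he : |MM τ D u' c - MM τ D u' v| ≤
            K * (D u c + D u v) * kern D u' c := by
          refine (abs_MM_sub_le u' u' c v).trans ?_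
          calc Real.exp 3 * |kern D u' c - kern D u' v|
              ≤ 201 / 10 * (22 * kern D u' c * (D u c + D u v)) :=
                mul_le_mul k4_exp3 hd (abs_nonneg _) (by norm_num)
            _ = K * (D u c + D u v) * kern D u' c := by rw [hK]; ring
        calc p u' * |MM τ D u' c - MM τ D u' v| / SS D ν u'
            ≤ p u' * (K * (D u c + D u v) * kern D u' c) / SS D ν u' :=
              div_le_div_of_nonneg_right (mul_le_mul_of_nonneg_left he (h.hp u')) hS.le
          _ = K * (D u c + D u v) * (p u' * (kern D u' c / SS D ν u')) := by ring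
      · rw [if_neg hu]
        have hu' := not_le.1 hu
        have h2 : MM τ D u' c = 1 := by
          refine MM_eq_one hD h0 h1 u' c ?_
          have := hD.tri u' u c
          rw [hD.symm u' u] at this
          (clear * - hf2 hu this; linarith)
        have h3 : MM τ D u' v = 1 := by
          refine MM_eq_one hD h0 h1 u' v ?_
          have := hD.tri u' u v
          rw [hD.symm u' u] at this
          linarith only [hf1, hu, this]
        rw [h2, h3]
        simp
    calc ff D u v c * ∑ u', p u' * |MM τ D u' c - MM τ D u' v| / SS D ν u'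
        ≤ ff D u v c * ((K * (D u c + D u v)) *
          ∑ u' ∈ univ.filter (fun u' => 1 / 4 ≤ D u u'), p u' * (kern D u' c / SS D ν u')) :=
          mul_le_mul_of_nonneg_left hinner hf0
      _ = (K * (ff D u v c * (D u c + D u v))) *
          ∑ u' ∈ univ.filter (fun u' => 1 / 4 ≤ D u u'), p u' * (kern D u' c / SS D ν u') := by
          ring
      _ ≤ (K * (65 * D u v)) *
          ∑ u' ∈ univ.filter (fun u' => 1 / 4 ≤ D u u'), p u' * (kern D u' c / SS D ν u') := by
          refine mul_le_mul_of_nonneg_right ?_ hsum0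
          exact mul_le_mul_of_nonneg_left (ff_mul_le hD u v c) hKpos
  calc ∑ c, QQ D ν u c * ff D u v c *
        ∑ u', p u' * |MM τ D u' c - MM τ D u' v| / SS D ν u'
      ≤ ∑ c, QQ D ν u c * ((K * (65 * D u v)) *
        ∑ u' ∈ univ.filter (fun u' => 1 / 4 ≤ D u u'), p u' * (kern D u' c / SS D ν u')) :=
        Finset.sum_le_sum fun c _ => hterm c
    _ = (K * (65 * D u v)) *
        ∑ u' ∈ univ.filter (fun u' => 1 / 4 ≤ D u u'), p u' * TT D ν u u' := by
        simp_rw [TT_eq_sum_QQ, Finset.mul_sum]
        rw [Finset.sum_comm]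
        refine Finset.sum_congr rfl fun u' _ => Finset.sum_congr rfl fun c _ => ?_
        ring
    _ ≤ (K * (65 * D u v)) * (4 * gg D p ν u) :=
        mul_le_mul_of_nonneg_left (sum_out_TT_le hD h u) (by positivity)
    _ ≤ 200000 * D u v * gg D p ν u := by
        have : 0 ≤ D u v * gg D p ν u := mul_nonneg hδ hg
        rw [hK]
        nlinarith only [hRHS]

end Vale.Agent.P304.Dyn
end
end

section

section

/-! L1: sizes of the slot sets, and the label bounds (section 3). -/

open Finset

namespace Vale.Agent.P304.Dyn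

variable {X J : Type} [Fintype X] [Fintype J] [DecidableEq X] [DecidableEq J]
  {D : X → X → ℝ} {p : X → ℝ} {η k : ℝ}

/-! ### slots sets given by a level function -/

omit [Fintype J] [DecidableEq J] in
theorem l1_card_fin {B m m' : ℕ} (h : m ≤ B) :
    (univ.filter fun b : Fin B => (b : ℕ) < m ∧ ¬ (b : ℕ) < m').card = m - m' := by
  have h1 : (univ.filter fun b : Fin B => (b : ℕ) < m ∧ ¬ (b : ℕ) < m').map Fin.valEmbedding
      = Finset.Ico m' m := by
    ext i
    simp only [mem_map, mem_filter, mem_univ, true_and, Fin.valEmbedding_apply, mem_Ico]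
    constructor
    · rintro ⟨b, ⟨h1, h2⟩, rfl⟩
      omega
    · rintro ⟨h1, h2⟩
      exact ⟨⟨i, by omega⟩, ⟨h2, by simpa only [not_lt] using h1⟩, rfl⟩
  rw [← card_map Fin.valEmbedding, h1, Nat.card_Ico]

/-- slot set of a level function -/
noncomputable def SL {n B : ℕ} (l : Fin n) (a : Option J → ℕ) : Finset (GG n J B) :=
  open Classical in univ.filter fun g => g.1 = l ∧ (g.2.2 : ℕ) < a g.2.1

omit [DecidableEq J] in
theorem mem_SL {n B : ℕ} {l : Fin n} {a : Option J → ℕ} {g : GG n J B} :
    g ∈ SL l a ↔ g.1 = l ∧ (g.2.2 : ℕ) < a g.2.1 := by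
  classical
  simp only [SL, mem_filter, mem_univ, true_and]

theorem card_SL_sdiff {n B : ℕ} (l : Fin n) (a a' : Option J → ℕ) (h : ∀ o, a o ≤ B) :
    ((SL l a : Finset (GG n J B)) \ SL l a').card = ∑ o, (a o - a' o) := by
  classical
  rw [card_eq_sum_card_fiberwise (f := fun g : GG n J B => g.2.1) (t := univ)
    (fun _ _ => mem_coe.2 (mem_univ _))]
  refine sum_congr rfl fun o _ => ?_
  rw [← l1_card_fin (m' := a' o) (h o)]
  symm
  refine card_bij (fun b _ => (l, o, b)) ?_ ?_ ?_
  · intro b hb
    simp only [mem_filter, mem_univ, true_and] at hb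
    simp only [mem_filter, mem_sdiff, mem_SL, true_and]
    exact ⟨⟨hb.1, hb.2⟩, trivial⟩
  · intro b _ b' _ hbb
    simpa using hbb
  · rintro ⟨l', o', b⟩ hg
    simp only [mem_filter, mem_sdiff, mem_SL] at hg
    obtain ⟨⟨⟨h1, h2⟩, h3⟩, h4⟩ := hg
    subst h1
    subst h4
    refine ⟨b, ?_, rfl⟩
    simp only [mem_filter, mem_univ, true_and]
    exact ⟨h2, fun h5 => h3 ⟨rfl, h5⟩⟩

theorem card_SL {n B : ℕ} (l : Fin n) (a : Option J → ℕ) (h : ∀ o, a o ≤ B) :
    (SL l a : Finset (GG n J B)).card = ∑ o, a o := by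
  have h1 := card_SL_sdiff (n := n) (B := B) l a (fun _ => 0) h
  have h2 : (SL l (fun _ => 0) : Finset (GG n J B)) = ∅ := by
    refine eq_empty_of_forall_notMem fun g hg => ?_
    rw [mem_SL] at hg
    exact absurd hg.2 (Nat.not_lt_zero _)
  rw [h2, sdiff_empty] at h1
  simpa only [Fintype.sum_option, tsub_zero] using h1

/-- level function of the slot set `AA` -/
noncomputable def lvl (k : ℝ) (Q Ne : ℕ) (D : X → X → ℝ) (x : Conf X J) (u : X) :
    Option J → ℕ
  | some j => slots k Q D x u j
  | none => Ne - ∑ j, slots k Q D x u j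

omit [DecidableEq J] [Fintype X] [DecidableEq X] in
theorem AA_eq {n B : ℕ} (k : ℝ) (Q Ne : ℕ) (D : X → X → ℝ) (l : Fin n) (x : Conf X J) (u : X) :
    (AA (B := B) k Q Ne D l x u) = SL l (lvl k Q Ne D x u) := by
  classical
  ext ⟨l', o, b⟩
  rw [mem_SL]
  unfold AA
  simp only [mem_filter, mem_univ, true_and]
  cases o <;> rfl

theorem nuC_nonneg (hη : 0 ≤ η) (x : Conf X J) (c : X) : 0 ≤ nuC η x c :=
  mul_nonneg hη (Nat.cast_nonneg _)

/-- sums against the token measure -/
theorem sum_nuC_mul (x : Conf X J) (f : X → ℝ) :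
    ∑ c, nuC η x c * f c = η * ∑ j ∈ univ.filter (fun j => (x j).2 = true), f (x j).1 := by
  rw [← sum_fiberwise (s := univ.filter fun j => (x j).2 = true) (g := fun j => (x j).1), mul_sum]
  refine sum_congr rfl fun c _ => ?_
  have h1 : ∑ j ∈ (univ.filter fun j => (x j).2 = true).filter (fun j => (x j).1 = c), f (x j).1 =
      ((univ.filter fun j => x j = (c, true)).card : ℝ) * f c := by
    rw [filter_filter]
    rw [← nsmul_eq_mul, ← sum_const]
    refine sum_congr ?_ ?_
    · ext j
      simp only [mem_filter, mem_univ, true_and, Prod.ext_iff]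
      exact and_comm
    · intro j hj
      simp only [mem_filter, mem_univ, true_and] at hj
      rw [hj]
  rw [h1]
  unfold nuC
  ring

theorem sum_nuC (x : Conf X J) :
    ∑ c, nuC η x c = η * ((univ.filter fun j => (x j).2 = true).card : ℝ) := by
  have h := sum_nuC_mul (η := η) x (fun _ => 1)
  simpa only [mul_one, sum_const, nsmul_eq_mul] using h

theorem slots_le (P : LPar η k J) (x : Conf X J) (u : X) (j : J) :
    (slots k P.Q D x u j : ℝ) ≤ P.Q * (Real.exp 3 * kern D u (x j).1) := by
  have hk : 0 < k := lt_of_lt_of_le one_pos P.hk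
  have h0 : (0 : ℝ) ≤ tau k := by
    unfold tau e0
    positivity
  have hr : 0 ≤ (P.Q : ℝ) * (Real.exp 3 * kern D u (x j).1) :=
    mul_nonneg (Nat.cast_nonneg _) (mul_nonneg (Real.exp_pos _).le (kern_pos _ _).le)
  unfold slots
  split_ifs with h
  · refine (Nat.floor_le (mul_nonneg (Nat.cast_nonneg _) (MM_nonneg _ _))).trans ?_
    exact mul_le_mul_of_nonneg_left (MM_le h0 _ _) (Nat.cast_nonneg _)
  · simpa only [CharP.cast_eq_zero, ge_iff_le] using hr

theorem slots_le_Q (P : LPar η k J) (x : Conf X J) (u : X) (j : J) :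
    slots k P.Q D x u j ≤ P.Q := by
  unfold slots
  split_ifs with h
  · refine Nat.floor_le_of_le ?_
    have := mul_le_mul_of_nonneg_left (MM_le_one (τ := tau k) (D := D) u (x j).1)
      (Nat.cast_nonneg (α := ℝ) P.Q)
    simpa only [ge_iff_le, mul_one] using this
  · exact Nat.zero_le _

theorem slots_dead (P : LPar η k J) (x : Conf X J) (u : X) (j : J) (h : (x j).2 = false) :
    slots k P.Q D x u j = 0 := by
  unfold slots
  rw [h]
  simp

theorem lvl_le (P : LPar η k J) (x : Conf X J) (u : X) (o : Option J) :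
    lvl k P.Q P.Ne D x u o ≤ P.B := by
  cases o with
  | none => exact (Nat.sub_le _ _).trans P.hB2
  | some j => exact (slots_le_Q P x u j).trans P.hB1

/-- cardinality of the slot set -/
theorem card_AA {n : ℕ} (P : LPar η k J) (l : Fin n) (x : Conf X J) (u : X) :
    ((AA (B := P.B) k P.Q P.Ne D l x u).card) = max P.Ne (∑ j, slots k P.Q D x u j) := by
  rw [AA_eq, card_SL _ _ (lvl_le P x u), Fintype.sum_option]
  show P.Ne - ∑ j, slots k P.Q D x u j + ∑ j, slots k P.Q D x u j = _
  (clear * -; omega)

/-- lower bound for the number of token slots -/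
theorem l1_sum_slots (hD : PM D) (P : LPar η k J) (x : Conf X J)
    (hx : ∑ c, nuC η x c ≤ 5 / 2 * k) (u : X) :
    (SS D (nuC η x) u - 21 / 20 * e0) * P.Q ≤ η * ((∑ j, slots k P.Q D x u j : ℕ) : ℝ) := by
  have hk : 0 < k := lt_of_lt_of_le one_pos P.hk
  have h0 : (0 : ℝ) ≤ tau k := by
    unfold tau e0
    positivity
  have hQ : (0 : ℝ) ≤ (P.Q : ℝ) := Nat.cast_nonneg _
  have htau : tau k * (5 / 2 * k) = e0 / 40 := by
    unfold tau
    field_simp
    ring
  -- per token
  have h1 : ∀ j ∈ univ.filter (fun j => (x j).2 = true),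
      (P.Q : ℝ) * (kern D u (x j).1 - tau k) - 1 ≤ slots k P.Q D x u j := by
    intro j hj
    simp only [mem_filter, mem_univ, true_and] at hj
    unfold slots
    rw [if_pos hj]
    have h2 := Nat.lt_floor_add_one ((P.Q : ℝ) * MM (tau k) D u (x j).1)
    have h3 := mul_le_mul_of_nonneg_left (le_MM hD h0 u (x j).1) hQ
    linarith only [h2, h3]
  have h2 : ∑ j ∈ univ.filter (fun j => (x j).2 = true),
      ((P.Q : ℝ) * (kern D u (x j).1 - tau k) - 1) ≤ ((∑ j, slots k P.Q D x u j : ℕ) : ℝ) := by
    refine (sum_le_sum h1).trans ?_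
    push_cast
    exact sum_le_sum_of_subset_of_nonneg (filter_subset _ _) fun j _ _ => Nat.cast_nonneg _
  have h3 : ∑ j ∈ univ.filter (fun j => (x j).2 = true),
      ((P.Q : ℝ) * (kern D u (x j).1 - tau k) - 1) =
      (P.Q : ℝ) * ∑ j ∈ univ.filter (fun j => (x j).2 = true), kern D u (x j).1
        - (P.Q : ℝ) * tau k * ((univ.filter fun j => (x j).2 = true).card : ℝ)
        - ((univ.filter fun j => (x j).2 = true).card : ℝ) := by
    rw [sum_sub_distrib, ← mul_sum, sum_sub_distrib, sum_const, sum_const]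
    simp only [nsmul_eq_mul]
    ring
  have h4 := sum_nuC_mul (η := η) x (fun c => kern D u c)
  have h5 := sum_nuC (η := η) x
  have h6 : SS D (nuC η x) u = e0 + ∑ c, nuC η x c * kern D u c := by
    unfold SS
    congr 1
    exact sum_congr rfl fun c _ => mul_comm _ _
  have hcard : ((univ.filter fun j => (x j).2 = true).card : ℝ) ≤ Fintype.card J := by
    exact_mod_cast card_le_univ _
  have hη := P.hη
  have h7 : η * ((univ.filter fun j => (x j).2 = true).card : ℝ) ≤ e0 / 40 * P.Q :=
    (mul_le_mul_of_nonneg_left hcard hη.le).trans P.hJ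
  have h8 := mul_le_mul_of_nonneg_left h2 hη.le
  rw [h3] at h8
  have h9 : tau k * ∑ c, nuC η x c ≤ e0 / 40 := by
    rw [← htau]
    exact mul_le_mul_of_nonneg_left hx h0
  have h10 : (P.Q : ℝ) * (tau k * ∑ c, nuC η x c) ≤ (P.Q : ℝ) * (e0 / 40) :=
    mul_le_mul_of_nonneg_left h9 hQ
  rw [h6, h4]
  rw [h5] at h10
  refine le_trans ?_ h8
  have e1 : η * ((P.Q : ℝ) * ∑ j ∈ univ.filter (fun j => (x j).2 = true), kern D u (x j).1
        - (P.Q : ℝ) * tau k * ((univ.filter fun j => (x j).2 = true).card : ℝ)
        - ((univ.filter fun j => (x j).2 = true).card : ℝ)) =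
      (P.Q : ℝ) * (η * ∑ j ∈ univ.filter (fun j => (x j).2 = true), kern D u (x j).1)
        - (P.Q : ℝ) * (tau k * (η * ((univ.filter fun j => (x j).2 = true).card : ℝ)))
        - η * ((univ.filter fun j => (x j).2 = true).card : ℝ) := by ring
  rw [e1]
  linarith

theorem l1_card_pos {n : ℕ} (P : LPar η k J) (l : Fin n) (x : Conf X J) (u : X) :
    0 < (AA (B := P.B) k P.Q P.Ne D l x u).card := by
  rw [card_AA]
  have h1 := P.hNe
  have hη := P.hη
  have hQ : (1 : ℝ) ≤ P.Q := by exact_mod_cast P.hQ
  have h2 : 0 < P.Ne := by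
    rcases Nat.eq_zero_or_pos P.Ne with h | h
    · exfalso
      rw [h] at h1
      have : (0 : ℝ) < e0 * P.Q := by
        unfold e0
        positivity
      simp only [CharP.cast_eq_zero, mul_zero] at h1
      linarith only [this, h1]
    · exact h
  exact lt_of_lt_of_le h2 (le_max_left _ _)

/-- the slot set is large: `S(u) ≤ 3 (η / Q) |A_u|` -/
theorem SS_le_card {n : ℕ} (hD : PM D) (P : LPar η k J) (l : Fin n) (x : Conf X J)
    (hx : ∑ c, nuC η x c ≤ 5 / 2 * k) (u : X) :
    SS D (nuC η x) u * P.Q ≤ 3 * η * (AA (B := P.B) k P.Q P.Ne D l x u).card := by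
  have h1 := l1_sum_slots hD P x hx u
  have h2 := P.hNe
  have hη := P.hη
  have h3 : (P.Ne : ℝ) ≤ (AA (B := P.B) k P.Q P.Ne D l x u).card := by
    rw [card_AA]
    exact_mod_cast le_max_left _ _
  have h4 : ((∑ j, slots k P.Q D x u j : ℕ) : ℝ) ≤
      (AA (B := P.B) k P.Q P.Ne D l x u).card := by
    rw [card_AA]
    exact_mod_cast le_max_right _ _
  have h5 := mul_le_mul_of_nonneg_left h3 hη.le
  have h6 := mul_le_mul_of_nonneg_left h4 hη.le
  have hQ : (0 : ℝ) ≤ (P.Q : ℝ) := Nat.cast_nonneg _
  have h7 : 0 ≤ e0 * P.Q := mul_nonneg (by unfold e0; norm_num) hQ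
  linarith only [h1, h2, h5, h6, h7]

/-- symmetric difference of slot sets at the same level -/
theorem card_sdiff_AA_le {n : ℕ} (P : LPar η k J) (l : Fin n) (x x' : Conf X J) (u u' : X) :
    (((AA (B := P.B) k P.Q P.Ne D l x u) \ (AA (B := P.B) k P.Q P.Ne D l x' u')).card
      + ((AA (B := P.B) k P.Q P.Ne D l x' u') \ (AA (B := P.B) k P.Q P.Ne D l x u)).card : ℝ)
      ≤ 2 * ∑ j, |(slots k P.Q D x u j : ℝ) - slots k P.Q D x' u' j| := by
  have hab : ∀ a b : ℕ, ((a - b : ℕ) : ℝ) + ((b - a : ℕ) : ℝ) = |(a : ℝ) - b| := by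
    intro a b
    rcases le_total a b with h | h
    · rw [Nat.sub_eq_zero_of_le h, Nat.cast_sub h, abs_of_nonpos (sub_nonpos.2 (by exact_mod_cast h))]
      push_cast
      ring
    · rw [Nat.sub_eq_zero_of_le h, Nat.cast_sub h, abs_of_nonneg (sub_nonneg.2 (by exact_mod_cast h))]
      push_cast
      ring
  rw [AA_eq, AA_eq, card_SL_sdiff _ _ _ (lvl_le P x u), card_SL_sdiff _ _ _ (lvl_le P x' u')]
  push_cast
  rw [← sum_add_distrib]
  have h1 : ∀ o, ((lvl k P.Q P.Ne D x u o - lvl k P.Q P.Ne D x' u' o : ℕ) : ℝ)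
      + ((lvl k P.Q P.Ne D x' u' o - lvl k P.Q P.Ne D x u o : ℕ) : ℝ) =
      |(lvl k P.Q P.Ne D x u o : ℝ) - lvl k P.Q P.Ne D x' u' o| := fun o => hab _ _
  simp_rw [h1]
  rw [Fintype.sum_option]
  have h2 : |(lvl k P.Q P.Ne D x u none : ℝ) - lvl k P.Q P.Ne D x' u' none| ≤
      ∑ j, |(slots k P.Q D x u j : ℝ) - slots k P.Q D x' u' j| := by
    have h3 : |(lvl k P.Q P.Ne D x u none : ℝ) - lvl k P.Q P.Ne D x' u' none| ≤
        |((∑ j, slots k P.Q D x u j : ℕ) : ℝ) - ((∑ j, slots k P.Q D x' u' j : ℕ) : ℝ)| := by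
      show |((P.Ne - ∑ j, slots k P.Q D x u j : ℕ) : ℝ) -
        ((P.Ne - ∑ j, slots k P.Q D x' u' j : ℕ) : ℝ)| ≤ _
      generalize ∑ j, slots k P.Q D x u j = a
      generalize ∑ j, slots k P.Q D x' u' j = b
      have e1 : ((P.Ne - a : ℕ) : ℤ) = max 0 ((P.Ne : ℤ) - a) := by omega
      have e2 : ((P.Ne - b : ℕ) : ℤ) = max 0 ((P.Ne : ℤ) - b) := by (clear * -; omega)
      have e3 : |((P.Ne - a : ℕ) : ℤ) - ((P.Ne - b : ℕ) : ℤ)| ≤ |(a : ℤ) - b| := by
        rw [e1, e2]
        rw [abs_le]
        rcases abs_cases ((a : ℤ) - b) with h | h <;> omega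
      exact_mod_cast e3
    refine h3.trans ?_
    push_cast
    rw [← sum_sub_distrib]
    exact abs_sum_le_sum_abs _ _
  have h4 : ∑ j, |(lvl k P.Q P.Ne D x u (some j) : ℝ) - lvl k P.Q P.Ne D x' u' (some j)| =
      ∑ j, |(slots k P.Q D x u j : ℝ) - slots k P.Q D x' u' j| := rfl
  rw [h4]
  linarith only [h2]

/-- probability that two labels differ -/
theorem lab_ne_le {n : ℕ} (P : LPar η k J) (l : Fin n) (x x' : Conf X J) (u u' : X) :
    EE (fun π : Ord (GG n J P.B) =>
        if lab k P.Q P.Ne D π l x u = lab k P.Q P.Ne D π l x' u' then (0 : ℝ) else 1)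
      ≤ 2 * (∑ j, |(slots k P.Q D x u j : ℝ) - slots k P.Q D x' u' j|) /
        (AA (B := P.B) k P.Q P.Ne D l x u).card := by
  classical
  set A := AA (B := P.B) k P.Q P.Ne D l x u with hA
  set A' := AA (B := P.B) k P.Q P.Ne D l x' u' with hA'
  have hc : 0 < A.card := l1_card_pos P l x u
  have hne : (A ∪ A').Nonempty := (card_pos.1 hc).mono subset_union_left
  have h1 : EE (fun π : Ord (GG n J P.B) =>
        if lab k P.Q P.Ne D π l x u = lab k P.Q P.Ne D π l x' u' then (0 : ℝ) else 1) ≤
      EE (fun π : Ord (GG n J P.B) => open Classical in if mh π A = mh π A' then (0 : ℝ) else 1) := by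
    refine EE_mono fun π => ?_
    by_cases h : mh π A = mh π A'
    · have h2 : lab k P.Q P.Ne D π l x u = lab k P.Q P.Ne D π l x' u' := by
        unfold lab
        rw [← hA, ← hA', h]
      rw [if_pos h2, if_pos h]
    · rw [if_neg h]
      split_ifs <;> norm_num
  refine h1.trans ((EE_mh_ne hne).trans ?_)
  have hc' : (0 : ℝ) < A.card := by exact_mod_cast hc
  have h2 : (A.card : ℝ) ≤ (A ∪ A').card := by
    exact_mod_cast card_le_card subset_union_left
  exact div_le_div₀ (mul_nonneg (by norm_num) (sum_nonneg fun j _ => abs_nonneg _))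
    (card_sdiff_AA_le P l x x' u u') hc' h2

/-- probability of a given label -/
theorem lab_eq_le {n : ℕ} (hD : PM D) (P : LPar η k J) (l : Fin n) (x : Conf X J)
    (hx : ∑ c, nuC η x c ≤ 5 / 2 * k) (u : X) (j : J) :
    EE (fun π : Ord (GG n J P.B) =>
        if lab k P.Q P.Ne D π l x u = some j then (1 : ℝ) else 0)
      ≤ 63 * η * (if (x j).2 = true then kern D u (x j).1 / SS D (nuC η x) u else 0) := by
  classical
  set A := AA (B := P.B) k P.Q P.Ne D l x u with hA
  have hη := P.hη
  have hc : 0 < A.card := l1_card_pos P l x u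
  have hS : 0 < SS D (nuC η x) u := SS_pos (fun c => nuC_nonneg hη.le x c) u
  set b : Option J → ℕ := fun o => if o = some j then slots k P.Q D x u j else 0 with hb
  set Bj : Finset (GG n J P.B) := SL l b with hBj
  have hsub : Bj ⊆ A := by
    intro g hg
    rw [hBj, mem_SL] at hg
    rw [hA, AA_eq, mem_SL]
    refine ⟨hg.1, ?_⟩
    have h2 := hg.2
    by_cases h : g.2.1 = some j
    · rw [hb] at h2
      simp only [h, if_true] at h2
      rw [h]
      exact h2
    · rw [hb] at h2
      simp only [h, if_false] at h2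
      exact absurd h2 (Nat.not_lt_zero _)
  have hcard : Bj.card = slots k P.Q D x u j := by
    rw [hBj, card_SL]
    · rw [hb]
      simp only [sum_ite_eq', mem_univ, ↓reduceIte]
    · intro o
      rw [hb]
      dsimp only
      split_ifs
      · exact (slots_le_Q P x u j).trans P.hB1
      · exact Nat.zero_le _
  have h1 : EE (fun π : Ord (GG n J P.B) =>
        if lab k P.Q P.Ne D π l x u = some j then (1 : ℝ) else 0) ≤
      EE (fun π : Ord (GG n J P.B) => open Classical in
        if ∃ g ∈ Bj, mh π A = some g then (1 : ℝ) else 0) := by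
    refine EE_mono fun π => ?_
    by_cases h : lab k P.Q P.Ne D π l x u = some j
    · have h2 : ∃ g ∈ Bj, mh π A = some g := by
        unfold lab at h
        rw [← hA] at h
        obtain ⟨g, hg, hg2⟩ := Option.bind_eq_some_iff.1 h
        refine ⟨g, ?_, hg⟩
        have hgA := mh_mem hg
        rw [hA, AA_eq, mem_SL] at hgA
        rw [hBj, mem_SL]
        refine ⟨hgA.1, ?_⟩
        have h3 := hgA.2
        rw [hg2] at h3 ⊢
        rw [hb]
        simp only [if_true]
        exact h3
      rw [if_pos h, if_pos h2]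
    · rw [if_neg h]
      split_ifs <;> norm_num
  refine h1.trans ?_
  rw [EE_mh_mem (card_pos.1 hc) hsub, hcard]
  have hc' : (0 : ℝ) < A.card := by exact_mod_cast hc
  split_ifs with hj
  · rw [div_le_iff₀ hc']
    have h2 := slots_le (D := D) P x u j
    have h3 := SS_le_card hD P l x hx u
    rw [← hA] at h3
    have hkern := (kern_pos (D := D) u (x j).1)
    have hQ : (0 : ℝ) ≤ (P.Q : ℝ) := Nat.cast_nonneg _
    have he : Real.exp 3 ≤ 201 / 10 := k4_exp3
    have h4 : (P.Q : ℝ) * (Real.exp 3 * kern D u (x j).1) ≤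
        21 * kern D u (x j).1 / SS D (nuC η x) u * (SS D (nuC η x) u * P.Q) := by
      have e1 : 21 * kern D u (x j).1 / SS D (nuC η x) u * (SS D (nuC η x) u * P.Q) =
          (P.Q : ℝ) * (21 * kern D u (x j).1) := by
        (clear * - hS hkern; field_simp)
      rw [e1]
      refine mul_le_mul_of_nonneg_left ?_ hQ
      exact mul_le_mul_of_nonneg_right (by linarith only [he]) hkern.le
    have h5 : 21 * kern D u (x j).1 / SS D (nuC η x) u * (SS D (nuC η x) u * P.Q) ≤
        21 * kern D u (x j).1 / SS D (nuC η x) u * (3 * η * A.card) :=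
      mul_le_mul_of_nonneg_left h3 (by (clear * - hkern hS; positivity))
    refine h2.trans (h4.trans (h5.trans (le_of_eq ?_)))
    ring
  · rw [slots_dead P x u j (by simpa using hj)]
    simp

/-- a label is an alive token within distance `RR k` -/
theorem lab_dist {n : ℕ} (P : LPar η k J) (π : Ord (GG n J P.B)) (l : Fin n)
    (x : Conf X J) (u : X) (j : J) (h : lab k P.Q P.Ne D π l x u = some j) :
    (x j).2 = true ∧ D u (x j).1 ≤ RR k := by
  have hk : 0 < k := lt_of_lt_of_le one_pos P.hk
  have h0 : (0 : ℝ) < tau k := by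
    unfold tau e0
    (clear * - hk; positivity)
  unfold lab at h
  obtain ⟨g, hg, hg2⟩ := Option.bind_eq_some_iff.1 h
  have hgA := mh_mem hg
  rw [AA_eq, mem_SL] at hgA
  have h3 := hgA.2
  rw [hg2] at h3
  have h4 : 0 < slots k P.Q D x u j := lt_of_le_of_lt (Nat.zero_le _) h3
  unfold slots at h4
  split_ifs at h4 with hj
  · refine ⟨hj, ?_⟩
    have h5 := Nat.floor_pos.1 h4
    refine MM_supp h0 u _ ?_
    by_contra hc
    have h6 : MM (tau k) D u (x j).1 = 0 := le_antisymm (not_lt.1 hc) (MM_nonneg _ _)
    rw [h6, mul_zero] at h5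
    norm_num at h5
  · exact absurd h4 (lt_irrefl _)

/-- heavy points are never null -/
theorem lab_ne_none {n : ℕ} (hD : PM D) (P : LPar η k J) (π : Ord (GG n J P.B)) (l : Fin n)
    (x : Conf X J) (h : Bal D p (nuC η x)) (hpk : ∑ u, p u ≤ k) (u : X) (hu : 1 ≤ p u) :
    lab k P.Q P.Ne D π l x u ≠ none := by
  have hη := P.hη
  have hx : ∑ c, nuC η x c ≤ 5 / 2 * k := (sum_nu_le h).trans (by linarith only [hpk])
  have h1 := l1_sum_slots hD P x hx u
  have h2 := ball_le hD h u
  have h3 : p u ≤ ∑ u' ∈ univ.filter (fun u' => D u u' ≤ 1 / 4), p u' := by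
    refine single_le_sum (f := p) (fun u' _ => h.hp u') ?_
    simp only [mem_filter, mem_univ, true_and]
    rw [hD.self u]
    norm_num
  have hS : 5 / 11 ≤ SS D (nuC η x) u := by linarith only [hu, h2, h3]
  have hQ : (1 : ℝ) ≤ P.Q := by exact_mod_cast P.hQ
  have hη1 : η ≤ e0 ^ 2 / 100 := by
    refine le_trans ?_ P.hη1
    exact le_mul_of_one_le_right hη.le P.hk
  have h4 : (5 / 11 - 21 / 20 * e0) * P.Q ≤ η * ((∑ j, slots k P.Q D x u j : ℕ) : ℝ) :=
    le_trans (mul_le_mul_of_nonneg_right (by linarith only [hu, h2, h3]) (by linarith only [])) h1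
  have h5 : η * P.Ne ≤ η * ((∑ j, slots k P.Q D x u j : ℕ) : ℝ) := by
    refine P.hNe'.trans (le_trans ?_ h4)
    unfold e0 at hη1 ⊢
    nlinarith only [hQ, hη1]
  have h6 : P.Ne ≤ ∑ j, slots k P.Q D x u j := by
    have := le_of_mul_le_mul_left h5 hη
    exact_mod_cast this
  obtain ⟨g, hgA, hg⟩ := exists_mh (π := π) (card_pos.1 (l1_card_pos (D := D) P l x u))
  unfold lab
  rw [hg]
  rw [AA_eq, mem_SL] at hgA
  intro hn
  have hn' : g.2.1 = none := hn
  have h7 := hgA.2
  rw [hn'] at h7
  have h8 : (g.2.2 : ℕ) < P.Ne - ∑ j, slots k P.Q D x u j := h7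
  omega

end Vale.Agent.P304.Dyn
end
end

section

section

/-! K5: the change of `F` under a small transport plan with dragging (second order expansion). -/

open Finset

namespace Vale.Agent.P304.Dyn

variable {X : Type} [Fintype X] [DecidableEq X] {D : X → X → ℝ} {p ν : X → ℝ}

/-- the marginal after the transport plan `a` -/
noncomputable def push (p : X → ℝ) (a : X → X → ℝ) (x : X) : ℝ :=
  p x + ∑ u, a u x - ∑ v, a x v

/-- mass of the tokens at `c` that is dragged to `v` -/
noncomputable def dragm (D : X → X → ℝ) (ν : X → ℝ) (a : X → X → ℝ) (c v : X) : ℝ :=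
  ∑ u, a u v * (QQ D ν u c * ff D u v c)

/-- token measure after the drags -/
noncomputable def dragged (D : X → X → ℝ) (ν : X → ℝ) (a : X → X → ℝ) (x : X) : ℝ :=
  ν x + ∑ c, dragm D ν a c x - ∑ v, dragm D ν a x v

theorem k5_e0_pos : (0 : ℝ) < e0 := by
  unfold e0
  norm_num

theorem dragm_nonneg (hD : PM D) (hν : ∀ c, 0 ≤ ν c) {a : X → X → ℝ} (ha : ∀ u v, 0 ≤ a u v)
    (c v : X) : 0 ≤ dragm D ν a c v :=
  sum_nonneg fun u _ => mul_nonneg (ha u v) (mul_nonneg (QQ_nonneg hν u c) (ff_nonneg hD u v c))

omit [DecidableEq X] in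
theorem k5_QQ_le (hD : PM D) (hν : ∀ c, 0 ≤ ν c) (u c : X) : QQ D ν u c ≤ ν c / e0 := by
  unfold QQ
  have h1 := SS_ge (D := D) hν u
  have h2 := kern_le_one hD u c
  have h3 : kern D u c * ν c ≤ ν c := mul_le_of_le_one_left (hν c) h2
  exact div_le_div₀ (hν c) h3 k5_e0_pos h1

/-- at most the fraction `(∑ a) / e0` of every token is dragged -/
theorem sum_dragm_le (hD : PM D) (hν : ∀ c, 0 ≤ ν c) {a : X → X → ℝ} (ha : ∀ u v, 0 ≤ a u v)
    (c : X) : ∑ v, dragm D ν a c v ≤ (∑ u, ∑ v, a u v) / e0 * ν c := by
  unfold dragm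
  rw [sum_comm, sum_div, sum_mul]
  refine sum_le_sum fun u _ => ?_
  rw [sum_div, sum_mul]
  refine sum_le_sum fun v _ => ?_
  rw [div_mul_eq_mul_div, mul_div_assoc]
  refine mul_le_mul_of_nonneg_left ?_ (ha u v)
  exact (mul_le_of_le_one_right (QQ_nonneg hν u c) (ff_le_one hD u v c)).trans (k5_QQ_le hD hν u c)

/-- the total dragged mass is at most the transported mass -/
theorem k5_sum_dragm (hD : PM D) (hν : ∀ c, 0 ≤ ν c) {a : X → X → ℝ} (ha : ∀ u v, 0 ≤ a u v) :
    ∑ c, ∑ v, dragm D ν a c v ≤ ∑ u, ∑ v, a u v := by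
  unfold dragm
  have h1 : ∑ c, ∑ v, ∑ u, a u v * (QQ D ν u c * ff D u v c) =
      ∑ u, ∑ v, a u v * ∑ c, QQ D ν u c * ff D u v c := by
    rw [sum_comm]
    simp_rw [mul_sum]
    rw [sum_comm (γ := X) (s := univ) (t := univ) (f := fun u v =>
      ∑ c, a u v * (QQ D ν u c * ff D u v c))]
    refine sum_congr rfl fun v _ => ?_
    rw [sum_comm]
  rw [h1]
  refine sum_le_sum fun u _ => sum_le_sum fun v _ => ?_
  refine mul_le_of_le_one_right (ha u v) ?_
  refine le_trans (sum_le_sum fun c _ => ?_) (sum_QQ_le_one (D := D) hν u)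
  exact mul_le_of_le_one_right (QQ_nonneg hν u c) (ff_le_one hD u v c)

omit [DecidableEq X] in
theorem k5_log_sub {x y : ℝ} (hx : 0 < x) (hy : e0 ≤ y) :
    Real.log x - Real.log y ≤ |x - y| / e0 := by
  have hy0 : 0 < y := lt_of_lt_of_le k5_e0_pos hy
  rw [← Real.log_div hx.ne' hy0.ne']
  have h1 := Real.log_le_sub_one_of_pos (div_pos hx hy0)
  have h2 : x / y - 1 = (x - y) / y := by
    field_simp
  rw [h2] at h1
  refine h1.trans ?_
  exact (div_le_div_of_nonneg_right (le_abs_self _) hy0.le).trans
    (div_le_div_of_nonneg_left (abs_nonneg _) k5_e0_pos hy)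

/-- Lipschitz dependence of `F` on the token measure -/
theorem FF_lip (hD : PM D) (hp : ∀ x, 0 ≤ p x) {ν' : X → ℝ} (hν : ∀ c, 0 ≤ ν c)
    (hν' : ∀ c, 0 ≤ ν' c) :
    FF D p ν' ≤ FF D p ν + (1 + (∑ x, p x) / e0) * ∑ c, |ν' c - ν c| := by
  unfold FF
  set V := ∑ c, |ν' c - ν c| with hV
  have h1 : ∑ c, ν' c - ∑ c, ν c ≤ V := by
    rw [← sum_sub_distrib]
    exact sum_le_sum fun c _ => le_abs_self _
  have h2 : ∀ u, |SS D ν u - SS D ν' u| ≤ V := by
    intro u
    unfold SS
    have h3 : (e0 + ∑ c, kern D u c * ν c) - (e0 + ∑ c, kern D u c * ν' c) =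
        ∑ c, kern D u c * (ν c - ν' c) := by
      rw [add_sub_add_left_eq_sub, ← sum_sub_distrib]
      exact sum_congr rfl fun c _ => by ring
    rw [h3]
    refine (abs_sum_le_sum_abs _ _).trans (sum_le_sum fun c _ => ?_)
    rw [abs_mul, abs_of_pos (kern_pos u c), abs_sub_comm]
    exact mul_le_of_le_one_left (abs_nonneg _) (kern_le_one hD u c)
  have h4 : ∑ u, p u * Real.log (SS D ν u) - ∑ u, p u * Real.log (SS D ν' u) ≤
      (∑ x, p x) / e0 * V := by
    rw [← sum_sub_distrib, sum_div, sum_mul]
    refine sum_le_sum fun u _ => ?_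
    rw [← mul_sub, div_mul_eq_mul_div, mul_div_assoc]
    refine mul_le_mul_of_nonneg_left ?_ (hp u)
    exact (k5_log_sub (SS_pos hν u) (SS_ge hν' u)).trans
      (div_le_div_of_nonneg_right (h2 u) k5_e0_pos.le)
  (clear * - h1 h4; linarith)

omit [DecidableEq X] in
/-- summation by parts on the complete graph -/
theorem k5_parts (G : X → X → ℝ) (L : X → ℝ) :
    ∑ x, L x * (∑ u, G u x - ∑ v, G x v) = ∑ u, ∑ v, G u v * (L v - L u) := by
  simp_rw [mul_sub]
  rw [sum_sub_distrib]
  have h1 : ∑ x, L x * ∑ u, G u x = ∑ u, ∑ v, G u v * L v := by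
    rw [sum_comm]
    refine sum_congr rfl fun x _ => ?_
    rw [mul_sum]
    exact sum_congr rfl fun u _ => mul_comm _ _
  have h2 : ∑ x, L x * ∑ v, G x v = ∑ u, ∑ v, G u v * L u := by
    refine sum_congr rfl fun x _ => ?_
    rw [mul_sum]
    exact sum_congr rfl fun u _ => mul_comm _ _
  rw [h1, h2, ← sum_sub_distrib]
  refine sum_congr rfl fun u _ => ?_
  rw [← sum_sub_distrib]

omit [DecidableEq X] in
theorem k5_push_mul (a : X → X → ℝ) (L : X → ℝ) :
    ∑ x, push p a x * L x = ∑ x, p x * L x + ∑ u, ∑ v, a u v * (L v - L u) := by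
  rw [← k5_parts, ← sum_add_distrib]
  refine sum_congr rfl fun x _ => ?_
  unfold push
  ring

omit [DecidableEq X] in
theorem k5_push_nonneg {a : X → X → ℝ} (ha : ∀ u v, 0 ≤ a u v)
    (hap : ∀ u, ∑ v, a u v ≤ p u) (x : X) : 0 ≤ push p a x := by
  unfold push
  have h1 : 0 ≤ ∑ u, a u x := sum_nonneg fun u _ => ha u x
  have h2 := hap x
  linarith

omit [DecidableEq X] in
theorem k5_sum_push (a : X → X → ℝ) : ∑ x, push p a x = ∑ x, p x := by
  have h := k5_push_mul (p := p) a (fun _ => 1)
  simpa only [mul_one, sub_self, mul_zero, sum_const_zero, add_zero] using h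

theorem k5_sum_dragged (a : X → X → ℝ) : ∑ x, dragged D ν a x = ∑ x, ν x := by
  have h := k5_parts (fun c v => dragm D ν a c v) (fun _ => (1 : ℝ))
  simp only [sub_self, mul_zero, sum_const_zero, one_mul] at h
  unfold dragged
  have h2 : ∑ x, (ν x + ∑ c, dragm D ν a c x - ∑ v, dragm D ν a x v) =
      ∑ x, ν x + ∑ x, (∑ c, dragm D ν a c x - ∑ v, dragm D ν a x v) := by
    rw [← sum_add_distrib]
    exact sum_congr rfl fun x _ => by ring
  rw [h2, h, add_zero]

/-- change of the smoothed token mass -/
noncomputable def k5_dl (D : X → X → ℝ) (ν : X → ℝ) (a : X → X → ℝ) (u : X) : ℝ :=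
  ∑ c, ∑ v, dragm D ν a c v * (kern D u v - kern D u c)

theorem k5_SS_dragged (a : X → X → ℝ) (u : X) :
    SS D (dragged D ν a) u = SS D ν u + k5_dl D ν a u := by
  unfold k5_dl
  rw [← k5_parts (fun c v => dragm D ν a c v) (fun x => kern D u x)]
  unfold SS dragged
  rw [add_assoc, ← sum_add_distrib]
  congr 1
  refine sum_congr rfl fun x _ => ?_
  ring

theorem k5_abs_dl (hD : PM D) (hν : ∀ c, 0 ≤ ν c) {a : X → X → ℝ} (ha : ∀ u v, 0 ≤ a u v)
    (u : X) : |k5_dl D ν a u| ≤ ∑ u, ∑ v, a u v := by
  refine le_trans ?_ (k5_sum_dragm hD hν ha)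
  unfold k5_dl
  refine (abs_sum_le_sum_abs _ _).trans (sum_le_sum fun c _ => ?_)
  refine (abs_sum_le_sum_abs _ _).trans (sum_le_sum fun v _ => ?_)
  rw [abs_mul, abs_of_nonneg (dragm_nonneg hD hν ha c v)]
  refine mul_le_of_le_one_right (dragm_nonneg hD hν ha c v) ?_
  have h1 := kern_pos (D := D) u v
  have h2 := kern_pos (D := D) u c
  have h3 := kern_le_one hD u v
  have h4 := kern_le_one hD u c
  rw [abs_le]
  constructor <;> linarith

theorem k5_log_one_add {x : ℝ} (hx : -(1 / 2) ≤ x) : x - 2 * x ^ 2 ≤ Real.log (1 + x) := by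
  have h0 : 0 < 1 + x := by linarith
  have h1 := Real.log_le_sub_one_of_pos (inv_pos.mpr h0)
  rw [Real.log_inv] at h1
  have h2 : (x - 2 * x ^ 2) * (1 + x) ≤ x := by
    have h3 : 0 ≤ x ^ 2 * (1 + 2 * x) := mul_nonneg (sq_nonneg _) (by linarith only [hx])
    have h4 : (x - 2 * x ^ 2) * (1 + x) = x - x ^ 2 * (1 + 2 * x) := by ring
    linarith only [h3]
  have h5 : x - 2 * x ^ 2 ≤ x / (1 + x) := by
    rw [le_div_iff₀ h0]
    exact h2
  have h6 : x / (1 + x) = 1 - (1 + x)⁻¹ := by
    field_simp
    ring
  linarith only [h1, h5, h6]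

/-- the first order term of the drags -/
theorem k5_first (a : X → X → ℝ) :
    - ∑ u', p u' * (k5_dl D ν a u' / SS D ν u') =
      ∑ u, ∑ v, a u v * ∑ c, QQ D ν u c * ff D u v c *
        ∑ u', p u' * (kern D u' c - kern D u' v) / SS D ν u' := by
  set W : X → X → ℝ := fun c v => ∑ u', p u' * (kern D u' c - kern D u' v) / SS D ν u' with hW
  have h1 : - ∑ u', p u' * (k5_dl D ν a u' / SS D ν u') = ∑ c, ∑ v, dragm D ν a c v * W c v := by
    rw [← sum_neg_distrib]
    have h2 : ∀ u', -(p u' * (k5_dl D ν a u' / SS D ν u')) =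
        ∑ c, ∑ v, dragm D ν a c v * (p u' * (kern D u' c - kern D u' v) / SS D ν u') := by
      intro u'
      unfold k5_dl
      rw [sum_div, mul_sum, ← sum_neg_distrib]
      refine sum_congr rfl fun c _ => ?_
      rw [sum_div, mul_sum, ← sum_neg_distrib]
      refine sum_congr rfl fun v _ => ?_
      ring
    simp_rw [h2]
    rw [sum_comm]
    refine sum_congr rfl fun c _ => ?_
    rw [sum_comm]
    refine sum_congr rfl fun v _ => ?_
    rw [hW, mul_sum]
  rw [h1]
  unfold dragm
  have h3 : ∀ c v, (∑ u, a u v * (QQ D ν u c * ff D u v c)) * W c v =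
      ∑ u, a u v * (QQ D ν u c * ff D u v c * W c v) := by
    intro c v
    rw [sum_mul]
    exact sum_congr rfl fun u _ => by ring
  calc ∑ c, ∑ v, (∑ u, a u v * (QQ D ν u c * ff D u v c)) * W c v
      = ∑ c, ∑ v, ∑ u, a u v * (QQ D ν u c * ff D u v c * W c v) :=
        sum_congr rfl fun c _ => sum_congr rfl fun v _ => h3 c v
    _ = ∑ c, ∑ u, ∑ v, a u v * (QQ D ν u c * ff D u v c * W c v) :=
        sum_congr rfl fun c _ => sum_comm
    _ = ∑ u, ∑ c, ∑ v, a u v * (QQ D ν u c * ff D u v c * W c v) := sum_comm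
    _ = ∑ u, ∑ v, ∑ c, a u v * (QQ D ν u c * ff D u v c * W c v) :=
        sum_congr rfl fun u _ => sum_comm
    _ = ∑ u, ∑ v, a u v * ∑ c, QQ D ν u c * ff D u v c * W c v :=
        sum_congr rfl fun u _ => sum_congr rfl fun v _ => (mul_sum _ _ _).symm

/-- second order expansion: exact first order term `drift`, error quadratic in `∑ a`. -/
theorem FF_plan_le (hD : PM D) (h : Bal D p ν) {k : ℝ} (hk : 1 ≤ k) (hpk : ∑ x, p x ≤ k)
    {a : X → X → ℝ} (ha : ∀ u v, 0 ≤ a u v) (hap : ∀ u, ∑ v, a u v ≤ p u)
    (hsmall : ∑ u, ∑ v, a u v ≤ e0 / 8) :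
    FF D (push p a) (dragged D ν a) ≤ FF D p ν + ∑ u, ∑ v, a u v * drift D p ν u v
      + 4000 * k * (∑ u, ∑ v, a u v) ^ 2 := by
  set α := ∑ u, ∑ v, a u v with hα
  have hα0 : 0 ≤ α := sum_nonneg fun u _ => sum_nonneg fun v _ => ha u v
  have hν := h.hν
  have he : (e0 : ℝ) = 1 / 20 := rfl
  set x : X → ℝ := fun u => k5_dl D ν a u / SS D ν u with hx
  have hxa : ∀ u, |x u| ≤ 20 * α := by
    intro u
    rw [hx]
    simp only
    rw [abs_div, abs_of_pos (SS_pos hν u)]
    have h1 := k5_abs_dl hD hν ha u
    have h2 : |k5_dl D ν a u| / SS D ν u ≤ α / e0 :=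
      div_le_div₀ hα0 h1 k5_e0_pos (SS_ge hν u)
    rw [he] at h2
    linarith only [h2]
  have hα1 : 20 * α ≤ 1 / 8 := by
    rw [he] at hsmall
    linarith
  have hlog : ∀ u, Real.log (SS D ν u) + (x u - 2 * x u ^ 2) ≤
      Real.log (SS D (dragged D ν a) u) := by
    intro u
    have h1 := abs_le.mp (hxa u)
    have h2 : SS D (dragged D ν a) u = SS D ν u * (1 + x u) := by
      rw [k5_SS_dragged, hx]
      have := (SS_pos (D := D) hν u).ne'
      field_simp
    rw [h2, Real.log_mul (SS_pos hν u).ne' (by linarith only [hsmall, he, h1])]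
    have h3 := k5_log_one_add (x := x u) (by linarith only [hsmall, he, h1])
    linarith only [h3]
  have hp' := k5_push_nonneg ha hap
  have hmain : - ∑ u, push p a u * Real.log (SS D (dragged D ν a) u) ≤
      - ∑ u, push p a u * Real.log (SS D ν u) - ∑ u, push p a u * x u
        + ∑ u, push p a u * (2 * x u ^ 2) := by
    have h1 : ∑ u, push p a u * (Real.log (SS D ν u) + (x u - 2 * x u ^ 2)) ≤
        ∑ u, push p a u * Real.log (SS D (dragged D ν a) u) :=
      sum_le_sum fun u _ => mul_le_mul_of_nonneg_left (hlog u) (hp' u)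
    have h2 : ∑ u, push p a u * (Real.log (SS D ν u) + (x u - 2 * x u ^ 2)) =
        ∑ u, push p a u * Real.log (SS D ν u) + ∑ u, push p a u * x u
          - ∑ u, push p a u * (2 * x u ^ 2) := by
      rw [← sum_add_distrib, ← sum_sub_distrib]
      exact sum_congr rfl fun u _ => by ring
    linarith only [h1, h2]
  have hsq : ∑ u, push p a u * (2 * x u ^ 2) ≤ 800 * k * α ^ 2 := by
    have h1 : ∀ u, push p a u * (2 * x u ^ 2) ≤ push p a u * (800 * α ^ 2) := by
      intro u
      refine mul_le_mul_of_nonneg_left ?_ (hp' u)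
      have h2 : x u ^ 2 ≤ (20 * α) ^ 2 := sq_le_sq' (by linarith only [(abs_le.mp (hxa u)).1])
        (abs_le.mp (hxa u)).2
      linarith
    refine (sum_le_sum fun u _ => h1 u).trans ?_
    rw [← sum_mul, k5_sum_push]
    have h2 : (∑ u, p u) * (800 * α ^ 2) ≤ k * (800 * α ^ 2) :=
      mul_le_mul_of_nonneg_right hpk (by (clear * -; positivity))
    linarith only [h2]
  have hx1 : - ∑ u, push p a u * x u ≤ - ∑ u, p u * x u + 40 * α ^ 2 := by
    rw [k5_push_mul]
    have h1 : ∑ u, ∑ v, a u v * (x u - x v) ≤ ∑ u, ∑ v, a u v * (40 * α) := by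
      refine sum_le_sum fun u _ => sum_le_sum fun v _ => mul_le_mul_of_nonneg_left ?_ (ha u v)
      have h2 := abs_le.mp (hxa u)
      have h3 := abs_le.mp (hxa v)
      linarith only [h2, h3]
    have h2 : ∑ u, ∑ v, a u v * (40 * α) = 40 * α ^ 2 := by
      simp_rw [← sum_mul]
      rw [← hα]
      ring
    have h3 : ∑ u, ∑ v, a u v * (x v - x u) = - ∑ u, ∑ v, a u v * (x u - x v) := by
      rw [← sum_neg_distrib]
      refine sum_congr rfl fun u _ => ?_
      rw [← sum_neg_distrib]
      exact sum_congr rfl fun v _ => by ring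
    rw [h3]
    linarith only [h1, h2]
  have hL : - ∑ u, push p a u * Real.log (SS D ν u) = - ∑ u, p u * Real.log (SS D ν u) +
      ∑ u, ∑ v, a u v * (Real.log (SS D ν u) - Real.log (SS D ν v)) := by
    rw [k5_push_mul]
    have h3 : ∑ u, ∑ v, a u v * (Real.log (SS D ν v) - Real.log (SS D ν u)) =
        - ∑ u, ∑ v, a u v * (Real.log (SS D ν u) - Real.log (SS D ν v)) := by
      rw [← sum_neg_distrib]
      refine sum_congr rfl fun u _ => ?_
      rw [← sum_neg_distrib]
      exact sum_congr rfl fun v _ => by ring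
    rw [h3]
    ring
  have hdr : ∑ u, ∑ v, a u v * drift D p ν u v =
      ∑ u, ∑ v, a u v * (Real.log (SS D ν u) - Real.log (SS D ν v)) +
      - ∑ u, p u * x u := by
    have h1 := k5_first (D := D) (p := p) (ν := ν) a
    rw [hx]
    simp only
    rw [h1, ← sum_add_distrib]
    refine sum_congr rfl fun u _ => ?_
    rw [← sum_add_distrib]
    refine sum_congr rfl fun v _ => ?_
    unfold drift
    rw [mul_add]
  unfold FF
  rw [k5_sum_dragged]
  have hfin : 40 * α ^ 2 + 800 * k * α ^ 2 ≤ 4000 * k * α ^ 2 := by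
    have h1 : 0 ≤ α ^ 2 := sq_nonneg _
    nlinarith only [hk]
  rw [hdr]
  linarith only [hmain, hsq, hx1, hL, hfin]

end Vale.Agent.P304.Dyn
end
end

section

section

/-! L2: mass-weighted relabelling bounds (sections 3a-3c). -/

open Finset

namespace Vale.Agent.P304.Dyn

variable {X J : Type} [Fintype X] [Fintype J] [DecidableEq X] [DecidableEq J]
  {D : X → X → ℝ} {p : X → ℝ} {η k : ℝ}

/-- growth bound restricted to small moves -/
noncomputable def sg (D : X → X → ℝ) (p ν : X → ℝ) (u v : X) : ℝ :=
  if D u v ≤ 1 / 32 then D u v * gg D p ν u else 0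

/-- drag move of a configuration along the plan `a` -/
structure DragMove (D : X → X → ℝ) (η : ℝ) (a : X → X → ℝ) (x xd : Conf X J) : Prop where
  mv : ∀ j, xd j = x j ∨ ((x j).2 = true ∧ (xd j).2 = true ∧ D (x j).1 (xd j).1 ≤ 4)
  le : ∀ c v, c ≠ v → η * ((univ.filter fun j => x j = (c, true) ∧ xd j = (v, true)).card : ℝ)
    ≤ dragm D (nuC η x) a c v

theorem l2_Q_pos (P : LPar η k J) : (0 : ℝ) < P.Q := by
  have := P.hQ
  exact_mod_cast this

theorem l2_tau_pos (P : LPar η k J) : 0 < tau k := by
  have h1 := P.hk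
  unfold tau e0
  have : 0 < 100 * k := by linarith
  positivity

theorem l2_tau_le (P : LPar η k J) : tau k ≤ 1 / 10 := by
  have h1 := P.hk
  unfold tau e0
  rw [div_le_iff₀ (by linarith)]
  linarith only [h1]

theorem l2_sum_nu {ν : X → ℝ} (h : Bal D p ν) (hpk : ∑ u, p u ≤ k) : ∑ c, ν c ≤ 5 / 2 * k :=
  (sum_nu_le h).trans (by linarith)

theorem l2_ee_le {n : ℕ} (hD : PM D) (P : LPar η k J) (l : Fin n) (x x' : Conf X J)
    (h : Bal D p (nuC η x)) (hpk : ∑ u, p u ≤ k) (u u' : X) :
    EE (fun π : Ord (GG n J P.B) =>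
        if lab k P.Q P.Ne D π l x u = lab k P.Q P.Ne D π l x' u' then (0 : ℝ) else 1)
      ≤ 6 * η / (P.Q * SS D (nuC η x) u) *
        ∑ j, |(slots k P.Q D x u j : ℝ) - slots k P.Q D x' u' j| := by
  have h1 := lab_ne_le P l x x' u u' (D := D)
  have h2 := SS_le_card hD P l x (l2_sum_nu h hpk) u
  have hQ := l2_Q_pos P
  have hS := SS_pos (D := D) h.hν u
  set S := ∑ j, |(slots k P.Q D x u j : ℝ) - slots k P.Q D x' u' j| with hSdef
  have hS0 : 0 ≤ S := sum_nonneg fun j _ => abs_nonneg _
  set c : ℝ := ((AA (B := P.B) k P.Q P.Ne D l x u).card : ℝ) with hc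
  have hQS : 0 < SS D (nuC η x) u * P.Q := mul_pos hS hQ
  have hc0 : 0 < c := by
    have h3 : 0 < 3 * η * c := lt_of_lt_of_le hQS h2
    have h4 : 0 < 3 * η := by
      have := P.hη
      linarith only [this]
    exact (pos_iff_pos_of_mul_pos h3).mp h4
  refine h1.trans ?_
  rw [div_mul_eq_mul_div, div_le_div_iff₀ hc0 (mul_pos hQ hS)]
  have h5 := mul_le_mul_of_nonneg_left h2 (mul_nonneg zero_le_two hS0)
  calc 2 * S * (P.Q * SS D (nuC η x) u) = 2 * S * (SS D (nuC η x) u * P.Q) := by ring
    _ ≤ 2 * S * (3 * η * c) := h5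
    _ = 6 * η * S * c := by ring

theorem l2_floor_sub {a b : ℝ} (ha : 0 ≤ a) (hb : 0 ≤ b) :
    |((⌊a⌋₊ : ℕ) : ℝ) - ((⌊b⌋₊ : ℕ) : ℝ)| ≤ |a - b| + 1 := by
  have h1 := Nat.floor_le ha
  have h2 := Nat.lt_floor_add_one a
  have h3 := Nat.floor_le hb
  have h4 := Nat.lt_floor_add_one b
  have h5 := le_abs_self (a - b)
  have h6 := neg_abs_le (a - b)
  rw [abs_le]
  constructor <;> linarith only [h1, h4, h5, h2, h3, h6]

theorem l2_slots_sub (P : LPar η k J) (x x' : Conf X J) (u u' : X) (j : J)
    (h : (x j).2 = true) (h' : (x' j).2 = true) :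
    |(slots k P.Q D x u j : ℝ) - slots k P.Q D x' u' j|
      ≤ P.Q * |MM (tau k) D u (x j).1 - MM (tau k) D u' (x' j).1| + 1 := by
  unfold slots
  rw [if_pos h, if_pos h']
  have hQ := l2_Q_pos P
  refine (l2_floor_sub (mul_nonneg hQ.le (MM_nonneg _ _)) (mul_nonneg hQ.le (MM_nonneg _ _))).trans ?_
  rw [← mul_sub, abs_mul, abs_of_pos hQ]

theorem l2_six (P : LPar η k J) {ν : X → ℝ} (hν : ∀ c, 0 ≤ ν c) (u : X) (s : ℝ) :
    6 * η / (P.Q * SS D ν u) * (P.Q * s + Fintype.card J)
      ≤ 6 * (η * s) / SS D ν u + 120 * (η * Fintype.card J / P.Q) := by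
  have hQ := l2_Q_pos P
  have hS := SS_pos (D := D) hν u
  have hη := P.hη
  have e : 6 * η / (P.Q * SS D ν u) * (P.Q * s + Fintype.card J)
      = 6 * (η * s) / SS D ν u + 6 * (η * Fintype.card J / P.Q) / SS D ν u := by
    (clear * - hQ hS hη; field_simp)
  rw [e]
  have h1 : 6 * (η * Fintype.card J / P.Q) / SS D ν u ≤ 6 * (η * Fintype.card J / P.Q) / e0 := by
    apply div_le_div_of_nonneg_left _ k5_e0_pos (SS_ge (D := D) hν u)
    (clear * - hη hQ; positivity)
  have h2 : 6 * (η * Fintype.card J / P.Q) / e0 = 120 * (η * Fintype.card J / P.Q) := by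
    unfold e0
    ring
  linarith only [h1, h2]

/-- (3a) relabelling caused by the proximal step of the tokens -/
theorem relabel_prox {n : ℕ} (hD : PM D) (P : LPar η k J) (l : Fin n) (x x' : Conf X J)
    (h : Bal D p (nuC η x')) (hpk : ∑ u, p u ≤ k) (hA : Adm x x') :
    ∑ u, p u * EE (fun π : Ord (GG n J P.B) =>
        if lab k P.Q P.Ne D π l x u = lab k P.Q P.Ne D π l x' u then (0 : ℝ) else 1)
      ≤ 200 * η * chg x x' := by
  have hQ := l2_Q_pos P
  have hη := P.hη
  set loc : J → X := fun j => if (x j).2 = true then (x j).1 else (x' j).1 with hloc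
  set ch : Finset J := univ.filter fun j => x' j ≠ x j with hch
  have hsl : ∀ u, ∑ j, |(slots k P.Q D x' u j : ℝ) - slots k P.Q D x u j|
      ≤ ∑ j ∈ ch, P.Q * (Real.exp 3 * kern D u (loc j)) := by
    intro u
    have h0 : ∀ j, |(slots k P.Q D x' u j : ℝ) - slots k P.Q D x u j|
        ≤ if x' j ≠ x j then P.Q * (Real.exp 3 * kern D u (loc j)) else 0 := by
      intro j
      by_cases hj : x' j = x j
      · rw [if_neg (by simpa using hj)]
        have : slots k P.Q D x' u j = slots k P.Q D x u j := by
          unfold slots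
          rw [hj]
        rw [this, sub_self, abs_zero]
      · rw [if_pos hj]
        rcases hA j with h1 | ⟨h1, h2⟩ | ⟨h1, h2⟩
        · exact absurd h1 hj
        · have h3 : slots k P.Q D x' u j = 0 := slots_dead P x' u j (by rw [h2])
          have h4 : loc j = (x j).1 := by
            rw [hloc]
            simp only [h1, if_true]
          rw [h3, Nat.cast_zero, zero_sub, abs_neg, abs_of_nonneg (Nat.cast_nonneg _), h4]
          exact slots_le P x u j
        · have h3 : slots k P.Q D x u j = 0 := slots_dead P x u j h1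
          have h4 : loc j = (x' j).1 := by
            rw [hloc]
            simp only [h1]
            simp
          rw [h3, Nat.cast_zero, sub_zero, abs_of_nonneg (Nat.cast_nonneg _), h4]
          exact slots_le P x' u j
    refine (sum_le_sum fun j _ => h0 j).trans (le_of_eq ?_)
    rw [hch, sum_filter]
  have hE : ∀ u, EE (fun π : Ord (GG n J P.B) =>
        if lab k P.Q P.Ne D π l x u = lab k P.Q P.Ne D π l x' u then (0 : ℝ) else 1)
      ≤ 6 * η / (P.Q * SS D (nuC η x') u) *
        ∑ j ∈ ch, P.Q * (Real.exp 3 * kern D u (loc j)) := by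
    intro u
    have h1 := l2_ee_le hD P l x' x h hpk u u
    have h2 : (fun π : Ord (GG n J P.B) =>
        if lab k P.Q P.Ne D π l x u = lab k P.Q P.Ne D π l x' u then (0 : ℝ) else 1)
        = fun π : Ord (GG n J P.B) =>
        if lab k P.Q P.Ne D π l x' u = lab k P.Q P.Ne D π l x u then (0 : ℝ) else 1 := by
      funext π
      exact if_congr eq_comm rfl rfl
    rw [h2]
    refine h1.trans (mul_le_mul_of_nonneg_left (hsl u) ?_)
    have hS := SS_pos (D := D) h.hν u
    (clear * - hη hQ hS; positivity)
  calc ∑ u, p u * EE (fun π : Ord (GG n J P.B) =>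
        if lab k P.Q P.Ne D π l x u = lab k P.Q P.Ne D π l x' u then (0 : ℝ) else 1)
      ≤ ∑ u, p u * (6 * η / (P.Q * SS D (nuC η x') u) *
        ∑ j ∈ ch, P.Q * (Real.exp 3 * kern D u (loc j))) :=
        sum_le_sum fun u _ => mul_le_mul_of_nonneg_left (hE u) (h.hp u)
    _ = ∑ u, ∑ j ∈ ch, 6 * η * Real.exp 3 *
          (p u * kern D u (loc j) / SS D (nuC η x') u) := by
        refine sum_congr rfl fun u _ => ?_
        rw [mul_sum, mul_sum]
        refine sum_congr rfl fun j _ => ?_
        have hS := SS_pos (D := D) h.hν u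
        (clear * - hQ hS hη; field_simp)
    _ = ∑ j ∈ ch, 6 * η * Real.exp 3 * col D p (nuC η x') (loc j) := by
        rw [sum_comm]
        refine sum_congr rfl fun j _ => ?_
        unfold col
        rw [mul_sum]
    _ ≤ ∑ j ∈ ch, 200 * η := by
        refine sum_le_sum fun j _ => ?_
        have h1 := h.hi (loc j)
        have h2 := k4_exp3
        have h3 : 0 < Real.exp 3 := Real.exp_pos 3
        calc 6 * η * Real.exp 3 * col D p (nuC η x') (loc j)
            ≤ 6 * η * Real.exp 3 * (8 / 5) := by (clear * - h1 hη; gcongr)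
          _ ≤ 6 * η * (201 / 10) * (8 / 5) := by gcongr
          _ ≤ 200 * η := by linarith only [hη]
    _ = 200 * η * chg x x' := by
        rw [sum_const, nsmul_eq_mul, chg]
        ring

/-- (3c) relabelling caused by the drags -/
theorem relabel_drag {n : ℕ} (hD : PM D) (P : LPar η k J) (l : Fin n) (x xd : Conf X J)
    (h : Bal D p (nuC η x)) (hpk : ∑ u, p u ≤ k) {a : X → X → ℝ} (ha : ∀ u v, 0 ≤ a u v)
    (hap : ∀ u, ∑ v, a u v ≤ p u) (hm : DragMove D η a x xd) :
    ∑ u, push p a u * EE (fun π : Ord (GG n J P.B) =>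
        if lab k P.Q P.Ne D π l x u = lab k P.Q P.Ne D π l xd u then (0 : ℝ) else 1)
      ≤ 1200000 * ∑ u, ∑ v, a u v * sg D p (nuC η x) u v
        + 200 * (∑ u, ∑ v, a u v) ^ 2 + 200 * k * (η * Fintype.card J / P.Q) := by
  have hQ := l2_Q_pos P
  have hη := P.hη
  have hk := P.hk
  set ν := nuC η x with hν
  set α := ∑ u, ∑ v, a u v with hα
  have hα0 : 0 ≤ α := sum_nonneg fun u _ => sum_nonneg fun v _ => ha u v
  set f : X → X → X → ℝ := fun u c v => |MM (tau k) D u c - MM (tau k) D u v| with hf
  have hf0 : ∀ u c v, 0 ≤ f u c v := fun u c v => abs_nonneg _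
  have hf1 : ∀ u c v, f u c v ≤ 1 := by
    intro u c v
    have h1 := MM_nonneg (τ := tau k) (D := D) u c
    have h2 := MM_nonneg (τ := tau k) (D := D) u v
    have h3 := MM_le_one (τ := tau k) (D := D) u c
    have h4 := MM_le_one (τ := tau k) (D := D) u v
    exact abs_le.mpr ⟨by linarith only [h1, h4], by linarith only [h2, h3]⟩
  have hdr0 := dragm_nonneg hD h.hν ha
  -- sum of slot differences
  set N : X → X → ℝ := fun c v => if c ≠ v then
    ((univ.filter fun j => x j = (c, true) ∧ xd j = (v, true)).card : ℝ) else 0 with hN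
  have hN0 : ∀ c v, 0 ≤ N c v := by
    intro c v
    rw [hN]
    simp only
    split_ifs
    · (clear * -; positivity)
    · exact le_rfl
  have hNd : ∀ c v, η * N c v ≤ dragm D ν a c v := by
    intro c v
    rw [hN]
    simp only
    split_ifs with hcv
    · exact hm.le c v hcv
    · rw [mul_zero]
      exact hdr0 c v
  have hsl : ∀ u, ∑ j, |(slots k P.Q D x u j : ℝ) - slots k P.Q D xd u j|
      ≤ P.Q * (∑ c, ∑ v, N c v * f u c v) + Fintype.card J := by
    intro u
    have h0 : ∀ j, |(slots k P.Q D x u j : ℝ) - slots k P.Q D xd u j|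
        ≤ P.Q * (∑ c, ∑ v, (if c ≠ v ∧ x j = (c, true) ∧ xd j = (v, true) then f u c v else 0))
          + 1 := by
      intro j
      have hnn : ∀ c v, 0 ≤ (if c ≠ v ∧ x j = (c, true) ∧ xd j = (v, true) then f u c v else 0) := by
        intro c v
        split_ifs
        · exact hf0 u c v
        · exact le_rfl
      by_cases hj : xd j = x j
      · have : slots k P.Q D xd u j = slots k P.Q D x u j := by
          unfold slots
          rw [hj]
        rw [this, sub_self, abs_zero]
        have : 0 ≤ ∑ c, ∑ v, (if c ≠ v ∧ x j = (c, true) ∧ xd j = (v, true) then f u c v else 0) :=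
          sum_nonneg fun c _ => sum_nonneg fun v _ => hnn c v
        (clear * - hQ; positivity)
      · rcases hm.mv j with h1 | ⟨h1, h2, _⟩
        · exact absurd h1 hj
        · refine (l2_slots_sub P x xd u u j h1 h2).trans ?_
          have h3 : f u (x j).1 (xd j).1
              ≤ ∑ c, ∑ v, (if c ≠ v ∧ x j = (c, true) ∧ xd j = (v, true) then f u c v else 0) := by
            have h4 : f u (x j).1 (xd j).1 = if (x j).1 ≠ (xd j).1 ∧ x j = ((x j).1, true) ∧
                xd j = ((xd j).1, true) then f u (x j).1 (xd j).1 else 0 := by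
              rw [if_pos]
              refine ⟨fun he => hj (Prod.ext he.symm (by rw [h1, h2])), Prod.ext rfl h1,
                Prod.ext rfl h2⟩
            rw [h4]
            refine le_trans ?_ (single_le_sum (f := fun c => ∑ v, (if c ≠ v ∧ x j = (c, true) ∧
              xd j = (v, true) then f u c v else 0)) (fun c _ => sum_nonneg fun v _ => hnn c v)
              (mem_univ (x j).1))
            exact single_le_sum (f := fun v => (if (x j).1 ≠ v ∧ x j = ((x j).1, true) ∧
              xd j = (v, true) then f u (x j).1 v else 0)) (fun v _ => hnn _ v) (mem_univ (xd j).1)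
          have h5 := mul_le_mul_of_nonneg_left h3 hQ.le
          rw [hf] at h5 ⊢
          linarith only [h5]
    refine (sum_le_sum fun j _ => h0 j).trans (le_of_eq ?_)
    rw [sum_add_distrib, sum_const, card_univ, nsmul_eq_mul, mul_one, ← mul_sum]
    congr 2
    rw [sum_comm]
    refine sum_congr rfl fun c _ => ?_
    rw [sum_comm]
    refine sum_congr rfl fun v _ => ?_
    rw [hN]
    simp only
    by_cases hcv : c = v
    · simp only [hcv, ne_eq, not_true_eq_false, false_and, ↓reduceIte, sum_const_zero, zero_mul]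
    · rw [if_pos hcv]
      rw [← sum_filter, sum_const, nsmul_eq_mul]
      congr 2
      simp only [ne_eq, hcv, not_false_eq_true, true_and]
  -- bound at each point
  have hE : ∀ u, EE (fun π : Ord (GG n J P.B) =>
        if lab k P.Q P.Ne D π l x u = lab k P.Q P.Ne D π l xd u then (0 : ℝ) else 1)
      ≤ 6 * (∑ c, ∑ v, dragm D ν a c v * f u c v) / SS D ν u
        + 120 * (η * Fintype.card J / P.Q) := by
    intro u
    have hS := SS_pos (D := D) h.hν u
    refine (l2_ee_le hD P l x xd h hpk u u).trans ?_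
    have h1 : 6 * η / (P.Q * SS D ν u) * ∑ j, |(slots k P.Q D x u j : ℝ) - slots k P.Q D xd u j|
        ≤ 6 * η / (P.Q * SS D ν u) * (P.Q * (∑ c, ∑ v, N c v * f u c v) + Fintype.card J) :=
      mul_le_mul_of_nonneg_left (hsl u) (by (clear * - hη hQ hS; positivity))
    refine h1.trans ((l2_six P h.hν u _).trans ?_)
    have h2 : η * ∑ c, ∑ v, N c v * f u c v ≤ ∑ c, ∑ v, dragm D ν a c v * f u c v := by
      rw [mul_sum]
      refine sum_le_sum fun c _ => ?_
      rw [mul_sum]
      refine sum_le_sum fun v _ => ?_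
      rw [← mul_assoc]
      exact mul_le_mul_of_nonneg_right (hNd c v) (hf0 u c v)
    (clear * - h2 hS; gcongr)
  -- sum of the masses
  have hpushle : ∀ u, push p a u ≤ p u + ∑ w, a w u := by
    intro u
    unfold push
    have : 0 ≤ ∑ v, a u v := sum_nonneg fun v _ => ha u v
    linarith only [this]
  have hpush0 := k5_push_nonneg ha hap
  set G : X → ℝ := fun u => ∑ c, ∑ v, dragm D ν a c v * f u c v with hG
  have hG0 : ∀ u, 0 ≤ G u := fun u => sum_nonneg fun c _ => sum_nonneg fun v _ =>
    mul_nonneg (hdr0 c v) (hf0 u c v)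
  have hG1 : ∀ u, G u ≤ α := by
    intro u
    refine le_trans ?_ (k5_sum_dragm hD h.hν ha)
    refine sum_le_sum fun c _ => sum_le_sum fun v _ => ?_
    exact mul_le_of_le_one_right (hdr0 c v) (hf1 u c v)
  have hpart1 : ∑ u, p u * (6 * G u / SS D ν u) ≤ 1200000 * ∑ u, ∑ v, a u v * sg D p ν u v := by
    have e1 : ∑ u, p u * (6 * G u / SS D ν u)
        = 6 * ∑ c, ∑ v, dragm D ν a c v * ∑ u, p u * f u c v / SS D ν u := by
      have e2 : ∀ u, p u * (6 * G u / SS D ν u)
          = 6 * ∑ c, ∑ v, dragm D ν a c v * (p u * f u c v / SS D ν u) := by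
        intro u
        rw [hG]
        simp only [mul_sum, sum_div]
        refine sum_congr rfl fun c _ => sum_congr rfl fun v _ => ?_
        ring
      simp_rw [e2]
      rw [← mul_sum, sum_comm]
      congr 1
      refine sum_congr rfl fun c _ => ?_
      rw [sum_comm]
      refine sum_congr rfl fun v _ => ?_
      rw [mul_sum]
    rw [e1]
    have e3 : ∑ c, ∑ v, dragm D ν a c v * ∑ u, p u * f u c v / SS D ν u
        = ∑ u, ∑ v, a u v * ∑ c, QQ D ν u c * ff D u v c *
          ∑ u', p u' * |MM (tau k) D u' c - MM (tau k) D u' v| / SS D ν u' := by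
      set W : X → X → ℝ := fun c v =>
        ∑ u', p u' * |MM (tau k) D u' c - MM (tau k) D u' v| / SS D ν u' with hW
      have e4 : ∑ c, ∑ v, dragm D ν a c v * W c v
          = ∑ c, ∑ v, ∑ u, a u v * (QQ D ν u c * ff D u v c * W c v) := by
        refine sum_congr rfl fun c _ => sum_congr rfl fun v _ => ?_
        unfold dragm
        rw [sum_mul]
        refine sum_congr rfl fun u _ => ?_
        ring
      have e5 : ∑ u, ∑ v, a u v * ∑ c, QQ D ν u c * ff D u v c * W c v
          = ∑ u, ∑ v, ∑ c, a u v * (QQ D ν u c * ff D u v c * W c v) := by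
        refine sum_congr rfl fun u _ => sum_congr rfl fun v _ => ?_
        rw [mul_sum]
      calc ∑ c, ∑ v, dragm D ν a c v * W c v
          = ∑ c, ∑ v, ∑ u, a u v * (QQ D ν u c * ff D u v c * W c v) := e4
        _ = ∑ v, ∑ c, ∑ u, a u v * (QQ D ν u c * ff D u v c * W c v) := sum_comm
        _ = ∑ v, ∑ u, ∑ c, a u v * (QQ D ν u c * ff D u v c * W c v) :=
            sum_congr rfl fun v _ => sum_comm
        _ = ∑ u, ∑ v, ∑ c, a u v * (QQ D ν u c * ff D u v c * W c v) := sum_comm
        _ = ∑ u, ∑ v, a u v * ∑ c, QQ D ν u c * ff D u v c * W c v := e5.symm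
    rw [e3]
    have h6 : ∀ u v, a u v * ∑ c, QQ D ν u c * ff D u v c *
          ∑ u', p u' * |MM (tau k) D u' c - MM (tau k) D u' v| / SS D ν u'
        ≤ 200000 * (a u v * sg D p ν u v) := by
      intro u v
      unfold sg
      split_ifs with huv
      · have h7 := relabel_drag_le hD h (l2_tau_pos P).le (l2_tau_le P) u v
        have h8 := mul_le_mul_of_nonneg_left h7 (ha u v)
        refine h8.trans (le_of_eq ?_)
        ring
      · have h9 : ∀ c, ff D u v c = 0 := by
          intro c
          unfold ff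
          rw [if_pos (not_le.mp huv)]
        simp only [h9, mul_zero, zero_mul, sum_const_zero, Std.le_refl]
    calc 6 * ∑ u, ∑ v, a u v * ∑ c, QQ D ν u c * ff D u v c *
          ∑ u', p u' * |MM (tau k) D u' c - MM (tau k) D u' v| / SS D ν u'
        ≤ 6 * ∑ u, ∑ v, 200000 * (a u v * sg D p ν u v) :=
          mul_le_mul_of_nonneg_left (sum_le_sum fun u _ => sum_le_sum fun v _ => h6 u v)
            (by norm_num)
      _ = 1200000 * ∑ u, ∑ v, a u v * sg D p ν u v := by
          simp_rw [← mul_sum]
          ring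
  have hpart2 : ∑ u, (∑ w, a w u) * (6 * G u / SS D ν u) ≤ 120 * α ^ 2 := by
    have h1 : ∀ u, 6 * G u / SS D ν u ≤ 120 * α := by
      intro u
      have hS := SS_ge (D := D) h.hν u
      calc 6 * G u / SS D ν u ≤ 6 * α / e0 := by
            apply div_le_div₀ (by (clear * - hα0; positivity)) (by linarith only [hG1 u]) k5_e0_pos hS
        _ = 120 * α := by
            unfold e0
            ring
    calc ∑ u, (∑ w, a w u) * (6 * G u / SS D ν u) ≤ ∑ u, (∑ w, a w u) * (120 * α) :=
          sum_le_sum fun u _ => mul_le_mul_of_nonneg_left (h1 u) (sum_nonneg fun w _ => ha w u)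
      _ = 120 * α ^ 2 := by
          rw [← sum_mul, sum_comm, ← hα]
          ring
  have hcst : 0 ≤ η * Fintype.card J / P.Q := by (clear * - hη hQ; positivity)
  calc ∑ u, push p a u * EE (fun π : Ord (GG n J P.B) =>
        if lab k P.Q P.Ne D π l x u = lab k P.Q P.Ne D π l xd u then (0 : ℝ) else 1)
      ≤ ∑ u, push p a u * (6 * G u / SS D ν u + 120 * (η * Fintype.card J / P.Q)) :=
        sum_le_sum fun u _ => mul_le_mul_of_nonneg_left (hE u) (hpush0 u)
    _ = ∑ u, push p a u * (6 * G u / SS D ν u)
        + (∑ u, push p a u) * (120 * (η * Fintype.card J / P.Q)) := by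
        simp_rw [mul_add]
        rw [sum_add_distrib, ← sum_mul]
    _ ≤ ∑ u, (p u + ∑ w, a w u) * (6 * G u / SS D ν u)
        + k * (120 * (η * Fintype.card J / P.Q)) := by
        apply add_le_add
        · refine sum_le_sum fun u _ => mul_le_mul_of_nonneg_right (hpushle u) ?_
          have hS := SS_pos (D := D) h.hν u
          have := hG0 u
          (clear * - this hS; positivity)
        · rw [k5_sum_push]
          exact mul_le_mul_of_nonneg_right hpk (by (clear * - hη hQ; positivity))
    _ = ∑ u, p u * (6 * G u / SS D ν u) + ∑ u, (∑ w, a w u) * (6 * G u / SS D ν u)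
        + k * (120 * (η * Fintype.card J / P.Q)) := by
        simp_rw [add_mul]
        rw [sum_add_distrib]
    _ ≤ 1200000 * ∑ u, ∑ v, a u v * sg D p ν u v
        + 200 * α ^ 2 + 200 * k * (η * Fintype.card J / P.Q) := by
        have h1 : 0 ≤ α ^ 2 := sq_nonneg _
        have h2 : 0 ≤ k * (η * Fintype.card J / P.Q) := by positivity
        linarith

/-- (3b) own cut -/
theorem own_cut {n : ℕ} (hD : PM D) (P : LPar η k J) (l : Fin n) (x : Conf X J)
    (h : Bal D p (nuC η x)) (hpk : ∑ u, p u ≤ k) (u v : X) (huv : D u v ≤ 1 / 32) :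
    EE (fun π : Ord (GG n J P.B) =>
        if lab k P.Q P.Ne D π l x u = lab k P.Q P.Ne D π l x v then (0 : ℝ) else 1)
      ≤ 3000 * (D u v * gg D p (nuC η x) u) + 200 * (η * Fintype.card J / P.Q) := by
  have hQ := l2_Q_pos P
  have hη := P.hη
  have hS := SS_pos (D := D) h.hν u
  set f : X → ℝ := fun c => |MM (tau k) D u c - MM (tau k) D v c| with hf
  have hf0 : ∀ c, 0 ≤ f c := fun c => abs_nonneg _
  have hsl : ∑ j, |(slots k P.Q D x u j : ℝ) - slots k P.Q D x v j|
      ≤ P.Q * (∑ j ∈ univ.filter (fun j => (x j).2 = true), f (x j).1) + Fintype.card J := by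
    have h0 : ∀ j, |(slots k P.Q D x u j : ℝ) - slots k P.Q D x v j|
        ≤ P.Q * (if (x j).2 = true then f (x j).1 else 0) + 1 := by
      intro j
      by_cases hj : (x j).2 = true
      · rw [if_pos hj]
        exact l2_slots_sub P x x u v j hj hj
      · have hj' : (x j).2 = false := by simpa using hj
        rw [slots_dead P x u j hj', slots_dead P x v j hj', if_neg hj]
        simp only [CharP.cast_eq_zero, sub_self, abs_zero, mul_zero, zero_add, zero_le_one]
    refine (sum_le_sum fun j _ => h0 j).trans (le_of_eq ?_)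
    rw [sum_add_distrib, sum_const, card_univ, nsmul_eq_mul, mul_one, ← mul_sum, sum_filter]
  refine (l2_ee_le hD P l x x h hpk u v).trans ?_
  have h1 : 6 * η / (P.Q * SS D (nuC η x) u) *
      ∑ j, |(slots k P.Q D x u j : ℝ) - slots k P.Q D x v j|
      ≤ 6 * η / (P.Q * SS D (nuC η x) u) *
        (P.Q * (∑ j ∈ univ.filter (fun j => (x j).2 = true), f (x j).1) + Fintype.card J) :=
    mul_le_mul_of_nonneg_left hsl (by positivity)
  refine h1.trans ((l2_six P h.hν u _).trans ?_)
  rw [← sum_nuC_mul]
  have h2 := cut_le hD h (l2_tau_pos P).le (l2_tau_le P) u v huv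
  have h3 : 6 * (∑ c, nuC η x c * f c) / SS D (nuC η x) u
      = 6 * ∑ c, nuC η x c * |MM (tau k) D u c - MM (tau k) D v c| / SS D (nuC η x) u := by
    rw [hf, mul_div_assoc, sum_div]
  rw [h3]
  have hcst : 0 ≤ η * Fintype.card J / P.Q := by (clear * - hη hQ; positivity)
  (clear * - h2 hcst; linarith)

/-- the mass labelled by a fixed token -/
theorem label_mass {n : ℕ} (hD : PM D) (P : LPar η k J) (l : Fin n) (x : Conf X J)
    (h : Bal D p (nuC η x)) (hpk : ∑ u, p u ≤ k) (j : J) :
    ∑ u, p u * EE (fun π : Ord (GG n J P.B) =>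
        if lab k P.Q P.Ne D π l x u = some j then (1 : ℝ) else 0) ≤ 101 * η := by
  have hη := P.hη
  have h1 : ∀ u, p u * EE (fun π : Ord (GG n J P.B) =>
        if lab k P.Q P.Ne D π l x u = some j then (1 : ℝ) else 0)
      ≤ 63 * η * (p u * kern D u (x j).1 / SS D (nuC η x) u) := by
    intro u
    have h2 := lab_eq_le hD P l x (l2_sum_nu h hpk) u j
    refine (mul_le_mul_of_nonneg_left h2 (h.hp u)).trans ?_
    have hS := SS_pos (D := D) h.hν u
    have hk0 := kern_pos (D := D) u (x j).1
    have hp0 := h.hp u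
    split_ifs
    · apply le_of_eq
      ring
    · rw [mul_zero, mul_zero]
      (clear * - hη hp0 hk0 hS; positivity)
  calc ∑ u, p u * EE (fun π : Ord (GG n J P.B) =>
        if lab k P.Q P.Ne D π l x u = some j then (1 : ℝ) else 0)
      ≤ ∑ u, 63 * η * (p u * kern D u (x j).1 / SS D (nuC η x) u) := sum_le_sum fun u _ => h1 u
    _ = 63 * η * col D p (nuC η x) (x j).1 := by
        rw [← mul_sum]
        rfl
    _ ≤ 63 * η * (8 / 5) := mul_le_mul_of_nonneg_left (h.hi _) (by positivity)
    _ ≤ 101 * η := by linarith only [hη]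

end Vale.Agent.P304.Dyn
end
end

section

section

/-! P1: the proximal step of the tokens (blueprint (b)). -/

open Finset

namespace Vale.Agent.P304.Dyn

/-! ### two bounds for the logarithm -/

lemma log_one_add_ge {y : ℝ} (hy : 0 ≤ y) : y - y ^ 2 ≤ Real.log (1 + y) := by
  have h0 : (0 : ℝ) < 1 + y := by (clear * - hy; linarith)
  refine le_trans ?_ (Real.one_sub_inv_le_log_of_pos h0)
  have h2 : 1 - (1 + y)⁻¹ = y / (1 + y) := by
    field_simp
    ring
  rw [h2, le_div_iff₀ h0]
  have h3 : 0 ≤ y ^ 3 := pow_nonneg hy 3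
  calc (y - y ^ 2) * (1 + y) = y - y ^ 3 := by ring
    _ ≤ y := by linarith only [h3]

lemma log_one_sub_ge {y : ℝ} (hy : 0 ≤ y) (hy1 : y ≤ 1 / 2) :
    -(y + y ^ 2) ≤ Real.log (1 - y) := by
  have h0 : (0 : ℝ) < 1 - y := by linarith only [hy1]
  rw [Real.le_log_iff_exp_le h0, Real.exp_neg]
  have ht : 0 ≤ y + y ^ 2 := by (clear * - hy; positivity)
  have h1 : 1 + (y + y ^ 2) + (y + y ^ 2) ^ 2 / 2 ≤ Real.exp (y + y ^ 2) :=
    Real.quadratic_le_exp_of_nonneg ht
  have h2 : 1 ≤ (1 - y) * (1 + (y + y ^ 2) + (y + y ^ 2) ^ 2 / 2) := by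
    have h3 : (1 - y) * (1 + (y + y ^ 2) + (y + y ^ 2) ^ 2 / 2) =
        1 + y ^ 2 * ((1 - y - y ^ 2 - y ^ 3) / 2) := by ring
    have h4 : y ^ 2 ≤ (1 / 2) ^ 2 := pow_le_pow_left₀ hy hy1 2
    have h5 : y ^ 3 ≤ (1 / 2) ^ 3 := pow_le_pow_left₀ hy hy1 3
    have h6 : 0 ≤ (1 - y - y ^ 2 - y ^ 3) / 2 := by
      norm_num at h4 h5
      linarith only [hy1, h4, h5]
    have h7 : 0 ≤ y ^ 2 * ((1 - y - y ^ 2 - y ^ 3) / 2) := mul_nonneg (sq_nonneg y) h6
    rw [h3]
    linarith only [h7]
  have h3 : 1 ≤ (1 - y) * Real.exp (y + y ^ 2) :=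
    h2.trans (mul_le_mul_of_nonneg_left h1 h0.le)
  rw [inv_le_iff_one_le_mul₀ (Real.exp_pos _)]
  exact h3

section upd
variable {X : Type} [Fintype X] [DecidableEq X] {D : X → X → ℝ} {p : X → ℝ}

lemma upd_eq (ν : X → ℝ) (c : X) (s : ℝ) :
    Function.update ν c (ν c + s) = fun c' => ν c' + if c' = c then s else 0 := by
  funext c'
  by_cases h : c' = c
  · subst h; rw [Function.update_self, if_pos rfl]
  · rw [Function.update_of_ne h, if_neg h, add_zero]

lemma sum_upd (ν : X → ℝ) (c : X) (s : ℝ) :
    ∑ c', Function.update ν c (ν c + s) c' = ∑ c', ν c' + s := by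
  rw [upd_eq, sum_add_distrib, sum_ite_eq' univ c (fun _ => s), if_pos (mem_univ c)]

lemma SS_upd (ν : X → ℝ) (c : X) (s : ℝ) (u : X) :
    SS D (Function.update ν c (ν c + s)) u = SS D ν u + s * kern D u c := by
  unfold SS
  rw [upd_eq]
  have h : ∀ c', kern D u c' * (ν c' + if c' = c then s else 0) =
      kern D u c' * ν c' + if c' = c then s * kern D u c' else 0 := by
    intro c'
    split_ifs
    · ring
    · ring
  rw [sum_congr rfl fun c' _ => h c', sum_add_distrib,
    sum_ite_eq' univ c (fun c' => s * kern D u c'), if_pos (mem_univ c), add_assoc]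

/-- adding mass `s` (of either sign) at one point -/
lemma FF_upd_le {k e η : ℝ} (hD : PM D) (hp : ∀ u, 0 ≤ p u) (hpk : ∑ u, p u ≤ k) {ν : X → ℝ}
    (hν : ∀ c, 0 ≤ ν c) (c : X) (hη : 0 ≤ η) (he : e = η ∨ (e = -η ∧ η ≤ e0 / 2)) :
    FF D p (Function.update ν c (ν c + e)) ≤
      FF D p ν + e * (1 - col D p ν c) + η ^ 2 * k / e0 ^ 2 := by
  have he0 : (0 : ℝ) < e0 := by norm_num [e0]
  have hterm : ∀ u, p u * Real.log (SS D ν u) +
      (e * (p u * kern D u c / SS D ν u) - p u * (η ^ 2 / e0 ^ 2)) ≤
        p u * Real.log (SS D (Function.update ν c (ν c + e)) u) := by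
    intro u
    have hSu : 0 < SS D ν u := SS_pos hν u
    have hS0 : e0 ≤ SS D ν u := SS_ge hν u
    have hκ : 0 < kern D u c := kern_pos u c
    have hκ1 : kern D u c ≤ 1 := kern_le_one hD u c
    rw [SS_upd]
    generalize SS D ν u = S at *
    generalize kern D u c = κ at *
    have hy : 0 ≤ η * κ / S := div_nonneg (mul_nonneg hη hκ.le) hSu.le
    have hy1 : η * κ / S ≤ η / e0 := by
      refine div_le_div₀ hη ?_ he0 hS0
      have := mul_le_mul_of_nonneg_left hκ1 hη
      rwa [mul_one] at this
    have hy2 : (η * κ / S) ^ 2 ≤ η ^ 2 / e0 ^ 2 := by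
      rw [← div_pow]
      exact pow_le_pow_left₀ hy hy1 2
    have hlow : e * κ / S - η ^ 2 / e0 ^ 2 ≤ Real.log (1 + e * κ / S) ∧ 0 < 1 + e * κ / S := by
      rcases he with rfl | ⟨rfl, h2⟩
      · have h3 := log_one_add_ge hy
        exact ⟨by linarith only [h3, hy2], by linarith only [hy]⟩
      · have h4 : η * κ / S ≤ 1 / 2 := by
          refine hy1.trans ?_
          rw [div_le_iff₀ he0]
          linarith only [h2]
        have h3 := log_one_sub_ge hy h4
        have h5 : -η * κ / S = -(η * κ / S) := by ring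
        rw [h5, ← sub_eq_add_neg]
        exact ⟨by linarith only [h3, hy2], by linarith only [h4]⟩
    have hlog : Real.log (S + e * κ) = Real.log S + Real.log (1 + e * κ / S) := by
      rw [← Real.log_mul hSu.ne' hlow.2.ne']
      congr 1
      (clear * - hSu; field_simp)
    rw [hlog]
    have h4 := mul_le_mul_of_nonneg_left hlow.1 (hp u)
    have h5 : p u * (e * κ / S - η ^ 2 / e0 ^ 2) =
        e * (p u * κ / S) - p u * (η ^ 2 / e0 ^ 2) := by ring
    rw [h5] at h4
    linarith only [h4]
  have hsum := sum_le_sum fun u (_ : u ∈ univ) => hterm u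
  rw [sum_add_distrib, sum_sub_distrib, ← mul_sum, ← sum_mul] at hsum
  have hk : (∑ u, p u) * (η ^ 2 / e0 ^ 2) ≤ η ^ 2 * k / e0 ^ 2 := by
    have := mul_le_mul_of_nonneg_right hpk (div_nonneg (sq_nonneg η) (sq_nonneg e0))
    calc (∑ u, p u) * (η ^ 2 / e0 ^ 2) ≤ k * (η ^ 2 / e0 ^ 2) := this
      _ = η ^ 2 * k / e0 ^ 2 := by ring
  unfold FF
  rw [sum_upd]
  have hcol : e * (1 - col D p ν c) = e - e * ∑ u, p u * kern D u c / SS D ν u := by
    unfold col
    ring
  rw [hcol]
  linarith only [hsum, hk]

end upd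

variable {X J : Type} [Fintype X] [Fintype J] [DecidableEq X] [DecidableEq J]
  {D : X → X → ℝ} {p : X → ℝ} {η k : ℝ}

/-- adding a single token -/
theorem FF_add_le (hD : PM D) (hp : ∀ u, 0 ≤ p u) (hpk : ∑ u, p u ≤ k) {ν : X → ℝ}
    (hν : ∀ c, 0 ≤ ν c) (hη : 0 ≤ η) (c : X) :
    FF D p (Function.update ν c (ν c + η)) ≤
      FF D p ν + η * (1 - col D p ν c) + η ^ 2 * k / e0 ^ 2 :=
  FF_upd_le hD hp hpk hν c hη (Or.inl rfl)

/-- removing a single token -/
theorem FF_remove_le (hD : PM D) (hp : ∀ u, 0 ≤ p u) (hpk : ∑ u, p u ≤ k) {ν : X → ℝ}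
    (hν : ∀ c, 0 ≤ ν c) (hη : 0 ≤ η) (hη1 : η ≤ e0 / 2) (c : X) (hc : η ≤ ν c) :
    FF D p (Function.update ν c (ν c - η)) ≤
      FF D p ν - η * (1 - col D p ν c) + η ^ 2 * k / e0 ^ 2 := by
  have h := FF_upd_le hD hp hpk hν c hη (e := -η) (Or.inr ⟨rfl, hη1⟩)
  rw [← sub_eq_add_neg] at h
  linarith only [h]

/-! ### changes of a single token -/

lemma nuC_nonneg_bd690 (hη : 0 ≤ η) (x : Conf X J) (c : X) : 0 ≤ nuC η x c :=
  mul_nonneg hη (Nat.cast_nonneg _)

lemma nuC_eq_sum (x : Conf X J) (c : X) :
    nuC η x c = ∑ j, if x j = (c, true) then η else 0 := by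
  rw [nuC, ← sum_filter, sum_const, nsmul_eq_mul, mul_comm]

/-- total mass -/
lemma sum_nuC_bd691 (x : Conf X J) :
    ∑ c, nuC η x c = η * ((univ.filter fun j => (x j).2 = true).card : ℝ) := by
  have h1 : ∀ j, (∑ c, if x j = (c, true) then η else 0) = if (x j).2 = true then η else 0 := by
    intro j
    by_cases h : (x j).2 = true
    · rw [if_pos h]
      have h2 : ∀ c : X, (x j = (c, true)) ↔ (x j).1 = c := by
        intro c
        rw [Prod.ext_iff]
        exact and_iff_left h
      simp only [h2]
      rw [sum_ite_eq, if_pos (mem_univ _)]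
    · rw [if_neg h]
      refine sum_eq_zero fun c _ => if_neg ?_
      intro h2
      rw [h2] at h
      exact h rfl
  calc ∑ c, nuC η x c = ∑ c, ∑ j, if x j = (c, true) then η else 0 :=
        sum_congr rfl fun c _ => nuC_eq_sum x c
    _ = ∑ j, ∑ c, if x j = (c, true) then η else 0 := sum_comm
    _ = ∑ j, if (x j).2 = true then η else 0 := sum_congr rfl fun j _ => h1 j
    _ = η * ((univ.filter fun j => (x j).2 = true).card : ℝ) := by
        rw [← sum_filter, sum_const, nsmul_eq_mul, mul_comm]

/-- killing a token located at `c` -/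
lemma nuC_kill (x : Conf X J) {j : J} {c : X} (h : x j = (c, true)) {b : X × Bool}
    (hb : b.2 = false) :
    nuC η (Function.update x j b) = Function.update (nuC η x) c (nuC η x c - η) := by
  funext c'
  rw [nuC_eq_sum, ← add_sum_erase univ _ (mem_univ j), Function.update_self]
  have h1 : ¬ b = (c', true) := fun h' => by rw [h'] at hb; exact Bool.noConfusion hb
  rw [if_neg h1, zero_add]
  have h2 : ∑ i ∈ univ.erase j, (if Function.update x j b i = (c', true) then η else 0) =
      ∑ i ∈ univ.erase j, if x i = (c', true) then η else 0 :=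
    sum_congr rfl fun i hi => by rw [Function.update_of_ne (ne_of_mem_erase hi)]
  rw [h2]
  have h3 := add_sum_erase univ (fun i => if x i = (c', true) then η else 0) (mem_univ j)
  rw [← nuC_eq_sum] at h3
  by_cases hc : c' = c
  · subst hc
    rw [Function.update_self, ← h3, if_pos h]
    ring
  · rw [Function.update_of_ne hc, ← h3, if_neg, zero_add]
    intro h4
    rw [h] at h4
    exact hc (Prod.ext_iff.1 h4).1.symm

/-- reviving a dead token at `c` -/
lemma nuC_revive (x : Conf X J) {j : J} (c : X) (h : (x j).2 = false) :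
    nuC η (Function.update x j (c, true)) = Function.update (nuC η x) c (nuC η x c + η) := by
  funext c'
  rw [nuC_eq_sum, ← add_sum_erase univ _ (mem_univ j), Function.update_self]
  have h2 : ∑ i ∈ univ.erase j, (if Function.update x j (c, true) i = (c', true) then η else 0) =
      ∑ i ∈ univ.erase j, if x i = (c', true) then η else 0 :=
    sum_congr rfl fun i hi => by rw [Function.update_of_ne (ne_of_mem_erase hi)]
  rw [h2]
  have h3 := add_sum_erase univ (fun i => if x i = (c', true) then η else 0) (mem_univ j)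
  have h4 : ¬ x j = (c', true) := fun h' => by rw [h'] at h; exact Bool.noConfusion h
  rw [← nuC_eq_sum, if_neg h4, zero_add] at h3
  rw [h3]
  by_cases hc : c' = c
  · subst hc
    rw [Function.update_self, if_pos rfl, add_comm]
  · rw [Function.update_of_ne hc, if_neg, zero_add]
    intro h5
    exact hc (Prod.ext_iff.1 h5).1.symm

lemma chg_update_le (x x' : Conf X J) (j : J) (b : X × Bool) :
    (chg x (Function.update x' j b) : ℝ) ≤ chg x x' + 1 := by
  have h : (univ.filter fun i => Function.update x' j b i ≠ x i) ⊆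
      insert j (univ.filter fun i => x' i ≠ x i) := by
    intro i hi
    by_cases hij : i = j
    · rw [hij]; exact mem_insert_self _ _
    · rw [mem_filter, Function.update_of_ne hij] at hi
      exact mem_insert_of_mem (mem_filter.2 hi)
  have h1 := (card_le_card h).trans (card_insert_le _ _)
  unfold chg
  exact_mod_cast h1

lemma chg_self (x : Conf X J) : chg x x = 0 := by
  unfold chg
  rw [card_eq_zero, filter_eq_empty_iff]
  intro j _ h
  exact h rfl

/-- the total mass is bounded by the lower bound on the loads -/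
lemma sum_nu_le_of_lo {ν : X → ℝ} (hp : ∀ u, 0 ≤ p u) (hν : ∀ c, 0 ≤ ν c)
    (lo : ∀ c, 0 < ν c → 2 / 5 ≤ col D p ν c) : ∑ c, ν c ≤ 5 / 2 * ∑ u, p u := by
  have h1 : ∀ c, ν c ≤ 5 / 2 * (ν c * col D p ν c) := by
    intro c
    rcases (hν c).eq_or_lt with h0 | h0
    · rw [← h0]; simp
    · have := mul_le_mul_of_nonneg_left (lo c h0) h0.le
      linarith
  have h2 : ∑ c, ν c * col D p ν c = ∑ u, p u * ∑ c, QQ D ν u c := by
    unfold col QQ
    simp only [mul_sum]
    rw [sum_comm]
    refine sum_congr rfl fun u _ => sum_congr rfl fun c _ => ?_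
    ring
  calc ∑ c, ν c ≤ ∑ c, 5 / 2 * (ν c * col D p ν c) := sum_le_sum fun c _ => h1 c
    _ = 5 / 2 * ∑ u, p u * ∑ c, QQ D ν u c := by rw [← mul_sum, h2]
    _ ≤ 5 / 2 * ∑ u, p u := by
        refine mul_le_mul_of_nonneg_left (sum_le_sum fun u _ => ?_) (by norm_num)
        have := mul_le_mul_of_nonneg_left (sum_QQ_le_one (D := D) hν u) (hp u)
        rwa [mul_one] at this

/-- the proximal step: argmin over the finite set of admissible configurations -/
theorem exists_tokprox [Nonempty X] (hD : PM D) (P : LPar η k J) (hp : ∀ u, 0 ≤ p u)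
    (hpk : ∑ u, p u ≤ k)
    (x : Conf X J) (hx : ∑ c, nuC η x c ≤ 5 / 2 * k) :
    ∃ x' : Conf X J, Adm x x' ∧ Bal D p (nuC η x') ∧
      FF D p (nuC η x') + η / 2 * chg x x' ≤ FF D p (nuC η x) := by
  classical
  have hη : 0 < η := P.hη
  have hk : 1 ≤ k := P.hk
  have he0 : (0 : ℝ) < e0 := by norm_num [e0]
  have hη1 : η ≤ e0 / 2 := by
    have h1 := P.hη1
    have h2 : η * 1 ≤ η * k := mul_le_mul_of_nonneg_left hk hη.le
    have h3 : e0 ^ 2 / 100 ≤ e0 / 2 := by norm_num [e0]
    linarith only [h1, h2, h3]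
  have hxx : Adm x x := fun j => Or.inl rfl
  obtain ⟨x', hx', hmin⟩ := Finset.exists_min_image (univ.filter fun x' : Conf X J => Adm x x')
    (fun x' => FF D p (nuC η x') + η / 2 * chg x x') ⟨x, mem_filter.2 ⟨mem_univ _, hxx⟩⟩
  replace hx' : Adm x x' := (mem_filter.1 hx').2
  replace hmin : ∀ x'' : Conf X J, Adm x x'' → FF D p (nuC η x') + η / 2 * chg x x' ≤
      FF D p (nuC η x'') + η / 2 * chg x x'' := fun x'' h =>
    hmin x'' (mem_filter.2 ⟨mem_univ _, h⟩)
  have hν : ∀ c, 0 ≤ nuC η x' c := nuC_nonneg_bd690 hη.le x'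
  have hsmall : η ^ 2 * k / e0 ^ 2 ≤ η * (1 / 100) := by
    rw [div_le_iff₀ (pow_pos he0 2)]
    have h1 := mul_le_mul_of_nonneg_left P.hη1 hη.le
    calc η ^ 2 * k = η * (η * k) := by ring
      _ ≤ η * (e0 ^ 2 / 100) := h1
      _ = η * (1 / 100) * e0 ^ 2 := by ring
  -- lower bound
  have lo : ∀ c, 0 < nuC η x' c → 2 / 5 ≤ col D p (nuC η x') c := by
    intro c hc
    have hcard : 0 < (univ.filter fun j => x' j = (c, true)).card := by
      rw [Nat.pos_iff_ne_zero]
      intro h0
      rw [nuC, h0, Nat.cast_zero, mul_zero] at hc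
      exact lt_irrefl _ hc
    have hge : η ≤ nuC η x' c := by
      have h1 : (1 : ℝ) ≤ ((univ.filter fun j => x' j = (c, true)).card : ℝ) := by
        exact_mod_cast hcard
      have := mul_le_mul_of_nonneg_left h1 hη.le
      rwa [mul_one] at this
    obtain ⟨j, hj⟩ := card_pos.1 hcard
    replace hj : x' j = (c, true) := (mem_filter.1 hj).2
    -- the value after killing
    obtain ⟨b, hb, hbad⟩ : ∃ b : X × Bool, b.2 = false ∧ (b = x j ∨ ((x j).2 = true ∧
        b = ((x j).1, false)) ∨ ((x j).2 = false ∧ b.2 = true)) := by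
      by_cases h : (x j).2 = true
      · exact ⟨((x j).1, false), rfl, Or.inr (Or.inl ⟨h, rfl⟩)⟩
      · exact ⟨x j, Bool.eq_false_of_not_eq_true h, Or.inl rfl⟩
    have hadm : Adm x (Function.update x' j b) := by
      intro i
      by_cases hij : i = j
      · subst hij; rw [Function.update_self]; exact hbad
      · rw [Function.update_of_ne hij]; exact hx' i
    have h1 := hmin _ hadm
    rw [nuC_kill x' hj hb] at h1
    have h2 := FF_remove_le hD hp hpk hν hη.le hη1 c hge
    have h3 := mul_le_mul_of_nonneg_left (chg_update_le x x' j b) (half_pos hη).le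
    have h4 : η * (1 - col D p (nuC η x') c) ≤ η * (3 / 5) := by
      linarith only [h1, h2, h3, hsmall, hη]
    have h5 := le_of_mul_le_mul_left h4 hη
    linarith only [h5]
  -- upper bound
  have hsum := sum_nu_le_of_lo (D := D) hp hν lo
  have hi : ∀ c, col D p (nuC η x') c ≤ 8 / 5 := by
    intro c
    obtain ⟨j, hj1, hj2⟩ : ∃ j, (x j).2 = false ∧ (x' j).2 = false := by
      by_contra hno
      push Not at hno
      have hcov : (univ : Finset J) ⊆ (univ.filter fun j => (x j).2 = true) ∪
          (univ.filter fun j => (x' j).2 = true) := by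
        intro j _
        rw [mem_union, mem_filter, mem_filter]
        by_cases h : (x j).2 = true
        · exact Or.inl ⟨mem_univ _, h⟩
        · exact Or.inr ⟨mem_univ _, Bool.eq_true_of_not_eq_false
            (hno j (Bool.eq_false_of_not_eq_true h))⟩
      have h1 := (card_le_card hcov).trans (card_union_le _ _)
      rw [card_univ] at h1
      have h2 : (Fintype.card J : ℝ) ≤ ((univ.filter fun j => (x j).2 = true).card : ℝ) +
          ((univ.filter fun j => (x' j).2 = true).card : ℝ) := by exact_mod_cast h1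
      have h3 := mul_le_mul_of_nonneg_left h2 hη.le
      rw [mul_add, ← sum_nuC_bd691, ← sum_nuC_bd691] at h3
      have h4 := P.hJ2
      linarith only [h3, h4, hx, hsum, hpk, hk]
    have hadm : Adm x (Function.update x' j (c, true)) := by
      intro i
      by_cases hij : i = j
      · subst hij; rw [Function.update_self]; exact Or.inr (Or.inr ⟨hj1, rfl⟩)
      · rw [Function.update_of_ne hij]; exact hx' i
    have h1 := hmin _ hadm
    rw [nuC_revive x' c hj2] at h1
    have h2 := FF_add_le hD hp hpk hν hη.le c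
    have h3 := mul_le_mul_of_nonneg_left (chg_update_le x x' j (c, true)) (half_pos hη).le
    have h4 : η * col D p (nuC η x') c ≤ η * (8 / 5) := by
      linarith only [h1, h2, h3, hsmall, hη]
    exact le_of_mul_le_mul_left h4 hη
  refine ⟨x', hx', ⟨hp, hν, hi, lo⟩, ?_⟩
  have h1 := hmin x hxx
  rw [chg_self, Nat.cast_zero, mul_zero, add_zero] at h1
  exact h1

end Vale.Agent.P304.Dyn
end
end

section

section

/-! P2: selection of the micro-tokens to be dragged (blueprint (f)). -/

open Finset

namespace Vale.Agent.P304.Dyn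

/-- the cheapest `m` elements of a finset cost at most the average share -/
theorem exists_cheap {J : Type} [DecidableEq J] (s : Finset J) (ω : J → ℝ) (hω : ∀ j, 0 ≤ ω j)
    (m : ℕ) (hm : m ≤ s.card) :
    ∃ t ⊆ s, t.card = m ∧ (s.card : ℝ) * ∑ j ∈ t, ω j ≤ m * ∑ j ∈ s, ω j := by
  obtain ⟨d, hd⟩ : ∃ d, s.card = m + d := ⟨s.card - m, by omega⟩
  clear hm
  induction d generalizing s with
  | zero =>
    refine ⟨s, Subset.refl _, by omega, ?_⟩
    have h1 : s.card = m := by omega
    rw [h1]
  | succ d ih =>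
    have hne : s.Nonempty := by
      rw [← card_pos]
      omega
    obtain ⟨x, hx, hmax⟩ := exists_max_image s ω hne
    have hc := card_erase_add_one hx
    obtain ⟨t, hts, htc, hle⟩ := ih (s.erase x) (by omega)
    refine ⟨t, hts.trans (erase_subset _ _), htc, ?_⟩
    have h1 : ∑ j ∈ t, ω j ≤ m * ω x := by
      have h := sum_le_card_nsmul t ω (ω x) (fun j hj => hmax j (mem_of_mem_erase (hts hj)))
      rwa [nsmul_eq_mul, htc] at h
    have h2 : ∑ j ∈ s, ω j = ω x + ∑ j ∈ s.erase x, ω j := (add_sum_erase s ω hx).symm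
    have h3 : (s.card : ℝ) = ((s.erase x).card : ℝ) + 1 := by
      rw [← hc]
      push_cast
      ring
    rw [h2, h3, add_mul, one_mul, mul_add]
    linarith only [hle, h1]

/-- disjoint cheap subsets of prescribed sizes, using at most half of the set -/
theorem exists_cheap_family {J V : Type} [DecidableEq J] [Fintype V] [DecidableEq V]
    (s : Finset J) (ω : J → ℝ) (hω : ∀ j, 0 ≤ ω j) (m : V → ℕ) (hm : 2 * ∑ v, m v ≤ s.card) :
    ∃ t : V → Finset J, (∀ v, t v ⊆ s) ∧ (∀ v, (t v).card = m v) ∧
      (∀ v v', v ≠ v' → Disjoint (t v) (t v')) ∧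
      ∀ v, (s.card : ℝ) * ∑ j ∈ t v, ω j ≤ 2 * m v * ∑ j ∈ s, ω j := by
  have key : ∀ W : Finset V, ∃ t : V → Finset J, (∀ v, v ∉ W → t v = ∅) ∧ (∀ v, t v ⊆ s) ∧
      (∀ v ∈ W, (t v).card = m v) ∧ (∀ v v', v ≠ v' → Disjoint (t v) (t v')) ∧
      ∀ v ∈ W, (s.card : ℝ) * ∑ j ∈ t v, ω j ≤ 2 * m v * ∑ j ∈ s, ω j := by
    intro W
    induction W using Finset.induction_on with
    | empty => exact ⟨fun _ => ∅, by simp, by simp only [empty_subset, implies_true], by simp only [notMem_empty, card_empty, IsEmpty.forall_iff, implies_true], by simp only [ne_eq, disjoint_self, bot_eq_empty, implies_true], by simp only [notMem_empty, sum_empty, mul_zero, IsEmpty.forall_iff, implies_true]⟩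
    | insert v0 W hv0 ih =>
      obtain ⟨t, h1, h2, h3, h4, h5⟩ := ih
      have hb : (W.biUnion t).card = ∑ v ∈ W, m v := by
        rw [card_biUnion (fun v _ v' _ h => h4 v v' h)]
        exact sum_congr rfl h3
      have hsub : W.biUnion t ⊆ s := biUnion_subset.2 fun v _ => h2 v
      have hr : (s \ W.biUnion t).card = s.card - ∑ v ∈ W, m v := by
        rw [card_sdiff_of_subset hsub, hb]
      have hsum : ∑ v ∈ W, m v + m v0 ≤ ∑ v, m v := by
        rw [add_comm, ← sum_insert hv0]
        exact sum_le_univ_sum_of_nonneg fun _ => Nat.zero_le _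
      obtain ⟨t0, ht0, hc0, hl0⟩ := exists_cheap (s \ W.biUnion t) ω hω (m v0) (by (clear * - hm hr hsum; omega))
      have hdis : ∀ v ∈ W, Disjoint t0 (t v) := by
        intro v hv
        rw [Finset.disjoint_left]
        intro j hj hj'
        have h6 := ht0 hj
        rw [mem_sdiff] at h6
        exact h6.2 (mem_biUnion.2 ⟨v, hv, hj'⟩)
      have hdis' : ∀ v, v ≠ v0 → Disjoint t0 (t v) := by
        intro v _
        by_cases hv : v ∈ W
        · exact hdis v hv
        · rw [h1 v hv]
          exact Finset.disjoint_empty_right _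
      refine ⟨Function.update t v0 t0, ?_, ?_, ?_, ?_, ?_⟩
      · intro v hv
        rw [mem_insert, not_or] at hv
        rw [Function.update_of_ne hv.1]
        exact h1 v hv.2
      · intro v
        by_cases hv : v = v0
        · rw [hv, Function.update_self]
          exact ht0.trans sdiff_subset
        · rw [Function.update_of_ne hv]
          exact h2 v
      · intro v hv
        by_cases hv' : v = v0
        · rw [hv', Function.update_self, hc0]
        · rw [Function.update_of_ne hv']
          exact h3 v (mem_of_mem_insert_of_ne hv hv')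
      · intro v v' hvv
        by_cases hv : v = v0
        · subst hv
          rw [Function.update_self, Function.update_of_ne (Ne.symm hvv)]
          exact hdis' v' (Ne.symm hvv)
        · by_cases hv' : v' = v0
          · subst hv'
            rw [Function.update_self, Function.update_of_ne hvv]
            exact (hdis' v hvv).symm
          · rw [Function.update_of_ne hv, Function.update_of_ne hv']
            exact h4 v v' hvv
      · intro v hv
        by_cases hv' : v = v0
        · subst hv'
          rw [Function.update_self]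
          have e1 : 0 ≤ ∑ j ∈ t0, ω j := sum_nonneg fun j _ => hω j
          have e2 : ∑ j ∈ s \ W.biUnion t, ω j ≤ ∑ j ∈ s, ω j :=
            sum_le_sum_of_subset_of_nonneg sdiff_subset fun j _ _ => hω j
          have e3 : (s.card : ℝ) ≤ 2 * ((s \ W.biUnion t).card : ℝ) := by
            have : s.card ≤ 2 * (s \ W.biUnion t).card := by omega
            exact_mod_cast this
          have e4 := mul_le_mul_of_nonneg_right e3 e1
          have e5 := mul_le_mul_of_nonneg_left e2 (Nat.cast_nonneg (α := ℝ) (m v))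
          calc (s.card : ℝ) * ∑ j ∈ t0, ω j
              ≤ 2 * ((s \ W.biUnion t).card : ℝ) * ∑ j ∈ t0, ω j := e4
            _ = 2 * (((s \ W.biUnion t).card : ℝ) * ∑ j ∈ t0, ω j) := by ring
            _ ≤ 2 * (m v * ∑ j ∈ s, ω j) := by linarith only [hl0, e5]
            _ = _ := by ring
        · rw [Function.update_of_ne hv']
          exact h5 v (mem_of_mem_insert_of_ne hv hv')
  obtain ⟨t, -, h2, h3, h4, h5⟩ := key univ
  exact ⟨t, h2, fun v => h3 v (mem_univ v), h4, fun v => h5 v (mem_univ v)⟩

variable {X J : Type} [Fintype X] [Fintype J] [DecidableEq X] [DecidableEq J]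
  {D : X → X → ℝ} {p : X → ℝ} {η k : ℝ}

/-- the drag plan: disjoint cheap sets of tokens -/
theorem p2_family (hD : PM D) (hη : 0 < η) (x : Conf X J) (hν : ∀ c, 0 ≤ nuC η x c)
    {a : X → X → ℝ} (ha : ∀ u v, 0 ≤ a u v)
    (hsmall : ∑ u, ∑ v, a u v ≤ e0 / 2) (ω : J → ℝ) (hω : ∀ j, 0 ≤ ω j) :
    ∃ (m : X → X → ℕ) (t : X → X → Finset J),
      (∀ c v, η * (m c v : ℝ) ≤ dragm D (nuC η x) a c v) ∧
      (∀ c v, v ≠ c → dragm D (nuC η x) a c v - η * (m c v : ℝ) ≤ η) ∧
      (∀ c, m c c = 0) ∧
      (∀ c v, t c v ⊆ univ.filter (fun j => x j = (c, true))) ∧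
      (∀ c v, (t c v).card = m c v) ∧
      (∀ c v v', v ≠ v' → Disjoint (t c v) (t c v')) ∧
      ∀ c v, ((univ.filter (fun j => x j = (c, true))).card : ℝ) * ∑ j ∈ t c v, ω j ≤
        2 * m c v * ∑ j ∈ univ.filter (fun j => x j = (c, true)), ω j := by
  have hdm : ∀ c v, 0 ≤ dragm D (nuC η x) a c v := dragm_nonneg hD hν ha
  have hm_le : ∀ c v, η * ((if v = c then 0 else ⌊dragm D (nuC η x) a c v / η⌋₊ : ℕ) : ℝ) ≤
      dragm D (nuC η x) a c v := by
    intro c v
    split_ifs
    · simpa only [CharP.cast_eq_zero, mul_zero] using hdm c v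
    · have h1 := Nat.floor_le (div_nonneg (hdm c v) hη.le)
      calc η * (⌊dragm D (nuC η x) a c v / η⌋₊ : ℝ)
          ≤ η * (dragm D (nuC η x) a c v / η) := mul_le_mul_of_nonneg_left h1 hη.le
        _ = _ := by field_simp
  have hm_sum : ∀ c, 2 * ∑ v, (if v = c then 0 else ⌊dragm D (nuC η x) a c v / η⌋₊) ≤
      (univ.filter (fun j => x j = (c, true))).card := by
    intro c
    have h1 : η * ∑ v, ((if v = c then 0 else ⌊dragm D (nuC η x) a c v / η⌋₊ : ℕ) : ℝ) ≤
        1 / 2 * nuC η x c := by
      calc η * ∑ v, ((if v = c then 0 else ⌊dragm D (nuC η x) a c v / η⌋₊ : ℕ) : ℝ)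
          = ∑ v, η * ((if v = c then 0 else ⌊dragm D (nuC η x) a c v / η⌋₊ : ℕ) : ℝ) := mul_sum ..
        _ ≤ ∑ v, dragm D (nuC η x) a c v := sum_le_sum fun v _ => hm_le c v
        _ ≤ (∑ u, ∑ v, a u v) / e0 * nuC η x c := sum_dragm_le hD hν ha c
        _ ≤ 1 / 2 * nuC η x c := by
            refine mul_le_mul_of_nonneg_right ?_ (hν c)
            rw [div_le_iff₀ k5_e0_pos]
            linarith
    have h2 : nuC η x c = η * ((univ.filter fun j => x j = (c, true)).card : ℝ) := rfl
    rw [h2] at h1
    have h3 : 2 * ∑ v, ((if v = c then 0 else ⌊dragm D (nuC η x) a c v / η⌋₊ : ℕ) : ℝ) ≤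
        ((univ.filter fun j => x j = (c, true)).card : ℝ) := by
      by_contra h4
      push Not at h4
      have := mul_lt_mul_of_pos_left h4 hη
      linarith only [h1, this]
    exact_mod_cast h3
  choose t h1 h2 h3 h4 using fun c => exists_cheap_family
    (univ.filter (fun j => x j = (c, true))) ω hω
    (fun v => if v = c then 0 else ⌊dragm D (nuC η x) a c v / η⌋₊) (hm_sum c)
  refine ⟨fun c v => if v = c then 0 else ⌊dragm D (nuC η x) a c v / η⌋₊, t, hm_le, ?_, ?_, h1,
    h2, h3, h4⟩
  · intro c v hv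
    beta_reduce
    rw [if_neg hv]
    have h5 := (Nat.lt_floor_add_one (dragm D (nuC η x) a c v / η)).le
    rw [div_le_iff₀ hη] at h5
    linarith only [h5]
  · intro c
    beta_reduce
    rw [if_pos rfl]

theorem exists_drag (hD : PM D) (P : LPar η k J) (x : Conf X J)
    (h : Bal D p (nuC η x)) {a : X → X → ℝ} (ha : ∀ u v, 0 ≤ a u v)
    (hsmall : ∑ u, ∑ v, a u v ≤ e0 / 2) (ω : J → ℝ) (hω : ∀ j, 0 ≤ ω j) :
    ∃ xd : Conf X J, DragMove D η a x xd ∧
      ∑ c, |nuC η xd c - dragged D (nuC η x) a c| ≤ 2 * η * (Fintype.card X : ℝ) ^ 2 ∧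
      ∑ j, ω j * D (x j).1 (xd j).1 ≤
        2 * ∑ c, ∑ v, dragm D (nuC η x) a c v * D c v *
          ((∑ j ∈ univ.filter (fun j => x j = (c, true)), ω j) / nuC η x c) := by
  classical
  have hη := P.hη
  have hν := h.hν
  obtain ⟨m, t, hm1, hm2, hm3, ht1, ht2, ht3, ht4⟩ := p2_family hD hη x hν ha hsmall ω hω
  have hdm : ∀ c v, 0 ≤ dragm D (nuC η x) a c v := dragm_nonneg hD hν ha
  have F1 : ∀ j c v, j ∈ t c v → x j = (c, true) := fun j c v hj => by
    have := ht1 c v hj
    rw [mem_filter] at this
    exact this.2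
  have F5 : ∀ j c v c' v', j ∈ t c v → j ∈ t c' v' → c' = c ∧ v' = v := by
    intro j c v c' v' hj hj'
    have e1 := F1 j c v hj
    have e2 := F1 j c' v' hj'
    rw [e1, Prod.mk.injEq] at e2
    obtain ⟨e3, -⟩ := e2
    subst e3
    refine ⟨rfl, ?_⟩
    by_contra hne
    exact Finset.disjoint_left.1 (ht3 c v' v hne) hj' hj
  obtain ⟨xd, hxd1, hxd2⟩ : ∃ xd : Conf X J, (∀ j c v, j ∈ t c v → xd j = (v, true)) ∧
      ∀ j, (∀ c v, j ∉ t c v) → xd j = x j := by
    refine ⟨fun j => if hj : ∃ v, j ∈ t (x j).1 v then (hj.choose, true) else x j, ?_, ?_⟩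
    · intro j c v hj
      have e1 := F1 j c v hj
      have hj' : ∃ v, j ∈ t (x j).1 v := ⟨v, by rw [e1]; exact hj⟩
      beta_reduce
      rw [dif_pos hj']
      have e2 := hj'.choose_spec
      rw [(F5 j c v _ _ hj e2).2]
    · intro j hj
      beta_reduce
      rw [dif_neg (by
        rintro ⟨v, hv⟩
        exact hj _ _ hv)]
  have Fne : ∀ j c v, j ∈ t c v → v ≠ c := by
    rintro j c v hj rfl
    have e1 := ht2 v v
    rw [hm3, card_eq_zero] at e1
    rw [e1] at hj
    exact absurd hj (Finset.notMem_empty j)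
  refine ⟨xd, ⟨?_, ?_⟩, ?_, ?_⟩
  · intro j
    by_cases hj : ∀ c v, j ∉ t c v
    · exact Or.inl (hxd2 j hj)
    · push Not at hj
      obtain ⟨c, v, hj⟩ := hj
      refine Or.inr ?_
      rw [hxd1 j c v hj, F1 j c v hj]
      refine ⟨rfl, rfl, ?_⟩
      show D c v ≤ 4
      have h1 : 1 ≤ m c v := by
        rw [← ht2 c v]
        exact card_pos.2 ⟨j, hj⟩
      have h2 : 0 < dragm D (nuC η x) a c v := by
        refine lt_of_lt_of_le ?_ (hm1 c v)
        have : (1 : ℝ) ≤ m c v := by exact_mod_cast h1
        (clear * - hη h1; positivity)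
      have h3 : ∃ u, ff D u v c ≠ 0 := by
        by_contra hno
        push Not at hno
        have : dragm D (nuC η x) a c v = 0 := by
          unfold dragm
          exact sum_eq_zero fun u _ => by rw [hno u, mul_zero, mul_zero]
        linarith only [h2, this]
      obtain ⟨u, hu⟩ := h3
      have h4 : D u v ≤ 1 / 32 := by
        by_contra hc
        push Not at hc
        exact hu (by unfold ff; rw [if_pos hc])
      have h5 : D u c ≤ 3 := by
        by_contra hc
        push Not at hc
        exact hu (by unfold ff; rw [if_neg (not_lt.2 h4), if_pos hc])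
      have h6 := hD.tri c u v
      rw [hD.symm c u] at h6
      linarith only [h4, h5, h6]
  · intro c v hcv
    refine le_trans ?_ (hm1 c v)
    refine mul_le_mul_of_nonneg_left ?_ hη.le
    rw [← ht2 c v]
    refine Nat.cast_le.2 (card_le_card ?_)
    intro j hj
    rw [mem_filter] at hj
    obtain ⟨-, hj1, hj2⟩ := hj
    by_cases hj3 : ∀ c v, j ∉ t c v
    · rw [hxd2 j hj3, hj1, Prod.mk.injEq] at hj2
      exact absurd hj2.1 hcv
    · push Not at hj3
      obtain ⟨c', v', hj3⟩ := hj3
      have e1 := F1 j c' v' hj3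
      have e2 := hxd1 j c' v' hj3
      rw [hj1, Prod.mk.injEq] at e1
      rw [hj2, Prod.mk.injEq] at e2
      rw [e1.1, e2.1]
      exact hj3
  · -- rounding
    have hcount : ∀ c, nuC η xd c = nuC η x c - ∑ v, η * (m c v : ℝ) + ∑ c', η * (m c' c : ℝ) := by
      intro c
      have hpt : ∀ j, (if xd j = (c, true) then (1 : ℝ) else 0) =
          (if x j = (c, true) then (1 : ℝ) else 0) - ∑ v, (if j ∈ t c v then (1 : ℝ) else 0) +
            ∑ c', (if j ∈ t c' c then (1 : ℝ) else 0) := by
        intro j
        by_cases hj : ∀ c v, j ∉ t c v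
        · rw [hxd2 j hj, sum_eq_zero (fun v _ => if_neg (hj c v)),
            sum_eq_zero (fun c' _ => if_neg (hj c' c))]
          ring
        · push Not at hj
          obtain ⟨c0, v0, hj⟩ := hj
          rw [hxd1 j c0 v0 hj, F1 j c0 v0 hj]
          have e1 : ∑ v, (if j ∈ t c v then (1 : ℝ) else 0) = if c0 = c then 1 else 0 := by
            by_cases hc : c0 = c
            · subst hc
              rw [if_pos rfl, sum_eq_single v0]
              · rw [if_pos hj]
              · intro v _ hv
                rw [if_neg]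
                intro hj'
                exact hv (F5 j _ _ _ _ hj hj').2
              · intro hv
                exact absurd (mem_univ v0) hv
            · rw [if_neg hc]
              refine sum_eq_zero fun v _ => if_neg fun hj' => hc (F5 j _ _ _ _ hj hj').1.symm
          have e2 : ∑ c', (if j ∈ t c' c then (1 : ℝ) else 0) = if v0 = c then 1 else 0 := by
            by_cases hc : v0 = c
            · subst hc
              rw [if_pos rfl, sum_eq_single c0]
              · rw [if_pos hj]
              · intro v _ hv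
                rw [if_neg]
                intro hj'
                exact hv (F5 j _ _ _ _ hj hj').1
              · intro hv
                exact absurd (mem_univ c0) hv
            · rw [if_neg hc]
              refine sum_eq_zero fun v _ => if_neg fun hj' => hc (F5 j _ _ _ _ hj hj').2.symm
          rw [e1, e2]
          simp only [Prod.mk.injEq, and_true]
          ring
      have h1 : ((univ.filter fun j => xd j = (c, true)).card : ℝ) =
          ((univ.filter fun j => x j = (c, true)).card : ℝ) - ∑ v, (m c v : ℝ)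
            + ∑ c', (m c' c : ℝ) := by
        rw [card_filter, card_filter]
        push_cast
        rw [sum_congr rfl fun j _ => hpt j, sum_add_distrib, sum_sub_distrib]
        congr 1
        · congr 1
          rw [sum_comm]
          refine sum_congr rfl fun v _ => ?_
          rw [← ht2 c v, sum_boole]
          congr 2
          ext j
          simp only [subset_univ, filter_mem_eq_of_subset]
        · rw [sum_comm]
          refine sum_congr rfl fun v _ => ?_
          rw [← ht2 v c, sum_boole]
          congr 2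
          ext j
          simp only [subset_univ, filter_mem_eq_of_subset]
      show η * ((univ.filter fun j => xd j = (c, true)).card : ℝ) =
        η * ((univ.filter fun j => x j = (c, true)).card : ℝ) - _ + _
      rw [h1, ← mul_sum, ← mul_sum]
      ring
    have hr : ∀ c v, |if v = c then 0 else dragm D (nuC η x) a c v - η * (m c v : ℝ)| ≤ η := by
      intro c v
      split_ifs with hv
      · rw [abs_zero]
        exact hη.le
      · rw [abs_of_nonneg (sub_nonneg.2 (hm1 c v))]
        exact hm2 c v hv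
    have hdiff : ∀ c, nuC η xd c - dragged D (nuC η x) a c =
        ∑ v, (if v = c then 0 else dragm D (nuC η x) a c v - η * (m c v : ℝ)) -
          ∑ c', (if c = c' then 0 else dragm D (nuC η x) a c' c - η * (m c' c : ℝ)) := by
      intro c
      have e1 : ∑ v, (if v = c then 0 else dragm D (nuC η x) a c v - η * (m c v : ℝ)) =
          ∑ v, dragm D (nuC η x) a c v - ∑ v, η * (m c v : ℝ) - dragm D (nuC η x) a c c := by
        have e3 : ∀ v, (if v = c then 0 else dragm D (nuC η x) a c v - η * (m c v : ℝ)) =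
            dragm D (nuC η x) a c v - η * (m c v : ℝ) -
              (if v = c then dragm D (nuC η x) a c c else 0) := by
          intro v
          split_ifs with hv
          · rw [hv, hm3]
            simp
          · ring
        rw [sum_congr rfl fun v _ => e3 v, sum_sub_distrib, sum_sub_distrib,
          sum_ite_eq' univ c, if_pos (mem_univ c)]
      have e2 : ∑ c', (if c = c' then 0 else dragm D (nuC η x) a c' c - η * (m c' c : ℝ)) =
          ∑ c', dragm D (nuC η x) a c' c - ∑ c', η * (m c' c : ℝ) - dragm D (nuC η x) a c c := by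
        have e3 : ∀ c', (if c = c' then 0 else dragm D (nuC η x) a c' c - η * (m c' c : ℝ)) =
            dragm D (nuC η x) a c' c - η * (m c' c : ℝ) -
              (if c = c' then dragm D (nuC η x) a c c else 0) := by
          intro v
          split_ifs with hv
          · rw [← hv, hm3]
            simp only [CharP.cast_eq_zero, mul_zero, sub_zero, sub_self]
          · ring
        rw [sum_congr rfl fun v _ => e3 v, sum_sub_distrib, sum_sub_distrib,
          sum_ite_eq univ c, if_pos (mem_univ c)]
      rw [hcount c, e1, e2]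
      unfold dragged
      ring
    have hN : ∀ f : X → ℝ, (∀ v, |f v| ≤ η) → |∑ v, f v| ≤ Fintype.card X * η := by
      intro f hf
      refine (abs_sum_le_sum_abs _ _).trans ?_
      have := sum_le_card_nsmul univ (fun v => |f v|) η fun v _ => hf v
      rwa [nsmul_eq_mul, card_univ] at this
    have hone : ∀ c, |nuC η xd c - dragged D (nuC η x) a c| ≤ 2 * (Fintype.card X * η) := by
      intro c
      rw [hdiff c]
      refine (abs_sub _ _).trans ?_
      have h1 := hN _ fun v => hr c v
      have h2 := hN (fun c' => if c = c' then 0 else dragm D (nuC η x) a c' c - η * (m c' c : ℝ))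
        fun c' => hr c' c
      linarith only [h1, h2]
    have := sum_le_card_nsmul univ (fun c => |nuC η xd c - dragged D (nuC η x) a c|)
      (2 * (Fintype.card X * η)) fun c _ => hone c
    rw [nsmul_eq_mul, card_univ] at this
    refine this.trans (le_of_eq (by ring))
  · -- cost
    have hpt : ∀ j, ω j * D (x j).1 (xd j).1 ≤
        ∑ c, ∑ v, (if j ∈ t c v then ω j * D c v else 0) := by
      intro j
      by_cases hj : ∀ c v, j ∉ t c v
      · rw [hxd2 j hj, hD.self, mul_zero]
        exact sum_nonneg fun c _ => sum_nonneg fun v _ => by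
          rw [if_neg (hj c v)]
      · push Not at hj
        obtain ⟨c0, v0, hj⟩ := hj
        rw [hxd1 j c0 v0 hj, F1 j c0 v0 hj]
        have hnn : ∀ c v, 0 ≤ (if j ∈ t c v then ω j * D c v else 0) := by
          intro c v
          split_ifs
          · exact mul_nonneg (hω j) (hD.nonneg c v)
          · exact le_rfl
        refine le_trans ?_ (single_le_sum (fun c _ => sum_nonneg fun v _ => hnn c v)
          (mem_univ c0))
        refine le_trans ?_ (single_le_sum (fun v _ => hnn c0 v) (mem_univ v0))
        rw [if_pos hj]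
    calc ∑ j, ω j * D (x j).1 (xd j).1
        ≤ ∑ j, ∑ c, ∑ v, (if j ∈ t c v then ω j * D c v else 0) :=
          sum_le_sum fun j _ => hpt j
      _ = ∑ c, ∑ v, (∑ j ∈ t c v, ω j) * D c v := by
          rw [sum_comm]
          refine sum_congr rfl fun c _ => ?_
          rw [sum_comm]
          refine sum_congr rfl fun v _ => ?_
          rw [sum_mul, ← sum_filter]
          refine sum_congr ?_ fun _ _ => rfl
          ext j
          simp only [subset_univ, filter_mem_eq_of_subset]
      _ ≤ ∑ c, ∑ v, 2 * (dragm D (nuC η x) a c v * D c v *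
          ((∑ j ∈ univ.filter (fun j => x j = (c, true)), ω j) / nuC η x c)) := by
          refine sum_le_sum fun c _ => sum_le_sum fun v _ => ?_
          have hDn := hD.nonneg c v
          have hWn : 0 ≤ ∑ j ∈ univ.filter (fun j => x j = (c, true)), ω j :=
            sum_nonneg fun j _ => hω j
          have hdn := hdm c v
          have hνc : nuC η x c = η * ((univ.filter fun j => x j = (c, true)).card : ℝ) := rfl
          rcases Nat.eq_zero_or_pos (univ.filter fun j => x j = (c, true)).card with h0 | h0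
          · have h1 : t c v = ∅ := by
              have h2 := ht1 c v
              rw [card_eq_zero.1 h0] at h2
              exact subset_empty.1 h2
            rw [h1, sum_empty, zero_mul]
            have := hν c
            (clear * - hdn hDn hWn this; positivity)
          · have h0' : (0 : ℝ) < ((univ.filter fun j => x j = (c, true)).card : ℝ) := by
              exact_mod_cast h0
            have hνp : 0 < nuC η x c := by
              rw [hνc]
              (clear * - hη h0; positivity)
            have h1 : ∑ j ∈ t c v, ω j ≤ 2 * (dragm D (nuC η x) a c v *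
                ((∑ j ∈ univ.filter (fun j => x j = (c, true)), ω j) / nuC η x c)) := by
              rw [← mul_div_assoc, ← mul_div_assoc, le_div_iff₀ hνp, hνc]
              have h2 := mul_le_mul_of_nonneg_left (ht4 c v) hη.le
              have h3 := mul_le_mul_of_nonneg_right (hm1 c v) hWn
              calc (∑ j ∈ t c v, ω j) * (η * ((univ.filter fun j => x j = (c, true)).card : ℝ))
                  = η * (((univ.filter fun j => x j = (c, true)).card : ℝ) *
                      ∑ j ∈ t c v, ω j) := by ring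
                _ ≤ η * (2 * m c v * ∑ j ∈ univ.filter (fun j => x j = (c, true)), ω j) := h2
                _ = 2 * (η * m c v * ∑ j ∈ univ.filter (fun j => x j = (c, true)), ω j) := by
                    ring
                _ ≤ _ := by linarith only [h3]
            calc (∑ j ∈ t c v, ω j) * D c v ≤ _ := mul_le_mul_of_nonneg_right h1 hDn
              _ = _ := by ring
      _ = _ := by
          simp only [mul_sum]

/-- the following cost in terms of users (uses `ff * D c v ≤ 65 D u v`) -/
theorem follow_le (hD : PM D) (x : Conf X J) (hη : 0 < η) {a : X → X → ℝ}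
    (ha : ∀ u v, 0 ≤ a u v) (ω : J → ℝ) (hω : ∀ j, 0 ≤ ω j) :
    2 * ∑ c, ∑ v, dragm D (nuC η x) a c v * D c v *
          ((∑ j ∈ univ.filter (fun j => x j = (c, true)), ω j) / nuC η x c)
      ≤ 130 * ∑ u, ∑ v, a u v * ((if D u v ≤ 1 / 32 then D u v else 0) *
          ∑ c ∈ univ.filter (fun c => D u c ≤ 3), kern D u c / SS D (nuC η x) u *
            ∑ j ∈ univ.filter (fun j => x j = (c, true)), ω j) := by
  have hν : ∀ c, 0 ≤ nuC η x c := fun c => nuC_nonneg hη.le x c
  have hW : ∀ c, 0 ≤ ∑ j ∈ univ.filter (fun j => x j = (c, true)), ω j :=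
    fun c => sum_nonneg fun j _ => hω j
  have hpt : ∀ u v c, a u v * (QQ D (nuC η x) u c * ff D u v c) * D c v *
      ((∑ j ∈ univ.filter (fun j => x j = (c, true)), ω j) / nuC η x c) ≤
      65 * (a u v * ((if D u v ≤ 1 / 32 then D u v else 0) *
        (if D u c ≤ 3 then kern D u c / SS D (nuC η x) u *
          ∑ j ∈ univ.filter (fun j => x j = (c, true)), ω j else 0))) := by
    intro u v c
    have hS := SS_pos (D := D) hν u
    have hK := kern_pos (D := D) u c
    have h1 := ha u v
    have h2 := hD.nonneg u v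
    have h3 := hW c
    by_cases h4 : D u v ≤ 1 / 32
    · by_cases h5 : D u c ≤ 3
      · rw [if_pos h4, if_pos h5]
        rcases eq_or_ne (nuC η x c) 0 with h0 | h0
        · rw [h0, div_zero, mul_zero]
          (clear * - h1 h2 hK hS h3; positivity)
        · have h6 : ff D u v c * D c v ≤ 65 * D u v := by
            refine le_trans (mul_le_mul_of_nonneg_left ?_ (ff_nonneg hD u v c))
              (ff_mul_le hD u v c)
            have := hD.tri c u v
            rwa [hD.symm c u] at this
          have h7 : 0 ≤ a u v * (kern D u c / SS D (nuC η x) u *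
              ∑ j ∈ univ.filter (fun j => x j = (c, true)), ω j) := by (clear * - h1 hK hS h3; positivity)
          calc a u v * (QQ D (nuC η x) u c * ff D u v c) * D c v *
                ((∑ j ∈ univ.filter (fun j => x j = (c, true)), ω j) / nuC η x c)
              = a u v * (kern D u c / SS D (nuC η x) u *
                  ∑ j ∈ univ.filter (fun j => x j = (c, true)), ω j) *
                  (ff D u v c * D c v) := by
                unfold QQ
                (clear * - h0 hS hK; field_simp)
            _ ≤ a u v * (kern D u c / SS D (nuC η x) u *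
                  ∑ j ∈ univ.filter (fun j => x j = (c, true)), ω j) * (65 * D u v) :=
                mul_le_mul_of_nonneg_left h6 h7
            _ = _ := by ring
      · have : ff D u v c = 0 := by
          unfold ff
          rw [if_neg (not_lt.2 h4), if_pos (not_le.1 h5)]
        rw [this, if_neg h5]
        simp only [mul_zero, zero_mul, one_div, Std.le_refl]
    · have : ff D u v c = 0 := by
        unfold ff
        rw [if_pos (not_le.1 h4)]
      rw [this, if_neg h4]
      simp only [mul_zero, zero_mul, mul_ite, ite_self, Std.le_refl]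
  calc 2 * ∑ c, ∑ v, dragm D (nuC η x) a c v * D c v *
          ((∑ j ∈ univ.filter (fun j => x j = (c, true)), ω j) / nuC η x c)
      = 2 * ∑ c, ∑ v, ∑ u, a u v * (QQ D (nuC η x) u c * ff D u v c) * D c v *
          ((∑ j ∈ univ.filter (fun j => x j = (c, true)), ω j) / nuC η x c) := by
        simp only [dragm, sum_mul]
    _ = 2 * ∑ u, ∑ v, ∑ c, a u v * (QQ D (nuC η x) u c * ff D u v c) * D c v *
          ((∑ j ∈ univ.filter (fun j => x j = (c, true)), ω j) / nuC η x c) := by
        congr 1
        rw [sum_comm]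
        rw [sum_congr rfl fun v _ => sum_comm]
        rw [sum_comm]
    _ ≤ 2 * ∑ u, ∑ v, ∑ c, 65 * (a u v * ((if D u v ≤ 1 / 32 then D u v else 0) *
        (if D u c ≤ 3 then kern D u c / SS D (nuC η x) u *
          ∑ j ∈ univ.filter (fun j => x j = (c, true)), ω j else 0))) := by
        refine mul_le_mul_of_nonneg_left ?_ (by norm_num)
        exact sum_le_sum fun u _ => sum_le_sum fun v _ => sum_le_sum fun c _ => hpt u v c
    _ = _ := by
        simp only [← mul_sum, ← sum_filter]
        ring

end Vale.Agent.P304.Dyn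
end
end
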