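import Mathlib
import Vale.Agent.P304.Bdl.B1

set_option linter.all false

section

section
set_option linter.all false

open scoped BigOperators

namespace Vale.Agent.P304.HST

/-- A hierarchical clustering of a finite set: `cl l x` is the cluster of level `l` of `x`
(levels `0, ..., D`; level `0` consists of the points, level `D` of the whole set), with
weights `rho l` of the levels. -/
structure Hier (X : Type) [Fintype X] [DecidableEq X] where
  D : ℕ
  cl : ℕ → X → Finset X
  rho : ℕ → ℝ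
  rho_pos : ∀ l, 0 < rho l
  mem_self : ∀ l x, x ∈ cl l x
  eq_of_mem : ∀ l x y, y ∈ cl l x → cl l y = cl l x
  mono : ∀ l x, cl l x ⊆ cl (l + 1) x
  cl_zero : ∀ x, cl 0 x = {x}
  cl_top : ∀ x, cl D x = Finset.univ

variable {X : Type} [Fintype X] [DecidableEq X]

/-- the clusters of level `l` -/
def Hier.P (T : Hier X) (l : ℕ) : Finset (Finset X) := Finset.univ.image (T.cl l)

/-- tree distance of two mass vectors -/
noncomputable def Hier.tn (T : Hier X) (z z' : X → ℝ) : ℝ :=
  ∑ l ∈ Finset.range T.D, T.rho l * ∑ C ∈ T.P l, |∑ y ∈ C, z y - ∑ y ∈ C, z' y|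

/-- one-sided tree distance: the mass which leaves the clusters -/
noncomputable def Hier.drop (T : Hier X) (z z' : X → ℝ) : ℝ :=
  ∑ l ∈ Finset.range T.D, T.rho l * ∑ C ∈ T.P l, max (∑ y ∈ C, z y - ∑ y ∈ C, z' y) 0

/-- occupation numbers of a vector of positions -/
def cnt {k : ℕ} (p : Fin k → X) (x : X) : ℕ := (Finset.univ.filter fun j => p j = x).card

/-- lifted states -/
abbrev St (T : Hier X) (k : ℕ) : Type := Fin T.D → Finset X → Fin (2 * k) → ℝ

/-- feasible pairs of a mass vector and a lifted state -/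
structure Feas (T : Hier X) (k : ℕ) (δ : ℝ) (z : X → ℝ) (x : St T k) : Prop where
  nonneg : ∀ y, 0 ≤ z y
  total : ∑ y, z y = k
  lower : ∀ l C i, δ / 4 ≤ x l C i
  upper : ∀ l C i, x l C i ≤ 1
  lift : ∀ l : Fin T.D, ∀ C ∈ T.P l, ∑ i, (1 - x l C i) = ∑ y ∈ C, z y

/-- potential of the occupation vector `n` (of the adversary) in the lifted state `x` -/
noncomputable def pot (T : Hier X) (k : ℕ) (δ : ℝ) (n : X → ℕ) (x : St T k) : ℝ :=
  ∑ l : Fin T.D, T.rho l * ∑ C ∈ T.P l, ∑ i : Fin (2 * k),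
    ((if ∑ y ∈ C, n y ≤ (i : ℕ) then (1 : ℝ) else 0) + δ) * -Real.log (x l C i)

/-- expected number of missing servers, relative to `s` slots, in the cluster `C` -/
noncomputable def Q {ι : Type} [Fintype ι] (p : ι → ℝ) (n : ι → X → ℕ) (C : Finset X) (s : ℕ) : ℝ :=
  ∑ a, p a * max ((s : ℝ) - ((∑ y ∈ C, n a y : ℕ) : ℝ)) 0

/-- expected number of servers in the cluster `C` -/
noncomputable def mm {ι : Type} [Fintype ι] (p : ι → ℝ) (n : ι → X → ℕ) (C : Finset X) : ℝ :=
  ∑ a, p a * ((∑ y ∈ C, n a y : ℕ) : ℝ)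

/-- the constants -/
noncomputable def dd (k : ℕ) : ℝ := 1 / (16 * k)

noncomputable def cc (k : ℕ) : ℝ := 1 / (16 * (1 + Real.log (8 * k ^ 2)))

/-- objective of the proximal step -/
noncomputable def obj {ι : Type} [Fintype ι] (T : Hier X) (k : ℕ) (p : ι → ℝ) (n : ι → X → ℕ)
    (z₀ z : X → ℝ) (x : St T k) : ℝ :=
  ∑ a, p a * (pot T k (dd k) (n a) x + cc k * T.tn z₀ z)

/-- `(z, x)` minimizes the objective among all feasible pairs -/
def IsMin {ι : Type} [Fintype ι] (T : Hier X) (k : ℕ) (p : ι → ℝ) (n : ι → X → ℕ)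
    (z₀ z : X → ℝ) (x : St T k) : Prop :=
  Feas T k (dd k) z x ∧ ∀ z' x', Feas T k (dd k) z' x' → obj T k p n z₀ z x ≤ obj T k p n z₀ z' x'

/-- The information extracted from a minimizer: prices `lam l C` and slot numbers `sl l C`. -/
structure Prices {ι : Type} [Fintype ι] (T : Hier X) (k : ℕ) (p : ι → ℝ) (n : ι → X → ℕ)
    (z : X → ℝ) (lam : ℕ → Finset X → ℝ) (sl : ℕ → Finset X → ℕ) : Prop where
  lam_nonneg : ∀ l < T.D, ∀ C ∈ T.P l, 0 ≤ lam l C
  one : ∀ l < T.D, ∀ C ∈ T.P l, ∀ s ≤ 2 * k,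
    lam l C * ((s : ℝ) - ∑ y ∈ C, z y) ≤ Q p n C s + dd k * s
  two : ∀ l < T.D, ∀ C ∈ T.P l, 0 < ∑ y ∈ C, z y →
    1 ≤ sl l C ∧ sl l C ≤ 2 * k ∧ 0 < (sl l C : ℝ) - ∑ y ∈ C, z y ∧
    Q p n C (sl l C) + dd k * sl l C = lam l C * ((sl l C : ℝ) - ∑ y ∈ C, z y)
  three : ∀ l < T.D, ∀ C ∈ T.P l, 0 < ∑ y ∈ C, z y → lam l C < 1 / 2 → (sl l C : ℝ) ≤ 2 * mm p n C
  stuck : ∀ (y b : X) (l : ℕ), l < T.D → b ∈ T.cl (l + 1) y → b ∉ T.cl l y → 0 < z y →
    ∑ j ∈ Finset.range (l + 1), T.rho j * lam j (T.cl j y) ≤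
      ∑ j ∈ Finset.range (l + 1), T.rho j * (lam j (T.cl j b) + 2 * cc k)

/-- balanced probability distributions on configurations with marginals `z` -/
structure Bal (T : Hier X) (k : ℕ) (z : X → ℝ) (μ : (X → Fin (k + 2)) → ℝ) : Prop where
  nonneg : ∀ A, 0 ≤ μ A
  total : ∑ A, μ A = 1
  mean : ∀ x, ∑ A, μ A * ((A x : ℕ) : ℝ) = z x
  supp : ∀ A, μ A ≠ 0 → ∀ l ≤ T.D, ∀ C ∈ T.P l,
    (⌊∑ y ∈ C, z y⌋ : ℝ) ≤ ∑ y ∈ C, ((A y : ℕ) : ℝ) ∧
      ∑ y ∈ C, ((A y : ℕ) : ℝ) ≤ (⌈∑ y ∈ C, z y⌉ : ℝ)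

/-- sum of `G h r` over all histories `h` of length `< m` and all next requests `r`. -/
noncomputable def gsum {Y : Type} [Fintype Y] : ℕ → (List Y → Y → ℝ) → ℝ
  | 0, _ => 0
  | m + 1, G => ∑ r, (G [] r + gsum m fun h r' => G (r :: h) r')

end Vale.Agent.P304.HST
end
end

section

section
set_option linter.all false

open scoped BigOperators

namespace Vale.Agent.P304.HST

variable {X : Type} [Fintype X] [DecidableEq X] (T : Hier X)

theorem mem_P {l : ℕ} {C : Finset X} : C ∈ T.P l ↔ ∃ x, T.cl l x = C := by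
  simp only [Hier.P, Finset.mem_image, Finset.mem_univ, true_and]

theorem cl_mem_P (l : ℕ) (x : X) : T.cl l x ∈ T.P l := (mem_P T).2 ⟨x, rfl⟩

theorem eq_cl {l : ℕ} {C : Finset X} (hC : C ∈ T.P l) {x : X} (hx : x ∈ C) : C = T.cl l x := by
  obtain ⟨y, rfl⟩ := (mem_P T).1 hC
  exact (T.eq_of_mem l y x hx).symm

theorem eq_of_mem_mem {l : ℕ} {C C' : Finset X} (hC : C ∈ T.P l) (hC' : C' ∈ T.P l) {x : X}
    (hx : x ∈ C) (hx' : x ∈ C') : C = C' := by
  rw [eq_cl T hC hx, eq_cl T hC' hx']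

theorem nonempty_of_mem {l : ℕ} {C : Finset X} (hC : C ∈ T.P l) : C.Nonempty := by
  obtain ⟨y, rfl⟩ := (mem_P T).1 hC
  exact ⟨y, T.mem_self l y⟩

theorem mem_cl_symm {l : ℕ} {x y : X} (h : y ∈ T.cl l x) : x ∈ T.cl l y := by
  rw [T.eq_of_mem l x y h]
  exact T.mem_self l x

theorem cl_mono {l m : ℕ} (h : l ≤ m) (x : X) : T.cl l x ⊆ T.cl m x := by
  induction h with
  | refl => exact fun _ h => h
  | step _ ih => exact ih.trans (T.mono _ x)

theorem P_top [Nonempty X] : T.P T.D = {Finset.univ} := by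
  ext C
  rw [mem_P, Finset.mem_singleton]
  constructor
  · rintro ⟨x, rfl⟩
    exact T.cl_top x
  · rintro rfl
    exact ⟨Classical.arbitrary X, T.cl_top _⟩

/-- a cluster of level `l` meeting a cluster of level `m ≥ l` is contained in it -/
theorem subset_of_mem {l m : ℕ} (h : l ≤ m) {C C' : Finset X} (hC : C ∈ T.P l) (hC' : C' ∈ T.P m)
    {x : X} (hx : x ∈ C) (hx' : x ∈ C') : C ⊆ C' := by
  rw [eq_cl T hC hx, eq_cl T hC' hx']
  exact cl_mono T h x

/-- children of a cluster -/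
def ch (l : ℕ) (C : Finset X) : Finset (Finset X) := (T.P l).filter fun v => v ⊆ C

theorem mem_ch {l : ℕ} {C v : Finset X} : v ∈ ch T l C ↔ v ∈ T.P l ∧ v ⊆ C := by
  simp [ch]

theorem sum_disj {M : Type} [AddCommMonoid M] {l : ℕ} {S : Finset (Finset X)} (hS : S ⊆ T.P l)
    (f : X → M) : ∑ v ∈ S, ∑ y ∈ v, f y = ∑ y ∈ S.biUnion id, f y := by
  rw [Finset.sum_biUnion]
  · rfl
  · intro a ha b hb hab
    rw [Function.onFun, Finset.disjoint_left]
    intro x hxa hxb
    exact hab (eq_of_mem_mem T (hS ha) (hS hb) hxa hxb)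

theorem sum_P {M : Type} [AddCommMonoid M] (l : ℕ) (f : X → M) :
    ∑ C ∈ T.P l, ∑ y ∈ C, f y = ∑ y, f y := by
  rw [sum_disj T (Finset.Subset.refl _) f]
  congr 1
  ext y
  simp only [Finset.mem_biUnion, id, Finset.mem_univ, iff_true]
  exact ⟨T.cl l y, cl_mem_P T l y, T.mem_self l y⟩

theorem sum_ch {M : Type} [AddCommMonoid M] {l : ℕ} {C : Finset X} (hC : C ∈ T.P (l + 1))
    (f : X → M) : ∑ v ∈ ch T l C, ∑ y ∈ v, f y = ∑ y ∈ C, f y := by
  have hS : ch T l C ⊆ T.P l := Finset.filter_subset _ _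
  rw [sum_disj T hS f]
  congr 1
  ext y
  simp only [Finset.mem_biUnion, id, mem_ch]
  constructor
  · rintro ⟨v, ⟨_, h1⟩, h2⟩
    exact h1 h2
  · intro h
    exact ⟨T.cl l y, ⟨cl_mem_P T l y,
      subset_of_mem T (Nat.le_succ l) (cl_mem_P T l y) hC (T.mem_self l y) h⟩, T.mem_self l y⟩

theorem ch_disjoint {l : ℕ} {C C' : Finset X} (hC : C ∈ T.P (l + 1)) (hC' : C' ∈ T.P (l + 1))
    (h : C ≠ C') : Disjoint (ch T l C) (ch T l C') := by
  rw [Finset.disjoint_left]
  intro v h1 h2
  rw [mem_ch] at h1 h2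
  obtain ⟨x, hx⟩ := nonempty_of_mem T h1.1
  exact h (eq_of_mem_mem T hC hC' (h1.2 hx) (h2.2 hx))

theorem biUnion_ch (l : ℕ) : (T.P (l + 1)).biUnion (ch T l) = T.P l := by
  ext v
  simp only [Finset.mem_biUnion, mem_ch]
  constructor
  · rintro ⟨_, _, h, _⟩
    exact h
  · intro h
    obtain ⟨x, hx⟩ := nonempty_of_mem T h
    exact ⟨T.cl (l + 1) x, cl_mem_P T _ x, h,
      subset_of_mem T (Nat.le_succ l) h (cl_mem_P T _ x) hx (T.mem_self _ x)⟩

theorem sum_P_ch {M : Type} [AddCommMonoid M] (l : ℕ) (g : Finset X → M) :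
    ∑ C ∈ T.P (l + 1), ∑ v ∈ ch T l C, g v = ∑ v ∈ T.P l, g v := by
  rw [← biUnion_ch T l, Finset.sum_biUnion]
  intro a ha b hb hab
  exact ch_disjoint T ha hb hab

theorem tn_nonneg (z z' : X → ℝ) : 0 ≤ T.tn z z' :=
  Finset.sum_nonneg fun l _ => mul_nonneg (T.rho_pos l).le
    (Finset.sum_nonneg fun _ _ => abs_nonneg _)

theorem tn_self (z : X → ℝ) : T.tn z z = 0 := by simp only [Hier.tn, sub_self, abs_zero, Finset.sum_const_zero, mul_zero]

theorem tn_smul {c : ℝ} (hc : 0 ≤ c) (z z' : X → ℝ) :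
    T.tn (fun x => c * z x) (fun x => c * z' x) = c * T.tn z z' := by
  simp only [Hier.tn, ← Finset.mul_sum, ← mul_sub, abs_mul, abs_of_nonneg hc]
  rw [Finset.mul_sum]
  refine Finset.sum_congr rfl fun l _ => ?_
  ring

theorem sum_cnt {k : ℕ} (p : Fin k → X) : ∑ x, cnt p x = k := by
  unfold cnt
  rw [← Finset.card_eq_sum_card_fiberwise (f := p) (s := Finset.univ) (t := Finset.univ)]
  · simp only [Finset.card_univ, Fintype.card_fin]
  · intro x _
    simp only [Finset.coe_univ, Set.mem_univ]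

end Vale.Agent.P304.HST
end
end

section

section
set_option linter.all false

open scoped BigOperators

namespace Vale.Agent.P304.HST

variable {X : Type} [Fintype X] [DecidableEq X] {ι : Type} [Fintype ι]

theorem ex_k_pos {k : ℕ} (hk : 1 ≤ k) : (1 : ℝ) ≤ k := by exact_mod_cast hk

theorem ex_dd_pos {k : ℕ} (hk : 1 ≤ k) : 0 < dd k := by
  have := ex_k_pos hk
  unfold dd
  positivity

theorem ex_dd_eq {k : ℕ} (hk : 1 ≤ k) : dd k / 4 = (64 * (k : ℝ))⁻¹ := by
  have := ex_k_pos hk
  unfold dd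
  field_simp
  norm_num

/-- initial state: `x l C i = 1 - (sum over C of n) / (2 k)`, which lies in `[1/2, 1]`. -/
theorem exists_feas (T : Hier X) {k : ℕ} (hk : 1 ≤ k) (n : X → ℕ) (hn : ∑ y, n y = k) :
    ∃ x, Feas T k (dd k) (fun y => (n y : ℝ)) x := by
  have hk' := ex_k_pos hk
  have hn' : ∑ y, (n y : ℝ) = k := by exact_mod_cast hn
  have hC : ∀ C : Finset X, ∑ y ∈ C, (n y : ℝ) ≤ k := fun C => by
    rw [← hn']
    exact Finset.sum_le_sum_of_subset_of_nonneg (Finset.subset_univ C) fun _ _ _ =>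
      Nat.cast_nonneg _
  have hC0 : ∀ C : Finset X, 0 ≤ ∑ y ∈ C, (n y : ℝ) := fun C =>
    Finset.sum_nonneg fun _ _ => Nat.cast_nonneg _
  refine ⟨fun l C i => 1 - (∑ y ∈ C, (n y : ℝ)) / (2 * k), ⟨fun y => Nat.cast_nonneg _, hn', ?_,
    ?_, ?_⟩⟩
  · intro l C i
    have h1 : (∑ y ∈ C, (n y : ℝ)) / (2 * k) ≤ 1 / 2 := by
      rw [div_le_iff₀ (by positivity)]
      linarith only [hC C]
    have h2 : dd k / 4 ≤ 1 / 2 := by
      rw [ex_dd_eq hk]
      have : (64 * (k : ℝ))⁻¹ ≤ 2⁻¹ := inv_anti₀ (by norm_num) (by linarith only [hk'])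
      linarith only [this]
    linarith only [h1, h2]
  · intro l C i
    have h1 : 0 ≤ (∑ y ∈ C, (n y : ℝ)) / (2 * k) := div_nonneg (hC0 C) (by positivity)
    linarith only [h1]
  · intro l C _
    simp only [sub_sub_cancel, Finset.sum_const, Finset.card_univ, Fintype.card_fin, nsmul_eq_mul]
    push_cast
    field_simp

theorem ex_feas_le {T : Hier X} {k : ℕ} {δ : ℝ} {z : X → ℝ} {x : St T k} (h : Feas T k δ z x)
    (y : X) : z y ≤ k := by
  rw [← h.total]
  exact Finset.single_le_sum (fun i _ => h.nonneg i) (Finset.mem_univ y)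

theorem ex_closed (T : Hier X) (k : ℕ) (δ : ℝ) :
    IsClosed {q : (X → ℝ) × St T k | Feas T k δ q.1 q.2} := by
  have e : {q : (X → ℝ) × St T k | Feas T k δ q.1 q.2} =
      {q : (X → ℝ) × St T k | (∀ y, 0 ≤ q.1 y) ∧ ∑ y, q.1 y = k ∧ (∀ l C i, δ / 4 ≤ q.2 l C i) ∧
        (∀ l C i, q.2 l C i ≤ 1) ∧
        ∀ l : Fin T.D, ∀ C ∈ T.P l, ∑ i, (1 - q.2 l C i) = ∑ y ∈ C, q.1 y} := by
    ext q
    exact ⟨fun h => ⟨Feas.nonneg h, Feas.total h, Feas.lower h, Feas.upper h, Feas.lift h⟩,
      fun h => ⟨h.1, h.2.1, h.2.2.1, h.2.2.2.1, h.2.2.2.2⟩⟩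
  rw [e]
  simp only [Set.setOf_and, Set.setOf_forall]
  refine IsClosed.inter ?_ (IsClosed.inter ?_ (IsClosed.inter ?_ (IsClosed.inter ?_ ?_)))
  · exact isClosed_iInter fun y => isClosed_le continuous_const (by fun_prop)
  · exact isClosed_eq (by fun_prop) continuous_const
  · exact isClosed_iInter fun l => isClosed_iInter fun C => isClosed_iInter fun i =>
      isClosed_le continuous_const (by fun_prop)
  · exact isClosed_iInter fun l => isClosed_iInter fun C => isClosed_iInter fun i =>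
      isClosed_le (by fun_prop) continuous_const
  · exact isClosed_iInter fun l => isClosed_iInter fun C => isClosed_iInter fun _ =>
      isClosed_eq (by fun_prop) (by fun_prop)

theorem ex_compact (T : Hier X) (k : ℕ) (δ : ℝ) :
    IsCompact {q : (X → ℝ) × St T k | Feas T k δ q.1 q.2} := by
  refine IsCompact.of_isClosed_subset
    (isCompact_Icc (a := ((fun _ => (0:ℝ), fun _ _ _ => δ / 4) : (X → ℝ) × St T k))
      (b := (fun _ => (k:ℝ), fun _ _ _ => (1:ℝ)))) (ex_closed T k δ) ?_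
  intro q hq
  exact ⟨⟨fun y => Feas.nonneg hq y, fun l C i => Feas.lower hq l C i⟩,
    ⟨fun y => ex_feas_le hq y, fun l C i => Feas.upper hq l C i⟩⟩

theorem ex_cont (T : Hier X) {k : ℕ} (hk : 1 ≤ k) (p : ι → ℝ) (n : ι → X → ℕ) (z₀ : X → ℝ) :
    ContinuousOn (fun q : (X → ℝ) × St T k => obj T k p n z₀ q.1 q.2)
      {q | Feas T k (dd k) q.1 q.2} := by
  unfold obj pot
  refine continuousOn_finset_sum _ fun a _ => continuousOn_const.mul (ContinuousOn.add ?_ ?_)
  · refine continuousOn_finset_sum _ fun l _ => continuousOn_const.mul ?_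
    refine continuousOn_finset_sum _ fun C _ => continuousOn_finset_sum _ fun i _ =>
      continuousOn_const.mul (ContinuousOn.neg (ContinuousOn.log ?_ ?_))
    · exact Continuous.continuousOn (by fun_prop)
    · intro q hq
      exact ((div_pos (ex_dd_pos hk) (by norm_num)).trans_le (Feas.lower hq l C i)).ne'
  · refine continuousOn_const.mul (Continuous.continuousOn ?_)
    unfold Hier.tn
    fun_prop

/-- existence of a minimizer: the set of feasible pairs is a nonempty compact subset of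
`(X → ℝ) × (Fin D → Finset X → Fin (2k) → ℝ)` (closed and bounded: `0 <= z y <= k`,
`dd/4 <= x <= 1`) and the objective is continuous on it (`log` is continuous on `[dd/4, 1]`):
`IsCompact.exists_isMinOn`. -/
theorem exists_min (T : Hier X) {k : ℕ} (hk : 1 ≤ k) (p : ι → ℝ) (n : ι → X → ℕ) (z₀ : X → ℝ)
    (hne : ∃ z x, Feas T k (dd k) z x) : ∃ z x, IsMin T k p n z₀ z x := by
  obtain ⟨z, x, hzx⟩ := hne
  obtain ⟨q, hq, hmin⟩ := (ex_compact T k (dd k)).exists_isMinOn ⟨(z, x), hzx⟩
    (ex_cont T hk p n z₀)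
  exact ⟨q.1, q.2, hq, fun z' x' h' => hmin (a := (z', x')) h'⟩

theorem ex_log_nonneg {T : Hier X} {k : ℕ} (hk : 1 ≤ k) {z : X → ℝ} {x : St T k}
    (hx : Feas T k (dd k) z x) (l : Fin T.D) (C : Finset X) (i : Fin (2 * k)) :
    0 ≤ -Real.log (x l C i) := by
  have h1 : 0 < x l C i := (div_pos (ex_dd_pos hk) (by norm_num)).trans_le (hx.lower l C i)
  exact neg_nonneg.2 (Real.log_nonpos h1.le (hx.upper l C i))

theorem ex_log_le {T : Hier X} {k : ℕ} (hk : 1 ≤ k) {z : X → ℝ} {x : St T k}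
    (hx : Feas T k (dd k) z x) (l : Fin T.D) (C : Finset X) (i : Fin (2 * k)) :
    -Real.log (x l C i) ≤ Real.log (64 * k) := by
  have h2 := hx.lower l C i
  rw [ex_dd_eq hk] at h2
  have hk' := ex_k_pos hk
  have h3 := Real.log_le_log (by positivity) h2
  rw [Real.log_inv] at h3
  linarith only [h3]

theorem pot_nonneg (T : Hier X) {k : ℕ} (hk : 1 ≤ k) (n : X → ℕ) {z : X → ℝ} {x : St T k}
    (hx : Feas T k (dd k) z x) : 0 ≤ pot T k (dd k) n x := by
  unfold pot
  refine Finset.sum_nonneg fun l _ => mul_nonneg (T.rho_pos l).le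
    (Finset.sum_nonneg fun C _ => Finset.sum_nonneg fun i _ => mul_nonneg (add_nonneg ?_
      (ex_dd_pos hk).le) (ex_log_nonneg hk hx l C i))
  split_ifs <;> norm_num

theorem ex_card (m N N' : ℕ) :
    ((Finset.univ.filter fun i : Fin m => N' ≤ (i : ℕ) ∧ (i : ℕ) < N).card : ℝ) ≤
      max ((N : ℝ) - N') 0 := by
  have h1 : (Finset.univ.filter fun i : Fin m => N' ≤ (i : ℕ) ∧ (i : ℕ) < N).card ≤ N - N' := by
    rw [← Nat.card_Ico N' N]
    refine Finset.card_le_card_of_injOn (fun i => (i : ℕ)) ?_ ?_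
    · intro i hi
      have := (Finset.mem_filter.1 hi).2
      exact Finset.mem_coe.2 (Finset.mem_Ico.2 this)
    · exact fun a _ b _ h => Fin.ext h
  refine (Nat.cast_le.2 h1).trans ?_
  rcases le_total N' N with h | h
  · rw [Nat.cast_sub h]
    exact le_max_left _ _
  · rw [Nat.sub_eq_zero_of_le h, Nat.cast_zero]
    exact le_max_right _ _

theorem ex_move {m : ℕ} (N N' : ℕ) {δ M : ℝ} (hM : 0 ≤ M) {L : Fin m → ℝ} (h0 : ∀ i, 0 ≤ L i)
    (h1 : ∀ i, L i ≤ M) :
    ∑ i : Fin m, ((if N' ≤ (i : ℕ) then (1 : ℝ) else 0) + δ) * L i ≤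
      ∑ i : Fin m, ((if N ≤ (i : ℕ) then (1 : ℝ) else 0) + δ) * L i +
        M * max ((N : ℝ) - N') 0 := by
  have h2 : ∀ i : Fin m, ((if N' ≤ (i : ℕ) then (1 : ℝ) else 0) + δ) * L i ≤
      ((if N ≤ (i : ℕ) then (1 : ℝ) else 0) + δ) * L i +
        if N' ≤ (i : ℕ) ∧ (i : ℕ) < N then M else 0 := by
    intro i
    have a := h0 i
    have b := h1 i
    by_cases c : N' ≤ (i : ℕ) <;> by_cases d : N ≤ (i : ℕ)
    · rw [if_pos c, if_pos d, if_neg (fun h => absurd h.2 (not_lt.2 d))]
      linarith only []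
    · rw [if_pos c, if_neg d, if_pos ⟨c, not_le.1 d⟩]
      linarith only [b]
    · rw [if_neg c, if_pos d, if_neg (fun h => c h.1)]
      linarith only [a]
    · rw [if_neg c, if_neg d, if_neg (fun h => c h.1)]
      linarith only []
  refine (Finset.sum_le_sum fun i _ => h2 i).trans ?_
  rw [Finset.sum_add_distrib, ← Finset.sum_filter, Finset.sum_const, nsmul_eq_mul, mul_comm]
  have := mul_le_mul_of_nonneg_left (ex_card m N N') hM
  linarith

/-- the potential rises by at most `log (64 k)` times the one-sided movement of the adversary: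
`sum_(i < 2k) ((1[N' <= i] - 1[N <= i]) (- log x_i)) <= (N - N')^+ log (4/dd)`. -/
theorem pot_move (T : Hier X) {k : ℕ} (hk : 1 ≤ k) (n n' : X → ℕ) {z : X → ℝ} {x : St T k}
    (hx : Feas T k (dd k) z x) :
    pot T k (dd k) n' x ≤ pot T k (dd k) n x
      + Real.log (64 * k) * T.drop (fun y => (n y : ℝ)) (fun y => (n' y : ℝ)) := by
  have hk' := ex_k_pos hk
  have hM : 0 ≤ Real.log (64 * (k : ℝ)) := Real.log_nonneg (by linarith only [hk'])
  unfold pot Hier.drop
  rw [Finset.sum_range, Finset.mul_sum, ← Finset.sum_add_distrib]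
  refine Finset.sum_le_sum fun l _ => ?_
  rw [mul_left_comm, ← mul_add]
  refine mul_le_mul_of_nonneg_left ?_ (T.rho_pos l).le
  rw [Finset.mul_sum (T.P l) _ (Real.log (64 * (k : ℝ))), ← Finset.sum_add_distrib]
  refine Finset.sum_le_sum fun C _ => ?_
  have := ex_move (∑ y ∈ C, n y) (∑ y ∈ C, n' y) (δ := dd k) hM
    (fun i => ex_log_nonneg hk hx l C i) (fun i => ex_log_le hk hx l C i)
  push_cast at this
  exact this

end Vale.Agent.P304.HST
end
end

section

section
set_option linter.all false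

open scoped BigOperators

namespace Vale.Agent.P304.HST

variable {X : Type} [Fintype X] [DecidableEq X] {ι : Type} [Fintype ι]

/-- `q l C i` = posterior probability that the cluster contains at most `i` servers -/
noncomputable def qq (p : ι → ℝ) (n : ι → X → ℕ) (C : Finset X) (i : ℕ) : ℝ :=
  ∑ a, p a * (if ∑ y ∈ C, n a y ≤ i then (1 : ℝ) else 0)

theorem fo_qq_nonneg {p : ι → ℝ} (hp : ∀ a, 0 ≤ p a) (n : ι → X → ℕ) (C : Finset X) (i : ℕ) :
    0 ≤ qq p n C i := by
  unfold qq
  refine Finset.sum_nonneg fun a _ => mul_nonneg (hp a) ?_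
  split_ifs <;> norm_num

theorem fo_dd_pos {k : ℕ} (hk : 1 ≤ k) : 0 < dd k := by
  unfold dd
  have : (0 : ℝ) < k := by exact_mod_cast hk
  positivity

theorem fo_cc_nonneg {k : ℕ} (hk : 1 ≤ k) : 0 ≤ cc k := by
  unfold cc
  have h1 : (1 : ℝ) ≤ k := by exact_mod_cast hk
  have h2 : (1 : ℝ) ≤ 8 * (k : ℝ) ^ 2 := by nlinarith only [h1]
  have h3 := Real.log_nonneg h2
  positivity

/-- the separated form of the potential part -/
noncomputable def fo_sep (T : Hier X) (k : ℕ) (p : ι → ℝ) (n : ι → X → ℕ)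
    (g : Fin T.D → Finset X → Fin (2 * k) → ℝ) : ℝ :=
  ∑ l : Fin T.D, T.rho l * (∑ C ∈ T.P l, ∑ i : Fin (2 * k), (qq p n C i + dd k) * g l C i)

theorem fo_obj_eq (T : Hier X) {k : ℕ} {p : ι → ℝ} (hp1 : ∑ a, p a = 1) (n : ι → X → ℕ)
    (z₀ z : X → ℝ) (x : St T k) :
    obj T k p n z₀ z x = fo_sep T k p n (fun l C i => -Real.log (x l C i)) +
      cc k * T.tn z₀ z := by
  unfold obj
  have h1 : ∑ a, p a * (pot T k (dd k) (n a) x + cc k * T.tn z₀ z) =
      ∑ a, p a * pot T k (dd k) (n a) x + cc k * T.tn z₀ z := by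
    simp_rw [mul_add]
    rw [Finset.sum_add_distrib, ← Finset.sum_mul, hp1, one_mul]
  rw [h1]
  congr 1
  unfold pot fo_sep
  have h2 : ∀ a, p a * ∑ l : Fin T.D, T.rho l * ∑ C ∈ T.P l, ∑ i : Fin (2 * k),
      ((if ∑ y ∈ C, n a y ≤ (i : ℕ) then (1 : ℝ) else 0) + dd k) * -Real.log (x l C i) =
      ∑ l : Fin T.D, ∑ C ∈ T.P l, ∑ i : Fin (2 * k), T.rho l * ((p a *
      ((if ∑ y ∈ C, n a y ≤ (i : ℕ) then (1 : ℝ) else 0) + dd k)) * -Real.log (x l C i)) := by
    intro a
    rw [Finset.mul_sum]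
    refine Finset.sum_congr rfl fun l _ => ?_
    rw [Finset.mul_sum, Finset.mul_sum]
    refine Finset.sum_congr rfl fun C _ => ?_
    rw [Finset.mul_sum, Finset.mul_sum]
    refine Finset.sum_congr rfl fun i _ => ?_
    ring
  rw [Finset.sum_congr rfl fun a _ => h2 a, Finset.sum_comm]
  refine Finset.sum_congr rfl fun l _ => ?_
  rw [Finset.sum_comm, Finset.mul_sum]
  refine Finset.sum_congr rfl fun C _ => ?_
  rw [Finset.sum_comm, Finset.mul_sum]
  refine Finset.sum_congr rfl fun i _ => ?_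
  rw [← Finset.mul_sum, ← Finset.sum_mul]
  congr 2
  simp_rw [mul_add]
  rw [Finset.sum_add_distrib, ← Finset.sum_mul, hp1, one_mul]
  rfl

theorem fo_tn_le (T : Hier X) (z₀ z e : X → ℝ) {t : ℝ} (ht : 0 ≤ t) :
    T.tn z₀ (fun y => z y + t * e y) ≤ T.tn z₀ z +
      t * ∑ l ∈ Finset.range T.D, T.rho l * ∑ C ∈ T.P l, |∑ y ∈ C, e y| := by
  unfold Hier.tn
  rw [Finset.mul_sum, ← Finset.sum_add_distrib]
  refine Finset.sum_le_sum fun l _ => ?_
  have hr := (T.rho_pos l).le
  have h1 : ∑ C ∈ T.P l, |∑ y ∈ C, z₀ y - ∑ y ∈ C, (z y + t * e y)| ≤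
      ∑ C ∈ T.P l, |∑ y ∈ C, z₀ y - ∑ y ∈ C, z y| + t * ∑ C ∈ T.P l, |∑ y ∈ C, e y| := by
    rw [Finset.mul_sum, ← Finset.sum_add_distrib]
    refine Finset.sum_le_sum fun C _ => ?_
    have h2 : ∑ y ∈ C, z₀ y - ∑ y ∈ C, (z y + t * e y) =
        (∑ y ∈ C, z₀ y - ∑ y ∈ C, z y) + -(t * ∑ y ∈ C, e y) := by
      rw [Finset.sum_add_distrib, ← Finset.mul_sum]
      ring
    rw [h2]
    refine (abs_add_le _ _).trans ?_
    rw [abs_neg, abs_mul, abs_of_nonneg ht]
  calc T.rho l * ∑ C ∈ T.P l, |∑ y ∈ C, z₀ y - ∑ y ∈ C, (z y + t * e y)|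
      ≤ T.rho l * (∑ C ∈ T.P l, |∑ y ∈ C, z₀ y - ∑ y ∈ C, z y| +
          t * ∑ C ∈ T.P l, |∑ y ∈ C, e y|) := mul_le_mul_of_nonneg_left h1 hr
    _ = _ := by ring

theorem fo_log {x x' : ℝ} (hx : 0 < x) (hx' : 0 < x') : -Real.log x' ≤ -Real.log x + (x - x') / x' := by
  have h1 := Real.log_le_sub_one_of_pos (div_pos hx hx')
  rw [Real.log_div hx.ne' hx'.ne'] at h1
  have h2 : (x - x') / x' = x / x' - 1 := by field_simp
  rw [h2]
  linarith only [h1]

/-- FIRST ORDER CONDITION at a minimizer of the proximal objective, for any feasible segment.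
Proof.  With `sum p = 1` the objective is
`sum_l rho_l sum_(C in P l) sum_i (qq_C i + dd k) (- log x_(l,C,i)) + cc k * tn z0 z`
(swap the sums).  Put `x_t = x + t d`, `z_t = z + t e` for `0 < t < t0` (feasible by `hf`).
`- log (x + t d) <= - log x - t d / (x + t d)` when `x > 0`, `x + t d > 0` (this is
`log (1 + u) >= u / (1 + u)`, from `Real.one_sub_inv_le_log_of_pos`), and
`abs (z0 C - z_t C) <= abs (z0 C - z C) + t * abs (e C)`.  Minimality gives, after division by `t`,
`0 <= sum rho_l sum_C sum_i (qq + dd) (- d / (x + t d)) + cc k * sum rho_l sum_C abs (e C)`;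
let `t` tend to `0` from the right (`x >= dd k / 4 > 0`, continuity; `ge_of_tendsto`). -/
theorem first_order (T : Hier X) {k : ℕ} (hk : 1 ≤ k) {p : ι → ℝ} (hp : ∀ a, 0 ≤ p a)
    (hp1 : ∑ a, p a = 1) {n : ι → X → ℕ} {z₀ z : X → ℝ} {x : St T k}
    (h : IsMin T k p n z₀ z x) (e : X → ℝ) (d : St T k) {t₀ : ℝ} (ht₀ : 0 < t₀)
    (hf : ∀ t : ℝ, 0 < t → t < t₀ →
      Feas T k (dd k) (fun y => z y + t * e y) (fun l C i => x l C i + t * d l C i)) :
    0 ≤ ∑ l : Fin T.D, T.rho l * (∑ C ∈ T.P l, ∑ i : Fin (2 * k),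
        (qq p n C i + dd k) * (-(d l C i) / x l C i))
      + cc k * ∑ l ∈ Finset.range T.D, T.rho l * ∑ C ∈ T.P l, |∑ y ∈ C, e y| := by
  have hdd := fo_dd_pos hk
  have hcc := fo_cc_nonneg hk
  have hx : ∀ l C i, 0 < x l C i := fun l C i =>
    lt_of_lt_of_le (by positivity) (h.1.lower l C i)
  set E : ℝ := ∑ l ∈ Finset.range T.D, T.rho l * ∑ C ∈ T.P l, |∑ y ∈ C, e y| with hE
  set G : ℝ → ℝ := fun t => ∑ l : Fin T.D, T.rho l * (∑ C ∈ T.P l, ∑ i : Fin (2 * k),
        (qq p n C i + dd k) * (-(d l C i) / (x l C i + t * d l C i))) + cc k * E with hG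
  have hpos : ∀ t : ℝ, 0 < t → t < t₀ → 0 ≤ G t := by
    intro t ht ht'
    have hfe := hf t ht ht'
    have hxt : ∀ l C i, 0 < x l C i + t * d l C i := fun l C i =>
      lt_of_lt_of_le (by positivity) (hfe.lower l C i)
    have hmin := h.2 _ _ hfe
    rw [fo_obj_eq T hp1, fo_obj_eq T hp1] at hmin
    have h1 : fo_sep T k p n (fun l C i => -Real.log (x l C i + t * d l C i)) ≤
        fo_sep T k p n (fun l C i => -Real.log (x l C i)) +
        t * ∑ l : Fin T.D, T.rho l * (∑ C ∈ T.P l, ∑ i : Fin (2 * k),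
        (qq p n C i + dd k) * (-(d l C i) / (x l C i + t * d l C i))) := by
      unfold fo_sep
      rw [Finset.mul_sum, ← Finset.sum_add_distrib]
      refine Finset.sum_le_sum fun l _ => ?_
      have hr := (T.rho_pos l).le
      have h2 : ∑ C ∈ T.P l, ∑ i : Fin (2 * k), (qq p n C i + dd k) *
          -Real.log (x l C i + t * d l C i) ≤
          ∑ C ∈ T.P l, ∑ i : Fin (2 * k), (qq p n C i + dd k) * -Real.log (x l C i) +
          t * ∑ C ∈ T.P l, ∑ i : Fin (2 * k),
            (qq p n C i + dd k) * (-(d l C i) / (x l C i + t * d l C i)) := by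
        rw [Finset.mul_sum, ← Finset.sum_add_distrib]
        refine Finset.sum_le_sum fun C _ => ?_
        rw [Finset.mul_sum, ← Finset.sum_add_distrib]
        refine Finset.sum_le_sum fun i _ => ?_
        have h3 := fo_log (hx l C i) (hxt l C i)
        have h4 : 0 ≤ qq p n C i + dd k := add_nonneg (fo_qq_nonneg hp n C i) hdd.le
        have h5 := mul_le_mul_of_nonneg_left h3 h4
        refine h5.trans (le_of_eq ?_)
        have h6 := (hxt l C i).ne'
        field_simp
        ring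
      calc T.rho l * ∑ C ∈ T.P l, ∑ i : Fin (2 * k), (qq p n C i + dd k) *
          -Real.log (x l C i + t * d l C i)
          ≤ T.rho l * (∑ C ∈ T.P l, ∑ i : Fin (2 * k), (qq p n C i + dd k) *
            -Real.log (x l C i) + t * ∑ C ∈ T.P l, ∑ i : Fin (2 * k),
            (qq p n C i + dd k) * (-(d l C i) / (x l C i + t * d l C i))) :=
            mul_le_mul_of_nonneg_left h2 hr
        _ = _ := by ring
    have h7 := mul_le_mul_of_nonneg_left (fo_tn_le T z₀ z e ht.le) hcc
    have h8 : 0 ≤ t * G t := by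
      rw [hG]
      simp only
      rw [← hE] at h7
      nlinarith only [h1, h7, hmin]
    exact nonneg_of_mul_nonneg_right h8 ht
  have hcont : Filter.Tendsto G (nhdsWithin 0 (Set.Ioi 0)) (nhds (G 0)) := by
    have h1 : ContinuousAt G 0 := by
      rw [hG]
      refine ContinuousAt.add ?_ continuousAt_const
      refine tendsto_finset_sum _ fun l _ => ?_
      refine Filter.Tendsto.const_mul _ ?_
      refine tendsto_finset_sum _ fun C _ => ?_
      refine tendsto_finset_sum _ fun i _ => ?_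
      refine Filter.Tendsto.const_mul _ ?_
      refine Filter.Tendsto.div tendsto_const_nhds ?_ ?_
      · exact (continuous_const.add (continuous_id.mul continuous_const)).tendsto 0
      · rw [zero_mul, add_zero]
        exact (hx l C i).ne'
    exact h1.tendsto.mono_left nhdsWithin_le_nhds
  have hge : 0 ≤ G 0 := by
    refine ge_of_tendsto hcont ?_
    filter_upwards [Ioo_mem_nhdsGT ht₀] with t ht
    exact hpos t ht.1 ht.2
  rw [hG] at hge
  simpa only [ge_iff_le, zero_mul, add_zero] using hge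

end Vale.Agent.P304.HST
end
end

section

section
set_option linter.all false

open scoped BigOperators

namespace Vale.Agent.P304.HST

variable {X : Type} [Fintype X] [DecidableEq X] {ι : Type} [Fintype ι]

theorem p1_dd_pos {k : ℕ} (hk : 1 ≤ k) : 0 < dd k := by
  have : (1 : ℝ) ≤ k := by exact_mod_cast hk
  unfold dd
  positivity

theorem p1_dd_le {k : ℕ} (hk : 1 ≤ k) : dd k ≤ 1 / 16 := by
  have : (1 : ℝ) ≤ k := by exact_mod_cast hk
  unfold dd
  apply one_div_le_one_div_of_le <;> linarith only [this]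

theorem p1_qq_nonneg {p : ι → ℝ} (hp : ∀ a, 0 ≤ p a) (n : ι → X → ℕ) (C : Finset X) (i : ℕ) :
    0 ≤ qq p n C i := by
  unfold qq
  refine Finset.sum_nonneg fun a _ => mul_nonneg (hp a) ?_
  split_ifs <;> norm_num

theorem p1_qq_le_one {p : ι → ℝ} (hp : ∀ a, 0 ≤ p a) (hp1 : ∑ a, p a = 1) (n : ι → X → ℕ)
    (C : Finset X) (i : ℕ) : qq p n C i ≤ 1 := by
  have h0 : qq p n C i ≤ ∑ a, p a := by
    unfold qq
    refine Finset.sum_le_sum fun a _ => ?_
    have h := hp a
    split_ifs <;> simp [h]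
  rwa [hp1] at h0

/-- the exchange direction -/
noncomputable def p1_dir (T : Hier X) (k : ℕ) (l : Fin T.D) (C : Finset X) (i j : Fin (2 * k)) :
    St T k :=
  fun l' C' i' => if l' = l ∧ C' = C then
    ((if i' = i then (1 : ℝ) else 0) - (if i' = j then (1 : ℝ) else 0)) else 0

theorem p1_dir_sum (T : Hier X) (k : ℕ) (l : Fin T.D) (C : Finset X) (i j : Fin (2 * k))
    (l' : Fin T.D) (C' : Finset X) : ∑ i', p1_dir T k l C i j l' C' i' = 0 := by
  unfold p1_dir
  by_cases h : l' = l ∧ C' = C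
  · simp only [h, and_self, ↓reduceIte, Finset.sum_sub_distrib, Finset.sum_ite_eq', Finset.mem_univ, sub_self]
  · simp only [h, ↓reduceIte, Finset.sum_const_zero]

/-- `(A)` exchange inside one cluster.  If `x_(l,C,i) < 1` and `dd k / 4 < x_(l,C,j)` then
`(q_i + dd) / x_i <= (q_j + dd) / x_j`.
Proof: if `i = j` trivial.  Otherwise `first_order` with `e = 0` and
`d = +1 at (l,C,i)`, `-1 at (l,C,j)`, `0` elsewhere; the sum reduces to
`rho_l * (-(q_i+dd)/x_i + (q_j+dd)/x_j)`. -/
theorem exchange (T : Hier X) {k : ℕ} (hk : 1 ≤ k) {p : ι → ℝ} (hp : ∀ a, 0 ≤ p a)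
    (hp1 : ∑ a, p a = 1) {n : ι → X → ℕ} {z₀ z : X → ℝ} {x : St T k}
    (h : IsMin T k p n z₀ z x) (l : Fin T.D) {C : Finset X} (hC : C ∈ T.P l) (i j : Fin (2 * k))
    (hi : x l C i < 1) (hj : dd k / 4 < x l C j) :
    (qq p n C i + dd k) / x l C i ≤ (qq p n C j + dd k) / x l C j := by
  by_cases hij : i = j
  · rw [hij]
  have hF := h.1
  have ht₀ : 0 < min (1 - x l C i) (x l C j - dd k / 4) := lt_min (by linarith only [hi]) (by linarith only [hj])
  have key := first_order T hk hp hp1 h (fun _ => 0) (p1_dir T k l C i j) ht₀ (by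
    intro t ht0 ht1
    have h1 : t < 1 - x l C i := ht1.trans_le (min_le_left _ _)
    have h2 : t < x l C j - dd k / 4 := ht1.trans_le (min_le_right _ _)
    refine ⟨fun y => by simpa only [mul_zero, add_zero] using hF.nonneg y, by simpa only [mul_zero, add_zero] using hF.total, ?_, ?_, ?_⟩
    · intro l' C' i'
      have h3 := hF.lower l' C' i'
      unfold p1_dir
      by_cases hc : l' = l ∧ C' = C
      · obtain ⟨rfl, rfl⟩ := hc
        by_cases e1 : i' = i
        · subst e1
          simp only [and_self, ↓reduceIte, hij, sub_zero, mul_one, ge_iff_le]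
          linarith only [ht0, h3]
        · by_cases e2 : i' = j
          · subst e2
            simp only [and_self, ↓reduceIte, e1, zero_sub, mul_neg, mul_one, le_add_neg_iff_add_le, ge_iff_le]
            linarith only [h2]
          · simpa only [and_self, ↓reduceIte, e1, e2, sub_self, mul_zero, add_zero, ge_iff_le] using h3
      · simpa only [hc, ↓reduceIte, mul_zero, add_zero, ge_iff_le] using h3
    · intro l' C' i'
      have h3 := hF.upper l' C' i'
      unfold p1_dir
      by_cases hc : l' = l ∧ C' = C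
      · obtain ⟨rfl, rfl⟩ := hc
        by_cases e1 : i' = i
        · subst e1
          simp only [and_self, ↓reduceIte, hij, sub_zero, mul_one, ge_iff_le]
          linarith only [h1]
        · by_cases e2 : i' = j
          · subst e2
            simp only [and_self, ↓reduceIte, e1, zero_sub, mul_neg, mul_one, add_neg_le_iff_le_add, ge_iff_le]
            linarith only [ht0, h3]
          · simpa only [and_self, ↓reduceIte, e1, e2, sub_self, mul_zero, add_zero, ge_iff_le] using h3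
      · simpa only [hc, ↓reduceIte, mul_zero, add_zero, ge_iff_le] using h3
    · intro l' C' hC'
      have h3 := hF.lift l' C' hC'
      have h4 := p1_dir_sum T k l C i j l' C'
      have h5 : ∑ i', (1 - (x l' C' i' + t * p1_dir T k l C i j l' C' i')) =
          ∑ i', (1 - x l' C' i') - t * ∑ i', p1_dir T k l C i j l' C' i' := by
        rw [Finset.mul_sum, ← Finset.sum_sub_distrib]
        refine Finset.sum_congr rfl fun i' _ => ?_
        ring
      rw [h5, h4, h3]
      simp)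
  have e1 : ∑ l' : Fin T.D, T.rho l' * (∑ C' ∈ T.P l', ∑ i' : Fin (2 * k),
        (qq p n C' i' + dd k) * (-(p1_dir T k l C i j l' C' i') / x l' C' i')) =
      T.rho l * ((qq p n C j + dd k) / x l C j - (qq p n C i + dd k) / x l C i) := by
    rw [Finset.sum_eq_single l]
    · congr 1
      rw [Finset.sum_eq_single C]
      · have e2 : ∀ i' : Fin (2 * k),
            (qq p n C i' + dd k) * (-(p1_dir T k l C i j l C i') / x l C i') =
            (if i' = j then (qq p n C i' + dd k) / x l C i' else 0) -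
              (if i' = i then (qq p n C i' + dd k) / x l C i' else 0) := by
          intro i'
          unfold p1_dir
          simp only [and_self, if_true]
          split_ifs <;> ring
        rw [Finset.sum_congr rfl fun i' _ => e2 i', Finset.sum_sub_distrib]
        simp only [Finset.sum_ite_eq', Finset.mem_univ, ↓reduceIte]
      · intro C' _ hne
        refine Finset.sum_eq_zero fun i' _ => ?_
        unfold p1_dir
        simp [hne]
      · intro h'
        exact absurd hC h'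
    · intro l' _ hne
      have : ∑ C' ∈ T.P l', ∑ i' : Fin (2 * k),
          (qq p n C' i' + dd k) * (-(p1_dir T k l C i j l' C' i') / x l' C' i') = 0 := by
        refine Finset.sum_eq_zero fun C' _ => Finset.sum_eq_zero fun i' _ => ?_
        unfold p1_dir
        simp [hne]
      rw [this, mul_zero]
    · intro h'
      exact absurd (Finset.mem_univ l) h'
  rw [e1] at key
  simp only [Finset.sum_const_zero, abs_zero, mul_zero, add_zero] at key
  have hr := T.rho_pos l
  have := nonneg_of_mul_nonneg_right key hr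
  linarith only [this]

/-- `(B)` the lower boundary is inactive.
Proof: let `x_j = dd/4`.  `sum_i (1 - x_i) = z(C) <= k` and there are `2k` indices, so
`sum_i x_i >= k` and some `x_i >= 1/2 > dd/4`.  By `exchange` (roles: `j` has `x_j < 1`, `i` has
`x_i > dd/4`): `4 <= (q_j + dd)/(dd/4) <= (q_i + dd)/x_i <= 2 (1 + dd) < 4`. -/
theorem lower_inactive (T : Hier X) {k : ℕ} (hk : 1 ≤ k) {p : ι → ℝ} (hp : ∀ a, 0 ≤ p a)
    (hp1 : ∑ a, p a = 1) {n : ι → X → ℕ} {z₀ z : X → ℝ} {x : St T k}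
    (h : IsMin T k p n z₀ z x) (l : Fin T.D) {C : Finset X} (hC : C ∈ T.P l) (j : Fin (2 * k)) :
    dd k / 4 < x l C j := by
  have hF := h.1
  have hd0 := p1_dd_pos hk
  have hd1 := p1_dd_le hk
  have hk1 : (1 : ℝ) ≤ k := by exact_mod_cast hk
  by_contra hcon
  have hxj : x l C j = dd k / 4 := le_antisymm (not_lt.1 hcon) (hF.lower l C j)
  have hzC : ∑ y ∈ C, z y ≤ k := by
    rw [← hF.total]
    exact Finset.sum_le_sum_of_subset_of_nonneg (Finset.subset_univ C) fun y _ _ => hF.nonneg y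
  have hl := hF.lift l C hC
  have hsum : (k : ℝ) ≤ ∑ i, x l C i := by
    rw [Finset.sum_sub_distrib] at hl
    simp only [Finset.sum_const, Finset.card_univ, Fintype.card_fin, nsmul_eq_mul, Nat.cast_mul, Nat.cast_ofNat, mul_one] at hl
    linarith only [hzC, hl]
  obtain ⟨i, hi⟩ : ∃ i, 1 / 2 ≤ x l C i := by
    by_contra hno
    push Not at hno
    have h1 : ∑ i, x l C i < ∑ i : Fin (2 * k), (1 / 2 : ℝ) :=
      Finset.sum_lt_sum_of_nonempty ⟨j, Finset.mem_univ j⟩ fun i _ => hno i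
    simp only [one_div, Finset.sum_const, Finset.card_univ, Fintype.card_fin, nsmul_eq_mul, Nat.cast_mul, Nat.cast_ofNat] at h1
    linarith only [hsum, h1]
  have key := exchange T hk hp hp1 h l hC j i (by rw [hxj]; linarith only [hd1]) (by linarith only [hd1, hi])
  have h1 : 4 ≤ (qq p n C j + dd k) / x l C j := by
    rw [hxj, le_div_iff₀ (by positivity)]
    have := p1_qq_nonneg hp n C j
    linarith only [this]
  have h2 : (qq p n C i + dd k) / x l C i < 4 := by
    rw [div_lt_iff₀ (by linarith only [hi])]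
    have := p1_qq_le_one hp hp1 n C i
    linarith only [hd1, hi, this]
  linarith only [key, h1, h2]

end Vale.Agent.P304.HST
end
end

section

section
set_option linter.all false

open scoped BigOperators

namespace Vale.Agent.P304.HST

variable {X : Type} [Fintype X] [DecidableEq X] {ι : Type} [Fintype ι]

/-- the price of a cluster: the minimum of `(q_i + dd) / x_i` over the `2k` slots (`0` if `k = 0`
or `l >= D`). -/
noncomputable def lamOf (T : Hier X) (k : ℕ) (p : ι → ℝ) (n : ι → X → ℕ) (x : St T k)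
    (l : ℕ) (C : Finset X) : ℝ :=
  if hl : l < T.D then
    if hk : 0 < k then
      (Finset.univ : Finset (Fin (2 * k))).inf' ⟨⟨0, by omega⟩, Finset.mem_univ _⟩
        (fun i => (qq p n C i + dd k) / x ⟨l, hl⟩ C i)
    else 0
  else 0

/-- the number of slots with `x < 1` -/
noncomputable def slOf (T : Hier X) (k : ℕ) (x : St T k) (l : ℕ) (C : Finset X) : ℕ :=
  if hl : l < T.D then
    ((Finset.univ : Finset (Fin (2 * k))).filter fun i => x ⟨l, hl⟩ C i < 1).card
  else 0

end Vale.Agent.P304.HST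
end
end

section

section
set_option linter.all false

open scoped BigOperators

namespace Vale.Agent.P304.HST

variable {X : Type} [Fintype X] [DecidableEq X] {ι : Type} [Fintype ι]

/-- A lower set of `Fin m` is an initial segment. -/
theorem pb2_lower {m : ℕ} (S : Finset (Fin m)) (hS : ∀ i j : Fin m, i ≤ j → j ∈ S → i ∈ S)
    (i : Fin m) : i ∈ S ↔ (i : ℕ) < S.card := by
  constructor
  · intro hi
    have h1 : Finset.Iic i ⊆ S := fun j hj => hS j i (Finset.mem_Iic.1 hj) hi
    have h2 := Finset.card_le_card h1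
    rw [Fin.card_Iic] at h2
    omega
  · intro hlt
    by_contra hi
    have h1 : S ⊆ Finset.Iio i := fun j hj => by
      rw [Finset.mem_Iio]
      by_contra hc
      exact hi (hS i j (not_lt.1 hc) hj)
    have h2 := Finset.card_le_card h1
    rw [Fin.card_Iio] at h2
    omega

theorem pb2_qq_nonneg {p : ι → ℝ} (hp : ∀ a, 0 ≤ p a) (n : ι → X → ℕ) (C : Finset X) (i : ℕ) :
    0 ≤ qq p n C i :=
  Finset.sum_nonneg fun a _ => mul_nonneg (hp a) (by split_ifs <;> norm_num)

theorem pb2_qq_mono {p : ι → ℝ} (hp : ∀ a, 0 ≤ p a) (n : ι → X → ℕ) (C : Finset X) {i j : ℕ}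
    (hij : i ≤ j) : qq p n C i ≤ qq p n C j := by
  apply Finset.sum_le_sum
  intro a _
  apply mul_le_mul_of_nonneg_left _ (hp a)
  by_cases h : ∑ y ∈ C, n a y ≤ i
  · rw [if_pos h, if_pos (h.trans hij)]
  · rw [if_neg h]
    split_ifs <;> norm_num

/-- `Q` as a sum of the `q i`. -/
theorem pb2_Q_eq (p : ι → ℝ) (n : ι → X → ℕ) (C : Finset X) (s : ℕ) :
    Q p n C s = ∑ i ∈ Finset.range s, qq p n C i := by
  induction s with
  | zero =>
    unfold Q
    rw [Finset.range_zero, Finset.sum_empty]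
    apply Finset.sum_eq_zero
    intro a _
    rw [max_eq_right, mul_zero]
    have : (0 : ℝ) ≤ ((∑ y ∈ C, n a y : ℕ) : ℝ) := Nat.cast_nonneg _
    rw [Nat.cast_zero]
    linarith
  | succ s ih =>
    rw [Finset.sum_range_succ, ← ih]
    unfold Q qq
    rw [← Finset.sum_add_distrib]
    apply Finset.sum_congr rfl
    intro a _
    rw [← mul_add]
    congr 1
    by_cases h : ∑ y ∈ C, n a y ≤ s
    · have h' : ((∑ y ∈ C, n a y : ℕ) : ℝ) ≤ (s : ℝ) := Nat.cast_le.2 h
      rw [if_pos h, Nat.cast_add, Nat.cast_one, max_eq_left (by linarith only [h']),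
        max_eq_left (by linarith only [h'])]
      ring
    · have h' : ((s + 1 : ℕ) : ℝ) ≤ ((∑ y ∈ C, n a y : ℕ) : ℝ) := Nat.cast_le.2 (by omega)
      have h'' : (s : ℝ) ≤ ((s + 1 : ℕ) : ℝ) := Nat.cast_le.2 (by omega)
      rw [if_neg h, max_eq_right (by linarith only [h']), max_eq_right (by linarith only [h', h'']), add_zero]

/-- `s - E N ≤ Q s`. -/
theorem pb2_Q_ge {p : ι → ℝ} (hp : ∀ a, 0 ≤ p a) (hp1 : ∑ a, p a = 1) (n : ι → X → ℕ)
    (C : Finset X) (s : ℕ) : (s : ℝ) - mm p n C ≤ Q p n C s := by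
  have e : (s : ℝ) - mm p n C = ∑ a, p a * ((s : ℝ) - ((∑ y ∈ C, n a y : ℕ) : ℝ)) := by
    unfold mm
    simp only [mul_sub]
    rw [Finset.sum_sub_distrib, ← Finset.sum_mul, hp1, one_mul]
  rw [e]
  unfold Q
  exact Finset.sum_le_sum fun a _ => mul_le_mul_of_nonneg_left (le_max_left _ _) (hp a)

/-- `(C)` the three properties of one cluster.
Proof (write `q i = qq p n C i`, `lam = lamOf`, `x i`):  `lam * x i <= q i + dd` for all `i`
(definition of the minimum), with equality if `x i < 1` (`exchange` + `lower_inactive`).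
`q` is nondecreasing in `i`, `0 <= q <= 1`, and for `s <= 2k`:
`Q p n C s = sum_(i < s) q i` because `(s - N)^+ = #(i < s, N <= i)`.
`x i < 1` iff `q i + dd < lam` (if `x i < 1`: `q i + dd = lam * x i < lam`; if `x i = 1`:
`lam <= q i + dd`), so the slots with `x i < 1` are exactly the first `sl` ones.
(one) `lam (s - z(C)) <= lam * sum_(i<s) x i <= sum_(i<s) (q i + dd)` as
`sum_(i<s) (1 - x i) <= sum_i (1 - x i) = z(C)`.
(two) `z(C) > 0` gives some `x i < 1`; `sum_(i<sl) (1 - x i) = z(C)`, so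
`sl - z(C) = sum_(i<sl) x i > 0` and equality holds in the previous line for `s = sl`.
(three) `i < sl` gives `q i < lam < 1/2`, i.e. `P(N > i) > 1/2`;
`mm = E N >= sum_(i<sl) P(N > i) >= sl / 2`. -/
theorem cluster_props (T : Hier X) {k : ℕ} (hk : 1 ≤ k) {p : ι → ℝ} (hp : ∀ a, 0 ≤ p a)
    (hp1 : ∑ a, p a = 1) {n : ι → X → ℕ} (hn : ∀ a, ∑ y, n a y = k) {z₀ z : X → ℝ} {x : St T k}
    (h : IsMin T k p n z₀ z x) (l : ℕ) (hl : l < T.D) {C : Finset X} (hC : C ∈ T.P l) :
    0 ≤ lamOf T k p n x l C ∧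
    (∀ s ≤ 2 * k, lamOf T k p n x l C * ((s : ℝ) - ∑ y ∈ C, z y) ≤ Q p n C s + dd k * s) ∧
    (0 < ∑ y ∈ C, z y →
      1 ≤ slOf T k x l C ∧ slOf T k x l C ≤ 2 * k ∧
      0 < (slOf T k x l C : ℝ) - ∑ y ∈ C, z y ∧
      Q p n C (slOf T k x l C) + dd k * slOf T k x l C
        = lamOf T k p n x l C * ((slOf T k x l C : ℝ) - ∑ y ∈ C, z y)) ∧
    (0 < ∑ y ∈ C, z y → lamOf T k p n x l C < 1 / 2 → (slOf T k x l C : ℝ) ≤ 2 * mm p n C) := by
  have hk0 : 0 < k := hk
  have hkR : (0 : ℝ) < k := Nat.cast_pos.2 hk0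
  have hd : 0 < dd k := by
    unfold dd
    positivity
  set L : Fin T.D := ⟨l, hl⟩ with hL
  -- the slots
  have hcpos : ∀ i, 0 < x L C i := fun i => lt_of_lt_of_le (by linarith only [hd]) (h.1.lower L C i)
  have hcle : ∀ i, x L C i ≤ 1 := fun i => h.1.upper L C i
  have hlift : ∑ i, (1 - x L C i) = ∑ y ∈ C, z y := h.1.lift L C hC
  -- the price
  set lam := lamOf T k p n x l C with hlam
  have hne : (Finset.univ : Finset (Fin (2 * k))).Nonempty := ⟨⟨0, by omega⟩, Finset.mem_univ _⟩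
  have hlamdef : lam = (Finset.univ : Finset (Fin (2 * k))).inf' hne
        (fun i => (qq p n C i + dd k) / x L C i) := by
    rw [hlam]
    unfold lamOf
    rw [dif_pos hl, dif_pos hk0]
  have hle : ∀ i : Fin (2 * k), lam ≤ (qq p n C i + dd k) / x L C i := by
    intro i
    rw [hlamdef]
    exact Finset.inf'_le (fun i : Fin (2 * k) => (qq p n C i + dd k) / x L C i) (Finset.mem_univ i)
  have hpos : 0 < lam := by
    rw [hlamdef, Finset.lt_inf'_iff]
    intro i _
    exact div_pos (by have := pb2_qq_nonneg hp n C i; linarith only [hd, this]) (hcpos i)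
  have hle' : ∀ i : Fin (2 * k), lam * x L C i ≤ qq p n C i + dd k := fun i =>
    (le_div_iff₀ (hcpos i)).1 (hle i)
  have heq : ∀ i : Fin (2 * k), x L C i < 1 → lam * x L C i = qq p n C i + dd k := by
    intro i hi
    apply le_antisymm (hle' i)
    rw [← div_le_iff₀ (hcpos i), hlamdef, Finset.le_inf'_iff]
    intro j _
    exact exchange T hk hp hp1 h L hC i j hi (lower_inactive T hk hp hp1 h L hC j)
  have hlt : ∀ i : Fin (2 * k), x L C i < 1 ↔ qq p n C i + dd k < lam := by
    intro i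
    constructor
    · intro hi
      rw [← heq i hi]
      nlinarith only [hi, hpos]
    · intro hi
      rcases lt_or_eq_of_le (hcle i) with h1 | h1
      · exact h1
      · have := hle' i
        rw [h1, mul_one] at this
        exact absurd hi (not_lt.2 this)
  -- the number of slots
  set sl := slOf T k x l C with hsl
  have hsldef : sl = ((Finset.univ : Finset (Fin (2 * k))).filter fun i => x L C i < 1).card := by
    rw [hsl]
    unfold slOf
    rw [dif_pos hl]
  have hslle : sl ≤ 2 * k := by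
    rw [hsldef]
    exact (Finset.card_le_univ _).trans (by rw [Fintype.card_fin])
  have hiff : ∀ i : Fin (2 * k), x L C i < 1 ↔ (i : ℕ) < sl := by
    intro i
    rw [hsldef, ← pb2_lower, Finset.mem_filter]
    · simp only [Finset.mem_univ, true_and]
    · intro i j hij hj
      rw [Finset.mem_filter] at hj ⊢
      refine ⟨Finset.mem_univ _, ?_⟩
      rw [hlt] at hj ⊢
      exact lt_of_le_of_lt (by have := pb2_qq_mono hp n C (Fin.le_def.1 hij); linarith only [this]) hj.2
  -- slots as a function on the natural numbers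
  set c : ℕ → ℝ := fun i => if hi : i < 2 * k then x L C ⟨i, hi⟩ else 1 with hc
  have hcF : ∀ i : Fin (2 * k), c i = x L C i := by
    intro i
    simp only [hc, dif_pos i.2]
  have hc1 : ∀ i, c i ≤ 1 := by
    intro i
    simp only [hc]
    split_ifs
    · exact hcle _
    · exact le_rfl
  have hc0 : ∀ i, 0 < c i := by
    intro i
    simp only [hc]
    split_ifs
    · exact hcpos _
    · exact one_pos
  have hcz : ∑ i ∈ Finset.range (2 * k), (1 - c i) = ∑ y ∈ C, z y := by
    rw [← hlift, Finset.sum_range]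
    exact Finset.sum_congr rfl fun i _ => by rw [hcF]
  have hcle2 : ∀ i, i < 2 * k → lam * c i ≤ qq p n C i + dd k := by
    intro i hi
    have := hle' ⟨i, hi⟩
    rw [← hcF] at this
    exact this
  have hceq2 : ∀ i, i < sl → lam * c i = qq p n C i + dd k := by
    intro i hi
    have := heq ⟨i, hi.trans_le hslle⟩ ((hiff _).2 hi)
    rw [← hcF] at this
    exact this
  have hcone : ∀ i, sl ≤ i → c i = 1 := by
    intro i hi
    by_cases h1 : i < 2 * k
    · have h2 : ¬ x L C ⟨i, h1⟩ < 1 := by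
        rw [hiff]
        exact not_lt.2 hi
      have h3 := hcF ⟨i, h1⟩
      rw [show c i = x L C ⟨i, h1⟩ from h3]
      exact le_antisymm (hcle _) (not_lt.1 h2)
    · simp only [hc, dif_neg h1]
  have hsum : ∀ s : ℕ, ∑ i ∈ Finset.range s, (qq p n C i + dd k) = Q p n C s + dd k * s := by
    intro s
    rw [Finset.sum_add_distrib, ← pb2_Q_eq, Finset.sum_const, Finset.card_range, nsmul_eq_mul,
      mul_comm (s : ℝ)]
  have hcs : ∀ s : ℕ, ∑ i ∈ Finset.range s, c i = s - ∑ i ∈ Finset.range s, (1 - c i) := by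
    intro s
    rw [Finset.sum_sub_distrib, Finset.sum_const, Finset.card_range, nsmul_eq_mul, mul_one]
    ring
  refine ⟨hpos.le, ?_, ?_, ?_⟩
  · intro s hs
    have h1 : ∑ i ∈ Finset.range s, (1 - c i) ≤ ∑ y ∈ C, z y := by
      rw [← hcz]
      exact Finset.sum_le_sum_of_subset_of_nonneg (Finset.range_subset_range.2 hs)
        fun i _ _ => by linarith only [hc1 i]
    have h2 : (s : ℝ) - ∑ y ∈ C, z y ≤ ∑ i ∈ Finset.range s, c i := by
      rw [hcs]
      linarith only [h1]
    calc lam * ((s : ℝ) - ∑ y ∈ C, z y) ≤ lam * ∑ i ∈ Finset.range s, c i :=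
          mul_le_mul_of_nonneg_left h2 hpos.le
      _ = ∑ i ∈ Finset.range s, lam * c i := Finset.mul_sum _ _ _
      _ ≤ ∑ i ∈ Finset.range s, (qq p n C i + dd k) :=
          Finset.sum_le_sum fun i hi => hcle2 i ((Finset.mem_range.1 hi).trans_le hs)
      _ = Q p n C s + dd k * s := hsum s
  · intro hz
    have h1 : 1 ≤ sl := by
      by_contra hcon
      have h0 : sl = 0 := by omega
      have : ∑ i ∈ Finset.range (2 * k), (1 - c i) = 0 :=
        Finset.sum_eq_zero fun i _ => by rw [hcone i (by omega), sub_self]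
      rw [hcz] at this
      linarith only [hz, this]
    have h2 : ∑ i ∈ Finset.range sl, (1 - c i) = ∑ y ∈ C, z y := by
      rw [← hcz]
      apply Finset.sum_subset (Finset.range_subset_range.2 hslle)
      intro i _ hi
      rw [Finset.mem_range, not_lt] at hi
      rw [hcone i hi, sub_self]
    have h3 : (sl : ℝ) - ∑ y ∈ C, z y = ∑ i ∈ Finset.range sl, c i := by
      rw [hcs, h2]
    refine ⟨h1, hslle, ?_, ?_⟩
    · rw [h3]
      exact Finset.sum_pos (fun i _ => hc0 i) ⟨0, Finset.mem_range.2 h1⟩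
    · rw [h3, ← hsum, Finset.mul_sum]
      exact Finset.sum_congr rfl fun i hi => (hceq2 i (Finset.mem_range.1 hi)).symm
  · intro hz hhalf
    have h1 : Q p n C sl ≤ (sl : ℝ) * (1 / 2) := by
      rw [pb2_Q_eq]
      have h2 : ∑ i ∈ Finset.range sl, qq p n C i ≤ ∑ i ∈ Finset.range sl, (1 / 2 : ℝ) := by
        apply Finset.sum_le_sum
        intro i hi
        have hi' := Finset.mem_range.1 hi
        have h4 : x L C ⟨i, hi'.trans_le hslle⟩ < 1 := (hiff _).2 hi'
        have h5 := (hlt _).1 h4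
        have h6 : qq p n C i + dd k < lam := h5
        linarith only [hd, hhalf, h5]
      rw [Finset.sum_const, Finset.card_range, nsmul_eq_mul] at h2
      exact h2
    have h2 := pb2_Q_ge hp hp1 n C sl
    linarith only [h1, h2]

end Vale.Agent.P304.HST
end
end

section

section
set_option linter.all false

open scoped BigOperators

namespace Vale.Agent.P304.HST

variable {X : Type} [Fintype X] [DecidableEq X] {ι : Type} [Fintype ι]

private theorem ntr_lam_le (T : Hier X) {k : ℕ} (hk : 1 ≤ k) (p : ι → ℝ) (n : ι → X → ℕ)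
    (x : St T k) (l : Fin T.D) (C : Finset X) (i : Fin (2 * k)) :
    lamOf T k p n x (l : ℕ) C ≤ (qq p n C i + dd k) / x l C i := by
  unfold lamOf
  rw [dif_pos l.2, dif_pos (show 0 < k by omega)]
  exact Finset.inf'_le (fun i : Fin (2 * k) => (qq p n C i + dd k) / x l C i) (Finset.mem_univ i)

private theorem ntr_lam_att (T : Hier X) {k : ℕ} (hk : 1 ≤ k) (p : ι → ℝ) (n : ι → X → ℕ)
    (x : St T k) (l : Fin T.D) (C : Finset X) : ∃ i : Fin (2 * k),
    lamOf T k p n x (l : ℕ) C = (qq p n C i + dd k) / x l C i := by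
  unfold lamOf
  rw [dif_pos l.2, dif_pos (show 0 < k by omega)]
  obtain ⟨i, _, hi⟩ := Finset.exists_mem_eq_inf' (s := (Finset.univ : Finset (Fin (2 * k))))
    ⟨⟨0, by omega⟩, Finset.mem_univ _⟩ (fun i : Fin (2 * k) => (qq p n C i + dd k) / x l C i)
  exact ⟨i, hi⟩

private theorem ntr_sum (P : Finset (Finset X)) {c : Finset X} (hc : c ∈ P) {m : ℕ} (i0 : Fin m)
    (f : Finset X → Fin m → ℝ) :
    ∑ C ∈ P, ∑ i, f C i * (if C = c then (if i = i0 then (1 : ℝ) else 0) else 0) = f c i0 := by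
  rw [Finset.sum_eq_single_of_mem c hc]
  · simp only [↓reduceIte, mul_ite, mul_one, mul_zero, Finset.sum_ite_eq', Finset.mem_univ]
  · intro C _ hC
    simp only [hC, ↓reduceIte, mul_zero, Finset.sum_const_zero]

private theorem ntr_e_sum (C : Finset X) (y b : X) :
    ∑ u ∈ C, ((if u = b then (1 : ℝ) else 0) - (if u = y then (1 : ℝ) else 0)) =
      (if b ∈ C then (1 : ℝ) else 0) - (if y ∈ C then (1 : ℝ) else 0) := by
  rw [Finset.sum_sub_distrib, Finset.sum_ite_eq', Finset.sum_ite_eq']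

private theorem ntr_d_sum {m : ℕ} (C c c' : Finset X) (i i' : Fin m) :
    ∑ j : Fin m, ((if C = c then (if j = i then (1 : ℝ) else 0) else 0) -
      (if C = c' then (if j = i' then (1 : ℝ) else 0) else 0)) =
      (if C = c then (1 : ℝ) else 0) - (if C = c' then (1 : ℝ) else 0) := by
  rw [Finset.sum_sub_distrib]
  congr 1
  · split_ifs <;> simp
  · split_ifs <;> simp

private theorem ntr_mem_iff (T : Hier X) {l : ℕ} {C : Finset X} (hC : C ∈ T.P l) (y : X) :
    y ∈ C ↔ C = T.cl l y := by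
  constructor
  · exact fun h => eq_cl T hC h
  · rintro rfl
    exact T.mem_self l y

/-- `(D)` no profitable transport from `y` to `b`.
Proof: `first_order` with `e = -1 at y, +1 at b` and, for each level `j <= l`,
`d = +1 at (j, cl j y, i_j)` where `i_j` is a slot with `x < 1` (exists because
`z(cl j y) >= z y > 0`), `d = -1 at (j, cl j b, i'_j)` where `i'_j` attains the minimum `lamOf`
(`x > dd/4` by `lower_inactive`), `0` elsewhere.  For `j <= l` the clusters of `y` and `b` are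
different and for `j > l` they coincide, so `sum_i (1 - x)` changes exactly like the mass.
`(q_(i_j)+dd)/x_(i_j) >= lamOf` (definition); `abs (e C)` is `1` for the two clusters of each level
`j <= l`, `0` for the others. -/
theorem no_transport (T : Hier X) {k : ℕ} (hk : 1 ≤ k) {p : ι → ℝ} (hp : ∀ a, 0 ≤ p a)
    (hp1 : ∑ a, p a = 1) {n : ι → X → ℕ} (hn : ∀ a, ∑ y, n a y = k) {z₀ z : X → ℝ} {x : St T k}
    (h : IsMin T k p n z₀ z x) (y b : X) (l : ℕ) (hl : l < T.D) (h1 : b ∈ T.cl (l + 1) y)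
    (h2 : b ∉ T.cl l y) (hy : 0 < z y) :
    ∑ j ∈ Finset.range (l + 1), T.rho j * lamOf T k p n x j (T.cl j y) ≤
      ∑ j ∈ Finset.range (l + 1), T.rho j * (lamOf T k p n x j (T.cl j b) + 2 * cc k) := by
  classical
  have hF := h.1
  -- slots
  have hex : ∀ j : Fin T.D, ∃ i : Fin (2 * k), x j (T.cl j y) i < 1 := by
    intro j
    by_contra hcon
    push Not at hcon
    have e1 := hF.lift j (T.cl j y) (cl_mem_P T j y)
    have e2 : ∑ i, (1 - x j (T.cl j y) i) ≤ 0 :=
      Finset.sum_nonpos fun i _ => by linarith only [hcon i]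
    have e3 : z y ≤ ∑ u ∈ T.cl j y, z u :=
      Finset.single_le_sum (fun u _ => hF.nonneg u) (T.mem_self j y)
    linarith only [hy, e1, e2, e3]
  choose iy hiy using hex
  choose ib hib using fun j : Fin T.D => ntr_lam_att T hk p n x j (T.cl j b)
  have hlow : ∀ j : Fin T.D, dd k / 4 < x j (T.cl j b) (ib j) := fun j =>
    lower_inactive T hk hp hp1 h j (cl_mem_P T j b) (ib j)
  have hyb : y ≠ b := by
    rintro rfl
    exact h2 (T.mem_self l y)
  have hne : ∀ j : ℕ, j ≤ l → T.cl j y ≠ T.cl j b := by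
    intro j hj he
    have : b ∈ T.cl j y := by
      rw [he]
      exact T.mem_self j b
    exact h2 (cl_mono T hj y this)
  have heq : ∀ j : ℕ, l < j → T.cl j y = T.cl j b := by
    intro j hj
    exact (T.eq_of_mem j y b (cl_mono T hj y h1)).symm
  -- the perturbation
  obtain ⟨e, he⟩ : ∃ e : X → ℝ, e = fun u => (if u = b then (1 : ℝ) else 0) -
    (if u = y then (1 : ℝ) else 0) := ⟨_, rfl⟩
  obtain ⟨d, hd⟩ : ∃ d : St T k, d = fun (j : Fin T.D) (C : Finset X) (i : Fin (2 * k)) => if (j : ℕ) ≤ l then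
      ((if C = T.cl j y then (if i = iy j then (1 : ℝ) else 0) else 0) -
      (if C = T.cl j b then (if i = ib j then (1 : ℝ) else 0) else 0)) else 0 := ⟨_, rfl⟩
  have hd1 : ∀ (j : Fin T.D) C i, (d j C i = 0) ∨
      (d j C i = 1 ∧ C = T.cl j y ∧ i = iy j) ∨ (d j C i = -1 ∧ C = T.cl j b ∧ i = ib j) := by
    intro j C i
    rw [hd]
    by_cases hj : (j : ℕ) ≤ l
    · simp only [hj, if_true]
      by_cases hc : C = T.cl j y
      · have hc' : C ≠ T.cl j b := by
          rw [hc]
          exact hne j hj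
        by_cases hi : i = iy j
        · right; left
          simp [hc, hi, hne j hj]
        · left
          simp [hc, hi, hne j hj]
      · by_cases hc' : C = T.cl j b
        · by_cases hi : i = ib j
          · right; right
            simp [hc', hi, (hne j hj).symm]
          · left
            simp [hc', hi, (hne j hj).symm]
        · left
          simp [hc, hc']
    · left
      simp [hj]
  -- the range of `t`
  obtain ⟨t₀, ht₀, ht⟩ : ∃ t₀ : ℝ, 0 < t₀ ∧ ∀ t : ℝ, 0 < t → t < t₀ →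
      t ≤ z y ∧ ∀ j : Fin T.D, t ≤ 1 - x j (T.cl j y) (iy j) ∧
        t ≤ x j (T.cl j b) (ib j) - dd k / 4 := by
    have hev : ∀ᶠ t : ℝ in nhdsWithin 0 (Set.Ioi 0),
        t ≤ z y ∧ ∀ j : Fin T.D, t ≤ 1 - x j (T.cl j y) (iy j) ∧
        t ≤ x j (T.cl j b) (ib j) - dd k / 4 := by
      have hc : ∀ c : ℝ, 0 < c → ∀ᶠ t : ℝ in nhdsWithin 0 (Set.Ioi 0), t ≤ c := fun c hc =>
        (nhdsWithin_le_nhds) (Filter.Eventually.mono (gt_mem_nhds hc) fun t ht => le_of_lt ht)
      refine (hc _ hy).and (Filter.eventually_all.2 fun j => ?_)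
      exact (hc _ (by linarith only [hiy j])).and (hc _ (by linarith only [hlow j]))
    obtain ⟨t₀, ht₀, hsub⟩ := mem_nhdsGT_iff_exists_Ioo_subset.1 hev
    exact ⟨t₀, ht₀, fun t h1 h2 => hsub ⟨h1, h2⟩⟩
  have hfo := first_order T hk hp hp1 h e d ht₀ ?_
  · -- evaluation
    have hA : ∑ l' : Fin T.D, T.rho l' * (∑ C ∈ T.P l', ∑ i : Fin (2 * k),
        (qq p n C i + dd k) * (-(d l' C i) / x l' C i)) ≤
        ∑ j ∈ Finset.range (l + 1), T.rho j *
          (-lamOf T k p n x j (T.cl j y) + lamOf T k p n x j (T.cl j b)) := by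
      have e1 : ∀ l' : Fin T.D, T.rho l' * (∑ C ∈ T.P l', ∑ i : Fin (2 * k),
          (qq p n C i + dd k) * (-(d l' C i) / x l' C i)) ≤
          (fun j : ℕ => if j ≤ l then T.rho j *
          (-lamOf T k p n x j (T.cl j y) + lamOf T k p n x j (T.cl j b)) else 0) l' := by
        intro l'
        by_cases hj : (l' : ℕ) ≤ l
        · simp only [hj, if_true]
          refine mul_le_mul_of_nonneg_left ?_ (T.rho_pos _).le
          have e2 : ∑ C ∈ T.P l', ∑ i : Fin (2 * k),
              (qq p n C i + dd k) * (-(d l' C i) / x l' C i) =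
              -(∑ C ∈ T.P l', ∑ i : Fin (2 * k), ((qq p n C i + dd k) / x l' C i) *
                (if C = T.cl l' y then (if i = iy l' then (1 : ℝ) else 0) else 0)) +
              ∑ C ∈ T.P l', ∑ i : Fin (2 * k), ((qq p n C i + dd k) / x l' C i) *
                (if C = T.cl l' b then (if i = ib l' then (1 : ℝ) else 0) else 0) := by
            rw [← Finset.sum_neg_distrib, ← Finset.sum_add_distrib]
            refine Finset.sum_congr rfl fun C _ => ?_
            rw [← Finset.sum_neg_distrib, ← Finset.sum_add_distrib]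
            refine Finset.sum_congr rfl fun i _ => ?_
            rw [hd]
            simp only [hj, if_true]
            ring
          rw [e2, ntr_sum (T.P l') (cl_mem_P T l' y) (iy l')
              (fun C i => (qq p n C i + dd k) / x l' C i),
            ntr_sum (T.P l') (cl_mem_P T l' b) (ib l')
              (fun C i => (qq p n C i + dd k) / x l' C i), hib l']
          have := ntr_lam_le T hk p n x l' (T.cl l' y) (iy l')
          linarith only [this]
        · simp only [hj, if_false]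
          rw [hd]
          simp only [hj, ↓reduceIte, neg_zero, zero_div, mul_zero, Finset.sum_const_zero, Std.le_refl]
      refine (Finset.sum_le_sum fun l' _ => e1 l').trans (le_of_eq ?_)
      rw [Fin.sum_univ_eq_sum_range (fun j : ℕ => if j ≤ l then T.rho j *
          (-lamOf T k p n x j (T.cl j y) + lamOf T k p n x j (T.cl j b)) else 0) T.D,
        ← Finset.sum_filter]
      refine Finset.sum_congr ?_ fun _ _ => rfl
      ext j
      simp only [Finset.mem_filter, Finset.mem_range]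
      omega
    have hB : ∑ l' ∈ Finset.range T.D, T.rho l' * ∑ C ∈ T.P l', |∑ u ∈ C, e u| =
        ∑ j ∈ Finset.range (l + 1), T.rho j * 2 := by
      have e1 : ∀ l' ∈ Finset.range T.D, T.rho l' * ∑ C ∈ T.P l', |∑ u ∈ C, e u| =
          if l' ≤ l then T.rho l' * 2 else 0 := by
        intro l' _
        have e2 : ∑ C ∈ T.P l', |∑ u ∈ C, e u| = ∑ C ∈ T.P l',
            |(if C = T.cl l' b then (1 : ℝ) else 0) - (if C = T.cl l' y then (1 : ℝ) else 0)| := by
          refine Finset.sum_congr rfl fun C hC => ?_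
          rw [he, ntr_e_sum]
          simp only [ntr_mem_iff T hC]
        rw [e2]
        by_cases hj : l' ≤ l
        · simp only [hj, if_true]
          congr 1
          have e3 : ∀ C ∈ T.P l', |(if C = T.cl l' b then (1 : ℝ) else 0) -
              (if C = T.cl l' y then (1 : ℝ) else 0)| =
              (if C = T.cl l' b then (1 : ℝ) else 0) + (if C = T.cl l' y then (1 : ℝ) else 0) := by
            intro C _
            by_cases hc : C = T.cl l' b
            · have : C ≠ T.cl l' y := by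
                rw [hc]
                exact (hne l' hj).symm
              simp [hc, (hne l' hj).symm]
            · by_cases hc' : C = T.cl l' y
              · simp [hc', hne l' hj]
              · simp [hc, hc']
          rw [Finset.sum_congr rfl e3, Finset.sum_add_distrib, Finset.sum_ite_eq',
            Finset.sum_ite_eq', if_pos (cl_mem_P T l' b), if_pos (cl_mem_P T l' y)]
          norm_num
        · simp only [hj, if_false]
          rw [heq l' (by omega)]
          simp
      rw [Finset.sum_congr rfl e1, ← Finset.sum_filter]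
      refine Finset.sum_congr ?_ fun _ _ => rfl
      ext j
      simp only [Finset.mem_filter, Finset.mem_range]
      omega
    rw [hB] at hfo
    have e1 : ∑ j ∈ Finset.range (l + 1), T.rho j *
        (-lamOf T k p n x j (T.cl j y) + lamOf T k p n x j (T.cl j b)) +
        cc k * ∑ j ∈ Finset.range (l + 1), T.rho j * 2 =
        ∑ j ∈ Finset.range (l + 1), T.rho j * (lamOf T k p n x j (T.cl j b) + 2 * cc k) -
        ∑ j ∈ Finset.range (l + 1), T.rho j * lamOf T k p n x j (T.cl j y) := by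
      rw [Finset.mul_sum, ← Finset.sum_add_distrib, ← Finset.sum_sub_distrib]
      refine Finset.sum_congr rfl fun j _ => ?_
      ring
    linarith only [hfo, hA, e1]
  · -- feasibility
    intro t htp htl
    obtain ⟨hty, htj⟩ := ht t htp htl
    refine ⟨?_, ?_, ?_, ?_, ?_⟩
    · intro u
      have := hF.nonneg u
      rw [he]
      by_cases hu : u = y
      · subst hu
        simp only [hyb, if_false, if_true]
        linarith only [hty]
      · simp only [hu, if_false, sub_zero]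
        have : 0 ≤ (if u = b then (1 : ℝ) else 0) := by split_ifs <;> norm_num
        have := mul_nonneg htp.le this
        (clear hk hp hp1 hn y l hl h1 h2 hy iy hiy ib hib hlow hyb hne heq e he d hd hd1 t₀ ht₀ ht htl hty htj hu; linarith)
    · rw [Finset.sum_add_distrib, ← Finset.mul_sum, he, ntr_e_sum, hF.total]
      simp only [Finset.mem_univ, ↓reduceIte, sub_self, mul_zero, add_zero]
    · intro j C i
      have h0 := hF.lower j C i
      rcases hd1 j C i with h | ⟨h, hc, hi⟩ | ⟨h, hc, hi⟩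
      · rw [h]; linarith only [h0]
      · rw [h]; linarith only [htp, h0]
      · have := (htj j).2
        rw [h]
        subst hc
        subst hi
        linarith only [this]
    · intro j C i
      have h0 := hF.upper j C i
      rcases hd1 j C i with h | ⟨h, hc, hi⟩ | ⟨h, hc, hi⟩
      · rw [h]; linarith only [h0]
      · have := (htj j).1
        rw [h]
        subst hc
        subst hi
        linarith only [this]
      · rw [h]; linarith only [htp, h0]
    · intro j C hC
      have h0 := hF.lift j C hC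
      have e1 : ∑ i, (1 - (x j C i + t * d j C i)) = ∑ i, (1 - x j C i) - t * ∑ i, d j C i := by
        rw [Finset.mul_sum, ← Finset.sum_sub_distrib]
        refine Finset.sum_congr rfl fun i _ => ?_
        ring
      have e2 : ∑ i, d j C i = -∑ u ∈ C, e u := by
        rw [he, ntr_e_sum, hd]
        simp only [ntr_mem_iff T hC]
        by_cases hj : (j : ℕ) ≤ l
        · simp only [hj, if_true]
          rw [ntr_d_sum]
          ring
        · simp only [hj, if_false]
          rw [heq j (by omega)]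
          simp only [Finset.sum_const_zero, sub_self, neg_zero]
      rw [e1, e2, h0, Finset.sum_add_distrib, ← Finset.mul_sum]
      ring

end Vale.Agent.P304.HST
end
end

section

section
set_option linter.all false

open scoped BigOperators

namespace Vale.Agent.P304.HST

variable {X : Type} [Fintype X] [DecidableEq X] {ι : Type} [Fintype ι]

theorem prices_of_isMin (T : Hier X) {k : ℕ} (hk : 1 ≤ k) {p : ι → ℝ} (hp : ∀ a, 0 ≤ p a)
    (hp1 : ∑ a, p a = 1) {n : ι → X → ℕ} (hn : ∀ a, ∑ y, n a y = k) {z₀ z : X → ℝ} {x : St T k}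
    (h : IsMin T k p n z₀ z x) : ∃ lam sl, Prices T k p n z lam sl :=
  ⟨lamOf T k p n x, slOf T k x,
    { lam_nonneg := fun l hl C hC => (cluster_props T hk hp hp1 hn h l hl hC).1
      one := fun l hl C hC => (cluster_props T hk hp hp1 hn h l hl hC).2.1
      two := fun l hl C hC => (cluster_props T hk hp hp1 hn h l hl hC).2.2.1
      three := fun l hl C hC => (cluster_props T hk hp hp1 hn h l hl hC).2.2.2
      stuck := fun y b l hl h1 h2 hy => no_transport T hk hp hp1 hn h y b l hl h1 h2 hy }⟩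

end Vale.Agent.P304.HST
end
end

section

section
set_option linter.all false

open scoped BigOperators

namespace Vale.Agent.P304.HST

variable {X : Type} [Fintype X] [DecidableEq X] {ι : Type} [Fintype ι]

theorem sum_sub_le (T : Hier X) {l : ℕ} {S : Finset (Finset X)} (hS : S ⊆ T.P l) {u : Finset X}
    (hu : ∀ v ∈ S, v ⊆ u) (f : X → ℕ) : ∑ v ∈ S, ∑ y ∈ v, f y ≤ ∑ y ∈ u, f y := by
  rw [sum_disj T hS f]
  refine Finset.sum_le_sum_of_subset ?_
  intro y hy
  simp only [Finset.mem_biUnion, id] at hy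
  obtain ⟨v, hv, hyv⟩ := hy
  exact hu v hv hyv

/-- subadditivity of the expected number of missing servers -/
theorem Q_sub (T : Hier X) {l : ℕ} {S : Finset (Finset X)} (hS : S ⊆ T.P l) {u : Finset X}
    (hu : ∀ v ∈ S, v ⊆ u) {p : ι → ℝ} (hp : ∀ a, 0 ≤ p a) (n : ι → X → ℕ)
    (s : Finset X → ℕ) :
    Q p n u (∑ v ∈ S, s v) ≤ ∑ v ∈ S, Q p n v (s v) := by
  unfold Q
  rw [Finset.sum_comm]
  refine Finset.sum_le_sum fun a _ => ?_
  rw [← Finset.mul_sum]
  refine mul_le_mul_of_nonneg_left ?_ (hp a)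
  refine max_le ?_ (Finset.sum_nonneg fun _ _ => le_max_right _ _)
  have h1 : ((∑ v ∈ S, ∑ y ∈ v, n a y : ℕ) : ℝ) ≤ ((∑ y ∈ u, n a y : ℕ) : ℝ) := by
    exact_mod_cast sum_sub_le T hS hu (n a)
  have h2 : ((∑ v ∈ S, s v : ℕ) : ℝ) - ((∑ v ∈ S, ∑ y ∈ v, n a y : ℕ) : ℝ)
      = ∑ v ∈ S, ((s v : ℝ) - ((∑ y ∈ v, n a y : ℕ) : ℝ)) := by
    push_cast
    rw [← Finset.sum_sub_distrib]
  calc ((∑ v ∈ S, s v : ℕ) : ℝ) - ((∑ y ∈ u, n a y : ℕ) : ℝ)
      ≤ ((∑ v ∈ S, s v : ℕ) : ℝ) - ((∑ v ∈ S, ∑ y ∈ v, n a y : ℕ) : ℝ) := by linarith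
    _ = ∑ v ∈ S, ((s v : ℝ) - ((∑ y ∈ v, n a y : ℕ) : ℝ)) := h2
    _ ≤ _ := Finset.sum_le_sum fun v _ => le_max_left _ _

theorem mm_sub (T : Hier X) {l : ℕ} {S : Finset (Finset X)} (hS : S ⊆ T.P l) {u : Finset X}
    (hu : ∀ v ∈ S, v ⊆ u) {p : ι → ℝ} (hp : ∀ a, 0 ≤ p a) (n : ι → X → ℕ) :
    ∑ v ∈ S, mm p n v ≤ mm p n u := by
  unfold mm
  rw [Finset.sum_comm]
  refine Finset.sum_le_sum fun a _ => ?_
  rw [← Finset.mul_sum]
  refine mul_le_mul_of_nonneg_left ?_ (hp a)
  exact_mod_cast sum_sub_le T hS hu (n a)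

theorem mm_le {k : ℕ} {p : ι → ℝ} (hp : ∀ a, 0 ≤ p a)
    (hp1 : ∑ a, p a = 1) {n : ι → X → ℕ} (hn : ∀ a, ∑ y, n a y = k) (u : Finset X) :
    mm p n u ≤ k := by
  unfold mm
  have : ∀ a, p a * ((∑ y ∈ u, n a y : ℕ) : ℝ) ≤ p a * k := fun a => by
    refine mul_le_mul_of_nonneg_left ?_ (hp a)
    have : ∑ y ∈ u, n a y ≤ k := by
      rw [← hn a]
      exact Finset.sum_le_sum_of_subset (Finset.subset_univ u)
    exact_mod_cast this
  calc ∑ a, p a * ((∑ y ∈ u, n a y : ℕ) : ℝ) ≤ ∑ a, p a * k := Finset.sum_le_sum fun a _ => this a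
    _ = k := by rw [← Finset.sum_mul, hp1, one_mul]

/-- Lemma A.  A charged cluster `u` of level `j + 1 < D` has a charged child `v` with
`lam v >= min (lam u) (1/2)`.
Proof: otherwise all charged children have `lam v < lam u` and `lam v < 1/2`.  Put
`s = sum_(v charged) sl v >= 1`.  By (three) `s <= 2 sum mm v <= 2 mm u <= 2 k`.
`s - z(u) = sum_(v charged) (sl v - z(v)) > 0`.  (one) for `u` and (two) for the children give
`lam u (s - z(u)) <= Q_u(s) + dd s <= sum_v (Q_v(sl v) + dd sl v) = sum_v lam v (sl v - z(v))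
< lam u (s - z(u))`, using `Q_u(sum s_v) <= sum_v Q_v(s_v)` (positive part is subadditive,
uncharged children have `s_v = 0` and nonnegative count). -/
theorem lemmaA (T : Hier X) {k : ℕ} (hk : 1 ≤ k) {p : ι → ℝ} (hp : ∀ a, 0 ≤ p a)
    (hp1 : ∑ a, p a = 1) {n : ι → X → ℕ} (hn : ∀ a, ∑ y, n a y = k) {z : X → ℝ}
    (hz : ∀ y, 0 ≤ z y) {lam : ℕ → Finset X → ℝ} {sl : ℕ → Finset X → ℕ}
    (h : Prices T k p n z lam sl) (j : ℕ) (hj : j + 1 < T.D) {u : Finset X} (hu : u ∈ T.P (j + 1))
    (hzu : 0 < ∑ y ∈ u, z y) :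
    ∃ v ∈ ch T j u, 0 < ∑ y ∈ v, z y ∧ min (lam (j + 1) u) (1 / 2) ≤ lam j v := by
  by_contra hcon
  push Not at hcon
  set S : Finset (Finset X) := (ch T j u).filter fun v => 0 < ∑ y ∈ v, z y with hSdef
  have hSP : S ⊆ T.P j := fun v hv => ((mem_ch T).1 (Finset.mem_filter.1 hv).1).1
  have hSu : ∀ v ∈ S, v ⊆ u := fun v hv => ((mem_ch T).1 (Finset.mem_filter.1 hv).1).2
  have hS0 : ∀ v ∈ S, 0 < ∑ y ∈ v, z y := fun v hv => (Finset.mem_filter.1 hv).2
  have hSl : ∀ v ∈ S, lam j v < lam (j + 1) u ∧ lam j v < 1 / 2 := fun v hv =>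
    lt_min_iff.1 (hcon v (Finset.mem_filter.1 hv).1 (hS0 v hv))
  have hzsum : ∑ y ∈ u, z y = ∑ v ∈ S, ∑ y ∈ v, z y := by
    rw [← sum_ch T hu z, hSdef, Finset.sum_filter]
    refine Finset.sum_congr rfl fun v _ => ?_
    split_ifs with h0
    · rfl
    · have h1 : 0 ≤ ∑ y ∈ v, z y := Finset.sum_nonneg fun y _ => hz y
      linarith only [h1, h0]
  have hSne : S.Nonempty := by
    rw [Finset.nonempty_iff_ne_empty]
    intro h0
    rw [hzsum, h0] at hzu
    simp at hzu
  have hj' : j < T.D := by omega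
  have h2 : ∀ v ∈ S, _ := fun v hv => h.two j hj' v (hSP hv) (hS0 v hv)
  have h3 : ∀ v ∈ S, (sl j v : ℝ) ≤ 2 * mm p n v := fun v hv =>
    h.three j hj' v (hSP hv) (hS0 v hv) (hSl v hv).2
  have hs2k : (∑ v ∈ S, sl j v) ≤ 2 * k := by
    have e1 : ((∑ v ∈ S, sl j v : ℕ) : ℝ) ≤ 2 * (k : ℝ) := by
      push_cast
      calc ∑ v ∈ S, (sl j v : ℝ) ≤ ∑ v ∈ S, 2 * mm p n v := Finset.sum_le_sum h3
        _ = 2 * ∑ v ∈ S, mm p n v := by rw [Finset.mul_sum]
        _ ≤ 2 * mm p n u := by
          have := mm_sub T hSP hSu hp n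
          linarith only [this]
        _ ≤ 2 * (k : ℝ) := by
          have := mm_le hp hp1 hn u
          linarith only [this]
    exact_mod_cast e1
  have h1 := h.one (j + 1) hj u hu _ hs2k
  have hQ := Q_sub T hSP hSu hp n (fun v => sl j v)
  have hlt : ∑ v ∈ S, lam j v * ((sl j v : ℝ) - ∑ y ∈ v, z y)
      < ∑ v ∈ S, lam (j + 1) u * ((sl j v : ℝ) - ∑ y ∈ v, z y) := by
    refine Finset.sum_lt_sum_of_nonempty hSne fun v hv => ?_
    exact mul_lt_mul_of_pos_right (hSl v hv).1 (h2 v hv).2.2.1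
  have heq : ∑ v ∈ S, lam j v * ((sl j v : ℝ) - ∑ y ∈ v, z y)
      = ∑ v ∈ S, (Q p n v (sl j v) + dd k * sl j v) :=
    Finset.sum_congr rfl fun v hv => ((h2 v hv).2.2.2).symm
  rw [heq, Finset.sum_add_distrib, ← Finset.mul_sum, ← Finset.mul_sum,
    Finset.sum_sub_distrib, ← hzsum] at hlt
  push_cast at h1
  linarith only [hQ, hlt, h1]

/-- Lemma B.  Descending path: induction on `l` with Lemma A (at `l = 0`, `v = {y}`). -/
theorem lemmaB (T : Hier X) {k : ℕ} (hk : 1 ≤ k) {p : ι → ℝ} (hp : ∀ a, 0 ≤ p a)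
    (hp1 : ∑ a, p a = 1) {n : ι → X → ℕ} (hn : ∀ a, ∑ y, n a y = k) {z : X → ℝ}
    (hz : ∀ y, 0 ≤ z y) {lam : ℕ → Finset X → ℝ} {sl : ℕ → Finset X → ℕ}
    (h : Prices T k p n z lam sl) (l : ℕ) (hl : l < T.D) {v : Finset X} (hv : v ∈ T.P l)
    (hzv : 0 < ∑ y ∈ v, z y) :
    ∃ y ∈ v, 0 < z y ∧ ∀ j ≤ l, min (lam l v) (1 / 2) ≤ lam j (T.cl j y) := by
  induction l generalizing v with
  | zero =>
    obtain ⟨y, rfl⟩ := (mem_P T).1 hv
    refine ⟨y, T.mem_self 0 y, ?_, fun j hj => ?_⟩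
    · rw [T.cl_zero] at hzv
      simpa using hzv
    · have : j = 0 := by omega
      rw [this]
      exact min_le_left _ _
  | succ l ih =>
    obtain ⟨w, hw, hzw, hmin⟩ := lemmaA T hk hp hp1 hn hz h l hl hv hzv
    rw [mem_ch] at hw
    obtain ⟨y, hy, hzy, hall⟩ := ih (by omega) hw.1 hzw
    refine ⟨y, hw.2 hy, hzy, fun j hj => ?_⟩
    rcases Nat.lt_or_ge j (l + 1) with h1 | h1
    · refine le_trans ?_ (hall j (by omega))
      exact le_min hmin (min_le_right _ _)
    · have : j = l + 1 := by omega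
      rw [this, ← eq_cl T hv (hw.2 hy)]
      exact min_le_left _ _

end Vale.Agent.P304.HST
end
end

section

section
set_option linter.all false

open scoped BigOperators

namespace Vale.Agent.P304.HST

variable {X : Type} [Fintype X] [DecidableEq X] {ι : Type} [Fintype ι]

/-- upper bound of the prices along the chain -/
noncomputable def gg (k : ℕ) (h H : ℝ) : ℝ := dd k / h + 2 * cc k * Real.log (H / h)

theorem log8_nonneg {k : ℕ} (hk : 1 ≤ k) : 0 ≤ Real.log (8 * (k : ℝ) ^ 2) := by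
  refine Real.log_nonneg ?_
  have : (1 : ℝ) ≤ k := by exact_mod_cast hk
  nlinarith only [this]

theorem cc_pos {k : ℕ} (hk : 1 ≤ k) : 0 < cc k := by
  unfold cc
  have := log8_nonneg hk
  positivity

theorem dd_pos {k : ℕ} (hk : 1 ≤ k) : 0 < dd k := by
  unfold dd
  have : (0 : ℝ) < k := by exact_mod_cast hk
  positivity

theorem gg_mono {k : ℕ} (hk : 1 ≤ k) {h H H' : ℝ} (hh : 0 < h) (hH : h ≤ H) (hHH' : H ≤ H') :
    gg k h H ≤ gg k h H' := by
  unfold gg
  have h1 := cc_pos hk
  have h2 : Real.log (H / h) ≤ Real.log (H' / h) := by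
    refine Real.log_le_log (div_pos (by linarith only [hh, hH]) hh) ?_
    exact div_le_div_of_nonneg_right hHH' hh.le
  nlinarith only [h1, h2]

/-- `g(H) + 2 cc < 1/2` -/
theorem gg_lt {k : ℕ} (hk : 1 ≤ k) {h H : ℝ} (hh : 1 / (4 * (k : ℝ)) < h) (hH : h ≤ H)
    (hH2 : H ≤ 2 * k) : gg k h H + 2 * cc k < 1 / 2 := by
  have hk' : (1 : ℝ) ≤ k := by exact_mod_cast hk
  have hk0 : (0 : ℝ) < k := by linarith only [hk']
  have hh0 : 0 < h := lt_trans (by (clear * - hk; positivity)) hh
  have h1 : dd k / h < 1 / 4 := by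
    rw [div_lt_iff₀ hh0]
    unfold dd
    have : 1 / (16 * (k : ℝ)) = 1 / 4 * (1 / (4 * (k : ℝ))) := by
      field_simp
      norm_num
    rw [this]
    nlinarith only [hh]
  have h2 : Real.log (H / h) ≤ Real.log (8 * (k : ℝ) ^ 2) := by
    refine Real.log_le_log (div_pos (by linarith only [hH, hh0]) hh0) ?_
    rw [div_le_iff₀ hh0]
    have e : 8 * (k : ℝ) ^ 2 * (1 / (4 * (k : ℝ))) = 2 * k := by
      field_simp
      norm_num
    have : 8 * (k : ℝ) ^ 2 * (1 / (4 * (k : ℝ))) ≤ 8 * (k : ℝ) ^ 2 * h :=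
      mul_le_mul_of_nonneg_left hh.le (by positivity)
    linarith only [hH2, e, this]
  have hL := log8_nonneg hk
  have h3 : cc k * (1 + Real.log (8 * (k : ℝ) ^ 2)) = 1 / 16 := by
    unfold cc
    have : (1 : ℝ) + Real.log (8 * (k : ℝ) ^ 2) ≠ 0 := by positivity
    field_simp
  have h4 := cc_pos hk
  unfold gg
  nlinarith only [h1, h3, h2, h4]

/-- convexity step -/
theorem gg_step {k : ℕ} (hk : 1 ≤ k) {h H H' : ℝ} (hh : 0 < h) (hH : h ≤ H) (hHH' : H ≤ H') :
    gg k h H * H + (gg k h H + 2 * cc k) * (H' - H) ≤ gg k h H' * H' := by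
  have hH0 : 0 < H := by linarith only [hh, hH]
  have hH0' : 0 < H' := by linarith only [hh, hH, hHH']
  have h1 := cc_pos hk
  have h2 : gg k h H' = gg k h H + 2 * cc k * Real.log (H' / H) := by
    unfold gg
    have : Real.log (H' / h) = Real.log (H / h) + Real.log (H' / H) := by
      rw [← Real.log_mul (div_pos hH0 hh).ne' (div_pos hH0' hH0).ne']
      congr 1
      (clear * - hH0 hh hH0'; field_simp)
    rw [this]
    ring
  have h3 : 1 - H / H' ≤ Real.log (H' / H) := by
    have := Real.one_sub_inv_le_log_of_pos (div_pos hH0' hH0)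
    rwa [inv_div] at this
  have h4 : H' - H ≤ Real.log (H' / H) * H' := by
    have : (1 - H / H') * H' ≤ Real.log (H' / H) * H' := mul_le_mul_of_nonneg_right h3 hH0'.le
    have e : (1 - H / H') * H' = H' - H := by (clear * - hH0'; field_simp)
    linarith only [this, e]
  rw [h2]
  nlinarith only [h1, h4]

/-- STATIC LEMMA.
Proof: suppose `h := 1 - z b > 1/(4k) = 4 dd`.  For `H >= h` put `g H = dd/h + 2 cc log (H/h)`.
Claim for `l = 0..D` (`C_l = cl l b`): there is a natural `s_l` with `H_l := s_l - z(C_l) >= h`,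
`H_l` nondecreasing in `l`, `Q_(C_l)(s_l) + dd s_l <= g(H_l) H_l`, `s_l <= 2 mm (C_l)` (so
`s_l <= 2k`, `H_l <= 2k`, `g(H_l) <= 1/4 + 2 cc log(8k^2)`, `g(H_l) + 2 cc <= 3/8 < 1/2`), and
`lam_j (C_j) <= g(H_l)` for all `j <= l`, `j < D` (from (one)).
`l = 0`: `s_0 = 1`, `Q = 0` as `n b >= 1`.
Step `l -> l+1 <= D`: for a charged sibling `v` of `C_l` (child of `C_(l+1)`, `v <> C_l`,
`z(v) > 0`) Lemma B gives `y` in `v`, `z y > 0`, `min (lam v) (1/2) <= lam j (cl j y)` for `j <= l`;
(stuck) gives `(sum_(j<=l) rho_j) min(lam v, 1/2) <= (sum_(j<=l) rho_j) (g(H_l) + 2 cc)`, so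
`lam v <= g(H_l) + 2 cc < 1/2`, and `sl v <= 2 mm v` by (three).  Put
`s_(l+1) = s_l + sum_(v charged sibling) sl v`.  Subadditivity of the positive part and (two):
`Q_(l+1) + dd s_(l+1) <= g(H_l) H_l + (g(H_l) + 2 cc)(H_(l+1) - H_l) <= g(H_(l+1)) H_(l+1)`
because `log (H'/H) >= 1 - H/H'`.
`l = D`: `C_D = univ`, `n(univ) = k = z(univ)`, so `Q = s_D - k = H_D > 0`, but
`Q <= g(H_D) H_D < H_D`.  Contradiction. -/
theorem static (T : Hier X) {k : ℕ} (hk : 1 ≤ k) {p : ι → ℝ} (hp : ∀ a, 0 ≤ p a)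
    (hp1 : ∑ a, p a = 1) {n : ι → X → ℕ} (hn : ∀ a, ∑ y, n a y = k) {z : X → ℝ}
    (hz : ∀ y, 0 ≤ z y) (hzk : ∑ y, z y = k) {lam : ℕ → Finset X → ℝ} {sl : ℕ → Finset X → ℕ}
    (h : Prices T k p n z lam sl) (b : X) (hb : ∀ a, 1 ≤ n a b) :
    1 - 1 / (4 * k) ≤ z b := by
  by_contra hcon
  push Not at hcon
  have hk' : (1 : ℝ) ≤ k := by exact_mod_cast hk
  have hk0 : (0 : ℝ) < k := by linarith only [hk']
  set h0 : ℝ := 1 - z b with hh0def
  have hh : 1 / (4 * (k : ℝ)) < h0 := by linarith only [hcon]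
  have hh0 : 0 < h0 := lt_trans (by positivity) hh
  have hcc := cc_pos hk
  have hddp := dd_pos hk
  -- the claim along the chain
  have key : ∀ l ≤ T.D, ∃ s : ℕ, h0 ≤ (s : ℝ) - ∑ y ∈ T.cl l b, z y ∧
      Q p n (T.cl l b) s + dd k * s ≤
        gg k h0 ((s : ℝ) - ∑ y ∈ T.cl l b, z y) * ((s : ℝ) - ∑ y ∈ T.cl l b, z y) ∧
      (s : ℝ) ≤ 2 * mm p n (T.cl l b) ∧
      ∀ j ≤ l, j < T.D → lam j (T.cl j b) ≤ gg k h0 ((s : ℝ) - ∑ y ∈ T.cl l b, z y) := by
    intro l
    induction l with
    | zero =>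
      intro _
      have hz0 : ∑ y ∈ T.cl 0 b, z y = z b := by rw [T.cl_zero]; simp
      have hg : gg k h0 (((1 : ℕ) : ℝ) - ∑ y ∈ T.cl 0 b, z y) = dd k / h0 := by
        have e : ((1 : ℕ) : ℝ) - ∑ y ∈ T.cl 0 b, z y = h0 := by rw [hz0]; push_cast; rfl
        rw [e]
        unfold gg
        rw [div_self hh0.ne', Real.log_one]
        ring
      have hQ : Q p n (T.cl 0 b) 1 = 0 := by
        unfold Q
        refine Finset.sum_eq_zero fun a _ => ?_
        rw [T.cl_zero, Finset.sum_singleton, max_eq_right, mul_zero]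
        have : (1 : ℝ) ≤ (n a b : ℝ) := by exact_mod_cast hb a
        push_cast
        linarith only [this]
      have he : ((1 : ℕ) : ℝ) - ∑ y ∈ T.cl 0 b, z y = h0 := by rw [hz0]; push_cast; rfl
      refine ⟨1, by rw [he], ?_, ?_, ?_⟩
      · rw [hg, hQ, he]
        have : dd k / h0 * h0 = dd k := by (clear * - hh0 hddp; field_simp)
        rw [this]
        simp
      · unfold mm
        have h1 : ∑ a, p a * (1 : ℝ) ≤ ∑ a, p a * ((∑ y ∈ T.cl 0 b, n a y : ℕ) : ℝ) := by
          refine Finset.sum_le_sum fun a _ => mul_le_mul_of_nonneg_left ?_ (hp a)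
          rw [T.cl_zero, Finset.sum_singleton]
          exact_mod_cast hb a
        rw [← Finset.sum_mul, hp1] at h1
        push_cast
        push_cast at h1
        linarith only [h1]
      · intro j hj hjD
        have hj0 : j = 0 := by omega
        rw [hj0] at hjD ⊢
        have h1 := h.one 0 hjD _ (cl_mem_P T 0 b) 1 (by omega)
        rw [he, hQ] at h1
        rw [hg, le_div_iff₀ hh0]
        simpa only [Nat.cast_one, mul_one, zero_add] using h1
    | succ l ih =>
      intro hlD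
      obtain ⟨s, hs1, hs2, hs3, hs4⟩ := ih (by omega)
      have hl : l < T.D := by omega
      set C := T.cl l b with hC
      set C' := T.cl (l + 1) b with hC'
      set H := (s : ℝ) - ∑ y ∈ C, z y with hH
      have hmmC := mm_le hp hp1 hn C
      have hzC0 : 0 ≤ ∑ y ∈ C, z y := Finset.sum_nonneg fun y _ => hz y
      have hH2 : H ≤ 2 * k := by linarith only [hs3, hmmC, hzC0]
      have hglt := gg_lt hk hh hs1 hH2
      -- charged siblings
      set S : Finset (Finset X) := (ch T l C').filter fun v => v ≠ C ∧ 0 < ∑ y ∈ v, z y with hSdef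
      have hSP : S ⊆ T.P l := fun v hv => ((mem_ch T).1 (Finset.mem_filter.1 hv).1).1
      have hSu : ∀ v ∈ S, v ⊆ C' := fun v hv => ((mem_ch T).1 (Finset.mem_filter.1 hv).1).2
      have hSne : ∀ v ∈ S, v ≠ C := fun v hv => (Finset.mem_filter.1 hv).2.1
      have hS0 : ∀ v ∈ S, 0 < ∑ y ∈ v, z y := fun v hv => (Finset.mem_filter.1 hv).2.2
      have hCP : C ∈ T.P l := cl_mem_P T l b
      have hCC' : C ⊆ C' := T.mono l b
      have hCch : C ∈ ch T l C' := (mem_ch T).2 ⟨hCP, hCC'⟩
      have hCS : C ∉ S := fun hc => hSne C hc rfl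
      -- sum of masses
      have hzsum : ∑ y ∈ C', z y = ∑ y ∈ C, z y + ∑ v ∈ S, ∑ y ∈ v, z y := by
        rw [← sum_ch T (cl_mem_P T (l + 1) b) z, ← Finset.add_sum_erase _ _ hCch]
        congr 1
        have : (ch T l C').erase C = (ch T l C').filter fun v => v ≠ C := by
          ext v
          simp only [Finset.mem_erase, Finset.mem_filter]
          (clear * - ih; tauto)
        rw [this, hSdef, Finset.sum_filter, Finset.sum_filter]
        refine Finset.sum_congr rfl fun v _ => ?_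
        by_cases h1 : v ≠ C
        · by_cases h2 : 0 < ∑ y ∈ v, z y
          · rw [if_pos h1, if_pos ⟨h1, h2⟩]
          · rw [if_pos h1, if_neg fun h3 => h2 h3.2]
            have h3 : 0 ≤ ∑ y ∈ v, z y := Finset.sum_nonneg fun y _ => hz y
            linarith only [h3, h2]
        · rw [if_neg h1, if_neg fun h3 => h1 h3.1]
      -- prices of the siblings
      have hprice : ∀ v ∈ S, lam l v ≤ gg k h0 H + 2 * cc k := by
        intro v hv
        obtain ⟨y, hyv, hzy, hall⟩ := lemmaB T hk hp hp1 hn hz h l hl (hSP hv) (hS0 v hv)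
        have hyC' : y ∈ C' := hSu v hv hyv
        have hby : b ∈ T.cl (l + 1) y := mem_cl_symm T hyC'
        have hby' : b ∉ T.cl l y := by
          intro hc
          apply hSne v hv
          rw [eq_cl T (hSP hv) hyv]
          exact (T.eq_of_mem l y b hc).symm
        have hst := h.stuck y b l hl hby hby' hzy
        have e1 : ∑ j ∈ Finset.range (l + 1), T.rho j * min (lam l v) (1 / 2)
            ≤ ∑ j ∈ Finset.range (l + 1), T.rho j * (gg k h0 H + 2 * cc k) := by
          refine le_trans (Finset.sum_le_sum fun j hj => ?_) (hst.trans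
            (Finset.sum_le_sum fun j hj => ?_))
          · rw [Finset.mem_range] at hj
            exact mul_le_mul_of_nonneg_left (hall j (by omega)) (T.rho_pos j).le
          · rw [Finset.mem_range] at hj
            have := hs4 j (by omega) (by omega)
            exact mul_le_mul_of_nonneg_left (by linarith only [this]) (T.rho_pos j).le
        rw [← Finset.sum_mul, ← Finset.sum_mul] at e1
        have hR : 0 < ∑ j ∈ Finset.range (l + 1), T.rho j :=
          Finset.sum_pos (fun j _ => T.rho_pos j) ⟨0, by simp only [Finset.mem_range, lt_add_iff_pos_left, Order.lt_add_one_iff, zero_le]⟩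
        have e2 : min (lam l v) (1 / 2) ≤ gg k h0 H + 2 * cc k := le_of_mul_le_mul_left e1 hR
        rcases min_le_iff.1 e2 with h1 | h1
        · exact h1
        · linarith only [hglt, h1]
      have hj' : l < T.D := hl
      have h2 : ∀ v ∈ S, _ := fun v hv => h.two l hj' v (hSP hv) (hS0 v hv)
      have h3 : ∀ v ∈ S, (sl l v : ℝ) ≤ 2 * mm p n v := fun v hv =>
        h.three l hj' v (hSP hv) (hS0 v hv) (by have := hprice v hv; linarith only [hglt, this])
      -- the new slot number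
      set s' : ℕ := s + ∑ v ∈ S, sl l v with hs'def
      have hs'cast : (s' : ℝ) = s + ∑ v ∈ S, (sl l v : ℝ) := by rw [hs'def]; push_cast; rfl
      set H' := (s' : ℝ) - ∑ y ∈ C', z y with hH'
      have hdiff : H' - H = ∑ v ∈ S, ((sl l v : ℝ) - ∑ y ∈ v, z y) := by
        rw [Finset.sum_sub_distrib, hH', hH, hs'cast, hzsum]
        ring
      have hHH' : H ≤ H' := by
        have : 0 ≤ ∑ v ∈ S, ((sl l v : ℝ) - ∑ y ∈ v, z y) :=
          Finset.sum_nonneg fun v hv => (h2 v hv).2.2.1.le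
        linarith only [hdiff, this]
      -- subadditivity with `C` itself
      have hS'P : insert C S ⊆ T.P l := by
        intro v hv
        rcases Finset.mem_insert.1 hv with rfl | hv
        · exact hCP
        · exact hSP hv
      have hS'u : ∀ v ∈ insert C S, v ⊆ C' := by
        intro v hv
        rcases Finset.mem_insert.1 hv with rfl | hv
        · exact hCC'
        · exact hSu v hv
      set f : Finset X → ℕ := fun v => if v = C then s else sl l v with hf
      have hfs : ∑ v ∈ insert C S, f v = s' := by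
        rw [Finset.sum_insert hCS, hs'def]
        congr 1
        · simp [hf]
        · refine Finset.sum_congr rfl fun v hv => ?_
          simp [hf, hSne v hv]
      have hQ := Q_sub T hS'P hS'u hp n f
      rw [hfs, Finset.sum_insert hCS] at hQ
      have hfC : f C = s := by simp [hf]
      have hQS : ∑ v ∈ S, Q p n v (f v) = ∑ v ∈ S, Q p n v (sl l v) :=
        Finset.sum_congr rfl fun v hv => by simp [hf, hSne v hv]
      rw [hfC, hQS] at hQ
      have hmm := mm_sub T hS'P hS'u hp n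
      rw [Finset.sum_insert hCS] at hmm
      have hQ2 : ∑ v ∈ S, (Q p n v (sl l v) + dd k * sl l v)
          ≤ (gg k h0 H + 2 * cc k) * (H' - H) := by
        rw [hdiff, Finset.mul_sum]
        refine Finset.sum_le_sum fun v hv => ?_
        rw [(h2 v hv).2.2.2]
        exact mul_le_mul_of_nonneg_right (hprice v hv) (h2 v hv).2.2.1.le
      rw [Finset.sum_add_distrib, ← Finset.mul_sum] at hQ2
      have hstep := gg_step hk hh0 hs1 hHH'
      have hmain : Q p n C' s' + dd k * s' ≤ gg k h0 H' * H' := by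
        rw [hs'cast]
        nlinarith only [hs2, hQ, hQ2, hstep]
      have hs's : (s' : ℝ) ≤ 2 * mm p n C' := by
        rw [hs'cast]
        have : ∑ v ∈ S, (sl l v : ℝ) ≤ 2 * ∑ v ∈ S, mm p n v := by
          rw [Finset.mul_sum]
          exact Finset.sum_le_sum h3
        linarith only [hs3, hmm, this]
      refine ⟨s', hs1.trans hHH', hmain, hs's, ?_⟩
      intro j hj hjD
      rcases Nat.lt_or_ge j (l + 1) with h1 | h1
      · exact (hs4 j (by omega) hjD).trans (gg_mono hk hh0 hs1 hHH')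
      · have hjl : j = l + 1 := by omega
        rw [hjl] at hjD ⊢
        have hs'2k : s' ≤ 2 * k := by
          have e := mm_le hp hp1 hn C'
          have : (s' : ℝ) ≤ 2 * k := by linarith only [hs's, e]
          exact_mod_cast this
        have h4 := h.one (l + 1) hjD _ (cl_mem_P T (l + 1) b) s' hs'2k
        have hH'0 : 0 < H' := by linarith only [hh0, hs1, hHH']
        exact le_of_mul_le_mul_right (h4.trans hmain) hH'0
  obtain ⟨s, hs1, hs2, hs3, hs4⟩ := key T.D le_rfl
  rw [T.cl_top, hzk] at hs1 hs2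
  rw [T.cl_top] at hs3
  have hmm := mm_le hp hp1 hn (Finset.univ : Finset X)
  have hH0 : 0 < (s : ℝ) - k := by linarith only [hh0, hs1]
  have hQ : Q p n Finset.univ s = (s : ℝ) - k := by
    unfold Q
    have : ∀ a, p a * max ((s : ℝ) - ((∑ y, n a y : ℕ) : ℝ)) 0 = p a * ((s : ℝ) - k) := fun a => by
      rw [hn a, max_eq_left hH0.le]
    rw [Finset.sum_congr rfl fun a _ => this a, ← Finset.sum_mul, hp1, one_mul]
  have hglt := gg_lt hk hh hs1 (by linarith only [hs3, hmm])
  rw [hQ] at hs2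
  have hs0 : 0 ≤ dd k * (s : ℝ) := by (clear * - hddp; positivity)
  nlinarith only [hh0, hddp, hs1, hs2, hcc, hglt]

end Vale.Agent.P304.HST
end
end

section

section
set_option linter.all false

open scoped BigOperators

namespace Vale.Agent.P304.HST

/-- same, with an invariant -/
theorem exists_rec_inv {Y β : Type} (I : β → Prop) (P : List Y → Y → β → β → Prop) (b₀ : β)
    (h₀ : I b₀) (h : ∀ g r b, I b → ∃ b', I b' ∧ P g r b b') :
    ∃ v : List Y → β, v [] = b₀ ∧ (∀ g, I (v g)) ∧ ∀ g r, P g r (v g) (v (g ++ [r])) := by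
  classical
  choose f hf using h
  let v' : List Y → {b : β // I b} := fun l => List.rec ⟨b₀, h₀⟩
    (fun r t b => ⟨f t.reverse r b.1 b.2, (hf t.reverse r b.1 b.2).1⟩) l
  refine ⟨fun g => (v' g.reverse).1, rfl, fun g => (v' g.reverse).2, fun g r => ?_⟩
  have h1 : (g ++ [r]).reverse = r :: g.reverse := by simp
  have h2 := (hf g r (v' g.reverse).1 (v' g.reverse).2).2
  show P g r (v' g.reverse).1 (v' (g ++ [r]).reverse).1
  rw [h1]
  show P g r (v' g.reverse).1 (f g.reverse.reverse r (v' g.reverse).1 (v' g.reverse).2)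
  rw [List.reverse_reverse]
  exact h2

/-- recursion along histories (lists which grow at the END).
Proof: define `v' : List Y → β` on the reversed list by `List.rec` and classical choice,
`v h = v' h.reverse`. -/
theorem exists_rec {Y β : Type} (P : List Y → Y → β → β → Prop) (b₀ : β)
    (h : ∀ g r b, ∃ b', P g r b b') :
    ∃ v : List Y → β, v [] = b₀ ∧ ∀ g r, P g r (v g) (v (g ++ [r])) := by
  obtain ⟨v, h1, -, h2⟩ := exists_rec_inv (fun _ => True) P b₀ trivial fun g r b _ => by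
    obtain ⟨b', hb⟩ := h g r b
    exact ⟨b', trivial, hb⟩
  exact ⟨v, h1, h2⟩

end Vale.Agent.P304.HST
end
end

section

section
set_option linter.all false

open scoped BigOperators

namespace Vale.Agent.P304.HST

variable {X : Type} [Fintype X] [DecidableEq X]

/-- the sequences extending a history -/
noncomputable def dynE (F : Finset (List X)) (h : List X) : Finset (List X) :=
  F.filter fun σ => h <+: σ

theorem mem_dynE {F : Finset (List X)} {h σ : List X} : σ ∈ dynE F h ↔ σ ∈ F ∧ h <+: σ := by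
  simp [dynE]

/-- one step of the algorithm -/
def DynP (T : Hier X) (k : ℕ) (F : Finset (List X)) (w : List X → ℝ)
    (o : List X → ℕ → Fin k → X) (g : List X) (r : X) (b b' : (X → ℝ) × St T k) : Prop :=
  (dynE F (g ++ [r])).Nonempty →
    IsMin T k (fun a : {σ // σ ∈ dynE F (g ++ [r])} => w a / ∑ σ ∈ dynE F (g ++ [r]), w σ)
      (fun a : {σ // σ ∈ dynE F (g ++ [r])} => cnt (o a (g.length + 1))) b.1 b'.1 b'.2

theorem dyn_exists (T : Hier X) {k : ℕ} (hk : 1 ≤ k) (F : Finset (List X)) (w : List X → ℝ)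
    (o : List X → ℕ → Fin k → X) (b₀ : (X → ℝ) × St T k) (h₀ : Feas T k (dd k) b₀.1 b₀.2) :
    ∃ v : List X → (X → ℝ) × St T k, v [] = b₀ ∧ (∀ g, Feas T k (dd k) (v g).1 (v g).2) ∧
      ∀ g r, DynP T k F w o g r (v g) (v (g ++ [r])) := by
  refine exists_rec_inv (fun b : (X → ℝ) × St T k => Feas T k (dd k) b.1 b.2)
    (DynP T k F w o) b₀ h₀ fun g r b hb => ?_
  obtain ⟨z, x, hzx⟩ := exists_min T hk
    (fun a : {σ // σ ∈ dynE F (g ++ [r])} => w a / ∑ σ ∈ dynE F (g ++ [r]), w σ)
    (fun a : {σ // σ ∈ dynE F (g ++ [r])} => cnt (o a (g.length + 1))) b.1 ⟨b.1, b.2, hb⟩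
  exact ⟨(z, x), hzx.1, fun _ => hzx⟩

theorem dyn_W_pos {F : Finset (List X)} {w : List X → ℝ} (hw : ∀ σ ∈ F, 0 < w σ) {h : List X}
    (hne : (dynE F h).Nonempty) : 0 < ∑ σ ∈ dynE F h, w σ :=
  Finset.sum_pos (fun σ hσ => hw σ (mem_dynE.1 hσ).1) hne

theorem dyn_p_sum {F : Finset (List X)} {w : List X → ℝ} (hw : ∀ σ ∈ F, 0 < w σ) {h : List X}
    (hne : (dynE F h).Nonempty) :
    ∑ a : {σ // σ ∈ dynE F h}, w a / ∑ σ ∈ dynE F h, w σ = 1 := by
  rw [← Finset.sum_div, Finset.sum_coe_sort (dynE F h) w, div_self (dyn_W_pos hw hne).ne']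

/-- the algorithm has mass almost one at the request -/
theorem dyn_request (T : Hier X) {k : ℕ} (hk : 1 ≤ k) {F : Finset (List X)} {w : List X → ℝ}
    {o : List X → ℕ → Fin k → X} (hw : ∀ σ ∈ F, 0 < w σ)
    (ho : ∀ σ ∈ F, ∀ (t : ℕ) (ht : t < σ.length), ∃ j, o σ (t + 1) j = σ[t])
    {g : List X} {r : X} {b b' : (X → ℝ) × St T k} (hP : DynP T k F w o g r b b')
    (hb' : Feas T k (dd k) b'.1 b'.2) (hne : (dynE F (g ++ [r])).Nonempty) :
    1 - 1 / (4 * k) ≤ b'.1 r := by
  have hmin := hP hne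
  have hp0 : ∀ a : {σ // σ ∈ dynE F (g ++ [r])}, 0 ≤ w a / ∑ σ ∈ dynE F (g ++ [r]), w σ :=
    fun a => div_nonneg (hw a (mem_dynE.1 a.2).1).le (dyn_W_pos hw hne).le
  have hn0 : ∀ a : {σ // σ ∈ dynE F (g ++ [r])}, ∑ y, cnt (o a (g.length + 1)) y = k :=
    fun a => sum_cnt _
  obtain ⟨lam, sl, hpr⟩ := prices_of_isMin T hk hp0 (dyn_p_sum hw hne) hn0 hmin
  refine static T hk hp0 (dyn_p_sum hw hne) hn0 hb'.nonneg hb'.total hpr r fun a => ?_
  obtain ⟨haF, l, hl⟩ := mem_dynE.1 a.2
  have hlen : g.length < (a : List X).length := by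
    rw [← hl]
    simp only [List.append_assoc, List.cons_append, List.nil_append, List.length_append, List.length_cons, lt_add_iff_pos_right, Order.lt_add_one_iff, zero_le]
  obtain ⟨j, hj⟩ := ho a haF g.length hlen
  have hr : (a : List X)[g.length] = r := by
    simp only [← hl]
    simp
  unfold cnt
  rw [Nat.one_le_iff_ne_zero, ← Nat.pos_iff_ne_zero, Finset.card_pos]
  exact ⟨j, by rw [Finset.mem_filter]; exact ⟨Finset.mem_univ _, hj.trans hr⟩⟩

/-- comparison with the old state -/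
theorem dyn_cost (T : Hier X) {k : ℕ} (hk : 1 ≤ k) {F : Finset (List X)} {w : List X → ℝ}
    {o : List X → ℕ → Fin k → X} (hw : ∀ σ ∈ F, 0 < w σ)
    {g : List X} {r : X} {b b' : (X → ℝ) × St T k} (hP : DynP T k F w o g r b b')
    (hb : Feas T k (dd k) b.1 b.2) :
    ∑ σ ∈ dynE F (g ++ [r]), w σ * (pot T k (dd k) (cnt (o σ (g.length + 1))) b'.2 +
        cc k * T.tn b.1 b'.1) ≤
      ∑ σ ∈ dynE F (g ++ [r]), w σ * (pot T k (dd k) (cnt (o σ g.length)) b.2 +
        Real.log (64 * k) * T.drop (fun y => (cnt (o σ g.length) y : ℝ))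
          (fun y => (cnt (o σ (g.length + 1)) y : ℝ))) := by
  rcases (dynE F (g ++ [r])).eq_empty_or_nonempty with he | hne
  · rw [he]; simp only [Finset.sum_empty, Std.le_refl]
  have hmin := (hP hne).2 b.1 b.2 hb
  have hW := dyn_W_pos hw hne
  unfold obj at hmin
  rw [tn_self, mul_zero] at hmin
  simp only [add_zero] at hmin
  have h1 := mul_le_mul_of_nonneg_left hmin hW.le
  rw [Finset.mul_sum, Finset.mul_sum] at h1
  have e1 : ∀ f : List X → ℝ,
      ∑ a : {σ // σ ∈ dynE F (g ++ [r])}, (∑ σ ∈ dynE F (g ++ [r]), w σ) *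
        (w a / (∑ σ ∈ dynE F (g ++ [r]), w σ) * f a) = ∑ σ ∈ dynE F (g ++ [r]), w σ * f σ := by
    intro f
    rw [← Finset.sum_coe_sort (dynE F (g ++ [r])) fun σ => w σ * f σ]
    refine Finset.sum_congr rfl fun a _ => ?_
    rw [← mul_assoc, mul_div_cancel₀ _ hW.ne']
  rw [e1 fun σ => pot T k (dd k) (cnt (o σ (g.length + 1))) b'.2 + cc k * T.tn b.1 b'.1,
    e1 fun σ => pot T k (dd k) (cnt (o σ (g.length + 1))) b.2] at h1
  refine h1.trans (Finset.sum_le_sum fun σ hσ => ?_)
  exact mul_le_mul_of_nonneg_left (pot_move T hk _ _ hb) (hw σ (mem_dynE.1 hσ).1).le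

/-- the sequences with a given prefix of length `t + 1` -/
theorem dyn_fiber {F : Finset (List X)} {t : ℕ} {h : List X} (hh : h.length = t + 1) :
    ((F.filter fun σ => t < σ.length).filter fun σ => σ.take (t + 1) = h) = dynE F h := by
  ext σ
  rw [mem_dynE, Finset.mem_filter, Finset.mem_filter]
  constructor
  · rintro ⟨⟨h1, h2⟩, h3⟩
    exact ⟨h1, h3 ▸ List.take_prefix _ _⟩
  · rintro ⟨h1, h2⟩
    have h3 := h2.length_le
    refine ⟨⟨h1, by omega⟩, ?_⟩
    rw [← hh]
    exact (List.prefix_iff_eq_take.1 h2).symm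

/-- sums over the sequences of length more than `t`, grouped by the prefix -/
theorem dyn_group {F : Finset (List X)} (t : ℕ) (f f' : List X → ℝ)
    (H : ∀ (g : List X) (r : X), g.length = t →
      ∑ σ ∈ dynE F (g ++ [r]), f σ ≤ ∑ σ ∈ dynE F (g ++ [r]), f' σ) :
    ∑ σ ∈ F.filter (fun σ => t < σ.length), f σ ≤ ∑ σ ∈ F.filter (fun σ => t < σ.length), f' σ := by
  set S := F.filter fun σ => t < σ.length with hS
  rw [← Finset.sum_fiberwise_of_maps_to (s := S) (t := S.image fun σ => σ.take (t + 1))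
    (g := fun σ => σ.take (t + 1)) (fun σ hσ => Finset.mem_image_of_mem _ hσ) f,
    ← Finset.sum_fiberwise_of_maps_to (s := S) (t := S.image fun σ => σ.take (t + 1))
    (g := fun σ => σ.take (t + 1)) (fun σ hσ => Finset.mem_image_of_mem _ hσ) f']
  refine Finset.sum_le_sum fun h hh => ?_
  obtain ⟨σ, hσ, rfl⟩ := Finset.mem_image.1 hh
  have hlt : t < σ.length := (Finset.mem_filter.1 hσ).2
  have hlen : (σ.take (t + 1)).length = t + 1 := by
    rw [List.length_take]
    omega
  rw [hS, dyn_fiber hlen]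
  have e : σ.take (t + 1) = σ.take t ++ [σ[t]] := by
    rw [List.take_append_getElem]
  rw [e]
  refine H _ _ ?_
  rw [List.length_take]
  omega

/-- THE FRACTIONAL ALGORITHM against a known prior.  `o σ t j` = position of the `j`-th server of
the adversary on the sequence `σ` after `t` requests.
Proof.  Let `x₀` come from `exists_feas` for `cnt s` and `B = pot (cnt s) x₀`.  State after the
history `h`: a feasible pair.  After the request `r` the new state at `h' = h ++ [r]` is a
minimizer of `obj` for the index type of all `σ ∈ F` with `h' <+: σ`, weights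
`p σ = w σ / (sum of these w)`, occupation `n σ = cnt (o σ h'.length)`, and `z₀ = ` old `z`
(if no `σ ∈ F` extends `h'` keep the state).  Use `exists_rec_inv`.
`1 - 1/(4k) <= Z h' r`: `prices_of_isMin` and `static`, since `o σ (t+1)` has a server on
`σ[t] = r` (`ho1`).
Cost: for each history `h'` of length `t + 1`, comparing with the old state (`tn z z = 0`):
`sum_(σ extends h') w σ (pot(n_(t+1) , x_(h')) + cc tn(Z h, Z h'))
   <= sum_(σ extends h') w σ pot(n_(t+1), x_h) <= ... + log(64k) drop(n_t, n_(t+1))`.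
Sum over all `h'` = over all `(σ, t)` with `t < σ.length` and telescope:
`cc * sum tn <= sum w σ pot(n_0, x_[]) + log(64k) sum w drop`. -/
theorem fractional (T : Hier X) {k : ℕ} (hk : 1 ≤ k) (s : Fin k → X) :
    ∃ B : ℝ, 0 ≤ B ∧ ∀ (F : Finset (List X)) (w : List X → ℝ) (o : List X → ℕ → Fin k → X),
      (∀ σ ∈ F, 0 < w σ) → (∀ σ ∈ F, o σ 0 = s) →
      (∀ σ ∈ F, ∀ (t : ℕ) (ht : t < σ.length), ∃ j, o σ (t + 1) j = σ[t]) →
      ∃ Z : List X → X → ℝ, Z [] = (fun x => (cnt s x : ℝ)) ∧ (∀ h x, 0 ≤ Z h x) ∧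
        (∀ h, ∑ x, Z h x = k) ∧
        (∀ σ ∈ F, ∀ (t : ℕ) (ht : t < σ.length), 1 - 1 / (4 * k) ≤ Z (σ.take (t + 1)) σ[t]) ∧
        cc k * (∑ σ ∈ F, w σ * ∑ t ∈ Finset.range σ.length,
            T.tn (Z (σ.take t)) (Z (σ.take (t + 1))))
          ≤ B * (∑ σ ∈ F, w σ) + Real.log (64 * k) * ∑ σ ∈ F, w σ *
            ∑ t ∈ Finset.range σ.length,
              T.drop (fun y => (cnt (o σ t) y : ℝ)) (fun y => (cnt (o σ (t + 1)) y : ℝ)) := by
  obtain ⟨x₀, hx₀⟩ := exists_feas T hk (cnt s) (sum_cnt s)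
  refine ⟨pot T k (dd k) (cnt s) x₀, pot_nonneg T hk _ hx₀, fun F w o hw ho0 ho1 => ?_⟩
  obtain ⟨v, hv0, hvI, hvP⟩ := dyn_exists T hk F w o ((fun y => (cnt s y : ℝ)), x₀) hx₀
  refine ⟨fun h => (v h).1, by simp only [hv0], fun h => (hvI h).nonneg, fun h => (hvI h).total,
    fun σ hσ t ht => ?_, ?_⟩
  · have e : σ.take (t + 1) = σ.take t ++ [σ[t]] := by
      rw [List.take_append_getElem]
    have hne : (dynE F (σ.take t ++ [σ[t]])).Nonempty :=
      ⟨σ, mem_dynE.2 ⟨hσ, e ▸ List.take_prefix _ _⟩⟩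
    have h1 := dyn_request T hk hw ho1 (hvP (σ.take t) σ[t]) (hvI _) hne
    rwa [← e] at h1
  · -- potential and movement
    set L : ℝ := Real.log (64 * k) with hL
    set A : List X → ℕ → ℝ := fun σ t =>
      w σ * pot T k (dd k) (cnt (o σ t)) (v (σ.take t)).2 with hA
    set C : List X → ℕ → ℝ := fun σ t =>
      w σ * T.tn (v (σ.take t)).1 (v (σ.take (t + 1))).1 with hC
    set D : List X → ℕ → ℝ := fun σ t =>
      w σ * T.drop (fun y => (cnt (o σ t) y : ℝ)) (fun y => (cnt (o σ (t + 1)) y : ℝ)) with hD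
    have hstep : ∀ t, ∑ σ ∈ F.filter (fun σ => t < σ.length), (A σ (t + 1) + cc k * C σ t) ≤
        ∑ σ ∈ F.filter (fun σ => t < σ.length), (A σ t + L * D σ t) := by
      intro t
      refine dyn_group t _ _ fun g r hg => ?_
      have h1 := dyn_cost T hk hw (hvP g r) (hvI g)
      subst hg
      have e1 : ∀ σ ∈ dynE F (g ++ [r]), σ.take g.length = g ∧ σ.take (g.length + 1) = g ++ [r] := by
        intro σ hσ
        obtain ⟨_, l, rfl⟩ := mem_dynE.1 hσ
        constructor
        · rw [List.append_assoc, List.take_left]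
        · have : (g ++ [r]).length = g.length + 1 := by simp
          rw [← this, List.take_left]
      calc ∑ σ ∈ dynE F (g ++ [r]), (A σ (g.length + 1) + cc k * C σ g.length)
          = ∑ σ ∈ dynE F (g ++ [r]), w σ * (pot T k (dd k) (cnt (o σ (g.length + 1)))
              (v (g ++ [r])).2 + cc k * T.tn (v g).1 (v (g ++ [r])).1) := by
            refine Finset.sum_congr rfl fun σ hσ => ?_
            obtain ⟨h2, h3⟩ := e1 σ hσ
            simp only [hA, hC, h2, h3]
            ring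
        _ ≤ _ := h1
        _ = ∑ σ ∈ dynE F (g ++ [r]), (A σ g.length + L * D σ g.length) := by
            refine Finset.sum_congr rfl fun σ hσ => ?_
            obtain ⟨h2, h3⟩ := e1 σ hσ
            simp only [hA, hD, h2, hL]
            ring
    -- sum over all times
    have hswap : ∀ f : List X → ℕ → ℝ, ∑ σ ∈ F, ∑ t ∈ Finset.range σ.length, f σ t =
        ∑ t ∈ Finset.range (F.sup List.length), ∑ σ ∈ F.filter (fun σ => t < σ.length), f σ t := by
      intro f
      refine Finset.sum_comm' fun σ t => ?_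
      simp only [Finset.mem_range, Finset.mem_filter]
      constructor
      · rintro ⟨h1, h2⟩
        exact ⟨⟨h1, h2⟩, lt_of_lt_of_le h2 (Finset.le_sup (f := List.length) h1)⟩
      · rintro ⟨⟨h1, h2⟩, _⟩
        exact ⟨h1, h2⟩
    have hsum : ∑ σ ∈ F, ∑ t ∈ Finset.range σ.length, (A σ (t + 1) + cc k * C σ t) ≤
        ∑ σ ∈ F, ∑ t ∈ Finset.range σ.length, (A σ t + L * D σ t) := by
      rw [hswap, hswap]
      exact Finset.sum_le_sum fun t _ => hstep t
    -- telescope
    have htel : ∀ σ ∈ F, ∑ t ∈ Finset.range σ.length, (A σ (t + 1) - A σ t) ≥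
        - (w σ * pot T k (dd k) (cnt s) x₀) := by
      intro σ hσ
      rw [Finset.sum_range_sub]
      have h1 : A σ 0 = w σ * pot T k (dd k) (cnt s) x₀ := by
        simp only [hA, List.take_zero, hv0, ho0 σ hσ]
      have h2 : 0 ≤ A σ σ.length := mul_nonneg (hw σ hσ).le (pot_nonneg T hk _ (hvI _))
      rw [h1]
      linarith only [h2]
    have htel2 : - (pot T k (dd k) (cnt s) x₀ * ∑ σ ∈ F, w σ) ≤
        ∑ σ ∈ F, ∑ t ∈ Finset.range σ.length, (A σ (t + 1) - A σ t) := by
      rw [Finset.mul_sum, ← Finset.sum_neg_distrib]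
      refine Finset.sum_le_sum fun σ hσ => ?_
      have := htel σ hσ
      rw [mul_comm (pot T k (dd k) (cnt s) x₀)]
      exact this
    simp only [Finset.sum_add_distrib, Finset.sum_sub_distrib, ← Finset.mul_sum] at hsum htel2
    have e2 : ∑ σ ∈ F, w σ * ∑ t ∈ Finset.range σ.length,
        T.tn (v (σ.take t)).1 (v (σ.take (t + 1))).1 =
        ∑ σ ∈ F, ∑ t ∈ Finset.range σ.length, C σ t := by
      simp only [hC, Finset.mul_sum]
    have e3 : ∑ σ ∈ F, w σ * ∑ t ∈ Finset.range σ.length,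
        T.drop (fun y => (cnt (o σ t) y : ℝ)) (fun y => (cnt (o σ (t + 1)) y : ℝ)) =
        ∑ σ ∈ F, ∑ t ∈ Finset.range σ.length, D σ t := by
      simp only [hD, Finset.mul_sum]
    rw [e2, e3]
    linarith only [hsum, htel2]

end Vale.Agent.P304.HST
end
end

section

section
set_option linter.all false

open scoped BigOperators

namespace Vale.Agent.P304.HST

/-- move the mean to `u'` inside the interval `[F, K]` at cost `|m - u'|` -/
theorem column_adj {α : Type} [Fintype α] (p : α → ℝ) (hp : ∀ a, 0 ≤ p a) (hp1 : ∑ a, p a = 1)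
    (F K u' m : ℝ) (hF : F ≤ u') (hK : u' ≤ K) (N : α → ℝ) (hN : ∀ a, F ≤ N a ∧ N a ≤ K)
    (hm : ∑ a, p a * N a = m) :
    ∃ y : α → ℝ, (∀ a, F ≤ y a ∧ y a ≤ K) ∧ ∑ a, p a * y a = u' ∧
      ∑ a, p a * |y a - N a| ≤ |m - u'| := by
  rcases lt_trichotomy m u' with h | h | h
  · have hKm : 0 < K - m := by linarith
    have hθ : (u' - m) / (K - m) * (K - m) = u' - m := div_mul_cancel₀ _ hKm.ne'
    have hθ0 : 0 ≤ (u' - m) / (K - m) := div_nonneg (by linarith only [h]) hKm.le
    have hθ1 : (u' - m) / (K - m) ≤ 1 := by rw [div_le_one hKm]; linarith only [hK]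
    set θ := (u' - m) / (K - m) with hθd
    refine ⟨fun a => N a + θ * (K - N a), fun a => ⟨?_, ?_⟩, ?_, ?_⟩
    · have := mul_nonneg hθ0 (sub_nonneg.2 (hN a).2)
      have := (hN a).1
      show F ≤ N a + θ * (K - N a)
      (clear p hp hp1 hF hK hm h hKm hθ hθ1 hθd; linarith)
    · have := mul_nonneg (sub_nonneg.2 hθ1) (sub_nonneg.2 (hN a).2)
      show N a + θ * (K - N a) ≤ K
      linarith only [this]
    · have e : ∑ a, p a * (N a + θ * (K - N a)) =
          (1 - θ) * ∑ a, p a * N a + θ * K * ∑ a, p a := by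
        rw [Finset.mul_sum, Finset.mul_sum, ← Finset.sum_add_distrib]
        exact Finset.sum_congr rfl fun a _ => by ring
      rw [e, hm, hp1]
      linarith only [hθ]
    · have e : ∑ a, p a * |N a + θ * (K - N a) - N a| =
          θ * K * ∑ a, p a - θ * ∑ a, p a * N a := by
        rw [Finset.mul_sum, Finset.mul_sum, ← Finset.sum_sub_distrib]
        refine Finset.sum_congr rfl fun a _ => ?_
        rw [add_sub_cancel_left, abs_of_nonneg (mul_nonneg hθ0 (sub_nonneg.2 (hN a).2))]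
        ring
      rw [e, hm, hp1, abs_of_neg (by linarith only [h])]
      linarith only [hθ]
  · refine ⟨N, hN, by rw [hm, h], ?_⟩
    simp only [sub_self, abs_zero, mul_zero, Finset.sum_const_zero, h, Std.le_refl]
  · have hFm : 0 < m - F := by linarith only [hF, h]
    have hθ : (m - u') / (m - F) * (m - F) = m - u' := div_mul_cancel₀ _ hFm.ne'
    have hθ0 : 0 ≤ (m - u') / (m - F) := div_nonneg (by linarith only [h]) hFm.le
    have hθ1 : (m - u') / (m - F) ≤ 1 := by rw [div_le_one hFm]; linarith only [hF]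
    set θ := (m - u') / (m - F) with hθd
    refine ⟨fun a => N a - θ * (N a - F), fun a => ⟨?_, ?_⟩, ?_, ?_⟩
    · have := mul_nonneg (sub_nonneg.2 hθ1) (sub_nonneg.2 (hN a).1)
      show F ≤ N a - θ * (N a - F)
      linarith only [this]
    · have := mul_nonneg hθ0 (sub_nonneg.2 (hN a).1)
      have := (hN a).2
      show N a - θ * (N a - F) ≤ K
      (clear p hp hp1 hF hK hm h hFm hθ hθ1 hθd; linarith)
    · have e : ∑ a, p a * (N a - θ * (N a - F)) =
          (1 - θ) * ∑ a, p a * N a + θ * F * ∑ a, p a := by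
        rw [Finset.mul_sum, Finset.mul_sum, ← Finset.sum_add_distrib]
        exact Finset.sum_congr rfl fun a _ => by ring
      rw [e, hm, hp1]
      linarith only [hθ]
    · have e : ∑ a, p a * |N a - θ * (N a - F) - N a| =
          θ * ∑ a, p a * N a - θ * F * ∑ a, p a := by
        rw [Finset.mul_sum, Finset.mul_sum, ← Finset.sum_sub_distrib]
        refine Finset.sum_congr rfl fun a _ => ?_
        rw [sub_sub_cancel_left, abs_neg, abs_of_nonneg (mul_nonneg hθ0 (sub_nonneg.2 (hN a).1))]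
        ring
      rw [e, hm, hp1, abs_of_pos (by linarith only [h])]
      linarith only [hθ]

/-- combination of a first move from `N` to `N'` and the adjustment of the mean -/
theorem column_comb {α : Type} [Fintype α] (p : α → ℝ) (hp : ∀ a, 0 ≤ p a)
    (hp1 : ∑ a, p a = 1) (F K u' m c : ℝ) (hF : F ≤ u') (hK : u' ≤ K) (N N' : α → ℝ)
    (hN : ∀ a, F ≤ N' a ∧ N' a ≤ K) (hm : ∑ a, p a * N' a = m)
    (hc : ∑ a, p a * |N' a - N a| + |m - u'| ≤ c) :
    ∃ y : α → ℝ, (∀ a, F ≤ y a ∧ y a ≤ K) ∧ ∑ a, p a * y a = u' ∧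
      ∑ a, p a * |y a - N a| ≤ c := by
  obtain ⟨y, h1, h2, h3⟩ := column_adj p hp hp1 F K u' m hF hK N' hN hm
  refine ⟨y, h1, h2, ?_⟩
  have h4 : ∑ a, p a * |y a - N a| ≤ ∑ a, p a * |y a - N' a| + ∑ a, p a * |N' a - N a| := by
    rw [← Finset.sum_add_distrib]
    refine Finset.sum_le_sum fun a _ => ?_
    rw [← mul_add]
    exact mul_le_mul_of_nonneg_left (abs_sub_le _ _ _) (hp a)
  linarith

/-- clamp and scale, one column.  `N a` is in `[⌊u⌋, ⌈u⌉]` with mean `u`; there is `y a` in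
`[⌊u'⌋, ⌈u'⌉]` with mean `u'` at cost `E |y - N| <= 2 |u - u'|`.
Proof: clamp `N' a = max ⌊u'⌋ (min ⌈u'⌉ (N a))`.  If `⌊u'⌋ <= u <= ⌈u'⌉` then `N' = N`
(`⌊u⌋ >= ⌊u'⌋`, `⌈u⌉ <= ⌈u'⌉`); if `u < ⌊u'⌋` then `N a <= ⌈u⌉ <= ⌊u'⌋`, so `N' = ⌊u'⌋`; if
`u > ⌈u'⌉` then `N' = ⌈u'⌉`.  So `E |N' - N| <= |u - u'|` and `|E N' - u'| <= |u - u'|`.
If `E N' < u'` put `y = N' + θ (⌈u'⌉ - N')` with `θ = (u' - E N')/(⌈u'⌉ - E N')` in `[0,1]`
(cost `u' - E N'`); if `E N' > u'` symmetric with the floor. -/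
theorem column {α : Type} [Fintype α] (p : α → ℝ) (hp : ∀ a, 0 ≤ p a) (hp1 : ∑ a, p a = 1)
    (u u' : ℝ) (N : α → ℝ) (hN : ∀ a, (⌊u⌋ : ℝ) ≤ N a ∧ N a ≤ (⌈u⌉ : ℝ))
    (hm : ∑ a, p a * N a = u) :
    ∃ y : α → ℝ, (∀ a, (⌊u'⌋ : ℝ) ≤ y a ∧ y a ≤ (⌈u'⌉ : ℝ)) ∧ ∑ a, p a * y a = u' ∧
      ∑ a, p a * |y a - N a| ≤ 2 * |u - u'| := by
  have hF := Int.floor_le u'
  have hK := Int.le_ceil u'
  have h0 : 0 ≤ |u - u'| := abs_nonneg _
  rcases lt_or_ge u ⌊u'⌋ with h1 | h1
  · -- everything below the interval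
    have h2 : ∀ a, N a ≤ (⌊u'⌋ : ℝ) := fun a =>
      (hN a).2.trans (by exact_mod_cast Int.ceil_le.2 h1.le)
    refine column_comb p hp hp1 _ _ u' ⌊u'⌋ _ hF hK N (fun _ => (⌊u'⌋ : ℝ))
      (fun a => ⟨le_rfl, hF.trans hK⟩) (by rw [← Finset.sum_mul, hp1, one_mul]) ?_
    have e : ∑ a, p a * |(⌊u'⌋ : ℝ) - N a| = ⌊u'⌋ * ∑ a, p a - ∑ a, p a * N a := by
      rw [Finset.mul_sum, ← Finset.sum_sub_distrib]
      refine Finset.sum_congr rfl fun a _ => ?_
      rw [abs_of_nonneg (sub_nonneg.2 (h2 a))]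
      ring
    have e2 : |(⌊u'⌋ : ℝ) - u'| = u' - ⌊u'⌋ := by rw [abs_of_nonpos (by linarith only [hF])]; ring
    have e3 : |u - u'| = u' - u := by rw [abs_of_nonpos (by linarith only [hF, h1])]; ring
    rw [e, hp1, hm, e2]
    linarith only [hF, h1, e3]
  · rcases lt_or_ge (⌈u'⌉ : ℝ) u with h3 | h3
    · have h2 : ∀ a, (⌈u'⌉ : ℝ) ≤ N a := fun a =>
        le_trans (by exact_mod_cast Int.le_floor.2 h3.le) (hN a).1
      refine column_comb p hp hp1 _ _ u' ⌈u'⌉ _ hF hK N (fun _ => (⌈u'⌉ : ℝ))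
        (fun a => ⟨hF.trans hK, le_rfl⟩) (by rw [← Finset.sum_mul, hp1, one_mul]) ?_
      have e : ∑ a, p a * |(⌈u'⌉ : ℝ) - N a| = ∑ a, p a * N a - ⌈u'⌉ * ∑ a, p a := by
        rw [Finset.mul_sum, ← Finset.sum_sub_distrib]
        refine Finset.sum_congr rfl fun a _ => ?_
        rw [abs_of_nonpos (sub_nonpos.2 (h2 a))]
        ring
      have e2 : |(⌈u'⌉ : ℝ) - u'| = ⌈u'⌉ - u' := by rw [abs_of_nonneg (by linarith)]
      have e3 : |u - u'| = u - u' := by rw [abs_of_nonneg (by linarith only [hK, h3])]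
      rw [e, hp1, hm, e2]
      linarith only [hK, h3, e3]
    · refine column_comb p hp hp1 _ _ u' u _ hF hK N N (fun a => ⟨?_, ?_⟩) hm ?_
      · exact le_trans (by exact_mod_cast Int.le_floor.2 h1) (hN a).1
      · exact (hN a).2.trans (by exact_mod_cast Int.ceil_le.2 h3)
      · have : ∑ a, p a * |N a - N a| = 0 := Finset.sum_eq_zero fun a _ => by simp
        rw [this]
        linarith only [h0]

end Vale.Agent.P304.HST
end
end

section

section
set_option linter.all false

open scoped BigOperators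

namespace Vale.Agent.P304.HST

/-- a column in which mass can be moved from the row `b` to the row `a` -/
theorem star2_column {V : Type} [Fintype V] (z' ya yb : V → ℝ)
    (ha : ∀ v, (⌊z' v⌋ : ℝ) ≤ ya v ∧ ya v ≤ (⌈z' v⌉ : ℝ))
    (hb : ∀ v, (⌊z' v⌋ : ℝ) ≤ yb v ∧ yb v ≤ (⌈z' v⌉ : ℝ))
    (h1 : ∑ v, ya v < (⌈∑ v, z' v⌉ : ℝ)) (h2 : (⌊∑ v, z' v⌋ : ℝ) < ∑ v, yb v) :
    ∃ v, ya v < (⌈z' v⌉ : ℝ) ∧ (⌊z' v⌋ : ℝ) < yb v := by
  classical
  by_contra! hcon
  set w : V → ℤ := fun v => if ya v = (⌈z' v⌉ : ℝ) then ⌈z' v⌉ else ⌊z' v⌋ with hw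
  have e1 : ((∑ v, w v : ℤ) : ℝ) ≤ ∑ v, ya v := by
    push_cast
    refine Finset.sum_le_sum fun v _ => ?_
    simp only [hw]
    split_ifs with h
    · exact h.ge
    · exact (ha v).1
  have e2 : ∑ v, yb v ≤ ((∑ v, w v : ℤ) : ℝ) := by
    push_cast
    refine Finset.sum_le_sum fun v _ => ?_
    simp only [hw]
    split_ifs with h
    · exact (hb v).2
    · exact hcon v (lt_of_le_of_ne (ha v).2 h)
  have e3 : (∑ v, w v : ℤ) < ⌈∑ v, z' v⌉ := by exact_mod_cast e1.trans_lt h1
  have e4 : ⌊∑ v, z' v⌋ < (∑ v, w v : ℤ) := by exact_mod_cast h2.trans_le e2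
  have e5 := Int.ceil_le_floor_add_one (∑ v, z' v)
  omega

/-- correction of the row sums at cost equal to the defect.
Proof.  `K` = set of all `y` with the bounds, the column means, and
`sum_a p_a sum_v |y_v(a) - y0_v(a)| + sum_a p_a |sum_v y_v(a) - m a| <= sum_a p_a |sum_v y0_v(a) - m a|`.
`K` is compact (closed, bounded) and contains `y0`.  Minimize `G y = sum_a p_a |sum_v y_v(a) - m a|`.
If `G y > 0`: `sum_a p_a (sum_v y_v(a) - m a) = 0`, so there are `a1`, `a2` with
`sum_v y_v(a1) < m a1` and `sum_v y_v(a2) > m a2`.  There is a column `v` with `y_v(a1) < ⌈z'_v⌉`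
and `y_v(a2) > ⌊z'_v⌋`: otherwise let `J = #(v : y_v(a1) = ⌈z'_v⌉ and ⌈z'_v⌉ <> ⌊z'_v⌋)` and
`f = sum_v ⌊z'_v⌋`; then `f + J <= sum_v y_v(a1) < m a1 <= ⌈sum z'⌉` and
`⌊sum z'⌋ <= m a2 < sum_v y_v(a2) <= f + J`, so the integer `f + J` lies strictly between
`⌊sum z'⌋` and `⌈sum z'⌉`, impossible.  Add `t / p_(a1)` to `y_v(a1)` and subtract `t / p_(a2)`
from `y_v(a2)` for a small `t > 0`: stays in `K`, `G` drops by `2 t`.  Contradiction. -/
theorem rows {V α : Type} [Fintype V] [Fintype α] (p : α → ℝ) (hp : ∀ a, 0 < p a)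
    (hp1 : ∑ a, p a = 1) (z' : V → ℝ) (y₀ : α → V → ℝ)
    (hy : ∀ a v, (⌊z' v⌋ : ℝ) ≤ y₀ a v ∧ y₀ a v ≤ (⌈z' v⌉ : ℝ))
    (hm : ∀ v, ∑ a, p a * y₀ a v = z' v) (m : α → ℝ)
    (hm1 : ∀ a, (⌊∑ v, z' v⌋ : ℝ) ≤ m a ∧ m a ≤ (⌈∑ v, z' v⌉ : ℝ))
    (hm2 : ∑ a, p a * m a = ∑ v, z' v) :
    ∃ y : α → V → ℝ, (∀ a v, (⌊z' v⌋ : ℝ) ≤ y a v ∧ y a v ≤ (⌈z' v⌉ : ℝ)) ∧
      (∀ v, ∑ a, p a * y a v = z' v) ∧ (∀ a, ∑ v, y a v = m a) ∧
      ∑ a, p a * ∑ v, |y a v - y₀ a v| ≤ ∑ a, p a * |∑ v, y₀ a v - m a| := by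
  classical
  set G : (α → V → ℝ) → ℝ := fun y => ∑ a, p a * |∑ v, y a v - m a| with hG
  set Cs : (α → V → ℝ) → ℝ := fun y => ∑ a, p a * ∑ v, |y a v - y₀ a v| with hCs
  have hcoord : ∀ (a : α) (v : V), Continuous fun y : α → V → ℝ => y a v := fun a v =>
    (continuous_apply v).comp (continuous_apply a)
  have hGc : Continuous G := by
    rw [hG]
    refine continuous_finsetSum _ fun a _ => continuous_const.mul (Continuous.abs ?_)
    exact (continuous_finsetSum _ fun v _ => hcoord a v).sub continuous_const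
  have hCc : Continuous Cs := by
    rw [hCs]
    refine continuous_finsetSum _ fun a _ => continuous_const.mul ?_
    exact continuous_finsetSum _ fun v _ => ((hcoord a v).sub continuous_const).abs
  set K : Set (α → V → ℝ) := {y | (∀ a v, (⌊z' v⌋ : ℝ) ≤ y a v ∧ y a v ≤ (⌈z' v⌉ : ℝ)) ∧
    (∀ v, ∑ a, p a * y a v = z' v) ∧ Cs y + G y ≤ G y₀} with hK
  have hKc : IsCompact K := by
    have hbox : IsCompact (Set.Icc (fun (_ : α) (v : V) => (⌊z' v⌋ : ℝ))
        (fun (_ : α) (v : V) => (⌈z' v⌉ : ℝ))) := isCompact_Icc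
    refine hbox.of_isClosed_subset ?_ fun y hy' => ⟨fun a v => (hy'.1 a v).1,
      fun a v => (hy'.1 a v).2⟩
    have c1 : IsClosed {y : α → V → ℝ | ∀ a v, (⌊z' v⌋ : ℝ) ≤ y a v ∧ y a v ≤ (⌈z' v⌉ : ℝ)} := by
      simp only [Set.setOf_forall]
      refine isClosed_iInter fun a => isClosed_iInter fun v => ?_
      exact (isClosed_le continuous_const (hcoord a v)).inter
        (isClosed_le (hcoord a v) continuous_const)
    have c2 : IsClosed {y : α → V → ℝ | ∀ v, ∑ a, p a * y a v = z' v} := by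
      simp only [Set.setOf_forall]
      refine isClosed_iInter fun v => isClosed_eq ?_ continuous_const
      exact continuous_finsetSum _ fun a _ => continuous_const.mul (hcoord a v)
    have c3 : IsClosed {y : α → V → ℝ | Cs y + G y ≤ G y₀} :=
      isClosed_le (hCc.add hGc) continuous_const
    exact c1.inter (c2.inter c3)
  have hy₀K : y₀ ∈ K := by
    refine ⟨hy, hm, ?_⟩
    have : Cs y₀ = 0 := by
      simp only [hCs, sub_self, abs_zero, Finset.sum_const_zero, mul_zero]
    rw [this, zero_add]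
  obtain ⟨y, hyK, hmin⟩ := hKc.exists_isMinOn ⟨y₀, hy₀K⟩ hGc.continuousOn
  obtain ⟨hy1, hy2, hy3⟩ := hyK
  have hGnn : ∀ a ∈ Finset.univ, 0 ≤ p a * |∑ v, y a v - m a| := fun a _ =>
    mul_nonneg (hp a).le (abs_nonneg _)
  have hd0 : ∑ a, p a * (∑ v, y a v - m a) = 0 := by
    have e1 : ∑ a, p a * ∑ v, y a v = ∑ v, z' v := by
      simp only [Finset.mul_sum]
      rw [Finset.sum_comm]
      exact Finset.sum_congr rfl fun v _ => hy2 v
    simp only [mul_sub, Finset.sum_sub_distrib]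
    rw [e1, hm2, sub_self]
  by_cases hGy : G y = 0
  · refine ⟨y, hy1, hy2, fun a => ?_, ?_⟩
    · have h1 := (Finset.sum_eq_zero_iff_of_nonneg hGnn).1 hGy a (Finset.mem_univ a)
      have h2 := (mul_eq_zero.1 h1).resolve_left (hp a).ne'
      exact sub_eq_zero.1 (abs_eq_zero.1 h2)
    · rw [hGy, add_zero] at hy3
      exact hy3
  exfalso
  obtain ⟨a1, ha1⟩ : ∃ a, ∑ v, y a v < m a := by
    by_contra! hcon
    refine hGy ?_
    rw [← hd0]
    refine Finset.sum_congr rfl fun a _ => ?_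
    rw [abs_of_nonneg (sub_nonneg.2 (hcon a))]
  obtain ⟨a2, ha2⟩ : ∃ a, m a < ∑ v, y a v := by
    by_contra! hcon
    refine hGy ?_
    rw [← neg_eq_zero, ← hd0, ← Finset.sum_neg_distrib]
    refine Finset.sum_congr rfl fun a _ => ?_
    rw [abs_of_nonpos (sub_nonpos.2 (hcon a))]
    ring
  have hne : a1 ≠ a2 := by
    rintro rfl
    exact lt_asymm ha1 ha2
  obtain ⟨v, hv1, hv2⟩ := star2_column z' (y a1) (y a2) (hy1 a1) (hy1 a2)
    (ha1.trans_le (hm1 a1).2) ((hm1 a2).1.trans_lt ha2)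
  obtain ⟨t, ht, ht1, ht2, ht3, ht4⟩ : ∃ t : ℝ, 0 < t ∧ t / p a1 ≤ (⌈z' v⌉ : ℝ) - y a1 v ∧
      t / p a2 ≤ y a2 v - (⌊z' v⌋ : ℝ) ∧ t / p a1 ≤ m a1 - ∑ v, y a1 v ∧
      t / p a2 ≤ ∑ v, y a2 v - m a2 := by
    have q1 : 0 < p a1 * ((⌈z' v⌉ : ℝ) - y a1 v) := mul_pos (hp a1) (sub_pos.2 hv1)
    have q2 : 0 < p a2 * (y a2 v - (⌊z' v⌋ : ℝ)) := mul_pos (hp a2) (sub_pos.2 hv2)
    have q3 : 0 < p a1 * (m a1 - ∑ v, y a1 v) := mul_pos (hp a1) (sub_pos.2 ha1)
    have q4 : 0 < p a2 * (∑ v, y a2 v - m a2) := mul_pos (hp a2) (sub_pos.2 ha2)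
    refine ⟨min (min (p a1 * ((⌈z' v⌉ : ℝ) - y a1 v)) (p a2 * (y a2 v - (⌊z' v⌋ : ℝ))))
      (min (p a1 * (m a1 - ∑ v, y a1 v)) (p a2 * (∑ v, y a2 v - m a2))),
      lt_min (lt_min q1 q2) (lt_min q3 q4), ?_, ?_, ?_, ?_⟩
    · rw [div_le_iff₀' (hp a1)]
      exact (min_le_left _ _).trans (min_le_left _ _)
    · rw [div_le_iff₀' (hp a2)]
      exact (min_le_left _ _).trans (min_le_right _ _)
    · rw [div_le_iff₀' (hp a1)]
      exact (min_le_right _ _).trans (min_le_left _ _)
    · rw [div_le_iff₀' (hp a2)]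
      exact (min_le_right _ _).trans (min_le_right _ _)
  have hs1 : 0 < t / p a1 := div_pos ht (hp a1)
  have hs2 : 0 < t / p a2 := div_pos ht (hp a2)
  have hps1 : p a1 * (t / p a1) = t := mul_div_cancel₀ _ (hp a1).ne'
  have hps2 : p a2 * (t / p a2) = t := mul_div_cancel₀ _ (hp a2).ne'
  set e : α → ℝ := fun a => (if a = a1 then t / p a1 else 0) - (if a = a2 then t / p a2 else 0)
    with he
  have he1 : e a1 = t / p a1 := by simp [he, hne]
  have he2 : e a2 = -(t / p a2) := by simp [he, hne.symm]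
  have he3 : ∀ a, a ≠ a1 → a ≠ a2 → e a = 0 := fun a h1 h2 => by simp [he, h1, h2]
  set y' : α → V → ℝ := fun a w => y a w + (if w = v then e a else 0) with hy'
  have hrow : ∀ a, ∑ w, y' a w = ∑ w, y a w + e a := by
    intro a
    simp only [hy', Finset.sum_add_distrib, Finset.sum_ite_eq', Finset.mem_univ, ↓reduceIte]
  have hsumif1 : ∑ a, (if a = a1 then t else 0) = t := by simp only [Finset.sum_ite_eq', Finset.mem_univ, ↓reduceIte]
  have hsumif2 : ∑ a, (if a = a2 then t else 0) = t := by simp only [Finset.sum_ite_eq', Finset.mem_univ, ↓reduceIte]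
  have hGy' : G y' ≤ G y - 2 * t := by
    have h1 : ∀ a ∈ Finset.univ, p a * |∑ w, y' a w - m a| ≤
        p a * |∑ w, y a w - m a| - (if a = a1 then t else 0) - (if a = a2 then t else 0) := by
      intro a _
      rw [hrow]
      by_cases h1 : a = a1
      · subst h1
        rw [if_pos rfl, if_neg hne, he1, abs_of_nonpos (by linarith only [ht3]), abs_of_nonpos (by linarith only [ha1])]
        have := hps1
        nlinarith only [hps1]
      · by_cases h2 : a = a2
        · subst h2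
          rw [if_neg h1, if_pos rfl, he2, abs_of_nonneg (by linarith only [ht4]), abs_of_nonneg (by linarith only [ha2])]
          have := hps2
          nlinarith only [hps2]
        · rw [if_neg h1, if_neg h2, he3 a h1 h2, add_zero, sub_zero, sub_zero]
    have h2 := Finset.sum_le_sum h1
    rw [Finset.sum_sub_distrib, Finset.sum_sub_distrib, hsumif1, hsumif2] at h2
    show ∑ a, p a * |∑ w, y' a w - m a| ≤ ∑ a, p a * |∑ w, y a w - m a| - 2 * t
    linarith only [h2]
  have hCy' : Cs y' ≤ Cs y + 2 * t := by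
    have h1 : ∀ a ∈ Finset.univ, p a * ∑ w, |y' a w - y₀ a w| ≤
        p a * ∑ w, |y a w - y₀ a w| + (if a = a1 then t else 0) + (if a = a2 then t else 0) := by
      intro a _
      have h2 : ∑ w, |y' a w - y₀ a w| ≤ ∑ w, |y a w - y₀ a w| + |e a| := by
        have h3 : ∑ w, (if w = v then |e a| else 0) = |e a| := by simp only [Finset.sum_ite_eq', Finset.mem_univ, ↓reduceIte]
        rw [← h3, ← Finset.sum_add_distrib]
        refine Finset.sum_le_sum fun w _ => ?_
        simp only [hy']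
        split_ifs with hw
        · have : y a w + e a - y₀ a w = (y a w - y₀ a w) + e a := by ring
          rw [this]
          exact abs_add_le _ _
        · simp
      have h4 : p a * |e a| ≤ (if a = a1 then t else 0) + (if a = a2 then t else 0) := by
        by_cases h1 : a = a1
        · subst h1
          rw [if_pos rfl, if_neg hne, he1, abs_of_pos hs1, hps1, add_zero]
        · by_cases h2 : a = a2
          · subst h2
            rw [if_neg h1, if_pos rfl, he2, abs_neg, abs_of_pos hs2, hps2, zero_add]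
          · rw [if_neg h1, if_neg h2, he3 a h1 h2, abs_zero, mul_zero, add_zero]
      calc p a * ∑ w, |y' a w - y₀ a w| ≤ p a * (∑ w, |y a w - y₀ a w| + |e a|) :=
            mul_le_mul_of_nonneg_left h2 (hp a).le
        _ = p a * ∑ w, |y a w - y₀ a w| + p a * |e a| := mul_add _ _ _
        _ ≤ _ := by linarith only [h4]
    have h2 := Finset.sum_le_sum h1
    rw [Finset.sum_add_distrib, Finset.sum_add_distrib, hsumif1, hsumif2] at h2
    show ∑ a, p a * ∑ w, |y' a w - y₀ a w| ≤ ∑ a, p a * ∑ w, |y a w - y₀ a w| + 2 * t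
    linarith only [h2]
  have hy'K : y' ∈ K := by
    refine ⟨fun a w => ?_, fun w => ?_, ?_⟩
    · have hb := hy1 a w
      simp only [hy']
      split_ifs with hw
      · subst hw
        by_cases h1 : a = a1
        · subst h1
          rw [he1]
          constructor <;> linarith only [hb, hs1, ht1]
        · by_cases h2 : a = a2
          · subst h2
            rw [he2]
            constructor <;> linarith only [hb, hs2, ht2]
          · rw [he3 a h1 h2, add_zero]
            exact hb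
      · rw [add_zero]
        exact hb
    · simp only [hy', mul_add, Finset.sum_add_distrib]
      rw [hy2 w]
      split_ifs with hw
      · have h5 : ∑ a, p a * e a = 0 := by
          simp only [he, mul_sub, Finset.sum_sub_distrib, mul_ite, mul_zero, Finset.sum_ite_eq',
            Finset.mem_univ, if_true]
          rw [hps1, hps2, sub_self]
        rw [h5, add_zero]
      · simp only [mul_zero, Finset.sum_const_zero, add_zero]
    · linarith only [hy3, hGy', hCy']
  have := hmin hy'K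
  simp only [Set.mem_setOf_eq] at this
  linarith only [ht, hGy', this]

end Vale.Agent.P304.HST
end
end

section

section
set_option linter.all false

open scoped BigOperators

namespace Vale.Agent.P304.HST

/-- STAR LEMMA: `column` for every `v`, then `rows`;
`E sum |y - N| <= E |sum y0 - m| + E sum |y0 - N| <= E |sum N - m| + 2 E sum |y0 - N|`. -/
theorem star {V α : Type} [Fintype V] [Fintype α] (p : α → ℝ) (hp : ∀ a, 0 < p a)
    (hp1 : ∑ a, p a = 1) (z z' : V → ℝ) (N : α → V → ℝ)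
    (hN : ∀ a v, (⌊z v⌋ : ℝ) ≤ N a v ∧ N a v ≤ (⌈z v⌉ : ℝ))
    (hNm : ∀ v, ∑ a, p a * N a v = z v) (m : α → ℝ)
    (hm1 : ∀ a, (⌊∑ v, z' v⌋ : ℝ) ≤ m a ∧ m a ≤ (⌈∑ v, z' v⌉ : ℝ))
    (hm2 : ∑ a, p a * m a = ∑ v, z' v) :
    ∃ y : α → V → ℝ, (∀ a v, (⌊z' v⌋ : ℝ) ≤ y a v ∧ y a v ≤ (⌈z' v⌉ : ℝ)) ∧
      (∀ v, ∑ a, p a * y a v = z' v) ∧ (∀ a, ∑ v, y a v = m a) ∧
      ∑ a, p a * ∑ v, |y a v - N a v| ≤
        ∑ a, p a * |m a - ∑ v, N a v| + 4 * ∑ v, |z v - z' v| := by
  classical
  have hp0 : ∀ a, 0 ≤ p a := fun a => (hp a).le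
  choose y₀ h1 h2 h3 using fun v => column p hp0 hp1 (z v) (z' v) (fun a => N a v)
    (fun a => hN a v) (hNm v)
  obtain ⟨y, g1, g2, g3, g4⟩ := rows p hp hp1 z' (fun a v => y₀ v a) (fun a v => h1 v a)
    (fun v => h2 v) m hm1 hm2
  refine ⟨y, g1, g2, g3, ?_⟩
  have e1 : ∑ a, p a * ∑ v, |y₀ v a - N a v| ≤ 2 * ∑ v, |z v - z' v| := by
    rw [Finset.mul_sum]
    simp only [Finset.mul_sum]
    rw [Finset.sum_comm]
    exact Finset.sum_le_sum fun v _ => h3 v
  have e2 : ∑ a, p a * ∑ v, |y a v - N a v| ≤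
      ∑ a, p a * ∑ v, |y a v - y₀ v a| + ∑ a, p a * ∑ v, |y₀ v a - N a v| := by
    rw [← Finset.sum_add_distrib]
    refine Finset.sum_le_sum fun a _ => ?_
    rw [← mul_add, ← Finset.sum_add_distrib]
    exact mul_le_mul_of_nonneg_left (Finset.sum_le_sum fun v _ => abs_sub_le _ _ _) (hp0 a)
  have e3 : ∑ a, p a * |∑ v, y₀ v a - m a| ≤
      ∑ a, p a * |m a - ∑ v, N a v| + ∑ a, p a * ∑ v, |y₀ v a - N a v| := by
    rw [← Finset.sum_add_distrib]
    refine Finset.sum_le_sum fun a _ => ?_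
    rw [← mul_add]
    refine mul_le_mul_of_nonneg_left ?_ (hp0 a)
    have q1 : |∑ v, y₀ v a - m a| ≤ |∑ v, y₀ v a - ∑ v, N a v| + |∑ v, N a v - m a| :=
      abs_sub_le _ _ _
    have q2 : |∑ v, y₀ v a - ∑ v, N a v| ≤ ∑ v, |y₀ v a - N a v| := by
      rw [← Finset.sum_sub_distrib]
      exact Finset.abs_sum_le_sum_abs _ _
    rw [abs_sub_comm (∑ v, N a v) (m a)] at q1
    linarith only [q1, q2]
  linarith

end Vale.Agent.P304.HST
end
end

section

section
set_option linter.all false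

open scoped BigOperators

namespace Vale.Agent.P304.HST

variable {X : Type} [Fintype X] [DecidableEq X]

/-- conditions on the node masses of one level -/
structure FracGood (T : Hier X) {α : Type} [Fintype α] (p : α → ℝ) (z' : X → ℝ) (l : ℕ)
    (Y : α → Finset X → ℝ) : Prop where
  bd : ∀ a, ∀ C ∈ T.P l, (⌊∑ x ∈ C, z' x⌋ : ℝ) ≤ Y a C ∧ Y a C ≤ (⌈∑ x ∈ C, z' x⌉ : ℝ)
  mean : ∀ C ∈ T.P l, ∑ a, p a * Y a C = ∑ x ∈ C, z' x

/-- error of one level -/
noncomputable def fracErr (T : Hier X) {α : Type} [Fintype α] (p : α → ℝ) (N : α → X → ℝ) (l : ℕ)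
    (Y : α → Finset X → ℝ) : ℝ := ∑ a, p a * ∑ C ∈ T.P l, |Y a C - ∑ x ∈ C, N a x|

/-- the star lemma for the children of one cluster -/
theorem frac_star (T : Hier X) {α : Type} [Fintype α] (p : α → ℝ) (hp : ∀ a, 0 < p a)
    (hp1 : ∑ a, p a = 1) (N : α → X → ℝ) (z z' : X → ℝ) (hmean : ∀ x, ∑ a, p a * N a x = z x)
    {l : ℕ} (hbal : ∀ a, ∀ C ∈ T.P l,
      (⌊∑ y ∈ C, z y⌋ : ℝ) ≤ ∑ y ∈ C, N a y ∧ ∑ y ∈ C, N a y ≤ (⌈∑ y ∈ C, z y⌉ : ℝ))
    {C : Finset X} (hC : C ∈ T.P (l + 1)) (m : α → ℝ)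
    (hm1 : ∀ a, (⌊∑ x ∈ C, z' x⌋ : ℝ) ≤ m a ∧ m a ≤ (⌈∑ x ∈ C, z' x⌉ : ℝ))
    (hm2 : ∑ a, p a * m a = ∑ x ∈ C, z' x) :
    ∃ y : α → Finset X → ℝ,
      (∀ a, ∀ v ∈ ch T l C, (⌊∑ x ∈ v, z' x⌋ : ℝ) ≤ y a v ∧ y a v ≤ (⌈∑ x ∈ v, z' x⌉ : ℝ)) ∧
      (∀ v ∈ ch T l C, ∑ a, p a * y a v = ∑ x ∈ v, z' x) ∧
      (∀ a, ∑ v ∈ ch T l C, y a v = m a) ∧
      ∑ a, p a * ∑ v ∈ ch T l C, |y a v - ∑ x ∈ v, N a x| ≤
        ∑ a, p a * |m a - ∑ x ∈ C, N a x| +
          4 * ∑ v ∈ ch T l C, |∑ x ∈ v, z x - ∑ x ∈ v, z' x| := by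
  classical
  have hsum : ∀ f : X → ℝ, ∑ v : {v // v ∈ ch T l C}, ∑ x ∈ v.1, f x = ∑ x ∈ C, f x := by
    intro f
    rw [Finset.sum_coe_sort (ch T l C) fun v => ∑ x ∈ v, f x]
    exact sum_ch T hC f
  have hPl : ∀ v : {v // v ∈ ch T l C}, v.1 ∈ T.P l := fun v => ((mem_ch T).1 v.2).1
  obtain ⟨y, h1, h2, h3, h4⟩ := star (V := {v // v ∈ ch T l C}) p hp hp1
    (fun v => ∑ x ∈ v.1, z x) (fun v => ∑ x ∈ v.1, z' x) (fun a v => ∑ x ∈ v.1, N a x)
    (fun a v => hbal a v.1 (hPl v))
    (fun v => by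
      simp only [Finset.mul_sum]
      rw [Finset.sum_comm]
      exact Finset.sum_congr rfl fun x _ => hmean x)
    m (fun a => by rw [hsum]; exact hm1 a) (by rw [hsum]; exact hm2)
  refine ⟨fun a v => if h : v ∈ ch T l C then y a ⟨v, h⟩ else 0, ?_, ?_, ?_, ?_⟩
  · intro a v hv
    simp only [dif_pos hv]
    exact h1 a ⟨v, hv⟩
  · intro v hv
    simp only [dif_pos hv]
    exact h2 ⟨v, hv⟩
  · intro a
    rw [← h3 a, ← Finset.sum_coe_sort (ch T l C)]
    exact Finset.sum_congr rfl fun v _ => by simp only [dif_pos v.2]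
  · have e1 : ∀ a, ∑ v ∈ ch T l C, |(if h : v ∈ ch T l C then y a ⟨v, h⟩ else 0) -
        ∑ x ∈ v, N a x| = ∑ v : {v // v ∈ ch T l C}, |y a v - ∑ x ∈ v.1, N a x| := by
      intro a
      rw [← Finset.sum_coe_sort (ch T l C)]
      exact Finset.sum_congr rfl fun v _ => by simp only [dif_pos v.2]
    have e2 : ∑ v ∈ ch T l C, |∑ x ∈ v, z x - ∑ x ∈ v, z' x| =
        ∑ v : {v // v ∈ ch T l C}, |∑ x ∈ v.1, z x - ∑ x ∈ v.1, z' x| :=
      (Finset.sum_coe_sort (ch T l C) fun v => |∑ x ∈ v, z x - ∑ x ∈ v, z' x|).symm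
    simp only [e1, e2]
    refine h4.trans (le_of_eq ?_)
    simp only [hsum]

/-- one step of the descent -/
theorem frac_step (T : Hier X) {α : Type} [Fintype α] (p : α → ℝ) (hp : ∀ a, 0 < p a)
    (hp1 : ∑ a, p a = 1) (N : α → X → ℝ) (z z' : X → ℝ) (hmean : ∀ x, ∑ a, p a * N a x = z x)
    {l : ℕ} (hbal : ∀ a, ∀ C ∈ T.P l,
      (⌊∑ y ∈ C, z y⌋ : ℝ) ≤ ∑ y ∈ C, N a y ∧ ∑ y ∈ C, N a y ≤ (⌈∑ y ∈ C, z y⌉ : ℝ))
    (Y : α → Finset X → ℝ) (hY : FracGood T p z' (l + 1) Y) :
    ∃ Y' : α → Finset X → ℝ, FracGood T p z' l Y' ∧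
      (∀ a, ∀ C ∈ T.P (l + 1), ∑ v ∈ ch T l C, Y' a v = Y a C) ∧
      fracErr T p N l Y' ≤ fracErr T p N (l + 1) Y +
        4 * ∑ C ∈ T.P l, |∑ x ∈ C, z x - ∑ x ∈ C, z' x| := by
  classical
  have hex : ∀ C, ∃ y : α → Finset X → ℝ, C ∈ T.P (l + 1) →
      ((∀ a, ∀ v ∈ ch T l C, (⌊∑ x ∈ v, z' x⌋ : ℝ) ≤ y a v ∧ y a v ≤ (⌈∑ x ∈ v, z' x⌉ : ℝ)) ∧
      (∀ v ∈ ch T l C, ∑ a, p a * y a v = ∑ x ∈ v, z' x) ∧
      (∀ a, ∑ v ∈ ch T l C, y a v = Y a C) ∧
      ∑ a, p a * ∑ v ∈ ch T l C, |y a v - ∑ x ∈ v, N a x| ≤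
        ∑ a, p a * |Y a C - ∑ x ∈ C, N a x| +
          4 * ∑ v ∈ ch T l C, |∑ x ∈ v, z x - ∑ x ∈ v, z' x|) := by
    intro C
    by_cases hC : C ∈ T.P (l + 1)
    · obtain ⟨y, hy⟩ := frac_star T p hp hp1 N z z' hmean hbal hC (fun a => Y a C)
        (fun a => hY.bd a C hC) (hY.mean C hC)
      exact ⟨y, fun _ => hy⟩
    · exact ⟨fun _ _ => 0, fun h => absurd h hC⟩
  choose y hy using hex
  -- the parent
  have hpar : ∀ v : Finset X, ∃ C : Finset X, v ∈ T.P l → C ∈ T.P (l + 1) ∧ v ∈ ch T l C := by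
    intro v
    by_cases hv : v ∈ T.P l
    · have h1 := hv
      rw [← biUnion_ch T l, Finset.mem_biUnion] at h1
      obtain ⟨C, hC, hvC⟩ := h1
      exact ⟨C, fun _ => ⟨hC, hvC⟩⟩
    · exact ⟨∅, fun h => absurd h hv⟩
  choose par hpar using hpar
  have hpar' : ∀ C ∈ T.P (l + 1), ∀ v ∈ ch T l C, par v = C := by
    intro C hC v hv
    have h1 := hpar v ((mem_ch T).1 hv).1
    by_contra hne
    exact (Finset.disjoint_left.1 (ch_disjoint T h1.1 hC hne)) h1.2 hv
  refine ⟨fun a v => y (par v) a v, ⟨?_, ?_⟩, ?_, ?_⟩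
  · intro a v hv
    obtain ⟨h1, h2⟩ := hpar v hv
    exact (hy _ h1).1 a v h2
  · intro v hv
    obtain ⟨h1, h2⟩ := hpar v hv
    exact (hy _ h1).2.1 v h2
  · intro a C hC
    rw [← (hy C hC).2.2.1 a]
    refine Finset.sum_congr rfl fun v hv => ?_
    show y (par v) a v = y C a v
    rw [hpar' C hC v hv]
  · unfold fracErr
    have e1 : ∀ a, ∑ v ∈ T.P l, |y (par v) a v - ∑ x ∈ v, N a x| =
        ∑ C ∈ T.P (l + 1), ∑ v ∈ ch T l C, |y C a v - ∑ x ∈ v, N a x| := by
      intro a
      rw [← sum_P_ch T l]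
      refine Finset.sum_congr rfl fun C hC => Finset.sum_congr rfl fun v hv => ?_
      rw [hpar' C hC v hv]
    simp only [e1]
    have e2 : ∑ a, p a * ∑ C ∈ T.P (l + 1), ∑ v ∈ ch T l C, |y C a v - ∑ x ∈ v, N a x| =
        ∑ C ∈ T.P (l + 1), ∑ a, p a * ∑ v ∈ ch T l C, |y C a v - ∑ x ∈ v, N a x| := by
      rw [Finset.sum_comm]
      exact Finset.sum_congr rfl fun a _ => Finset.mul_sum _ _ _
    have e3 : ∑ a, p a * ∑ C ∈ T.P (l + 1), |Y a C - ∑ x ∈ C, N a x| =
        ∑ C ∈ T.P (l + 1), ∑ a, p a * |Y a C - ∑ x ∈ C, N a x| := by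
      rw [Finset.sum_comm]
      exact Finset.sum_congr rfl fun a _ => Finset.mul_sum _ _ _
    rw [e2, e3, ← sum_P_ch T l, Finset.mul_sum, ← Finset.sum_add_distrib]
    exact Finset.sum_le_sum fun C hC => (hy C hC).2.2.2

/-- all levels -/
theorem frac_levels (T : Hier X) {α : Type} [Fintype α] (p : α → ℝ) (hp : ∀ a, 0 < p a)
    (hp1 : ∑ a, p a = 1) (N : α → X → ℝ) (z z' : X → ℝ)
    (htot : ∑ x, z x = ∑ x, z' x) (hmean : ∀ x, ∑ a, p a * N a x = z x)
    (hbal : ∀ a, ∀ l ≤ T.D, ∀ C ∈ T.P l,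
      (⌊∑ y ∈ C, z y⌋ : ℝ) ≤ ∑ y ∈ C, N a y ∧ ∑ y ∈ C, N a y ≤ (⌈∑ y ∈ C, z y⌉ : ℝ)) :
    ∀ j ≤ T.D, ∃ Y : ℕ → α → Finset X → ℝ, (∀ a, Y T.D a = fun C => ∑ x ∈ C, N a x) ∧
      ∀ l, T.D - j ≤ l → l ≤ T.D → FracGood T p z' l (Y l) ∧
        fracErr T p N l (Y l) ≤ 4 * ∑ i ∈ Finset.Ico l T.D,
          ∑ C ∈ T.P i, |∑ x ∈ C, z x - ∑ x ∈ C, z' x| ∧
        (l < T.D → ∀ a, ∀ C ∈ T.P (l + 1), ∑ v ∈ ch T l C, Y l a v = Y (l + 1) a C) := by
  classical
  intro j
  induction j with
  | zero =>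
    intro _
    refine ⟨fun _ a C => ∑ x ∈ C, N a x, fun _ => rfl, fun l h1 h2 => ?_⟩
    have hl : l = T.D := by omega
    subst hl
    have htop : ∀ C ∈ T.P T.D, C = Finset.univ := by
      intro C hC
      obtain ⟨x, rfl⟩ := (mem_P T).1 hC
      exact T.cl_top x
    have hzz : ∀ C ∈ T.P T.D, ∑ x ∈ C, z x = ∑ x ∈ C, z' x := by
      intro C hC
      rw [htop C hC]
      exact htot
    refine ⟨⟨fun a C hC => ?_, fun C hC => ?_⟩, ?_, fun h => absurd h (lt_irrefl _)⟩
    · rw [← hzz C hC]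
      exact hbal a T.D le_rfl C hC
    · rw [← hzz C hC]
      simp only [Finset.mul_sum]
      rw [Finset.sum_comm]
      exact Finset.sum_congr rfl fun x _ => hmean x
    · simp only [fracErr, sub_self, abs_zero, Finset.sum_const_zero, mul_zero, Std.le_refl, Finset.Ico_eq_empty_of_le, Finset.sum_empty]
  | succ j ih =>
    intro hj
    obtain ⟨Y, hY0, hY⟩ := ih (by omega)
    obtain ⟨l0, hl0⟩ : ∃ l0, l0 + 1 = T.D - j := ⟨T.D - j - 1, by omega⟩
    obtain ⟨g1, g2, g3⟩ := hY (l0 + 1) (by omega) (by omega)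
    obtain ⟨Y', h1, h2, h3⟩ := frac_step T p hp hp1 N z z' hmean
      (fun a C hC => hbal a l0 (by omega) C hC) (Y (l0 + 1)) g1
    refine ⟨Function.update Y l0 Y', fun a => ?_, fun l hl1 hl2 => ?_⟩
    · rw [Function.update_of_ne (by omega)]
      exact hY0 a
    · by_cases hl : l = l0
      · subst hl
        rw [Function.update_self, Function.update_of_ne (by omega)]
        refine ⟨h1, ?_, fun _ => h2⟩
        rw [Finset.sum_eq_sum_Ico_succ_bot (by omega : l < T.D)]
        linarith only [g2, h3]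
      · obtain ⟨k1, k2, k3⟩ := hY l (by omega) hl2
        rw [Function.update_of_ne hl]
        refine ⟨k1, k2, fun hlt => ?_⟩
        rw [Function.update_of_ne (by omega)]
        exact k3 hlt

/-- TOP-DOWN ROUNDING (fractional rows).  Given occupation vectors `N a` (probabilities `p a`)
which are balanced for `z`, and a new mass vector `z'` of the same total, there are vectors `y a`,
balanced for `z'`, with the same totals, at expected tree cost `<= 8 tn z z'`.
Proof: descend the levels `l = D, D-1, ..., 0` and construct node masses `Y l a C` (`C ∈ P l`)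
with `⌊z'(C)⌋ <= Y l a C <= ⌈z'(C)⌉`, mean `z'(C)`, `sum over children of C of Y l a v =
Y (l+1) a C`, and `e_l <= e_(l+1) + 4 d_l`, where `e_l = sum_a p_a sum_(C∈P l) |Y l a C - N a (C)|`,
`d_l = sum_(C∈P l) |z(C) - z'(C)|`.  Start: `Y D a univ = N a (univ)` (`e_D = 0`; bounds because
`z(univ) = z'(univ)`).  Step: `star` for every `C ∈ P (l+1)` with `V = {v // v ∈ ch T l C}`,
`m a = Y (l+1) a C`; every `v ∈ P l` is a child of exactly one `C ∈ P (l+1)` (`sum_P_ch`).
Finally `y a x = Y 0 a {x}`; then `sum_(x∈C) y a x = Y l a C` for all `C ∈ P l`.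
Cost: `e_l <= 4 sum_(l <= j < D) d_j`, so
`sum_l rho_l e_l <= 4 sum_(j<D) d_j sum_(l<=j) rho_l <= 8 sum_(j<D) rho_j d_j`. -/
theorem exists_frac (T : Hier X) (hρ : ∀ j, ∑ l ∈ Finset.range (j + 1), T.rho l ≤ 2 * T.rho j)
    {α : Type} [Fintype α] (p : α → ℝ) (hp : ∀ a, 0 < p a) (hp1 : ∑ a, p a = 1)
    (N : α → X → ℝ) (z z' : X → ℝ) (hz : ∀ x, 0 ≤ z x) (hz' : ∀ x, 0 ≤ z' x)
    (htot : ∑ x, z x = ∑ x, z' x) (hmean : ∀ x, ∑ a, p a * N a x = z x)
    (hbal : ∀ a, ∀ l ≤ T.D, ∀ C ∈ T.P l,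
      (⌊∑ y ∈ C, z y⌋ : ℝ) ≤ ∑ y ∈ C, N a y ∧ ∑ y ∈ C, N a y ≤ (⌈∑ y ∈ C, z y⌉ : ℝ)) :
    ∃ y : α → X → ℝ, (∀ a x, 0 ≤ y a x) ∧ (∀ x, ∑ a, p a * y a x = z' x) ∧
      (∀ a, ∀ l ≤ T.D, ∀ C ∈ T.P l,
        (⌊∑ x ∈ C, z' x⌋ : ℝ) ≤ ∑ x ∈ C, y a x ∧ ∑ x ∈ C, y a x ≤ (⌈∑ x ∈ C, z' x⌉ : ℝ)) ∧
      (∀ a, ∑ x, y a x = ∑ x, N a x) ∧
      ∑ a, p a * T.tn (N a) (y a) ≤ 8 * T.tn z z' := by
  classical
  obtain ⟨Y, hY0, hY⟩ := frac_levels T p hp hp1 N z z' htot hmean hbal T.D le_rfl
  have h0P : ∀ x : X, ({x} : Finset X) ∈ T.P 0 := by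
    intro x
    have := cl_mem_P T 0 x
    rwa [T.cl_zero] at this
  obtain ⟨⟨hbd0, hmean0⟩, -, -⟩ := hY 0 (by omega) (Nat.zero_le _)
  have hkey : ∀ a, ∀ l ≤ T.D, ∀ C ∈ T.P l, ∑ x ∈ C, Y 0 a {x} = Y l a C := by
    intro a l
    induction l with
    | zero =>
      intro _ C hC
      obtain ⟨x, rfl⟩ := (mem_P T).1 hC
      rw [T.cl_zero, Finset.sum_singleton]
    | succ l ih =>
      intro hl C hC
      rw [← sum_ch T hC, ← (hY l (by omega) (by omega)).2.2 (by omega) a C hC]
      exact Finset.sum_congr rfl fun v hv => ih (by omega) v ((mem_ch T).1 hv).1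
  refine ⟨fun a x => Y 0 a {x}, ?_, ?_, ?_, ?_, ?_⟩
  · intro a x
    refine le_trans ?_ (hbd0 a {x} (h0P x)).1
    rw [Finset.sum_singleton]
    exact_mod_cast Int.floor_nonneg.2 (hz' x)
  · intro x
    have := hmean0 {x} (h0P x)
    rw [Finset.sum_singleton] at this
    exact this
  · intro a l hl C hC
    rw [hkey a l hl C hC]
    exact (hY l (by omega) hl).1.bd a C hC
  · intro a
    rw [← sum_P T T.D fun x => Y 0 a {x}, ← sum_P T T.D (N a)]
    refine Finset.sum_congr rfl fun C hC => ?_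
    rw [hkey a T.D le_rfl C hC, hY0 a]
  · set d : ℕ → ℝ := fun i => ∑ C ∈ T.P i, |∑ x ∈ C, z x - ∑ x ∈ C, z' x| with hd
    have hd0 : ∀ i, 0 ≤ d i := fun i => Finset.sum_nonneg fun _ _ => abs_nonneg _
    have e1 : ∑ a, p a * T.tn (N a) (fun x => Y 0 a {x}) =
        ∑ l ∈ Finset.range T.D, T.rho l * fracErr T p N l (Y l) := by
      unfold Hier.tn fracErr
      simp only [Finset.mul_sum]
      rw [Finset.sum_comm]
      refine Finset.sum_congr rfl fun l hl => Finset.sum_congr rfl fun a _ =>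
        Finset.sum_congr rfl fun C hC => ?_
      rw [hkey a l (Finset.mem_range.1 hl).le C hC, abs_sub_comm]
      ring
    have e2 : T.tn z z' = ∑ i ∈ Finset.range T.D, T.rho i * d i := rfl
    rw [e1, e2]
    calc ∑ l ∈ Finset.range T.D, T.rho l * fracErr T p N l (Y l)
        ≤ ∑ l ∈ Finset.range T.D, T.rho l * (4 * ∑ i ∈ Finset.Ico l T.D, d i) := by
          refine Finset.sum_le_sum fun l hl => mul_le_mul_of_nonneg_left ?_ (T.rho_pos l).le
          exact (hY l (by omega) (Finset.mem_range.1 hl).le).2.1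
      _ = ∑ l ∈ Finset.range T.D, ∑ i ∈ Finset.Ico l T.D, 4 * (T.rho l * d i) := by
          refine Finset.sum_congr rfl fun l _ => ?_
          rw [Finset.mul_sum, Finset.mul_sum]
          refine Finset.sum_congr rfl fun i _ => ?_
          ring
      _ = ∑ i ∈ Finset.range T.D, ∑ l ∈ Finset.range (i + 1), 4 * (T.rho l * d i) := by
          refine Finset.sum_comm' fun l i => ?_
          simp only [Finset.mem_range, Finset.mem_Ico]
          omega
      _ = ∑ i ∈ Finset.range T.D, 4 * d i * ∑ l ∈ Finset.range (i + 1), T.rho l := by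
          refine Finset.sum_congr rfl fun i _ => ?_
          rw [Finset.mul_sum]
          refine Finset.sum_congr rfl fun l _ => ?_
          ring
      _ ≤ ∑ i ∈ Finset.range T.D, 4 * d i * (2 * T.rho i) := by
          refine Finset.sum_le_sum fun i _ => mul_le_mul_of_nonneg_left (hρ i) ?_
          have := hd0 i
          linarith only [this]
      _ = 8 * ∑ i ∈ Finset.range T.D, T.rho i * d i := by
          rw [Finset.mul_sum]
          refine Finset.sum_congr rfl fun i _ => ?_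
          ring

end Vale.Agent.P304.HST
end
end

section

section
set_option linter.all false

open scoped BigOperators

namespace Vale.Agent.P304.HST

variable {X : Type} [Fintype X] [DecidableEq X]

theorem numb_digits_lt {b : ℕ} (hb : 1 ≤ b) (c : ℕ → ℕ) (hc : ∀ j, c j < b) (l : ℕ) :
    ∑ j ∈ Finset.range l, c j * b ^ j < b ^ l := by
  induction l with
  | zero => simp only [Finset.range_zero, Finset.sum_empty, pow_zero, Order.lt_one_iff]
  | succ l ih =>
    rw [Finset.sum_range_succ, pow_succ]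
    have h1 : c l * b ^ l ≤ (b - 1) * b ^ l := Nat.mul_le_mul_right _ (by have := hc l; omega)
    have h2 : (b - 1) * b ^ l + b ^ l = b ^ l * b := by
      obtain ⟨d, rfl⟩ : ∃ d, b = d + 1 := ⟨b - 1, by omega⟩
      simp only [Nat.add_sub_cancel]
      ring
    omega

theorem numb_digits_div {b : ℕ} (hb : 1 ≤ b) (c : ℕ → ℕ) (hc : ∀ j, c j < b) {l D : ℕ}
    (hl : l ≤ D) : (∑ j ∈ Finset.range D, c j * b ^ j) / b ^ l =
      ∑ j ∈ Finset.range (D - l), c (l + j) * b ^ j := by
  obtain ⟨m, rfl⟩ := Nat.exists_eq_add_of_le hl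
  rw [Finset.sum_range_add, Nat.add_sub_cancel_left]
  have h1 : ∑ j ∈ Finset.range m, c (l + j) * b ^ (l + j) =
      b ^ l * ∑ j ∈ Finset.range m, c (l + j) * b ^ j := by
    rw [Finset.mul_sum]
    refine Finset.sum_congr rfl fun j _ => ?_
    rw [pow_add]
    ring
  have hpos : 0 < b ^ l := Nat.pow_pos hb
  rw [h1, Nat.add_mul_div_left _ _ hpos, Nat.div_eq_of_lt (numb_digits_lt hb c hc l), zero_add]

/-- an injective numbering for which the clusters are intervals: `e x / b^l = e y / b^l` iff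
`x`, `y` are in the same cluster of level `l`.
Proof: `code : Finset X → ℕ` injective with values `< b` (e.g. `Fintype.equivFin (Finset X)`),
`e x = sum_(j<D) code (cl j x) * b^j` (so `e x / b^l = sum_(l<=j<D) code (cl j x) b^(j-l)`; equality
gives equality of the digit `l` if `l < D`; the clusters of level `>= l` are determined by the
one of level `l`; for `l = D` everything is in one cluster and `e x < b^D`). -/
theorem exists_numbering (T : Hier X) : ∃ (b : ℕ) (e : X → ℕ), 1 ≤ b ∧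
    ∀ l ≤ T.D, ∀ x y, (y ∈ T.cl l x ↔ e y / b ^ l = e x / b ^ l) := by
  obtain ⟨b, hb⟩ : ∃ b, b = Fintype.card (Finset X) := ⟨_, rfl⟩
  have hb1 : 1 ≤ b := by rw [hb]; exact Fintype.card_pos
  let code : Finset X → ℕ := fun C => (Fintype.equivFin (Finset X) C : ℕ)
  have hcode : ∀ C, code C < b := fun C => by rw [hb]; exact (Fintype.equivFin (Finset X) C).2
  have hinj : ∀ C C', code C = code C' → C = C' := fun C C' h =>
    (Fintype.equivFin (Finset X)).injective (Fin.ext h)
  refine ⟨b, fun x => ∑ j ∈ Finset.range T.D, code (T.cl j x) * b ^ j, hb1, ?_⟩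
  intro l hl x y
  change _ ↔ (∑ j ∈ Finset.range T.D, code (T.cl j y) * b ^ j) / b ^ l =
    (∑ j ∈ Finset.range T.D, code (T.cl j x) * b ^ j) / b ^ l
  rw [numb_digits_div hb1 (fun j => code (T.cl j y)) (fun j => hcode _) hl,
    numb_digits_div hb1 (fun j => code (T.cl j x)) (fun j => hcode _) hl]
  constructor
  · intro h
    refine Finset.sum_congr rfl fun j _ => ?_
    rw [T.eq_of_mem (l + j) x y (cl_mono T (Nat.le_add_right l j) x h)]
  · intro h
    rcases hl.lt_or_eq with hlt | rfl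
    · obtain ⟨m, hm⟩ : ∃ m, T.D - l = m + 1 := ⟨T.D - l - 1, by omega⟩
      rw [hm, Finset.sum_range_succ', Finset.sum_range_succ'] at h
      have h2 := congrArg (· % b) h
      simp only [pow_zero, mul_one, add_zero] at h2
      have h3 : ∀ z : X, (∑ k ∈ Finset.range m, code (T.cl (l + (k + 1)) z) * b ^ (k + 1) +
          code (T.cl l z)) % b = code (T.cl l z) := by
        intro z
        have h4 : ∑ k ∈ Finset.range m, code (T.cl (l + (k + 1)) z) * b ^ (k + 1) =
            b * ∑ k ∈ Finset.range m, code (T.cl (l + (k + 1)) z) * b ^ k := by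
          rw [Finset.mul_sum]
          refine Finset.sum_congr rfl fun j _ => ?_
          rw [pow_succ]
          ring
        rw [h4, Nat.mul_add_mod, Nat.mod_eq_of_lt (hcode _)]
      rw [h3, h3] at h2
      rw [← hinj _ _ h2]
      exact T.mem_self l y
    · rw [T.cl_top]
      exact Finset.mem_univ _

end Vale.Agent.P304.HST
end
end

section

section
set_option linter.all false

open scoped BigOperators

namespace Vale.Agent.P304.HST

open MeasureTheory Set

/-- the mean of the rounding -/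
theorem lam_integral (u : ℝ) : ∫ θ in Ico (0 : ℝ) 1, (⌊u + θ⌋ : ℝ) = u := by
  have h1 : ∀ θ ∈ Ico (0 : ℝ) 1, (⌊u + θ⌋ : ℝ) =
      (⌊u⌋ : ℝ) + (Ico (1 - Int.fract u) 1).indicator (fun _ => (1 : ℝ)) θ := by
    intro θ hθ
    have hf0 := Int.fract_nonneg u
    have hf1 := Int.fract_lt_one u
    have hu : u = ⌊u⌋ + Int.fract u := (Int.floor_add_fract u).symm
    by_cases h : 1 - Int.fract u ≤ θ
    · rw [indicator_of_mem (show θ ∈ Ico (1 - Int.fract u) 1 from ⟨h, hθ.2⟩)]
      have : ⌊u + θ⌋ = ⌊u⌋ + 1 := by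
        rw [Int.floor_eq_iff]
        push_cast
        constructor
        · linarith
        · linarith only [hf1, hu, hθ.2]
      rw [this]
      push_cast
      ring
    · rw [indicator_of_notMem (fun hh => h hh.1), add_zero]
      have : ⌊u + θ⌋ = ⌊u⌋ := by
        rw [Int.floor_eq_iff]
        constructor
        · linarith [hθ.1]
        · linarith
      rw [this]
  rw [setIntegral_congr_fun measurableSet_Ico h1]
  have hf0 := Int.fract_nonneg u
  have hf1 := Int.fract_lt_one u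
  have hi : IntegrableOn ((Ico (1 - Int.fract u) 1).indicator (fun _ => (1 : ℝ)))
      (Ico (0 : ℝ) 1) := by
    refine (integrableOn_const (by simp only [Real.volume_Ico, sub_zero, ENNReal.ofReal_one, ne_eq, ENNReal.one_ne_top, not_false_eq_true]) (by simp)).indicator measurableSet_Ico
  have hi1 : IntegrableOn (fun _ : ℝ => (⌊u⌋ : ℝ)) (Ico (0 : ℝ) 1) :=
    integrableOn_const (by simp only [Real.volume_Ico, sub_zero, ENNReal.ofReal_one, ne_eq, ENNReal.one_ne_top, not_false_eq_true]) (by simp)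
  rw [integral_add hi1 hi, setIntegral_indicator measurableSet_Ico]
  have e : Ico (0 : ℝ) 1 ∩ Ico (1 - Int.fract u) 1 = Ico (1 - Int.fract u) 1 :=
    inter_eq_self_of_subset_right (Ico_subset_Ico_left (by linarith))
  rw [e, setIntegral_const, setIntegral_const]
  simp only [Real.volume_real_Ico, smul_eq_mul, mul_one, sub_zero, one_mul]
  rw [max_eq_left (by norm_num : (0:ℝ) ≤ 1), max_eq_left (by linarith only [hf0])]
  have hu : (⌊u⌋ : ℝ) + Int.fract u = u := Int.floor_add_fract u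
  linarith only [hu]

/-- floor differences -/
theorem lam_floor (u s : ℝ) : ⌊s⌋ ≤ ⌊u + s⌋ - ⌊u⌋ ∧ ⌊u + s⌋ - ⌊u⌋ ≤ ⌈s⌉ := by
  constructor
  · have := Int.le_floor_add u s
    omega
  · have h1 : ⌊u + s⌋ ≤ ⌊u + (⌈s⌉ : ℝ)⌋ := Int.floor_le_floor (by linarith [Int.le_ceil s])
    rw [Int.floor_add_intCast] at h1
    omega

variable {X : Type} [Fintype X] [DecidableEq X]

/-- telescoping along an injective numbering -/
theorem lam_telescope {M : Type} [AddCommGroup M] (e : X → ℕ) (he : Function.Injective e)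
    (G : ℕ → M) (hG : ∀ j, (∀ x, e x ≠ j) → G (j + 1) = G j) {m m' : ℕ} (hm : m ≤ m') :
    ∑ x ∈ Finset.univ.filter (fun x => m ≤ e x ∧ e x < m'), (G (e x + 1) - G (e x)) =
      G m' - G m := by
  have h1 : ∑ x ∈ Finset.univ.filter (fun x => m ≤ e x ∧ e x < m'), (G (e x + 1) - G (e x)) =
      ∑ j ∈ (Finset.univ.filter (fun x => m ≤ e x ∧ e x < m')).image e, (G (j + 1) - G j) := by
    rw [Finset.sum_image (fun x _ y _ h => he h)]
  rw [h1, ← Finset.sum_Ico_sub G hm]
  refine Finset.sum_subset ?_ ?_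
  · intro j hj
    obtain ⟨x, hx, rfl⟩ := Finset.mem_image.1 hj
    exact Finset.mem_Ico.2 (Finset.mem_filter.1 hx).2
  · intro j hj hj'
    rw [hG j, sub_self]
    intro x hx
    subst hx
    exact hj' (Finset.mem_image.2 ⟨x, Finset.mem_filter.2 ⟨Finset.mem_univ _,
      Finset.mem_Ico.1 hj⟩, rfl⟩)

/-- partial sums -/
noncomputable def lamY (e : X → ℕ) (y : X → ℝ) (m : ℕ) : ℝ :=
  ∑ x ∈ Finset.univ.filter (fun x => e x < m), y x

theorem lamY_succ_of_ne (e : X → ℕ) (y : X → ℝ) (j : ℕ) (h : ∀ x, e x ≠ j) :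
    lamY e y (j + 1) = lamY e y j := by
  unfold lamY
  congr 1
  ext x
  simp only [Finset.mem_filter, Finset.mem_univ, true_and]
  have := h x
  omega

theorem lamY_step (e : X → ℕ) (he : Function.Injective e) (y : X → ℝ) (x : X) :
    lamY e y (e x + 1) - lamY e y (e x) = y x := by
  unfold lamY
  have h : Finset.univ.filter (fun x' => e x' < e x + 1) =
      insert x (Finset.univ.filter (fun x' => e x' < e x)) := by
    ext x'
    simp only [Finset.mem_filter, Finset.mem_univ, true_and, Finset.mem_insert]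
    constructor
    · intro h
      rcases Nat.lt_succ_iff_lt_or_eq.1 h with h | h
      · exact Or.inr h
      · exact Or.inl (he h)
    · rintro (rfl | h)
      · omega
      · omega
  rw [h, Finset.sum_insert (by simp only [Finset.mem_filter, Finset.mem_univ, lt_self_iff_false, and_false, not_false_eq_true])]
  ring

/-- LAMINAR ROUNDING of one nonnegative vector of total `<= k + 1` (systematic rounding).
Proof: take the numbering `e` (injective by `l = 0`), `Y m = sum_(x : e x < m) y x` for `m : ℕ`,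
and for `θ ∈ [0,1)` put `A_θ x = ⌊Y (e x + 1) + θ⌋ - ⌊Y (e x) + θ⌋`.  For a cluster `C` of level `l`
with `q = e x / b^l` the sum over `C` telescopes (numbers `m` which are not attained contribute
`0`): `A_θ(C) = ⌊Y ((q+1) b^l) + θ⌋ - ⌊Y (q b^l) + θ⌋`, an integer in
`{⌊y(C)⌋, ⌈y(C)⌉}` as `Y ((q+1) b^l) - Y (q b^l) = y(C)`.  `A_θ x <= ⌈total⌉ <= k + 1`.
`μ A` = length of `{θ ∈ [0,1) | A_θ = A}`; the mean is exact because `∫_0^1 ⌊u + θ⌋ dθ = u`.
(Alternative without integrals: induction on the number of clusters with non-integral mass, moving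
along `e_x - e_x'` resp. `e_x` in both directions until one more cluster becomes integral.) -/
theorem exists_bal (T : Hier X) (k : ℕ) (y : X → ℝ) (hy : ∀ x, 0 ≤ y x)
    (htot : ∑ x, y x ≤ k + 1) : ∃ μ : (X → Fin (k + 2)) → ℝ, Bal T k y μ := by
  obtain ⟨b, e, hb, he⟩ := exists_numbering T
  have hinj : Function.Injective e := by
    intro x x' h
    have h1 := (he 0 (Nat.zero_le _) x x').2 (by simp [h])
    rw [T.cl_zero, Finset.mem_singleton] at h1
    exact h1.symm
  set Y := lamY e y with hY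
  have hstep : ∀ x, Y (e x + 1) = Y (e x) + y x := fun x => by
    have := lamY_step e hinj y x
    rw [← hY] at this
    linarith only [this]
  have hyx : ∀ x, y x ≤ k + 1 := fun x =>
    (Finset.single_le_sum (fun i _ => hy i) (Finset.mem_univ x)).trans htot
  -- the integer valued rounding
  set z : ℝ → X → ℤ := fun θ x => ⌊Y (e x + 1) + θ⌋ - ⌊Y (e x) + θ⌋ with hz
  have hz1 : ∀ θ x, ⌊y x⌋ ≤ z θ x ∧ z θ x ≤ ⌈y x⌉ := by
    intro θ x
    have h := lam_floor (Y (e x) + θ) (y x)
    have h2 : Y (e x + 1) + θ = Y (e x) + θ + y x := by rw [hstep]; ring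
    simp only [hz, h2]
    exact h
  have hz0 : ∀ θ x, 0 ≤ z θ x := fun θ x => (Int.floor_nonneg.2 (hy x)).trans (hz1 θ x).1
  have hzk : ∀ θ x, (z θ x).toNat < k + 2 := by
    intro θ x
    have h1 : ⌈y x⌉ ≤ (k : ℤ) + 1 := Int.ceil_le.2 (by push_cast; exact hyx x)
    have h2 := (hz1 θ x).2
    omega
  set a : ℝ → X → Fin (k + 2) := fun θ x => ⟨(z θ x).toNat, hzk θ x⟩ with ha
  have haz : ∀ θ x, (((a θ x : Fin (k + 2)) : ℕ) : ℝ) = (z θ x : ℝ) := by
    intro θ x
    have h1 : (((z θ x).toNat : ℤ) : ℝ) = (z θ x : ℝ) := by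
      rw [Int.toNat_of_nonneg (hz0 θ x)]
    rw [Int.cast_natCast] at h1
    exact h1
  have hzm : ∀ x, Measurable fun θ => z θ x := by
    intro x
    simp only [hz]
    exact (Int.measurable_floor.comp (measurable_const.add measurable_id)).sub
      (Int.measurable_floor.comp (measurable_const.add measurable_id))
  letI : MeasurableSpace (X → Fin (k + 2)) := ⊤
  have ham : Measurable a := by
    refine measurable_to_countable' fun A => ?_
    have : a ⁻¹' {A} = ⋂ x, (fun θ => z θ x) ⁻¹' {((A x : ℕ) : ℤ)} := by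
      ext θ
      simp only [mem_preimage, mem_singleton_iff, mem_iInter]
      constructor
      · rintro rfl x
        simp only [ha]
        rw [Int.toNat_of_nonneg (hz0 θ x)]
      · intro h
        funext x
        apply Fin.ext
        simp only [ha]
        rw [h x]
        simp
    rw [this]
    exact MeasurableSet.iInter fun x => hzm x (measurableSet_singleton _)
  haveI : DiscreteMeasurableSpace (X → Fin (k + 2)) := ⟨fun s => trivial⟩
  set ν : Measure ℝ := volume.restrict (Ico (0 : ℝ) 1) with hν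
  haveI : IsProbabilityMeasure ν := ⟨by simp only [hν, MeasurableSet.univ, Measure.restrict_apply, univ_inter, Real.volume_Ico, sub_zero, ENNReal.ofReal_one]⟩
  set P : Measure (X → Fin (k + 2)) := ν.map a with hP
  haveI : IsProbabilityMeasure P := Measure.isProbabilityMeasure_map ham.aemeasurable
  have hint : ∀ f : (X → Fin (k + 2)) → ℝ, ∑ A, P.real {A} * f A = ∫ θ, f (a θ) ∂ν := by
    intro f
    have hf : Integrable f P := Integrable.of_finite
    have h1 := integral_fintype hf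
    simp only [smul_eq_mul] at h1
    rw [← h1, hP, integral_map ham.aemeasurable]
    exact (Measurable.of_discrete).aestronglyMeasurable
  refine ⟨fun A => P.real {A}, fun A => measureReal_nonneg, ?_, ?_, ?_⟩
  · have := hint fun _ => 1
    simp only [mul_one] at this
    rw [this]
    simp
  · intro x
    rw [hint fun A => ((A x : ℕ) : ℝ)]
    simp only [haz]
    have hfi : ∀ u : ℝ, Integrable (fun θ => (⌊u + θ⌋ : ℝ)) ν := by
      intro u
      refine Measure.integrableOn_of_bounded (M := |u| + 2) (by simp only [Real.volume_Ico, sub_zero, ENNReal.ofReal_one, ne_eq, ENNReal.one_ne_top, not_false_eq_true]) ?_ ?_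
      · exact (Measurable.aestronglyMeasurable (by (clear * -; fun_prop)))
      · refine (ae_restrict_iff' measurableSet_Ico).2 (ae_of_all _ fun θ hθ => ?_)
        rw [Real.norm_eq_abs, abs_le]
        have h1 := Int.floor_le (u + θ)
        have h2 := Int.lt_floor_add_one (u + θ)
        have h3 := neg_abs_le u
        have h4 := le_abs_self u
        constructor
        · linarith only [h2, h3, hθ.1]
        · linarith only [h1, h4, hθ.2]
    have h1 : ∀ θ, ((z θ x : ℤ) : ℝ) = (⌊Y (e x + 1) + θ⌋ : ℝ) - (⌊Y (e x) + θ⌋ : ℝ) := by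
      intro θ
      simp only [hz]
      push_cast
      ring
    simp only [h1]
    rw [integral_sub (hfi _) (hfi _)]
    have h2 := lam_integral (Y (e x + 1))
    have h3 := lam_integral (Y (e x))
    rw [← hν] at h2 h3
    rw [h2, h3, hstep]
    ring
  · intro A hA l hl C hC
    -- a point `θ` with `a θ = A`
    have hex : ∃ θ, a θ = A := by
      by_contra hcon
      push Not at hcon
      apply hA
      have h1 : a ⁻¹' {A} = ∅ := by
        ext θ
        simp [hcon θ]
      simp only [measureReal_def]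
      rw [hP, Measure.map_apply ham (measurableSet_singleton _), h1]
      simp
    obtain ⟨θ, rfl⟩ := hex
    obtain ⟨x0, rfl⟩ := (mem_P T).1 hC
    have hbl : 0 < b ^ l := pow_pos hb l
    set q := e x0 / b ^ l with hq
    have hset : T.cl l x0 = Finset.univ.filter
        (fun x => q * b ^ l ≤ e x ∧ e x < (q + 1) * b ^ l) := by
      ext x
      rw [he l hl x0 x, Finset.mem_filter, ← hq]
      simp only [Finset.mem_univ, true_and]
      rw [Nat.div_eq_iff hbl]
      constructor
      · rintro ⟨h1, h2⟩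
        refine ⟨h1, ?_⟩
        have : (q + 1) * b ^ l = q * b ^ l + b ^ l := by ring
        omega
      · rintro ⟨h1, h2⟩
        refine ⟨h1, ?_⟩
        have : (q + 1) * b ^ l = q * b ^ l + b ^ l := by ring
        omega
    have hmm : q * b ^ l ≤ (q + 1) * b ^ l := Nat.mul_le_mul_right _ (Nat.le_succ q)
    have t1 : ∑ x ∈ T.cl l x0, y x = Y ((q + 1) * b ^ l) - Y (q * b ^ l) := by
      rw [hset, ← lam_telescope e hinj Y (fun j hj => lamY_succ_of_ne e y j hj) hmm]
      refine Finset.sum_congr rfl fun x _ => ?_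
      rw [hstep]
      ring
    have t2 : ∑ x ∈ T.cl l x0, z θ x =
        ⌊Y ((q + 1) * b ^ l) + θ⌋ - ⌊Y (q * b ^ l) + θ⌋ := by
      rw [hset, ← lam_telescope e hinj (fun j => ⌊Y j + θ⌋) (fun j hj => by
        show ⌊lamY e y (j + 1) + θ⌋ = ⌊lamY e y j + θ⌋
        rw [lamY_succ_of_ne e y j hj]) hmm]
    have t3 : ∑ x ∈ T.cl l x0, (((a θ x : Fin (k + 2)) : ℕ) : ℝ) =
        ((∑ x ∈ T.cl l x0, z θ x : ℤ) : ℝ) := by
      push_cast
      exact Finset.sum_congr rfl fun x _ => haz θ x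
    have h4 := lam_floor (Y (q * b ^ l) + θ) (∑ x ∈ T.cl l x0, y x)
    have h5 : Y (q * b ^ l) + θ + ∑ x ∈ T.cl l x0, y x = Y ((q + 1) * b ^ l) + θ := by
      rw [t1]; ring
    rw [h5, ← t2] at h4
    rw [t3]
    exact ⟨by exact_mod_cast h4.1, by exact_mod_cast h4.2⟩

end Vale.Agent.P304.HST
end
end

section

section
set_option linter.all false

open scoped BigOperators

namespace Vale.Agent.P304.HST

variable {X : Type} [Fintype X] [DecidableEq X]

/-- configuration as a mass vector -/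
def vec {k : ℕ} (A : X → Fin (k + 2)) (x : X) : ℝ := ((A x : ℕ) : ℝ)

/-- sums over a subtype -/
theorem step_sum_sub {ι : Type} [Fintype ι] (P : ι → Prop) [DecidablePred P]
    (f : {i // P i} → ℝ) : ∑ i, (if h : P i then f ⟨i, h⟩ else 0) = ∑ a, f a := by
  symm
  refine Fintype.sum_of_injective Subtype.val Subtype.val_injective f _ (fun i hi => ?_)
    fun a => ?_
  · rw [dif_neg]
    intro h
    exact hi ⟨⟨i, h⟩, rfl⟩
  · rw [dif_pos a.2]

/-- mass of a configuration in a cluster, as an integer -/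
theorem step_cast {k : ℕ} (A : X → Fin (k + 2)) (C : Finset X) :
    ∑ y ∈ C, vec A y = ((∑ y ∈ C, (A y : ℕ) : ℤ) : ℝ) := by
  unfold vec
  push_cast
  rfl

/-- cost of the integral rounding in one cluster -/
theorem step_abs {ι : Type} [Fintype ι] (ν : ι → ℝ) (hν : ∀ i, 0 ≤ ν i) (h1 : ∑ i, ν i = 1)
    (n : ι → ℤ) (a : ℤ) (y : ℝ) (hm : ∑ i, ν i * (n i : ℝ) = y)
    (hs : ∀ i, ν i ≠ 0 → ⌊y⌋ ≤ n i ∧ n i ≤ ⌈y⌉) :
    ∑ i, ν i * |(a : ℝ) - (n i : ℝ)| = |(a : ℝ) - y| := by
  rcases le_or_gt a ⌊y⌋ with h | h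
  · have e1 : ∀ i, ν i * |(a : ℝ) - (n i : ℝ)| = ν i * (n i : ℝ) - ν i * a := by
      intro i
      by_cases hi : ν i = 0
      · rw [hi]; ring
      · have : (a : ℝ) ≤ n i := by exact_mod_cast h.trans (hs i hi).1
        rw [abs_of_nonpos (by linarith only [this])]
        ring
    have e2 : (a : ℝ) ≤ y := (by exact_mod_cast h : (a : ℝ) ≤ (⌊y⌋ : ℝ)).trans (Int.floor_le y)
    rw [Finset.sum_congr rfl fun i _ => e1 i, Finset.sum_sub_distrib, hm, ← Finset.sum_mul, h1,
      abs_of_nonpos (by linarith only [e2])]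
    ring
  · have h' : ⌈y⌉ ≤ a := (Int.ceil_le_floor_add_one y).trans h
    have e1 : ∀ i, ν i * |(a : ℝ) - (n i : ℝ)| = ν i * a - ν i * (n i : ℝ) := by
      intro i
      by_cases hi : ν i = 0
      · rw [hi]; ring
      · have : (n i : ℝ) ≤ a := by exact_mod_cast (hs i hi).2.trans h'
        rw [abs_of_nonneg (by linarith)]
        ring
    have e2 : y ≤ (a : ℝ) := (Int.le_ceil y).trans (by exact_mod_cast h')
    rw [Finset.sum_congr rfl fun i _ => e1 i, Finset.sum_sub_distrib, hm, ← Finset.sum_mul, h1,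
      abs_of_nonneg (by linarith only [e2])]
    ring

/-- cost of the integral rounding -/
theorem step_tn (T : Hier X) {k : ℕ} (A : X → Fin (k + 2)) (y : X → ℝ)
    (ν : (X → Fin (k + 2)) → ℝ) (hν : Bal T k y ν) :
    ∑ A', ν A' * T.tn (vec A) (vec A') = T.tn (vec A) y := by
  have key : ∀ l < T.D, ∀ C ∈ T.P l,
      ∑ A', ν A' * |∑ x ∈ C, vec A x - ∑ x ∈ C, vec A' x| =
        |∑ x ∈ C, vec A x - ∑ x ∈ C, y x| := by
    intro l hl C hC
    have hm : ∑ A' : X → Fin (k + 2), ν A' * (((∑ x ∈ C, (A' x : ℕ) : ℤ)) : ℝ) =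
        ∑ x ∈ C, y x := by
      simp only [← step_cast]
      simp only [Finset.mul_sum]
      rw [Finset.sum_comm]
      exact Finset.sum_congr rfl fun x _ => hν.mean x
    have := step_abs ν hν.nonneg hν.total (fun A' => ∑ x ∈ C, (A' x : ℕ)) (∑ x ∈ C, (A x : ℕ))
      (∑ x ∈ C, y x) hm (fun A' hA' => by
        have h1 := hν.supp A' hA' l hl.le C hC
        constructor
        · have h2 := h1.1
          have h3 : ((⌊∑ x ∈ C, y x⌋ : ℤ) : ℝ) ≤ ((∑ x ∈ C, (A' x : ℕ) : ℤ) : ℝ) := by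
            push_cast
            exact h2
          exact_mod_cast h3
        · have h2 := h1.2
          have h3 : ((∑ x ∈ C, (A' x : ℕ) : ℤ) : ℝ) ≤ ((⌈∑ x ∈ C, y x⌉ : ℤ) : ℝ) := by
            push_cast
            exact h2
          exact_mod_cast h3)
    simp only [← step_cast] at this
    exact this
  unfold Hier.tn
  simp only [Finset.mul_sum]
  rw [Finset.sum_comm]
  refine Finset.sum_congr rfl fun l hl => ?_
  rw [Finset.sum_comm]
  refine Finset.sum_congr rfl fun C hC => ?_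
  rw [← key l (Finset.mem_range.1 hl) C hC, Finset.mul_sum]
  refine Finset.sum_congr rfl fun A' _ => ?_
  ring

/-- ONE STEP of the randomized rounding as a joint law.
Proof: index type `α = {A // μ A ≠ 0}`, `p = μ`, `N A = vec A`; `exists_frac` gives `y A` with total
`sum A <= ⌈sum z⌉ <= k + 1`; `exists_bal` gives a law `ν_A`, balanced for `y A`.  Put
`π A A' = μ A * ν_A A'` (`0` if `μ A = 0`).  Balancedness for `z'`: `⌊z'(C)⌋ <= y A (C) <= ⌈z'(C)⌉`
gives `⌊z'(C)⌋ <= ⌊y A (C)⌋ <= A'(C) <= ⌈y A (C)⌉ <= ⌈z'(C)⌉` (integers).  Totals: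
`sum (y A) = sum A` is an integer, level `D`, so `sum A' = sum A`.  Cost: `A(C)` is an integer, so all
`A'(C) ∈ {⌊y A (C)⌋, ⌈y A (C)⌉}` lie on the same side of it:
`sum_A' ν_A(A') |A(C) - A'(C)| = |A(C) - y A (C)|`. -/
theorem exists_step (T : Hier X) (hρ : ∀ j, ∑ l ∈ Finset.range (j + 1), T.rho l ≤ 2 * T.rho j)
    [Nonempty X] {k : ℕ} (z z' : X → ℝ) (hz : ∀ x, 0 ≤ z x) (hz' : ∀ x, 0 ≤ z' x)
    (htot : ∑ x, z x = ∑ x, z' x) (hk : ∑ x, z x ≤ k + 1) (μ : (X → Fin (k + 2)) → ℝ)
    (hμ : Bal T k z μ) :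
    ∃ (π : (X → Fin (k + 2)) → (X → Fin (k + 2)) → ℝ) (μ' : (X → Fin (k + 2)) → ℝ),
      Bal T k z' μ' ∧ (∀ A A', 0 ≤ π A A') ∧ (∀ A, ∑ A', π A A' = μ A) ∧
      (∀ A', ∑ A, π A A' = μ' A') ∧ (∀ A A', π A A' ≠ 0 → ∑ x, vec A' x = ∑ x, vec A x) ∧
      ∑ A, ∑ A', π A A' * T.tn (vec A) (vec A') ≤ 8 * T.tn z z' := by
  classical
  let α : Type := {A : X → Fin (k + 2) // μ A ≠ 0}
  have hp : ∀ a : α, 0 < μ a.1 := fun a => lt_of_le_of_ne (hμ.nonneg a.1) (Ne.symm a.2)
  have hsub : ∀ f : (X → Fin (k + 2)) → ℝ, (∀ A, μ A = 0 → f A = 0) →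
      ∑ a : α, f a.1 = ∑ A, f A := by
    intro f hf
    rw [← step_sum_sub (fun A => μ A ≠ 0) (fun a => f a.1)]
    refine Finset.sum_congr rfl fun A _ => ?_
    by_cases h : μ A ≠ 0
    · rw [dif_pos h]
    · rw [dif_neg h]
      push Not at h
      exact (hf A h).symm
  have hp1 : ∑ a : α, μ a.1 = 1 := by
    rw [hsub μ fun A h => h]
    exact hμ.total
  obtain ⟨y, hy0, hymean, hybal, hytot, hycost⟩ := exists_frac T hρ (fun a : α => μ a.1) hp hp1
    (fun a => vec a.1) z z' hz hz' htot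
    (fun x => by
      rw [hsub (fun A => μ A * vec A x) fun A h => by rw [h, zero_mul]]
      exact hμ.mean x)
    (fun a l hl C hC => hμ.supp a.1 a.2 l hl C hC)
  have huniv : (Finset.univ : Finset X) ∈ T.P T.D := by
    rw [P_top T]
    exact Finset.mem_singleton_self _
  have hceil : (⌈∑ x, z x⌉ : ℝ) ≤ k + 1 := by
    have h1 : ⌈∑ x, z x⌉ ≤ ((k + 1 : ℕ) : ℤ) := Int.ceil_le.2 (by push_cast; exact hk)
    have h2 : ((⌈∑ x, z x⌉ : ℤ) : ℝ) ≤ (((k + 1 : ℕ) : ℤ) : ℝ) := by exact_mod_cast h1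
    push_cast at h2
    exact h2
  have hν : ∀ a : α, ∃ ν : (X → Fin (k + 2)) → ℝ, Bal T k (y a) ν := fun a =>
    exists_bal T k (y a) (hy0 a) (by
      rw [hytot a]
      exact (hμ.supp a.1 a.2 T.D le_rfl _ huniv).2.trans hceil)
  choose ν hν using hν
  let π : (X → Fin (k + 2)) → (X → Fin (k + 2)) → ℝ := fun A A' =>
    if h : μ A ≠ 0 then μ A * ν ⟨A, h⟩ A' else 0
  have hπ0 : ∀ A A', 0 ≤ π A A' := by
    intro A A'
    show 0 ≤ if h : μ A ≠ 0 then μ A * ν ⟨A, h⟩ A' else 0
    by_cases h : μ A ≠ 0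
    · rw [dif_pos h]
      exact mul_nonneg (hμ.nonneg A) ((hν ⟨A, h⟩).nonneg A')
    · rw [dif_neg h]
  -- expectations with respect to the joint law
  have hE : ∀ g : (X → Fin (k + 2)) → (X → Fin (k + 2)) → ℝ,
      ∑ A, ∑ A', π A A' * g A A' = ∑ a : α, μ a.1 * ∑ A', ν a A' * g a.1 A' := by
    intro g
    rw [← step_sum_sub (fun A => μ A ≠ 0) (fun a => μ a.1 * ∑ A', ν a A' * g a.1 A')]
    refine Finset.sum_congr rfl fun A _ => ?_
    by_cases h : μ A ≠ 0
    · rw [dif_pos h, Finset.mul_sum]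
      refine Finset.sum_congr rfl fun A' _ => ?_
      show (if h : μ A ≠ 0 then μ A * ν ⟨A, h⟩ A' else 0) * g A A' = _
      rw [dif_pos h, mul_assoc]
    · rw [dif_neg h]
      refine Finset.sum_eq_zero fun A' _ => ?_
      show (if h : μ A ≠ 0 then μ A * ν ⟨A, h⟩ A' else 0) * g A A' = _
      rw [dif_neg h, zero_mul]
  have hrow : ∀ A, ∑ A', π A A' = μ A := by
    intro A
    by_cases h : μ A ≠ 0
    · have e : ∀ A', π A A' = μ A * ν ⟨A, h⟩ A' := fun A' => by
        show (if h : μ A ≠ 0 then μ A * ν ⟨A, h⟩ A' else 0) = _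
        rw [dif_pos h]
      rw [Finset.sum_congr rfl fun A' _ => e A', ← Finset.mul_sum, (hν ⟨A, h⟩).total, mul_one]
    · have e : ∀ A', π A A' = 0 := fun A' => by
        show (if h : μ A ≠ 0 then μ A * ν ⟨A, h⟩ A' else 0) = _
        rw [dif_neg h]
      rw [Finset.sum_congr rfl fun A' _ => e A', Finset.sum_const_zero]
      push Not at h
      exact h.symm
  have hsupp : ∀ A A', π A A' ≠ 0 → ∃ h : μ A ≠ 0, ν ⟨A, h⟩ A' ≠ 0 := by
    intro A A' hne
    by_cases h : μ A ≠ 0
    · refine ⟨h, fun h0 => hne ?_⟩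
      show (if h : μ A ≠ 0 then μ A * ν ⟨A, h⟩ A' else 0) = 0
      rw [dif_pos h, h0, mul_zero]
    · refine absurd ?_ hne
      show (if h : μ A ≠ 0 then μ A * ν ⟨A, h⟩ A' else 0) = 0
      rw [dif_neg h]
  refine ⟨π, fun A' => ∑ A, π A A', ⟨?_, ?_, ?_, ?_⟩, hπ0, hrow, fun _ => rfl, ?_, ?_⟩
  · exact fun A' => Finset.sum_nonneg fun A _ => hπ0 A A'
  · rw [Finset.sum_comm, Finset.sum_congr rfl fun A _ => hrow A]
    exact hμ.total
  · intro x
    have h1 : ∑ A', (∑ A, π A A') * ((A' x : ℕ) : ℝ) = ∑ A, ∑ A', π A A' * vec A' x := by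
      rw [Finset.sum_comm]
      refine Finset.sum_congr rfl fun A' _ => ?_
      rw [Finset.sum_mul]
      rfl
    rw [h1, hE fun _ A' => vec A' x]
    rw [← hymean x]
    refine Finset.sum_congr rfl fun a _ => ?_
    congr 1
    exact (hν a).mean x
  · intro A' hA' l hl C hC
    have hex : ∃ A, π A A' ≠ 0 := by
      by_contra hcon
      push Not at hcon
      exact hA' (Finset.sum_eq_zero fun A _ => hcon A)
    obtain ⟨A, hA⟩ := hex
    obtain ⟨h, hne⟩ := hsupp A A' hA
    have h1 := (hν ⟨A, h⟩).supp A' hne l hl C hC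
    have h2 := hybal ⟨A, h⟩ l hl C hC
    constructor
    · refine le_trans ?_ h1.1
      exact_mod_cast Int.le_floor.2 h2.1
    · refine h1.2.trans ?_
      exact_mod_cast Int.ceil_le.2 h2.2
  · intro A A' hA
    obtain ⟨h, hne⟩ := hsupp A A' hA
    have h1 := (hν ⟨A, h⟩).supp A' hne T.D le_rfl _ huniv
    have h2 := hytot ⟨A, h⟩
    have h3 : ∑ x, y ⟨A, h⟩ x = ((∑ x, (A x : ℕ) : ℤ) : ℝ) := by
      rw [h2]
      exact step_cast A Finset.univ
    rw [h3, Int.floor_intCast, Int.ceil_intCast] at h1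
    rw [step_cast A Finset.univ]
    exact le_antisymm h1.2 h1.1
  · rw [hE fun A A' => T.tn (vec A) (vec A')]
    refine le_trans (le_of_eq ?_) hycost
    refine Finset.sum_congr rfl fun a _ => ?_
    rw [step_tn T a.1 (y a) (ν a) (hν a)]

end Vale.Agent.P304.HST
end
end

section

section
set_option linter.all false

open scoped BigOperators

namespace Vale.Agent.P304.HST

variable {X : Type} [Fintype X] [DecidableEq X]

/-- weight of the sequences which extend the history `h` -/
noncomputable def WW (F : Finset (List X)) (w : List X → ℝ) (h : List X) : ℝ :=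
  ∑ σ ∈ F.filter (fun σ => h <+: σ), w σ

theorem gs_zero {Y : Type} [Fintype Y] (m : ℕ) : gsum m (fun (_ : List Y) (_ : Y) => (0 : ℝ)) = 0 := by
  induction m with
  | zero => rfl
  | succ m ih =>
    show ∑ r : Y, ((0 : ℝ) + gsum m fun (_ : List Y) (_ : Y) => (0 : ℝ)) = 0
    rw [ih]
    simp only [add_zero, Finset.sum_const_zero]

theorem gs_congr {Y : Type} [Fintype Y] (m : ℕ) {G G' : List Y → Y → ℝ}
    (h : ∀ a r, G a r = G' a r) : gsum m G = gsum m G' := by
  have : G = G' := by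
    funext a r
    exact h a r
  rw [this]

theorem gs_sum {Y ι : Type} [Fintype Y] (S : Finset ι) (m : ℕ) (G : ι → List Y → Y → ℝ) :
    gsum m (fun h r => ∑ i ∈ S, G i h r) = ∑ i ∈ S, gsum m (G i) := by
  induction m generalizing G with
  | zero =>
    show (0 : ℝ) = ∑ i ∈ S, 0
    simp
  | succ m ih =>
    show ∑ r : Y, ((∑ i ∈ S, G i [] r) + gsum m fun h r' => ∑ i ∈ S, G i (r :: h) r') =
      ∑ i ∈ S, ∑ r : Y, (G i [] r + gsum m fun h r' => G i (r :: h) r')
    rw [Finset.sum_comm]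
    refine Finset.sum_congr rfl fun r _ => ?_
    rw [ih (fun i h r' => G i (r :: h) r'), Finset.sum_add_distrib]

theorem gs_one (c : ℝ) (m : ℕ) (σ : List X) (f : List X → List X → ℝ) (hm : σ.length ≤ m) :
    gsum m (fun h r => (if h ++ [r] <+: σ then c else 0) * f h (h ++ [r])) =
      c * ∑ t ∈ Finset.range σ.length, f (σ.take t) (σ.take (t + 1)) := by
  induction m generalizing σ f with
  | zero =>
    have h0 : σ = [] := List.eq_nil_of_length_eq_zero (Nat.le_zero.1 hm)
    subst h0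
    show (0 : ℝ) = _
    simp
  | succ m ih =>
    cases σ with
    | nil =>
      have h1 : ∀ (h : List X) (r : X),
          (if h ++ [r] <+: ([] : List X) then c else 0) * f h (h ++ [r]) = 0 := by
        intro h r
        rw [if_neg (by simp), zero_mul]
      rw [gs_congr _ h1, gs_zero]
      simp
    | cons s σ =>
      have hlen : σ.length ≤ m := by
        rw [List.length_cons] at hm
        omega
      show ∑ r : X, ((if [] ++ [r] <+: s :: σ then c else 0) * f [] ([] ++ [r]) +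
        gsum m fun h r' => (if r :: h ++ [r'] <+: s :: σ then c else 0) *
          f (r :: h) (r :: h ++ [r'])) = _
      have h1 : ∀ r : X, ((if [] ++ [r] <+: s :: σ then c else 0) * f [] ([] ++ [r]) +
        gsum m fun h r' => (if r :: h ++ [r'] <+: s :: σ then c else 0) *
          f (r :: h) (r :: h ++ [r'])) =
          if r = s then c * ∑ t ∈ Finset.range (s :: σ).length,
            f ((s :: σ).take t) ((s :: σ).take (t + 1)) else 0 := by
        intro r
        by_cases hr : r = s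
        · subst hr
          rw [if_pos rfl]
          have h2 : ∀ (h : List X) (r' : X),
              (if r :: h ++ [r'] <+: r :: σ then c else 0) * f (r :: h) (r :: h ++ [r']) =
              (if h ++ [r'] <+: σ then c else 0) *
                (fun a b => f (r :: a) (r :: b)) h (h ++ [r']) := by
            intro h r'
            have : (r :: h ++ [r'] <+: r :: σ) ↔ (h ++ [r'] <+: σ) := by
              rw [List.cons_append]
              exact List.prefix_cons_inj r
            rw [if_congr this rfl rfl]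
            rfl
          rw [gs_congr _ h2, ih σ (fun a b => f (r :: a) (r :: b)) hlen, List.length_cons,
            Finset.sum_range_succ', if_pos (by simp)]
          simp only [List.nil_append, List.take_succ_cons, List.take_zero]
          ring
        · rw [if_neg hr]
          have h2 : ∀ (h : List X) (r' : X),
              (if r :: h ++ [r'] <+: s :: σ then c else 0) * f (r :: h) (r :: h ++ [r']) = 0 := by
            intro h r'
            rw [if_neg, zero_mul]
            rw [List.cons_append, List.cons_prefix_cons]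
            exact fun h => hr h.1
          rw [gs_congr _ h2, gs_zero, if_neg, zero_mul, add_zero]
          rw [List.nil_append, List.cons_prefix_cons]
          exact fun h => hr h.1
      rw [Finset.sum_congr rfl fun r _ => h1 r, Finset.sum_ite_eq' Finset.univ s]
      simp only [Finset.mem_univ, ↓reduceIte, List.length_cons, List.take_succ_cons]

/-- sums along the sequences as sums over the history tree.
Proof: induction on `m` generalizing `F`, `f` and the common prefix (for instance prove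
`∑ σ ∈ F.filter (g <+: ·), w σ * ∑ t ∈ range (σ.length - g.length), f (σ.take (g.length + t)) ... =
gsum m (fun h r => WW F w (g ++ h ++ [r]) * f (g ++ h) r)`), or: both sides are the sum over all
`σ ∈ F` and all `(h, r)` with `h ++ [r] <+: σ` of `w σ * f h r`; linear in `w`, so it is enough to
treat one `σ`: `gsum m (fun h r => (if h ++ [r] <+: σ then c else 0) * f h r)
= c * ∑ t ∈ range σ.length, f (σ.take t) σ[t]` for `σ.length <= m`, by induction on `σ`. -/
theorem sum_eq_gsum (F : Finset (List X)) (w : List X → ℝ) (f : List X → List X → ℝ) (m : ℕ)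
    (hm : ∀ σ ∈ F, σ.length ≤ m) :
    ∑ σ ∈ F, w σ * ∑ t ∈ Finset.range σ.length, f (σ.take t) (σ.take (t + 1))
      = gsum m (fun h r => WW F w (h ++ [r]) * f h (h ++ [r])) := by
  have h1 : ∀ (h : List X) (r : X), WW F w (h ++ [r]) * f h (h ++ [r]) =
      ∑ σ ∈ F, (if h ++ [r] <+: σ then w σ else 0) * f h (h ++ [r]) := by
    intro h r
    rw [← Finset.sum_mul]
    congr 1
    unfold WW
    rw [Finset.sum_filter]
  rw [gs_congr _ h1, gs_sum F m fun σ h r => (if h ++ [r] <+: σ then w σ else 0) * f h (h ++ [r])]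
  exact Finset.sum_congr rfl fun σ hσ => (gs_one (w σ) m σ f (hm σ hσ)).symm

end Vale.Agent.P304.HST
end
end

section

section
set_option linter.all false

open scoped BigOperators

namespace Vale.Agent.P304.HST

/-- a point of the support which is at least as good as the average -/
theorem exists_pick {α : Type} [Fintype α] (p : α → ℝ) (hp : ∀ x, 0 ≤ p x) {M : ℝ}
    (hM : ∑ x, p x = M) (hM0 : M ≠ 0) (c : α → ℝ) :
    ∃ x, p x ≠ 0 ∧ M * c x ≤ ∑ y, p y * c y := by
  by_contra hcon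
  push Not at hcon
  have h1 : ∃ x, p x ≠ 0 := by
    by_contra h2
    push Not at h2
    apply hM0
    rw [← hM]
    exact Finset.sum_eq_zero fun x _ => h2 x
  obtain ⟨x0, hx0⟩ := h1
  have h3 : ∑ x, p x * (∑ y, p y * c y) < ∑ x, p x * (M * c x) := by
    refine Finset.sum_lt_sum (fun x _ => ?_) ⟨x0, Finset.mem_univ _, ?_⟩
    · by_cases hx : p x = 0
      · rw [hx, zero_mul, zero_mul]
      · exact mul_le_mul_of_nonneg_left (hcon x hx).le (hp x)
    · exact mul_lt_mul_of_pos_left (hcon x0 hx0) (lt_of_le_of_ne (hp x0) (Ne.symm hx0))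
  have h4 : ∑ x, p x * (M * c x) = M * ∑ x, p x * c x := by
    rw [Finset.mul_sum]
    exact Finset.sum_congr rfl fun x _ => by ring
  rw [← Finset.sum_mul, hM, h4] at h3
  exact lt_irrefl _ h3

variable {X : Type} [Fintype X] [DecidableEq X]

theorem Bal.floor_le {T : Hier X} {k : ℕ} {z : X → ℝ} {μ : (X → Fin (k + 2)) → ℝ}
    (hμ : Bal T k z μ) {A : X → Fin (k + 2)} (hA : μ A ≠ 0) (x : X) :
    (⌊z x⌋ : ℝ) ≤ vec A x := by
  have h1 : ({x} : Finset X) ∈ T.P 0 :=
    Finset.mem_image.2 ⟨x, Finset.mem_univ _, T.cl_zero x⟩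
  have h2 := (hμ.supp A hA 0 (Nat.zero_le _) {x} h1).1
  rw [Finset.sum_singleton, Finset.sum_singleton] at h2
  exact h2

/-- the plan which starts with `A` and, after the first request `r`, follows the plan `b r` -/
def detPlan {Y S : Type} (b : Y → S → List Y → S) (g : Y → S → S) (A : S) : List Y → S
  | [] => A
  | r :: h => b r (g r A) h

/-- DERANDOMIZATION along the history tree.
Proof: induction on `m`, generalizing `Z`, `W`, `μ`.  `m = 0`: `a A h = A` (only `h = []` matters).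
`m + 1`: for every request `r` take `π_r`, `μ_r` from `exists_step` (`z = Z []`, `z' = Z [r]`) and the
induction hypothesis for `Z_r h = Z (r :: h)`, `W_r h = W (r :: h)`, `μ_r`: plans `b r A'`.
For `A` with `μ A ≠ 0` choose `A'_r(A)` with `π_r A A'_r(A) ≠ 0` minimizing
`W [r] * tn A A' + gsum m (...)(b r A')`; the minimum is at most the `π_r A · / μ A` average.  Put
`a A [] = A`, `a A (r :: h) = b r (A'_r(A)) h`.  Then
`∑_A μ A * cost ≤ ∑_r (W [r] ∑ π_r tn + ∑_A' μ_r A' * gsum m ...) ≤ 8 * gsum (m+1) ...`. -/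
theorem exists_det (T : Hier X) (hρ : ∀ j, ∑ l ∈ Finset.range (j + 1), T.rho l ≤ 2 * T.rho j)
    [Nonempty X] {k : ℕ} (τ : ℝ) (hτ : τ ≤ k + 1) (m : ℕ) : ∀ (Z : List X → X → ℝ)
    (hZ : ∀ h x, 0 ≤ Z h x) (hZτ : ∀ h, ∑ x, Z h x = τ) (W : List X → ℝ) (hW : ∀ h, 0 ≤ W h)
    (μ : (X → Fin (k + 2)) → ℝ) (hμ : Bal T k (Z []) μ),
    ∃ a : (X → Fin (k + 2)) → List X → (X → Fin (k + 2)), (∀ A, a A [] = A) ∧
      (∀ A, μ A ≠ 0 → ∀ h : List X, h.length ≤ m →
        (∀ x, (⌊Z h x⌋ : ℝ) ≤ vec (a A h) x) ∧ ∑ x, vec (a A h) x = ∑ x, vec A x) ∧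
      ∑ A, μ A * gsum m (fun h r => W (h ++ [r]) * T.tn (vec (a A h)) (vec (a A (h ++ [r]))))
        ≤ 8 * gsum m (fun h r => W (h ++ [r]) * T.tn (Z h) (Z (h ++ [r]))) := by
  induction m with
  | zero =>
    intro Z hZ hZτ W hW μ hμ
    refine ⟨fun A _ => A, fun A => rfl, fun A hA h hh => ?_, ?_⟩
    · obtain rfl : h = [] := List.length_eq_zero_iff.1 (Nat.le_zero.1 hh)
      exact ⟨fun x => hμ.floor_le hA x, rfl⟩
    · simp only [gsum, mul_zero, Finset.sum_const_zero, le_refl]
  | succ m ih =>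
    intro Z hZ hZτ W hW μ hμ
    have hst := fun r : X => exists_step T hρ (k := k) (Z []) (Z [r]) (hZ []) (hZ [r])
      ((hZτ []).trans (hZτ [r]).symm) ((hZτ []).le.trans hτ) μ hμ
    choose π μ' hμ' hπ0 hπ1 hπ2 hπ3 hπ4 using hst
    have hind := fun r : X => ih (fun h => Z (r :: h)) (fun h => hZ (r :: h))
      (fun h => hZτ (r :: h)) (fun h => W (r :: h)) (fun h => hW (r :: h)) (μ' r) (hμ' r)
    choose b hb0 hb1 hb2 using hind
    -- cost of the plan `b r A'`
    set f : X → (X → Fin (k + 2)) → ℝ := fun r A' =>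
      gsum m (fun h r' => W (r :: (h ++ [r'])) *
        T.tn (vec (b r A' h)) (vec (b r A' (h ++ [r'])))) with hf
    have hpick : ∀ (r : X) (A : X → Fin (k + 2)), ∃ A', μ A ≠ 0 →
        (π r A A' ≠ 0 ∧ μ A * (W [r] * T.tn (vec A) (vec A') + f r A')
          ≤ ∑ A'', π r A A'' * (W [r] * T.tn (vec A) (vec A'') + f r A'')) := by
      intro r A
      by_cases hA : μ A = 0
      · exact ⟨A, fun h => absurd hA h⟩
      · obtain ⟨A', h1, h2⟩ := exists_pick (π r A) (hπ0 r A) (hπ1 r A) hA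
          (fun A' => W [r] * T.tn (vec A) (vec A') + f r A')
        exact ⟨A', fun _ => ⟨h1, h2⟩⟩
    choose g hg using hpick
    refine ⟨detPlan b g, fun A => rfl, fun A hA h hh => ?_, ?_⟩
    · cases h with
      | nil => exact ⟨fun x => hμ.floor_le hA x, rfl⟩
      | cons r h =>
        have h1 : π r A (g r A) ≠ 0 := (hg r A hA).1
        have h2 : μ' r (g r A) ≠ 0 := by
          have h3 : π r A (g r A) ≤ μ' r (g r A) := by
            rw [← hπ2 r (g r A)]
            exact Finset.single_le_sum (f := fun B => π r B (g r A)) (fun B _ => hπ0 r B (g r A))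
              (Finset.mem_univ A)
          have h4 : 0 < π r A (g r A) := lt_of_le_of_ne (hπ0 _ _ _) (Ne.symm h1)
          exact (lt_of_lt_of_le h4 h3).ne'
        obtain ⟨h5, h6⟩ := hb1 r (g r A) h2 h (by simpa only [List.length_cons, add_le_add_iff_right] using hh)
        exact ⟨h5, h6.trans (hπ3 r A (g r A) h1)⟩
    · -- the cost
      have e1 : ∀ A, μ A * gsum (m + 1) (fun h r => W (h ++ [r]) *
            T.tn (vec (detPlan b g A h)) (vec (detPlan b g A (h ++ [r]))))
          ≤ ∑ r, ∑ A', π r A A' * (W [r] * T.tn (vec A) (vec A') + f r A') := by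
        intro A
        have e2 : gsum (m + 1) (fun h r => W (h ++ [r]) *
            T.tn (vec (detPlan b g A h)) (vec (detPlan b g A (h ++ [r]))))
            = ∑ r, (W [r] * T.tn (vec A) (vec (g r A)) + f r (g r A)) := by
          show ∑ r, (W [r] * T.tn (vec A) (vec (b r (g r A) [])) + f r (g r A)) = _
          refine Finset.sum_congr rfl fun r _ => ?_
          rw [hb0]
        rw [e2, Finset.mul_sum]
        refine Finset.sum_le_sum fun r _ => ?_
        by_cases hA : μ A = 0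
        · have h7 : ∀ A', π r A A' = 0 := fun A' =>
            (Finset.sum_eq_zero_iff_of_nonneg (fun B _ => hπ0 r A B)).1
              ((hπ1 r A).trans hA) A' (Finset.mem_univ _)
          rw [hA, zero_mul]
          exact (Finset.sum_eq_zero fun A' _ => by rw [h7 A', zero_mul]).ge
        · exact (hg r A hA).2
      refine (Finset.sum_le_sum fun A _ => e1 A).trans ?_
      rw [Finset.sum_comm]
      have e3 : (8 : ℝ) * gsum (m + 1) (fun h r => W (h ++ [r]) * T.tn (Z h) (Z (h ++ [r])))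
          = ∑ r, (W [r] * (8 * T.tn (Z []) (Z [r])) +
            8 * gsum m (fun h r' => W (r :: (h ++ [r'])) *
              T.tn (Z (r :: h)) (Z (r :: (h ++ [r']))))) := by
        show (8 : ℝ) * ∑ r, (W [r] * T.tn (Z []) (Z [r]) +
            gsum m (fun h r' => W (r :: (h ++ [r'])) *
              T.tn (Z (r :: h)) (Z (r :: (h ++ [r']))))) = _
        rw [Finset.mul_sum]
        exact Finset.sum_congr rfl fun r _ => by ring
      rw [e3]
      refine Finset.sum_le_sum fun r _ => ?_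
      have e4 : ∑ A, ∑ A', π r A A' * (W [r] * T.tn (vec A) (vec A') + f r A')
          = W [r] * ∑ A, ∑ A', π r A A' * T.tn (vec A) (vec A') + ∑ A', μ' r A' * f r A' := by
        have e5 : ∑ A, ∑ A', π r A A' * (W [r] * T.tn (vec A) (vec A') + f r A')
            = ∑ A, ∑ A', (W [r] * (π r A A' * T.tn (vec A) (vec A')) + π r A A' * f r A') :=
          Finset.sum_congr rfl fun A _ => Finset.sum_congr rfl fun A' _ => by ring
        rw [e5]
        simp only [Finset.sum_add_distrib]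
        congr 1
        · rw [Finset.mul_sum]
          exact Finset.sum_congr rfl fun A _ => by rw [Finset.mul_sum]
        · rw [Finset.sum_comm]
          refine Finset.sum_congr rfl fun A' _ => ?_
          rw [← Finset.sum_mul, hπ2]
      rw [e4]
      exact add_le_add (mul_le_mul_of_nonneg_left (hπ4 r) (hW [r])) (hb2 r)

end Vale.Agent.P304.HST
end
end

section

section
set_option linter.all false

open scoped BigOperators

namespace Vale.Agent.P304.HST

variable {X : Type} [Fintype X] [DecidableEq X]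

theorem derand_gsum_mul {Y : Type} [Fintype Y] (c : ℝ) (m : ℕ) (G : List Y → Y → ℝ) :
    gsum m (fun h r => c * G h r) = c * gsum m G := by
  induction m generalizing G with
  | zero => simp [gsum]
  | succ m ih =>
    simp only [gsum]
    rw [Finset.mul_sum]
    refine Finset.sum_congr rfl fun r _ => ?_
    rw [ih (fun h r' => G (r :: h) r')]
    ring

theorem derand_gsum_nonneg {Y : Type} [Fintype Y] (m : ℕ) (G : List Y → Y → ℝ)
    (hG : ∀ h r, 0 ≤ G h r) : 0 ≤ gsum m G := by
  induction m generalizing G with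
  | zero => simp [gsum]
  | succ m ih =>
    simp only [gsum]
    exact Finset.sum_nonneg fun r _ => add_nonneg (hG _ _) (ih _ fun h r' => hG _ _)

/-- choice of one configuration with exactly `k` servers.
Proof: `exists_bal` for `Z [] / (1 - 1/(4k))`, total `τ = k / (1 - 1/(4k)) <= k + 1/3`; the total of
`A` is `k` or `k + 1` (level `D`), with mean `τ`, so the total is `k` with probability `>= 2/3`;
`∑_(A with total k) μ A * cost A <= 8 gsum`, hence some `A` with total `k`, `μ A ≠ 0` has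
`cost A <= 12 gsum(scaled Z) <= 16 gsum(Z)` (`tn_smul`, `1/(1 - 1/(4k)) <= 4/3`). -/
theorem exists_config (T : Hier X) (hρ : ∀ j, ∑ l ∈ Finset.range (j + 1), T.rho l ≤ 2 * T.rho j)
    [Nonempty X] {k : ℕ} (hk : 1 ≤ k) (F : Finset (List X)) (w : List X → ℝ)
    (hw : ∀ σ ∈ F, 0 ≤ w σ) (Z : List X → X → ℝ) (hZ : ∀ h x, 0 ≤ Z h x)
    (hZk : ∀ h, ∑ x, Z h x = k) :
    ∃ A : List X → X → ℕ, (∀ σ ∈ F, ∀ t ≤ σ.length, ∑ x, A (σ.take t) x = k) ∧
      (∀ σ ∈ F, ∀ t ≤ σ.length, ∀ x, 1 - 1 / (4 * k) ≤ Z (σ.take t) x → 1 ≤ A (σ.take t) x) ∧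
      ∑ σ ∈ F, w σ * ∑ t ∈ Finset.range σ.length,
          T.tn (fun x => (A (σ.take t) x : ℝ)) (fun x => (A (σ.take (t + 1)) x : ℝ))
        ≤ 16 * ∑ σ ∈ F, w σ * ∑ t ∈ Finset.range σ.length,
          T.tn (Z (σ.take t)) (Z (σ.take (t + 1))) := by
  classical
  have hk1 : (1 : ℝ) ≤ k := by exact_mod_cast hk
  have hk0 : (0 : ℝ) < k := by linarith only [hk1]
  have h4k : 1 / (4 * (k : ℝ)) ≤ 1 / 4 := by
    apply one_div_le_one_div_of_le (by norm_num)
    linarith only [hk1]
  have h4k0 : 0 < 1 / (4 * (k : ℝ)) := by positivity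
  obtain ⟨c, hc⟩ : ∃ c : ℝ, c = 1 - 1 / (4 * (k : ℝ)) := ⟨_, rfl⟩
  have hc34 : 3 / 4 ≤ c := by rw [hc]; linarith only [h4k]
  have hc0 : 0 < c := by linarith only [h4k, hc]
  have hc1 : c < 1 := by rw [hc]; linarith only [h4k0]
  have hck : c * k = k - 1 / 4 := by rw [hc]; field_simp
  obtain ⟨d, hd⟩ : ∃ d : ℝ, d = c⁻¹ := ⟨_, rfl⟩
  have hd0 : 0 < d := by rw [hd]; positivity
  have hd1 : 1 < d := by rw [hd]; exact (one_lt_inv₀ hc0).2 hc1
  have hd43 : d ≤ 4 / 3 := by
    rw [hd]
    calc c⁻¹ ≤ (3 / 4 : ℝ)⁻¹ := inv_anti₀ (by norm_num) hc34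
      _ = 4 / 3 := by norm_num
  have hdc : d * c = 1 := by rw [hd]; exact inv_mul_cancel₀ hc0.ne'
  have hdk : d * k ≤ k + 1 / 3 := by
    have h1 : d * (c * k) = k := by rw [← mul_assoc, hdc, one_mul]
    rw [hck] at h1
    have h2 : d * (k : ℝ) = k + d / 4 := by linarith only [h1]
    rw [h2]
    linarith only [hd43]
  have hdk' : (k : ℝ) < d * k := by nlinarith only [hd1, hk1]
  obtain ⟨Z', hZ'⟩ : ∃ Z' : List X → X → ℝ, Z' = fun h x => d * Z h x := ⟨_, rfl⟩
  have hZ'0 : ∀ h x, 0 ≤ Z' h x := fun h x => by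
    rw [hZ']; exact mul_nonneg hd0.le (hZ h x)
  have hZ'k : ∀ h, ∑ x, Z' h x = d * k := fun h => by
    rw [hZ']; simp only [← Finset.mul_sum, hZk]
  obtain ⟨μ, hμ⟩ := exists_bal T k (Z' []) (hZ'0 []) (by rw [hZ'k]; linarith only [hdk])
  have hW : ∀ h, 0 ≤ WW F w h := fun h =>
    Finset.sum_nonneg fun σ hσ => hw σ (Finset.mem_filter.1 hσ).1
  obtain ⟨m, hm⟩ : ∃ m : ℕ, ∀ σ ∈ F, σ.length ≤ m :=
    ⟨F.sup List.length, fun σ hσ => Finset.le_sup (f := List.length) hσ⟩
  obtain ⟨a, ha0, ha1, ha2⟩ := exists_det T hρ (d * k) (by linarith only [hdk]) m Z' hZ'0 hZ'k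
    (WW F w) hW μ hμ
  obtain ⟨S, hS⟩ : ∃ S : ℝ, S = ∑ σ ∈ F, w σ * ∑ t ∈ Finset.range σ.length,
          T.tn (Z (σ.take t)) (Z (σ.take (t + 1))) := ⟨_, rfl⟩
  have hS' : gsum m (fun h r => WW F w (h ++ [r]) * T.tn (Z' h) (Z' (h ++ [r]))) = d * S := by
    rw [hS, sum_eq_gsum F w (fun h h' => T.tn (Z h) (Z h')) m hm, ← derand_gsum_mul]
    congr 1
    funext h r
    rw [hZ']
    simp only
    rw [tn_smul T hd0.le]
    ring
  obtain ⟨G, hG⟩ : ∃ G : (X → Fin (k + 2)) → ℝ, G = fun A => gsum m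
    (fun h r => WW F w (h ++ [r]) * T.tn (vec (a A h)) (vec (a A (h ++ [r])))) := ⟨_, rfl⟩
  have hG0 : ∀ A, 0 ≤ G A := fun A => by
    rw [hG]
    exact derand_gsum_nonneg m _ fun h r => mul_nonneg (hW _) (tn_nonneg T _ _)
  have hsum : ∑ A, μ A * G A ≤ 8 * (d * S) := by
    rw [← hS', hG]
    exact ha2
  -- totals
  have htop : ∀ A, μ A ≠ 0 → (k : ℝ) ≤ ∑ x, vec A x ∧ ∑ x, vec A x ≤ k + 1 := by
    intro A hA
    have h1 := hμ.supp A hA T.D le_rfl Finset.univ (by rw [P_top]; simp)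
    rw [hZ'k] at h1
    have h2 : ⌊d * (k : ℝ)⌋ = k := by
      rw [Int.floor_eq_iff]
      constructor
      · push_cast; linarith only [hdk']
      · push_cast; linarith only [hdk]
    have h3 : ⌈d * (k : ℝ)⌉ ≤ k + 1 := by
      rw [Int.ceil_le]
      push_cast
      linarith only [hdk]
    have h3' : (⌈d * (k : ℝ)⌉ : ℝ) ≤ k + 1 := by exact_mod_cast h3
    rw [h2] at h1
    exact ⟨by simpa only [vec, Int.cast_natCast] using h1.1, le_trans h1.2 h3'⟩
  have hnat : ∀ A : X → Fin (k + 2), ∑ x, vec A x = ((∑ x, (A x : ℕ) : ℕ) : ℝ) := fun A => by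
    simp only [vec, Nat.cast_sum]
  obtain ⟨K, hK⟩ : ∃ K : Finset (X → Fin (k + 2)), K = Finset.univ.filter
    (fun A => μ A ≠ 0 ∧ ∑ x, (A x : ℕ) = k) := ⟨_, rfl⟩
  have hmean : ∑ A, μ A * ∑ x, vec A x = d * k := by
    simp only [Finset.mul_sum]
    rw [Finset.sum_comm, ← hZ'k []]
    exact Finset.sum_congr rfl fun x _ => hμ.mean x
  have hKμ : 2 / 3 ≤ ∑ A ∈ K, μ A := by
    have h1 : ∀ A, μ A * (k + 1 - ∑ x, vec A x) ≤ if A ∈ K then μ A else 0 := by
      intro A
      by_cases hA : A ∈ K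
      · rw [if_pos hA]
        rw [hK, Finset.mem_filter] at hA
        have := (htop A hA.2.1).1
        have h2 := hμ.nonneg A
        nlinarith only [this, h2]
      · rw [if_neg hA]
        by_cases h0 : μ A = 0
        · rw [h0]; simp
        · have h2 : ∑ x, (A x : ℕ) ≠ k := fun h => hA (by
            rw [hK, Finset.mem_filter]; exact ⟨Finset.mem_univ _, h0, h⟩)
          have h3 := (htop A h0).1
          rw [hnat] at h3
          have h4 : k ≤ ∑ x, (A x : ℕ) := by exact_mod_cast h3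
          have h5 : k + 1 ≤ ∑ x, (A x : ℕ) := by omega
          have h6 : ((k : ℝ) + 1) ≤ ∑ x, vec A x := by rw [hnat]; exact_mod_cast h5
          have h7 := hμ.nonneg A
          nlinarith only [h6, h7]
    have h2 := Finset.sum_le_sum fun A (_ : A ∈ Finset.univ) => h1 A
    rw [Finset.sum_ite_mem, Finset.univ_inter] at h2
    have h3 : ∑ A, μ A * ((k : ℝ) + 1 - ∑ x, vec A x) = (k + 1) - d * k := by
      simp only [mul_sub]
      rw [Finset.sum_sub_distrib, hmean, ← Finset.sum_mul, hμ.total, one_mul]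
    rw [h3] at h2
    linarith only [hdk, h2]
  have hS0 : 0 ≤ S := by
    rw [hS]
    exact Finset.sum_nonneg fun σ hσ => mul_nonneg (hw σ hσ)
      (Finset.sum_nonneg fun t _ => tn_nonneg T _ _)
  have hKne : K.Nonempty := by
    by_contra h
    rw [Finset.not_nonempty_iff_eq_empty] at h
    rw [h] at hKμ
    norm_num at hKμ
  obtain ⟨A, hA, hAG⟩ : ∃ A ∈ K, μ A * G A ≤ μ A * (12 * (d * S)) := by
    apply Finset.exists_le_of_sum_le hKne
    calc ∑ A ∈ K, μ A * G A ≤ ∑ A, μ A * G A :=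
          Finset.sum_le_sum_of_subset_of_nonneg (Finset.subset_univ _)
            fun A _ _ => mul_nonneg (hμ.nonneg A) (hG0 A)
      _ ≤ 8 * (d * S) := hsum
      _ ≤ (∑ A ∈ K, μ A) * (12 * (d * S)) := by
          have : 0 ≤ d * S := mul_nonneg hd0.le hS0
          nlinarith only [hKμ, this]
      _ = ∑ A ∈ K, μ A * (12 * (d * S)) := by rw [Finset.sum_mul]
  rw [hK, Finset.mem_filter] at hA
  have hμA : 0 < μ A := lt_of_le_of_ne (hμ.nonneg A) (Ne.symm hA.2.1)
  have hGA : G A ≤ 16 * S := by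
    have h1 : G A ≤ 12 * (d * S) := le_of_mul_le_mul_left hAG hμA
    nlinarith only [h1, hd43, hS0]
  refine ⟨fun h x => (a A h x : ℕ), ?_, ?_, ?_⟩
  · intro σ hσ t ht
    have h1 := (ha1 A hA.2.1 (σ.take t) (le_trans (by simp only [List.length_take, inf_le_right]) (hm σ hσ))).2
    rw [hnat, hnat, hA.2.2] at h1
    exact_mod_cast h1
  · intro σ hσ t ht x hx
    have h1 := (ha1 A hA.2.1 (σ.take t) (le_trans (by simp only [List.length_take, inf_le_right]) (hm σ hσ))).1 x
    have h2 : (1 : ℝ) ≤ Z' (σ.take t) x := by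
      rw [hZ']
      simp only
      rw [← hc] at hx
      calc (1 : ℝ) = d * c := hdc.symm
        _ ≤ d * Z (σ.take t) x := mul_le_mul_of_nonneg_left hx hd0.le
    have h3 : (1 : ℤ) ≤ ⌊Z' (σ.take t) x⌋ := by
      rw [Int.le_floor]; exact_mod_cast h2
    have h4 : (1 : ℝ) ≤ (⌊Z' (σ.take t) x⌋ : ℝ) := by exact_mod_cast h3
    have h5 : (1 : ℝ) ≤ ((a A (σ.take t) x : ℕ) : ℝ) := le_trans h4 h1
    exact_mod_cast h5
  · rw [← hS]
    refine le_trans (le_of_eq ?_) hGA
    rw [hG]
    exact sum_eq_gsum F w (fun h h' => T.tn (vec (a A h)) (vec (a A h'))) m hm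

end Vale.Agent.P304.HST
end
end

section

section
set_option linter.all false

open scoped BigOperators

namespace Vale.Agent.P304.HST

variable {X : Type} [Fintype X] [DecidableEq X]

/-- occupation numbers after one move -/
theorem cnt_update {k : ℕ} (p : Fin k → X) (i : Fin k) (y : X) (hy : p i ≠ y) (z : X) :
    (cnt (Function.update p i y) z : ℝ) + (if z = p i then 1 else 0)
      = cnt p z + (if z = y then 1 else 0) := by
  unfold cnt
  have e : ∀ q : Fin k → X, ((Finset.univ.filter fun j => q j = z).card : ℝ)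
      = ∑ j, (if q j = z then (1 : ℝ) else 0) := by
    intro q
    rw [Finset.card_filter]
    push_cast
    rfl
  rw [e, e, ← Finset.add_sum_erase _ _ (Finset.mem_univ i),
    ← Finset.add_sum_erase Finset.univ (fun j => if p j = z then (1 : ℝ) else 0)
      (Finset.mem_univ i)]
  have h3 : ∀ l ∈ Finset.univ.erase i,
      (if Function.update p i y l = z then (1 : ℝ) else 0) = (if p l = z then (1 : ℝ) else 0) := by
    intro l hl
    rw [Function.update_of_ne (Finset.ne_of_mem_erase hl)]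
  rw [Finset.sum_congr rfl h3, Function.update_self]
  simp only [eq_comm (a := z)]
  ring

/-- one greedy move: pick a surplus point and a deficit point in a common cluster of least
level. -/
theorem exists_move [MetricSpace X] (T : Hier X)
    (hd : ∀ l x y, y ∈ T.cl l x → dist x y ≤ 2 * ∑ j ∈ Finset.range l, T.rho j) {k : ℕ}
    (p : Fin k → X) (n : X → ℕ) (hn : ∑ x, n x = k) (hne : cnt p ≠ n) :
    ∃ (i : Fin k) (y : X), n (p i) < cnt p (p i) ∧ cnt p y < n y ∧
      dist (p i) y + T.tn (fun x => (cnt (Function.update p i y) x : ℝ)) (fun x => (n x : ℝ)) ≤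
        T.tn (fun x => (cnt p x : ℝ)) (fun x => (n x : ℝ)) := by
  classical
  have hsum : ∑ x, cnt p x = ∑ x, n x := by rw [sum_cnt, hn]
  -- there is a surplus point and a deficit point
  have hx : ∃ x, n x < cnt p x := by
    by_contra hc
    push Not at hc
    apply hne
    funext x
    exact (Finset.sum_eq_sum_iff_of_le fun x _ => hc x).1 hsum x (Finset.mem_univ x)
  have hy : ∃ y, cnt p y < n y := by
    by_contra hc
    push Not at hc
    apply hne
    funext x
    exact ((Finset.sum_eq_sum_iff_of_le fun x _ => hc x).1 hsum.symm x (Finset.mem_univ x)).symm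
  have hex : ∃ l, ∃ x y, n x < cnt p x ∧ cnt p y < n y ∧ y ∈ T.cl l x := by
    obtain ⟨x, hx⟩ := hx
    obtain ⟨y, hy⟩ := hy
    exact ⟨T.D, x, y, hx, hy, by rw [T.cl_top]; exact Finset.mem_univ _⟩
  obtain ⟨l, ⟨x, y, hsx, hdy, hyx⟩, hmin⟩ : ∃ l, (∃ x y, n x < cnt p x ∧ cnt p y < n y ∧
      y ∈ T.cl l x) ∧ ∀ j < l, ∀ x y, n x < cnt p x → cnt p y < n y → y ∉ T.cl j x := by
    refine ⟨Nat.find hex, Nat.find_spec hex, fun j hj x y h1 h2 h3 => ?_⟩
    exact Nat.find_min hex hj ⟨x, y, h1, h2, h3⟩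
  have hlD : l ≤ T.D := by
    by_contra hc
    push Not at hc
    refine hmin T.D hc x y hsx hdy ?_
    rw [T.cl_top]
    exact Finset.mem_univ _
  have hxy : x ≠ y := by
    rintro rfl
    omega
  obtain ⟨i, hi⟩ : ∃ i, p i = x := by
    have h0 : 0 < cnt p x := by omega
    unfold cnt at h0
    obtain ⟨i, hi⟩ := Finset.card_pos.1 h0
    exact ⟨i, (Finset.mem_filter.1 hi).2⟩
  refine ⟨i, y, by rw [hi]; exact hsx, hdy, ?_⟩
  have hc : ∀ z, (cnt (Function.update p i y) z : ℝ)
      = cnt p z + (if z = y then 1 else 0) - (if z = x then 1 else 0) := by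
    intro z
    have := cnt_update p i y (by rw [hi]; exact hxy) z
    rw [hi] at this
    linarith only [this]
  have hS : ∀ C : Finset X, ∑ z ∈ C, (cnt (Function.update p i y) z : ℝ)
      = ∑ z ∈ C, (cnt p z : ℝ) + (if y ∈ C then 1 else 0) - (if x ∈ C then 1 else 0) := by
    intro C
    simp only [hc, Finset.sum_sub_distrib, Finset.sum_add_distrib, Finset.sum_ite_eq']
  -- the level estimate
  have key : ∀ j, T.rho j * ∑ C ∈ T.P j,
        |∑ z ∈ C, (cnt (Function.update p i y) z : ℝ) - ∑ z ∈ C, (n z : ℝ)|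
      + (if j < l then 2 * T.rho j else 0) ≤
      T.rho j * ∑ C ∈ T.P j, |∑ z ∈ C, (cnt p z : ℝ) - ∑ z ∈ C, (n z : ℝ)| := by
    intro j
    by_cases hj : j < l
    · rw [if_pos hj]
      have hlev : ∑ C ∈ T.P j, (|∑ z ∈ C, (cnt (Function.update p i y) z : ℝ)
            - ∑ z ∈ C, (n z : ℝ)| + ((if C = T.cl j x then 1 else 0)
              + (if C = T.cl j y then 1 else 0))) ≤
          ∑ C ∈ T.P j, |∑ z ∈ C, (cnt p z : ℝ) - ∑ z ∈ C, (n z : ℝ)| := by
        refine Finset.sum_le_sum fun C hC => ?_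
        rw [hS C, ← Finset.sum_sub_distrib]
        have hyx' : y ∉ T.cl j x := hmin j hj x y hsx hdy
        have hxy' : x ∉ T.cl j y := fun h => hyx' (mem_cl_symm T h)
        by_cases h1 : C = T.cl j x
        · subst h1
          have h2 : T.cl j x ≠ T.cl j y := by
            intro h
            apply hyx'
            rw [h]
            exact T.mem_self j y
          rw [if_pos rfl, if_neg h2, if_neg hyx', if_pos (T.mem_self j x)]
          have h3 : (1 : ℝ) ≤ ∑ z ∈ T.cl j x, ((cnt p z : ℝ) - n z) := by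
            have h4 : (1 : ℝ) ≤ (cnt p x : ℝ) - n x := by
              have : (n x : ℝ) + 1 ≤ cnt p x := by exact_mod_cast hsx
              linarith only [this]
            refine h4.trans (Finset.single_le_sum (f := fun z => (cnt p z : ℝ) - n z) ?_
              (T.mem_self j x))
            intro z hz
            have : ¬ cnt p z < n z := fun h => hmin j hj x z hsx h hz
            have : (n z : ℝ) ≤ cnt p z := by exact_mod_cast not_lt.1 this
            show (0 : ℝ) ≤ (cnt p z : ℝ) - n z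
            linarith only [this]
          rw [Finset.sum_sub_distrib] at h3 ⊢
          rw [abs_of_nonneg (by linarith only [h3]), abs_of_nonneg (by linarith only [h3])]
          linarith only []
        · by_cases h2 : C = T.cl j y
          · subst h2
            rw [if_neg h1, if_pos rfl, if_pos (T.mem_self j y), if_neg hxy']
            have h3 : (1 : ℝ) ≤ ∑ z ∈ T.cl j y, ((n z : ℝ) - cnt p z) := by
              have h4 : (1 : ℝ) ≤ (n y : ℝ) - cnt p y := by
                have : (cnt p y : ℝ) + 1 ≤ n y := by exact_mod_cast hdy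
                linarith only [this]
              refine h4.trans (Finset.single_le_sum (f := fun z => (n z : ℝ) - cnt p z) ?_
                (T.mem_self j y))
              intro z hz
              have : ¬ n z < cnt p z := fun h => hmin j hj z y h hdy (mem_cl_symm T hz)
              have : (cnt p z : ℝ) ≤ n z := by exact_mod_cast not_lt.1 this
              show (0 : ℝ) ≤ (n z : ℝ) - cnt p z
              linarith only [this]
            rw [Finset.sum_sub_distrib] at h3 ⊢
            rw [abs_of_nonpos (by linarith only [h3]), abs_of_nonpos (by linarith only [h3])]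
            linarith only []
          · have h3 : y ∉ C := fun h => h2 (eq_cl T hC h)
            have h4 : x ∉ C := fun h => h1 (eq_cl T hC h)
            rw [if_neg h1, if_neg h2, if_neg h3, if_neg h4, Finset.sum_sub_distrib]
            simp only [add_zero, sub_zero, Std.le_refl]
      have h5 : ∑ C ∈ T.P j, (((if C = T.cl j x then 1 else 0)
              + (if C = T.cl j y then 1 else 0)) : ℝ) = 2 := by
        rw [Finset.sum_add_distrib, Finset.sum_ite_eq', Finset.sum_ite_eq',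
          if_pos (cl_mem_P T j x), if_pos (cl_mem_P T j y)]
        norm_num
      rw [Finset.sum_add_distrib, h5] at hlev
      have := mul_le_mul_of_nonneg_left hlev (T.rho_pos j).le
      linarith only [this]
    · rw [if_neg hj, add_zero]
      refine mul_le_mul_of_nonneg_left (Finset.sum_le_sum fun C hC => ?_) (T.rho_pos j).le
      have hiff : y ∈ C ↔ x ∈ C := by
        have h1 : T.cl l x ⊆ T.cl j x := cl_mono T (not_lt.1 hj) x
        have h2 : T.cl l y ⊆ T.cl j y := cl_mono T (not_lt.1 hj) y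
        constructor
        · intro h
          rw [eq_cl T hC h]
          exact h2 (mem_cl_symm T hyx)
        · intro h
          rw [eq_cl T hC h]
          exact h1 hyx
      rw [hS C]
      simp only [hiff, add_sub_cancel_right]
      exact le_rfl
  have hsumkey := Finset.sum_le_sum fun j (_ : j ∈ Finset.range T.D) => key j
  rw [Finset.sum_add_distrib] at hsumkey
  have h6 : ∑ j ∈ Finset.range T.D, (if j < l then 2 * T.rho j else 0)
      = 2 * ∑ j ∈ Finset.range l, T.rho j := by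
    rw [← Finset.sum_filter, Finset.mul_sum]
    congr 1
    ext j
    simp only [Finset.mem_filter, Finset.mem_range]
    omega
  rw [h6] at hsumkey
  have h7 := hd l x y hyx
  rw [hi]
  unfold Hier.tn
  linarith only [hsumkey, h7]

/-- MATCHING: move `k` labelled servers from the positions `p` to positions with occupation
numbers `n` at total distance `<= tn (cnt p) n`.
Proof: induction on `sum_x |cnt p x - n x|`.  If it is `0`, `q = p`.  Otherwise there are points
`x` with `cnt p x > n x` and `y` with `cnt p y < n y`; choose such a pair in a common cluster of the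
least possible level `l` (level `D` contains everything; `l >= 1`).  Move one server `j` with
`p j = x` to `y` (`Function.update`); `dist x y <= 2 sum_(j<l) rho_j`.  At each level `j < l` the
cluster of `x` contains no point with a deficit and `x` has a surplus, the cluster of `y` contains no
surplus, so both `|.|` drop by one: `tn` drops by exactly `2 sum_(j<l) rho_j`; the levels `>= l` do
not change. -/
theorem exists_match [MetricSpace X] (T : Hier X)
    (hd : ∀ l x y, y ∈ T.cl l x → dist x y ≤ 2 * ∑ j ∈ Finset.range l, T.rho j) {k : ℕ}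
    (p : Fin k → X) (n : X → ℕ) (hn : ∑ x, n x = k) :
    ∃ q : Fin k → X, cnt q = n ∧
      ∑ j, dist (p j) (q j) ≤ T.tn (fun x => (cnt p x : ℝ)) (fun x => (n x : ℝ)) := by
  classical
  obtain ⟨m, hm⟩ : ∃ m, m = ∑ x, (cnt p x - n x) := ⟨_, rfl⟩
  induction m using Nat.strong_induction_on generalizing p with
  | _ m ih =>
    by_cases hne : cnt p = n
    · refine ⟨p, hne, ?_⟩
      rw [hne, tn_self]
      simp only [dist_self, Finset.sum_const_zero, Std.le_refl]
    · obtain ⟨i, y, h1, h2, h3⟩ := exists_move T hd p n hn hne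
      have hxy : p i ≠ y := by
        intro h
        rw [h] at h1
        omega
      have hcn : ∀ z, cnt (Function.update p i y) z + (if z = p i then 1 else 0)
          = cnt p z + (if z = y then 1 else 0) := by
        intro z
        have := cnt_update p i y hxy z
        split_ifs at this ⊢ <;> exact_mod_cast this
      have hlt : ∑ x, (cnt (Function.update p i y) x - n x) < ∑ x, (cnt p x - n x) := by
        refine Finset.sum_lt_sum (fun z _ => ?_) ⟨p i, Finset.mem_univ _, ?_⟩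
        · have := hcn z
          by_cases hz : z = y
          · subst hz
            rw [if_neg (Ne.symm hxy), if_pos rfl] at this
            omega
          · rw [if_neg hz] at this
            split_ifs at this <;> omega
        · have := hcn (p i)
          rw [if_pos rfl, if_neg hxy] at this
          omega
      obtain ⟨q, hq, hq'⟩ := ih _ (by rw [hm]; exact hlt) (Function.update p i y) rfl
      refine ⟨q, hq, ?_⟩
      have h4 : ∑ j, dist (p j) (q j) ≤ dist (p i) y + ∑ j, dist (Function.update p i y j) (q j) := by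
        rw [← Finset.add_sum_erase _ _ (Finset.mem_univ i),
          ← Finset.add_sum_erase Finset.univ (fun j => dist (Function.update p i y j) (q j))
            (Finset.mem_univ i)]
        have h5 : ∀ l ∈ Finset.univ.erase i,
            dist (Function.update p i y l) (q l) = dist (p l) (q l) := by
          intro l hl
          rw [Function.update_of_ne (Finset.ne_of_mem_erase hl)]
        rw [Finset.sum_congr rfl h5, Function.update_self]
        have := dist_triangle (p i) y (q i)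
        linarith only [this]
      linarith only [h3, hq', h4]

end Vale.Agent.P304.HST
end
end

section

section
set_option linter.all false

open scoped BigOperators

namespace Vale.Agent.P304.HST

variable {X : Type} [Fintype X] [DecidableEq X]

theorem dropLe_sum_cnt {k : ℕ} (o : Fin k → X) (C : Finset X) :
    ∑ y ∈ C, (cnt o y : ℝ) = ∑ j, if o j ∈ C then (1 : ℝ) else 0 := by
  have h : ∀ y, (cnt o y : ℝ) = ∑ j, if o j = y then (1 : ℝ) else 0 := by
    intro y
    simp only [cnt, Finset.sum_boole]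
  simp only [h]
  rw [Finset.sum_comm]
  refine Finset.sum_congr rfl fun j _ => ?_
  rw [Finset.sum_ite_eq]

theorem dropLe_max {k : ℕ} (o o' : Fin k → X) (C : Finset X) :
    max (∑ y ∈ C, (cnt o y : ℝ) - ∑ y ∈ C, (cnt o' y : ℝ)) 0 ≤
      ∑ j, if o j ∈ C ∧ o' j ∉ C then (1 : ℝ) else 0 := by
  rw [dropLe_sum_cnt, dropLe_sum_cnt, ← Finset.sum_sub_distrib]
  refine max_le (Finset.sum_le_sum fun j _ => ?_) (Finset.sum_nonneg fun j _ => ?_)
  · by_cases h1 : o j ∈ C <;> by_cases h2 : o' j ∈ C <;> simp [h1, h2]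
  · split_ifs <;> norm_num

theorem dropLe_level (T : Hier X) (l : ℕ) (x y : X) :
    ∑ C ∈ T.P l, (if x ∈ C ∧ y ∉ C then (1 : ℝ) else 0) = if y ∉ T.cl l x then 1 else 0 := by
  rw [Finset.sum_eq_single_of_mem (T.cl l x) (cl_mem_P T l x)]
  · simp [T.mem_self l x]
  · intro C hC hne
    rw [if_neg]
    rintro ⟨hx, -⟩
    exact hne (eq_cl T hC hx)

/-- the one-sided tree distance of two configurations of servers is at most twice the distance.
Proof: at every level `sum_C (o(C) - o'(C))^+ <= #{j | o' j ∉ cl l (o j)}` (write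
`o(C) = sum_j 1[o j ∈ C]`); exchange the sums over `l` and `j`. -/
theorem drop_cnt_le [MetricSpace X] (T : Hier X)
    (hd : ∀ x y, ∑ j ∈ (Finset.range T.D).filter (fun j => y ∉ T.cl j x), T.rho j ≤ 2 * dist x y)
    {k : ℕ} (o o' : Fin k → X) :
    T.drop (fun x => (cnt o x : ℝ)) (fun x => (cnt o' x : ℝ)) ≤ 2 * ∑ j, dist (o j) (o' j) := by
  have h1 : T.drop (fun x => (cnt o x : ℝ)) (fun x => (cnt o' x : ℝ)) ≤
      ∑ l ∈ Finset.range T.D, T.rho l * ∑ j, (if o' j ∉ T.cl l (o j) then (1 : ℝ) else 0) := by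
    unfold Hier.drop
    refine Finset.sum_le_sum fun l _ => mul_le_mul_of_nonneg_left ?_ (T.rho_pos l).le
    refine (Finset.sum_le_sum fun C _ => dropLe_max o o' C).trans (le_of_eq ?_)
    rw [Finset.sum_comm]
    exact Finset.sum_congr rfl fun j _ => dropLe_level T l (o j) (o' j)
  refine h1.trans ?_
  have h2 : ∑ l ∈ Finset.range T.D, T.rho l * ∑ j, (if o' j ∉ T.cl l (o j) then (1 : ℝ) else 0) =
      ∑ j, ∑ l ∈ (Finset.range T.D).filter (fun l => o' j ∉ T.cl l (o j)), T.rho l := by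
    simp only [Finset.mul_sum]
    rw [Finset.sum_comm]
    refine Finset.sum_congr rfl fun j _ => ?_
    rw [Finset.sum_filter]
    refine Finset.sum_congr rfl fun l _ => ?_
    split_ifs <;> simp
  rw [h2, Finset.mul_sum]
  exact Finset.sum_le_sum fun j _ => hd (o j) (o' j)

end Vale.Agent.P304.HST
end
end

section

section

/-!
# P304, dynamic ultrametric: summation of the follow cost over the scales

Pure statements about sequences; `f l` is `p(B(u, r_l/4)) + e0`, `N l` the number of pool tracks of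
level `l` whose token is near `u`, `cost l` the follow cost of level `l`.
-/

open Finset

namespace Vale.Agent.P304.Dyn

/-- Telescoping of `log f (l + m) - log f l`. -/
theorem follow_tele {n m : ℕ} {f : ℕ → ℝ} {e b : ℝ} (he : 0 < e) (hf0 : ∀ l, e ≤ f l)
    (hfb : ∀ l, f l ≤ b) :
    ∑ l ∈ range n, (Real.log (f (l + m)) - Real.log (f l)) ≤ m * Real.log (b / e) := by
  have hb : 0 < b := he.trans_le ((hf0 0).trans (hfb 0))
  induction m with
  | zero => simp
  | succ m ih =>
    have h1 : ∑ l ∈ range n, (Real.log (f (l + (m + 1))) - Real.log (f l)) =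
        ∑ l ∈ range n, (Real.log (f (l + m)) - Real.log (f l)) +
          ∑ l ∈ range n, (Real.log (f (l + 1 + m)) - Real.log (f (l + m))) := by
      rw [← sum_add_distrib]
      refine sum_congr rfl fun l _ => ?_
      rw [show l + (m + 1) = l + 1 + m by ring]
      ring
    have h2 : ∑ l ∈ range n, (Real.log (f (l + 1 + m)) - Real.log (f (l + m))) =
        Real.log (f (n + m)) - Real.log (f (0 + m)) :=
      sum_range_sub (fun l => Real.log (f (l + m))) n
    have h3 : Real.log (f (n + m)) ≤ Real.log b :=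
      Real.log_le_log (he.trans_le (hf0 _)) (hfb _)
    have h4 : Real.log e ≤ Real.log (f (0 + m)) := Real.log_le_log he (hf0 _)
    rw [h1, h2]
    push_cast
    rw [Real.log_div hb.ne' he.ne'] at ih ⊢
    linarith only [ih, h3, h4]

/-- Abel summation. -/
theorem follow_abel {n : ℕ} {h N : ℕ → ℝ} {e b K : ℝ} (he : 0 < e) (hh0 : ∀ l, e ≤ h l)
    (hhb : ∀ l, h l ≤ b) (hmono : Monotone h) (hN : ∀ l, 0 ≤ N l) (hK : 0 ≤ K)
    (h3 : ∀ l, ∑ l' ∈ range (l + 1), N l' ≤ K * h l) :
    ∑ l ∈ range n, N l / h l ≤ K * (1 + Real.log (b / e)) := by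
  have hb : 0 < b := he.trans_le ((hh0 0).trans (hhb 0))
  have hpos : ∀ l, 0 < h l := fun l => he.trans_le (hh0 l)
  have key : ∀ n, ∑ l ∈ range (n + 1), N l / h l ≤
      (∑ l ∈ range (n + 1), N l) / h n + K * (Real.log (h n) - Real.log (h 0)) := by
    intro n
    induction n with
    | zero => simp
    | succ n ih =>
      rw [sum_range_succ, sum_range_succ (fun l => N l) (n + 1), add_div]
      have hA0 : 0 ≤ ∑ l ∈ range (n + 1), N l := sum_nonneg fun l _ => hN l
      have h1 : (∑ l ∈ range (n + 1), N l) / h n ≤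
          (∑ l ∈ range (n + 1), N l) / h (n + 1) +
            K * (Real.log (h (n + 1)) - Real.log (h n)) := by
        have hx : 0 < h (n + 1) / h n := div_pos (hpos _) (hpos _)
        have h4 := Real.one_sub_inv_le_log_of_pos hx
        rw [Real.log_div (hpos _).ne' (hpos _).ne', inv_div] at h4
        have h5 : 0 ≤ 1 - h n / h (n + 1) := by
          rw [sub_nonneg, div_le_one (hpos _)]
          exact hmono (Nat.le_succ n)
        have h6 : (∑ l ∈ range (n + 1), N l) / h n - (∑ l ∈ range (n + 1), N l) / h (n + 1) =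
            (∑ l ∈ range (n + 1), N l) / h n * (1 - h n / h (n + 1)) := by
          have := (hpos n).ne'
          have := (hpos (n + 1)).ne'
          field_simp
        have h7 : (∑ l ∈ range (n + 1), N l) / h n ≤ K := by
          rw [div_le_iff₀ (hpos n)]
          exact h3 n
        have h8 : (∑ l ∈ range (n + 1), N l) / h n * (1 - h n / h (n + 1)) ≤
            K * (1 - h n / h (n + 1)) := mul_le_mul_of_nonneg_right h7 h5
        have h9 : K * (1 - h n / h (n + 1)) ≤ K * (Real.log (h (n + 1)) - Real.log (h n)) :=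
          mul_le_mul_of_nonneg_left h4 hK
        linarith only [h6, h8, h9]
      nlinarith only [ih, h1]
  rcases n with _ | n
  · have : 0 ≤ Real.log (b / e) :=
      Real.log_nonneg ((one_le_div he).2 ((hh0 0).trans (hhb 0)))
    simp only [range_zero, sum_empty]
    (clear * - hK this; positivity)
  · have h1 := key n
    have h2 : (∑ l ∈ range (n + 1), N l) / h n ≤ K := by
      rw [div_le_iff₀ (hpos n)]
      exact h3 n
    have h4 : Real.log (h n) - Real.log (h 0) ≤ Real.log (b / e) := by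
      rw [Real.log_div hb.ne' he.ne']
      have := Real.log_le_log (hpos n) (hhb n)
      have := Real.log_le_log he (hh0 0)
      (clear N K hmono hN hK h3 hb key h1 h2; linarith)
    have h5 := mul_le_mul_of_nonneg_left h4 hK
    rw [mul_add, mul_one]
    linarith

/-- Summation over the scales of costs bounded by `A` and by `4 N / f`, when the partial sums of
`N` are bounded by `K f (l + m)`. -/
theorem follow_sum {n m : ℕ} {f N cost : ℕ → ℝ} {e b A K : ℝ} (he : 0 < e)
    (hf0 : ∀ l, e ≤ f l) (hfb : ∀ l, f l ≤ b) (hmono : Monotone f) (hN : ∀ l, 0 ≤ N l)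
    (hA : 0 ≤ A) (hK : 0 ≤ K) (h1 : ∀ l, cost l ≤ A) (h2 : ∀ l, cost l ≤ 4 * N l / f l)
    (h3 : ∀ l, ∑ l' ∈ range (l + 1), N l' ≤ K * f (l + m)) :
    ∑ l ∈ range n, cost l ≤
      2 * A * m * Real.log (b / e) + 8 * K * (1 + Real.log (b / e)) := by
  have hpos : ∀ l, 0 < f l := fun l => he.trans_le (hf0 l)
  have hlog2 : (1 : ℝ) / 2 < Real.log 2 := by
    have := Real.log_two_gt_d9
    linarith only [this]
  have hterm : ∀ l, cost l ≤ 2 * A * (Real.log (f (l + m)) - Real.log (f l)) +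
      8 * (N l / f (l + m)) := by
    intro l
    have hle : f l ≤ f (l + m) := hmono (Nat.le_add_right l m)
    have hlog : 0 ≤ Real.log (f (l + m)) - Real.log (f l) :=
      sub_nonneg.2 (Real.log_le_log (hpos l) hle)
    have hq : 0 ≤ N l / f (l + m) := div_nonneg (hN l) (hpos _).le
    rcases le_or_gt (f (l + m)) (2 * f l) with h | h
    · have h4 : N l / f l ≤ 2 * (N l / f (l + m)) := by
        rw [div_le_iff₀ (hpos l), ← mul_div_assoc, div_mul_eq_mul_div, le_div_iff₀ (hpos _)]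
        nlinarith only [h, hN l]
      have h5 := h2 l
      rw [mul_div_assoc] at h5
      have h6 : 0 ≤ 2 * A * (Real.log (f (l + m)) - Real.log (f l)) := by (clear * - hA hlog; positivity)
      linarith only [h4, h5, h6]
    · have h4 : Real.log 2 ≤ Real.log (f (l + m)) - Real.log (f l) := by
        rw [← Real.log_div (hpos _).ne' (hpos l).ne']
        apply Real.log_le_log (by norm_num)
        rw [le_div_iff₀ (hpos l)]
        exact h.le
      have h5 : A ≤ 2 * A * (Real.log (f (l + m)) - Real.log (f l)) := by nlinarith only [hA, hlog2, h4]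
      have h6 := h1 l
      linarith only [hq, h5, h6]
  refine (sum_le_sum fun l _ => hterm l).trans ?_
  rw [sum_add_distrib, ← mul_sum, ← mul_sum]
  have h4 := follow_tele (n := n) (m := m) he hf0 hfb
  have h5 : ∑ l ∈ range n, N l / f (l + m) ≤ K * (1 + Real.log (b / e)) :=
    follow_abel (h := fun l => f (l + m)) he (fun l => hf0 _) (fun l => hfb _)
      (fun a b hab => hmono (Nat.add_le_add_right hab m)) hN hK h3
  have h6 := mul_le_mul_of_nonneg_left h4 (by (clear * - hA; positivity) : 0 ≤ 2 * A)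
  linarith

end Vale.Agent.P304.Dyn
end
end

section

section

/-! Summation over the scales `r0 * 2^l` (section 1f). -/

open Finset

namespace Vale.Agent.P304.Dyn

/-- decreasing geometric sum cut at `c` -/
theorem ss_geo1 {a c : ℝ} (ha : 0 ≤ a) (hc : 0 ≤ c) (n : ℕ) :
    ∑ l ∈ range n, (if a / 2 ^ l ≤ c then a / 2 ^ l else 0)
      ≤ 2 * c - 2 * min c (a / 2 ^ n) := by
  induction n with
  | zero => simp only [range_zero, sum_empty, pow_zero, div_one, sub_nonneg, Nat.ofNat_pos, mul_le_mul_iff_right₀, inf_le_left]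
  | succ n ih =>
    have e : a / 2 ^ (n + 1) = a / 2 ^ n / 2 := by rw [pow_succ, div_div]
    have h0 : 0 ≤ a / 2 ^ n := by positivity
    rw [sum_range_succ, e]
    by_cases h : a / 2 ^ n ≤ c
    · rw [if_pos h]
      rw [min_eq_right h] at ih
      rw [min_eq_right (by linarith only [hc, h])]
      linarith only [ih]
    · rw [if_neg h]
      rw [min_eq_left (le_of_lt (not_le.1 h))] at ih
      have := min_le_left c (a / 2 ^ n / 2)
      linarith

/-- increasing geometric sum cut at `c` -/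
theorem ss_geo2 {r0 c : ℝ} (hr : 0 < r0) (hc : 0 ≤ c) (n : ℕ) :
    ∑ l ∈ range n, (if r0 * 2 ^ l < c then r0 * 2 ^ l else 0) ≤ 2 * c ∧
    ∑ l ∈ range n, (if r0 * 2 ^ l < c then r0 * 2 ^ l else 0) ≤ r0 * 2 ^ n := by
  induction n with
  | zero => simp only [range_zero, sum_empty]; constructor <;> positivity
  | succ n ih =>
    have e : r0 * 2 ^ (n + 1) = 2 * (r0 * 2 ^ n) := by rw [pow_succ]; ring
    have h0 : 0 < r0 * 2 ^ n := by positivity
    rw [sum_range_succ, e]
    by_cases h : r0 * 2 ^ n < c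
    · rw [if_pos h]
      constructor <;> linarith only [ih, h]
    · rw [if_neg h]
      constructor <;> linarith only [ih, h0]

/-- doubly exponential sum -/
theorem ss_geo3 {a K : ℝ} (hK : 1 ≤ K) (n : ℕ) :
    ∑ l ∈ range n, (if K < a / 2 ^ l then Real.exp (-(a / 2 ^ l)) else 0)
      ≤ 2 * Real.exp (-(max K (2 * (a / 2 ^ n)))) := by
  induction n with
  | zero => simp only [range_zero, sum_empty]; positivity
  | succ n ih =>
    have e : 2 * (a / 2 ^ (n + 1)) = a / 2 ^ n := by rw [pow_succ]; field_simp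
    rw [sum_range_succ, e]
    set t : ℝ := a / 2 ^ n with ht
    by_cases h : K < t
    · rw [if_pos h, max_eq_right h.le]
      rw [max_eq_right (by linarith only [hK, h])] at ih
      have h1 : Real.exp (-(2 * t)) = Real.exp (-t) * Real.exp (-t) := by
        rw [← Real.exp_add]; congr 1; ring
      have h2 : Real.exp (-t) ≤ 1 / 2 := by
        have h3 : t + 1 ≤ Real.exp t := Real.add_one_le_exp t
        rw [Real.exp_neg, ← one_div]
        exact one_div_le_one_div_of_le (by norm_num) (by linarith only [hK, h, h3])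
      have h4 := mul_le_mul_of_nonneg_left h2 (Real.exp_pos (-t)).le
      rw [h1] at ih
      linarith only [ih, h4]
    · have h' : t ≤ K := not_lt.1 h
      rw [if_neg h, max_eq_left h', add_zero]
      refine ih.trans ?_
      have h3 : Real.exp (-(max K (2 * t))) ≤ Real.exp (-K) :=
        Real.exp_le_exp.2 (neg_le_neg (le_max_left _ _))
      linarith only [h3]

/-- telescoping with a shift -/
theorem ss_shift (b : ℕ → ℝ) (lo hi : ℝ) (h1 : ∀ i, lo ≤ b i) (h2 : ∀ i, b i ≤ hi) (n m : ℕ) :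
    ∑ l ∈ range n, (b (l + m) - b l) ≤ m * (hi - lo) := by
  induction m with
  | zero => simp
  | succ m ih =>
    have e : ∑ l ∈ range n, (b (l + (m + 1)) - b l)
        = ∑ l ∈ range n, (b (l + m) - b l) + ∑ l ∈ range n, (b (l + 1 + m) - b (l + m)) := by
      rw [← sum_add_distrib]
      refine sum_congr rfl fun l _ => ?_
      rw [show l + (m + 1) = l + 1 + m by ring]
      ring
    have e2 : ∑ l ∈ range n, (b (l + 1 + m) - b (l + m)) = b (n + m) - b (0 + m) :=
      sum_range_sub (fun l => b (l + m)) n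
    rw [e, e2]
    have h3 := h2 (n + m)
    have h4 := h1 (0 + m)
    push_cast
    linarith only [ih, h3, h4]

theorem ss_ball {ι : Type} [DecidableEq ι] (f p : ι → ℝ) (hp : ∀ x, 0 ≤ p x) {e : ℝ} (he : 0 < e)
    (s : Finset ι) :
    ∑ x ∈ s, p x / (e + ∑ y ∈ s.filter (fun y => f y ≤ f x), p y)
      ≤ Real.log ((e + ∑ x ∈ s, p x) / e) := by
  induction s using Finset.induction_on_max_value f with
  | empty => simp only [filter_empty, sum_empty, add_zero, div_self he.ne', Real.log_one, Std.le_refl]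
  | insert a s ha hmax ih =>
    have hP : 0 ≤ ∑ x ∈ s, p x := sum_nonneg fun x _ => hp x
    have hpa := hp a
    rw [sum_insert ha, sum_insert ha]
    have h1 : (insert a s).filter (fun y => f y ≤ f a) = insert a s := by
      refine filter_true_of_mem fun y hy => ?_
      rcases mem_insert.1 hy with h | h
      · rw [h]
      · exact hmax y h
    rw [h1, sum_insert ha]
    have h2 : ∑ x ∈ s, p x / (e + ∑ y ∈ (insert a s).filter (fun y => f y ≤ f x), p y)
        ≤ ∑ x ∈ s, p x / (e + ∑ y ∈ s.filter (fun y => f y ≤ f x), p y) := by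
      refine sum_le_sum fun x _ => ?_
      have h3 : ∑ y ∈ s.filter (fun y => f y ≤ f x), p y
          ≤ ∑ y ∈ (insert a s).filter (fun y => f y ≤ f x), p y :=
        sum_le_sum_of_subset_of_nonneg (filter_subset_filter _ (subset_insert a s))
          fun y _ _ => hp y
      have h4 : 0 ≤ ∑ y ∈ s.filter (fun y => f y ≤ f x), p y := sum_nonneg fun y _ => hp y
      exact div_le_div_of_nonneg_left (hp x) (by linarith only [he, h4]) (by linarith only [h3])
    set P := ∑ x ∈ s, p x with hPdef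
    have h5 : Real.log ((e + (p a + P)) / e)
        = Real.log ((e + P) / e) + Real.log ((e + (p a + P)) / (e + P)) := by
      rw [← Real.log_mul (by (clear * - he hP; positivity)) (by (clear * - he hpa hP; positivity))]
      congr 1
      (clear * - he hP hpa; field_simp)
    have h6 : p a / (e + (p a + P)) ≤ Real.log ((e + (p a + P)) / (e + P)) := by
      have h7 := Real.one_sub_inv_le_log_of_pos
        (show 0 < (e + (p a + P)) / (e + P) by (clear * - he hpa hP; positivity))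
      refine le_trans (le_of_eq ?_) h7
      rw [inv_div]
      field_simp
      ring
    rw [h5]
    linarith

variable {X : Type} [MetricSpace X] [Fintype X] [DecidableEq X]

/-- distance in units of the scale `r0 * 2^l` -/
noncomputable def Dl (r0 : ℝ) (l : ℕ) (u v : X) : ℝ := dist u v / (r0 * 2 ^ l)

theorem Dl_pm {r0 : ℝ} (hr : 0 < r0) (l : ℕ) : PM (Dl (X := X) r0 l) := by
  have h : 0 < r0 * 2 ^ l := by positivity
  refine ⟨fun x => by simp [Dl], fun x y => by simp only [Dl, dist_comm], fun x y z => ?_⟩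
  unfold Dl
  rw [← add_div]
  exact div_le_div_of_nonneg_right (dist_triangle x y z) h.le

/-- bound for the sum over all scales of `g` -/
noncomputable def Gk (k : ℝ) : ℝ :=
  1000 * ((1 + Real.log k) * (1 + Real.log (1 + Real.log k)))

/-- growth sum, part 1: small distances.  `∑ p(u') / (e0 + p(ball up to u'))` telescopes. -/
theorem sum_div_ball_le (p : X → ℝ) (hp : ∀ x, 0 ≤ p x) {k : ℝ} (hpk : ∑ x, p x ≤ k) (u : X) :
    ∑ u' ∈ univ.filter (fun u' => u' ≠ u), p u' /
        (e0 + ∑ x ∈ univ.filter (fun x => dist u x ≤ dist u u'), p x)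
      ≤ Real.log ((k + e0) / e0) := by
  have he : 0 < e0 := by norm_num [e0]
  set s : Finset X := univ.filter (fun u' => u' ≠ u) with hs
  have h1 := ss_ball (fun x => dist u x) p hp he s
  have h2 : ∑ u' ∈ s, p u' / (e0 + ∑ x ∈ univ.filter (fun x => dist u x ≤ dist u u'), p x)
      ≤ ∑ x ∈ s, p x / (e0 + ∑ y ∈ s.filter (fun y => dist u y ≤ dist u x), p y) := by
    refine sum_le_sum fun x _ => ?_
    have h3 : ∑ y ∈ s.filter (fun y => dist u y ≤ dist u x), p y
        ≤ ∑ y ∈ univ.filter (fun y => dist u y ≤ dist u x), p y :=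
      sum_le_sum_of_subset_of_nonneg (filter_subset_filter _ (subset_univ s)) fun y _ _ => hp y
    have h4 : 0 ≤ ∑ y ∈ s.filter (fun y => dist u y ≤ dist u x), p y :=
      sum_nonneg fun y _ => hp y
    exact div_le_div_of_nonneg_left (hp x) (by linarith only [he, h4]) (by linarith only [h3])
  have h5 : ∑ x ∈ s, p x ≤ k :=
    (sum_le_sum_of_subset_of_nonneg (subset_univ s) fun y _ _ => hp y).trans hpk
  have h6 : 0 ≤ ∑ x ∈ s, p x := sum_nonneg fun y _ => hp y
  have h7 : Real.log ((e0 + ∑ x ∈ s, p x) / e0) ≤ Real.log ((k + e0) / e0) := by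
    refine Real.log_le_log (by positivity) ?_
    exact div_le_div_of_nonneg_right (by linarith only [h5]) he.le
  linarith only [h1, h2, h7]

/-- `e0 +` mass of the closed ball -/
noncomputable def ssB (p : X → ℝ) (u : X) (R : ℝ) : ℝ :=
  e0 + ∑ x ∈ univ.filter (fun x => dist u x ≤ R), p x

theorem ssB_ge {p : X → ℝ} (hp : ∀ x, 0 ≤ p x) (u : X) (R : ℝ) : e0 ≤ ssB p u R := by
  have : 0 ≤ ∑ x ∈ univ.filter (fun x => dist u x ≤ R), p x := sum_nonneg fun x _ => hp x
  unfold ssB
  linarith only [this]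

theorem ssB_le {p : X → ℝ} (hp : ∀ x, 0 ≤ p x) {k : ℝ} (hpk : ∑ x, p x ≤ k) (u : X) (R : ℝ) :
    ssB p u R ≤ k + e0 := by
  have : ∑ x ∈ univ.filter (fun x => dist u x ≤ R), p x ≤ ∑ x, p x :=
    sum_le_sum_of_subset_of_nonneg (filter_subset _ _) fun y _ _ => hp y
  unfold ssB
  linarith only [hpk, this]

theorem ssB_mono {p : X → ℝ} (hp : ∀ x, 0 ≤ p x) (u : X) {R R' : ℝ} (h : R ≤ R') :
    ssB p u R ≤ ssB p u R' := by
  unfold ssB
  have : ∑ x ∈ univ.filter (fun x => dist u x ≤ R), p x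
      ≤ ∑ x ∈ univ.filter (fun x => dist u x ≤ R'), p x :=
    sum_le_sum_of_subset_of_nonneg (fun x hx => by
      rw [mem_filter] at hx ⊢
      exact ⟨hx.1, hx.2.trans h⟩) fun y _ _ => hp y
  linarith

theorem ss_inv {r0 : ℝ} (hr : 0 < r0) (l : ℕ) {p ν : X → ℝ} (h : Bal (Dl r0 l) p ν) (u : X) :
    1 / SS (Dl r0 l) ν u ≤ 16 / 5 / ssB p u (r0 * 2 ^ l / 4) := by
  have hD := Dl_pm (X := X) hr l
  have hR : 0 < r0 * 2 ^ l := by positivity
  have hS := SS_pos (D := Dl r0 l) h.hν u
  have h1 := ball_le hD h u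
  have h2 := SS_ge (D := Dl r0 l) h.hν u
  have he : 0 < e0 := by norm_num [e0]
  have hB := ssB_ge h.hp u (r0 * 2 ^ l / 4)
  have h3 : ssB p u (r0 * 2 ^ l / 4) ≤ 16 / 5 * SS (Dl r0 l) ν u := by
    have h4 : univ.filter (fun x => dist u x ≤ r0 * 2 ^ l / 4)
        = univ.filter (fun u' => Dl r0 l u u' ≤ 1 / 4) := by
      refine filter_congr fun x _ => ?_
      unfold Dl
      rw [div_le_iff₀ hR]
      constructor <;> intro h5 <;> linarith
    unfold ssB
    rw [h4]
    linarith only [h1, h2]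
  rw [div_le_div_iff₀ hS (by linarith only [he, hB]), one_mul]
  exact h3

/-- one scale -/
theorem ss_one {r0 : ℝ} (hr : 0 < r0) (l : ℕ) {p ν : X → ℝ} {k : ℝ} (hk : 1 ≤ k)
    (hpk : ∑ x, p x ≤ k) (h : Bal (Dl r0 l) p ν) (u : X) (J : ℕ) :
    gg (Dl r0 l) p ν u
      ≤ ∑ u' ∈ univ.filter (fun u' => u' ≠ u), (16 / 5 * (p u' / ssB p u (dist u u'))) *
          (if dist u u' / r0 / 2 ^ l ≤ 1 / 4 then dist u u' / r0 / 2 ^ l else 0)
        + 16 / 5 * ((Real.log (ssB p u (r0 / 4 * 2 ^ (l + (J + 2))))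
            - Real.log (ssB p u (r0 / 4 * 2 ^ l))) / Real.log 2)
        + ∑ u', (1000 * k * Real.exp 1 * p u') *
          (if (2 : ℝ) ^ J < dist u u' / r0 / 2 ^ l
            then Real.exp (-(dist u u' / r0 / 2 ^ l)) else 0) := by
  have hD := Dl_pm (X := X) hr l
  have hR : 0 < r0 * 2 ^ l := by positivity
  have he : 0 < e0 := by norm_num [e0]
  have hS := SS_pos (D := Dl r0 l) h.hν u
  have hinv := ss_inv hr l h u
  have hJ1 : (1 : ℝ) ≤ 2 ^ J := one_le_pow₀ (by norm_num)
  have hdl : ∀ u' : X, dist u u' / r0 / 2 ^ l = Dl r0 l u u' := fun u' => by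
    unfold Dl; rw [div_div]
  have e1 : r0 * 2 ^ l / 4 = r0 / 4 * 2 ^ l := by ring
  rw [e1] at hinv
  set B0 := ssB p u (r0 / 4 * 2 ^ l) with hB0
  set B1 := ssB p u (r0 / 4 * 2 ^ (l + (J + 2))) with hB1
  have hB0p : 0 < B0 := lt_of_lt_of_le he (ssB_ge h.hp u _)
  have hB01 : B0 ≤ B1 := by
    refine ssB_mono h.hp u ?_
    refine mul_le_mul_of_nonneg_left ?_ (by (clear * - hr; positivity))
    exact pow_le_pow_right₀ (by norm_num) (by omega)
  have hB1p : 0 < B1 := lt_of_lt_of_le hB0p hB01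
  -- the three parts
  set G : X → ℝ := fun u' => p u' * min 1 (Dl r0 l u u') * TT (Dl r0 l) ν u u' with hG
  have hG0 : ∀ u', 0 ≤ G u' := fun u' => mul_nonneg (mul_nonneg (h.hp u')
    (le_min zero_le_one (hD.nonneg u u'))) (TT_nonneg h.hν u u')
  have hsplit : gg (Dl r0 l) p ν u
      = ∑ u', (if Dl r0 l u u' ≤ 1 / 4 then G u' else 0)
        + ∑ u', (if 1 / 4 < Dl r0 l u u' ∧ Dl r0 l u u' ≤ 2 ^ J then G u' else 0)
        + ∑ u', (if (2 : ℝ) ^ J < Dl r0 l u u' then G u' else 0) := by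
    rw [← sum_add_distrib, ← sum_add_distrib]
    unfold gg
    refine sum_congr rfl fun u' _ => ?_
    show G u' = _
    rcases le_or_gt (Dl r0 l u u') (1 / 4) with h1 | h1
    · rw [if_pos h1, if_neg (by intro h2; linarith only [h1, h2]), if_neg (by linarith only [hJ1, h1])]
      ring
    · rcases le_or_gt (Dl r0 l u u') (2 ^ J) with h2 | h2
      · rw [if_neg (by linarith only [h1]), if_pos ⟨h1, h2⟩, if_neg (by linarith only [h2])]
        ring
      · rw [if_neg (by linarith only [hJ1, h2]), if_neg (by intro h3; linarith only [h2, h3]), if_pos h2]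
        ring
  rw [hsplit]
  refine add_le_add (add_le_add ?_ ?_) ?_
  · -- small distances
    rw [sum_filter]
    refine sum_le_sum fun u' _ => ?_
    rw [hdl]
    by_cases hu : u' = u
    · subst hu
      have h0 : Dl r0 l u' u' = 0 := hD.self u'
      have hz : G u' = 0 := by simp only [hG, h0, zero_le_one, inf_of_le_right, mul_zero, zero_mul]
      rw [hz]; simp only [one_div, ite_self, ne_eq, not_true_eq_false, ↓reduceIte, Std.le_refl]
    · rw [if_pos hu]
      by_cases h1 : Dl r0 l u u' ≤ 1 / 4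
      · rw [if_pos h1, if_pos h1]
        have hd0 := hD.nonneg u u'
        have h2 : TT (Dl r0 l) ν u u' ≤ 16 / 5 / ssB p u (dist u u') := by
          refine (TT_le hD h.hν u u').trans (hinv.trans ?_)
          refine div_le_div_of_nonneg_left (by norm_num)
            (lt_of_lt_of_le he (ssB_ge h.hp u _)) ?_
          refine ssB_mono h.hp u ?_
          unfold Dl at h1
          rw [div_le_iff₀ hR] at h1
          linarith only [h1]
        have h3 : min 1 (Dl r0 l u u') ≤ Dl r0 l u u' := min_le_right _ _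
        have h4 : 0 ≤ 16 / 5 / ssB p u (dist u u') :=
          div_nonneg (by norm_num) (he.le.trans (ssB_ge h.hp u _))
        calc G u' ≤ p u' * Dl r0 l u u' * (16 / 5 / ssB p u (dist u u')) := by
              refine mul_le_mul (mul_le_mul_of_nonneg_left h3 (h.hp u')) h2
                (TT_nonneg h.hν u u') (mul_nonneg (h.hp u') hd0)
          _ = _ := by ring
      · rw [if_neg h1, if_neg h1, mul_zero]
  · -- middle distances
    have hM1 : ∑ u', (if 1 / 4 < Dl r0 l u u' ∧ Dl r0 l u u' ≤ 2 ^ J then G u' else 0) ≤ 8 / 5 := by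
      refine le_trans ?_ (gg_le hD h u)
      unfold gg
      refine sum_le_sum fun u' _ => ?_
      show _ ≤ G u'
      split_ifs
      · exact le_rfl
      · exact hG0 u'
    have hM2 : ∑ u', (if 1 / 4 < Dl r0 l u u' ∧ Dl r0 l u u' ≤ 2 ^ J then G u' else 0)
        ≤ 16 / 5 * ((B1 - B0) / B0) := by
      have hsum : ∑ u', (if 1 / 4 < Dl r0 l u u' ∧ Dl r0 l u u' ≤ 2 ^ J then p u' else 0)
          = B1 - B0 := by
        have hb : B1 - B0 = ∑ x, ((if dist u x ≤ r0 / 4 * 2 ^ (l + (J + 2)) then p x else 0)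
            - (if dist u x ≤ r0 / 4 * 2 ^ l then p x else 0)) := by
          rw [sum_sub_distrib, ← sum_filter, ← sum_filter, hB1, hB0]
          unfold ssB
          ring
        rw [hb]
        refine sum_congr rfl fun x _ => ?_
        have i1 : dist u x ≤ r0 / 4 * 2 ^ l ↔ Dl r0 l u x ≤ 1 / 4 := by
          unfold Dl
          rw [div_le_iff₀ hR]
          constructor <;> intro h5 <;> linarith only [h5]
        have i2 : dist u x ≤ r0 / 4 * 2 ^ (l + (J + 2)) ↔ Dl r0 l u x ≤ 2 ^ J := by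
          unfold Dl
          rw [div_le_iff₀ hR]
          have : r0 / 4 * 2 ^ (l + (J + 2)) = 2 ^ J * (r0 * 2 ^ l) := by
            rw [pow_add, pow_add]; ring
          rw [this]
        rcases le_or_gt (Dl r0 l u x) (1 / 4) with h1 | h1
        · rw [if_neg (by intro h2; linarith only [h1, h2]), if_pos (i2.2 (by linarith only [hJ1, h1])),
            if_pos (i1.2 h1)]
          ring
        · rcases le_or_gt (Dl r0 l u x) (2 ^ J) with h2 | h2
          · rw [if_pos ⟨h1, h2⟩, if_pos (i2.2 h2), if_neg (fun h3 => by linarith only [h1, i1.1 h3])]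
            ring
          · rw [if_neg (by intro h3; linarith only [h2, h3]), if_neg (fun h3 => by linarith only [h2, i2.1 h3]),
              if_neg (fun h3 => by linarith only [hJ1, h2, i1.1 h3])]
            ring
      rw [← hsum, sum_div, mul_sum]
      refine sum_le_sum fun u' _ => ?_
      split_ifs with h1
      · have h2 : TT (Dl r0 l) ν u u' ≤ 16 / 5 / B0 := (TT_le hD h.hν u u').trans hinv
        have h3 : min 1 (Dl r0 l u u') ≤ 1 := min_le_left _ _
        calc G u' ≤ p u' * 1 * (16 / 5 / B0) := by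
              refine mul_le_mul (mul_le_mul_of_nonneg_left h3 (h.hp u')) h2
                (TT_nonneg h.hν u u') (mul_nonneg (h.hp u') zero_le_one)
          _ = _ := by ring
      · simp
    have hlog2 : 0 < Real.log 2 := Real.log_pos (by norm_num)
    have hlog2' : Real.log 2 < 1 := by
      have := Real.log_two_lt_d9
      linarith only [this]
    set x := (B1 - B0) / B0 with hx
    have hx0 : 0 ≤ x := div_nonneg (by linarith only [hB01]) hB0p.le
    have hlx : Real.log B1 - Real.log B0 = Real.log (1 + x) := by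
      rw [← Real.log_div hB1p.ne' hB0p.ne', hx]
      congr 1
      field_simp
      ring
    rw [hlx]
    rcases le_or_gt x 1 with h1 | h1
    · refine hM2.trans (mul_le_mul_of_nonneg_left ?_ (by norm_num))
      rw [le_div_iff₀ hlog2]
      -- concavity of log
      have hc := strictConcaveOn_log_Ioi.concaveOn.2 (show (1 : ℝ) ∈ Set.Ioi 0 by norm_num)
        (show (2 : ℝ) ∈ Set.Ioi 0 by norm_num) (show 0 ≤ 1 - x by linarith only [h1]) hx0 (by ring)
      simp only [smul_eq_mul, Real.log_one, mul_zero, zero_add, mul_one] at hc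
      have e2 : 1 - x + x * 2 = 1 + x := by ring
      rwa [e2] at hc
    · refine hM1.trans ?_
      have h2 : Real.log 2 ≤ Real.log (1 + x) := Real.log_le_log (by norm_num) (by linarith only [h1])
      have h3 : 1 ≤ Real.log (1 + x) / Real.log 2 := by rwa [le_div_iff₀ hlog2, one_mul]
      linarith only [h3]
  · -- large distances
    refine sum_le_sum fun u' _ => ?_
    rw [hdl]
    by_cases h1 : (2 : ℝ) ^ J < Dl r0 l u u'
    · rw [if_pos h1, if_pos h1]
      have h2 := TT_le_exp hD h.hν u u'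
      have h3 := sum_nu_le h
      have h4 : ∑ c, ν c ≤ 5 / 2 * k := by linarith only [hpk, h3]
      have h5 : min 1 (Dl r0 l u u') ≤ 1 := min_le_left _ _
      have h6 : TT (Dl r0 l) ν u u' ≤ 1000 * k * Real.exp 1 * Real.exp (-(Dl r0 l u u')) := by
        refine h2.trans ?_
        have h7 : e0 * e0 ≤ e0 * SS (Dl r0 l) ν u :=
          mul_le_mul_of_nonneg_left (SS_ge h.hν u) he.le
        have h8 : Real.exp (1 - Dl r0 l u u') * ∑ c, ν c
            ≤ Real.exp (1 - Dl r0 l u u') * (5 / 2 * k) :=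
          mul_le_mul_of_nonneg_left h4 (Real.exp_pos _).le
        have h9 : Real.exp (1 - Dl r0 l u u') = Real.exp 1 * Real.exp (-(Dl r0 l u u')) := by
          rw [← Real.exp_add]; congr 1
        calc Real.exp (1 - Dl r0 l u u') * (∑ c, ν c) / (e0 * SS (Dl r0 l) ν u)
            ≤ Real.exp (1 - Dl r0 l u u') * (5 / 2 * k) / (e0 * e0) :=
              div_le_div₀ (by positivity) h8 (by positivity) h7
          _ = _ := by
              rw [h9]
              unfold e0
              ring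
      calc G u' ≤ p u' * 1 * (1000 * k * Real.exp 1 * Real.exp (-(Dl r0 l u u'))) := by
            refine mul_le_mul (mul_le_mul_of_nonneg_left h5 (h.hp u')) h6
              (TT_nonneg h.hν u u') (mul_nonneg (h.hp u') zero_le_one)
        _ = _ := by ring
    · rw [if_neg h1, if_neg h1, mul_zero]

/-- (1f) -/
theorem sum_gg_le {r0 : ℝ} (hr : 0 < r0) (n : ℕ) {p : X → ℝ} {ν : Fin n → X → ℝ} {k : ℝ}
    (hk : 1 ≤ k) (hpk : ∑ x, p x ≤ k) (h : ∀ l : Fin n, Bal (Dl r0 l) p (ν l)) (u : X) :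
    ∑ l : Fin n, gg (Dl r0 l) p (ν l) u ≤ Gk k := by
  have hlk : 0 ≤ Real.log k := Real.log_nonneg hk
  have hllk : 0 ≤ Real.log (1 + Real.log k) := Real.log_nonneg (by linarith only [hlk])
  rcases Nat.eq_zero_or_pos n with hn | hn
  · subst hn
    simp only [univ_eq_empty, sum_empty]
    unfold Gk
    positivity
  have hp : ∀ x, 0 ≤ p x := (h ⟨0, hn⟩).hp
  have he : 0 < e0 := by norm_num [e0]
  have hk0 : 0 < k := by linarith only [hk]
  have hlog2 : 69 / 100 < Real.log 2 := by
    have := Real.log_two_gt_d9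
    linarith only [this]
  have hlog2pos : 0 < Real.log 2 := by linarith only [hlog2]
  set J : ℕ := ⌈Real.log (10 + 2 * Real.log k) / Real.log 2⌉₊ with hJ
  have hJ0 : 0 ≤ Real.log (10 + 2 * Real.log k) := Real.log_nonneg (by linarith only [hlk])
  have hJ1 : 10 + 2 * Real.log k ≤ 2 ^ J := by
    have h1 : Real.log (10 + 2 * Real.log k) / Real.log 2 ≤ J := Nat.le_ceil _
    rw [div_le_iff₀ hlog2pos] at h1
    have h2 : Real.log (10 + 2 * Real.log k) ≤ Real.log ((2:ℝ) ^ J) := by
      rw [Real.log_pow]; exact h1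
    exact (Real.log_le_log_iff (by linarith only [hlk]) (by positivity)).1 h2
  have hJ2 : (J : ℝ) ≤ 5 + 3 / 2 * Real.log (1 + Real.log k) := by
    have h1 := Nat.ceil_lt_add_one (show 0 ≤ Real.log (10 + 2 * Real.log k) / Real.log 2 by
      (clear * - hJ0; positivity))
    have h2 : Real.log (10 + 2 * Real.log k) ≤ Real.log (10 * (1 + Real.log k)) :=
      Real.log_le_log (by linarith only [hlk]) (by linarith only [hlk])
    rw [Real.log_mul (by norm_num) (by linarith only [hlk])] at h2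
    have h3 : Real.log 10 ≤ 5 / 2 := by
      have h4 : Real.log 10 = Real.log 2 + Real.log 5 := by
        rw [← Real.log_mul (by norm_num) (by norm_num)]; norm_num
      have h5 : Real.log 5 ≤ Real.log 2 + 1 := by
        have h6 : Real.log (5 / 2) ≤ 1 := by
          rw [Real.log_le_iff_le_exp (by norm_num)]
          have := Real.exp_one_gt_d9
          linarith only [this]
        have h7 : Real.log 5 = Real.log 2 + Real.log (5 / 2) := by
          rw [← Real.log_mul (by norm_num) (by norm_num)]; norm_num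
        linarith only [h6, h7]
      have h8 := Real.log_two_lt_d9
      linarith only [h4, h5, h8]
    have h4 : Real.log (10 + 2 * Real.log k) / Real.log 2
        ≤ (5 / 2 + Real.log (1 + Real.log k)) * (3 / 2) := by
      rw [div_le_iff₀ hlog2pos]
      nlinarith only [hllk, hlog2, h2, h3]
    have h5 : (J : ℝ) < Real.log (10 + 2 * Real.log k) / Real.log 2 + 1 := h1
    linarith
  -- level by level
  have h1 : ∑ l : Fin n, gg (Dl r0 l) p (ν l) u ≤ ∑ l : Fin n,
      (∑ u' ∈ univ.filter (fun u' => u' ≠ u), (16 / 5 * (p u' / ssB p u (dist u u'))) *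
          (if dist u u' / r0 / 2 ^ (l : ℕ) ≤ 1 / 4 then dist u u' / r0 / 2 ^ (l : ℕ) else 0)
        + 16 / 5 * ((Real.log (ssB p u (r0 / 4 * 2 ^ ((l : ℕ) + (J + 2))))
            - Real.log (ssB p u (r0 / 4 * 2 ^ (l : ℕ)))) / Real.log 2)
        + ∑ u', (1000 * k * Real.exp 1 * p u') *
          (if (2 : ℝ) ^ J < dist u u' / r0 / 2 ^ (l : ℕ)
            then Real.exp (-(dist u u' / r0 / 2 ^ (l : ℕ))) else 0)) :=
    sum_le_sum fun l _ => ss_one hr l hk hpk (h l) u J
  refine h1.trans ?_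
  rw [Fin.sum_univ_eq_sum_range (fun l : ℕ =>
      (∑ u' ∈ univ.filter (fun u' => u' ≠ u), (16 / 5 * (p u' / ssB p u (dist u u'))) *
          (if dist u u' / r0 / 2 ^ l ≤ 1 / 4 then dist u u' / r0 / 2 ^ l else 0)
        + 16 / 5 * ((Real.log (ssB p u (r0 / 4 * 2 ^ (l + (J + 2))))
            - Real.log (ssB p u (r0 / 4 * 2 ^ l))) / Real.log 2)
        + ∑ u', (1000 * k * Real.exp 1 * p u') *
          (if (2 : ℝ) ^ J < dist u u' / r0 / 2 ^ l
            then Real.exp (-(dist u u' / r0 / 2 ^ l)) else 0))) n,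
    sum_add_distrib, sum_add_distrib]
  set L : ℝ := Real.log ((k + e0) / e0) with hL
  -- part A2
  have hA2 : ∑ l ∈ range n, ∑ u' ∈ univ.filter (fun u' => u' ≠ u),
      (16 / 5 * (p u' / ssB p u (dist u u'))) *
        (if dist u u' / r0 / 2 ^ l ≤ 1 / 4 then dist u u' / r0 / 2 ^ l else 0)
      ≤ 8 / 5 * L := by
    rw [sum_comm]
    calc ∑ u' ∈ univ.filter (fun u' => u' ≠ u), ∑ l ∈ range n,
          (16 / 5 * (p u' / ssB p u (dist u u'))) *
            (if dist u u' / r0 / 2 ^ l ≤ 1 / 4 then dist u u' / r0 / 2 ^ l else 0)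
        ≤ ∑ u' ∈ univ.filter (fun u' => u' ≠ u), 8 / 5 * (p u' / ssB p u (dist u u')) := by
          refine sum_le_sum fun u' _ => ?_
          rw [← mul_sum]
          have h2 := ss_geo1 (a := dist u u' / r0) (c := 1 / 4) (by (clear * - hr; positivity)) (by norm_num) n
          have h3 : 0 ≤ min (1 / 4 : ℝ) (dist u u' / r0 / 2 ^ n) :=
            le_min (by norm_num) (by (clear * - hr; positivity))
          have h4 : 0 ≤ 16 / 5 * (p u' / ssB p u (dist u u')) :=
            mul_nonneg (by norm_num) (div_nonneg (hp u') (he.le.trans (ssB_ge hp u _)))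
          have h5 := mul_le_mul_of_nonneg_left (h2.trans
            (show 2 * (1 / 4 : ℝ) - 2 * min (1 / 4) (dist u u' / r0 / 2 ^ n) ≤ 1 / 2 by
              linarith only [h3])) h4
          refine h5.trans (le_of_eq ?_)
          ring
      _ = 8 / 5 * ∑ u' ∈ univ.filter (fun u' => u' ≠ u), p u' / ssB p u (dist u u') := by
          rw [mul_sum]
      _ ≤ 8 / 5 * L :=
          mul_le_mul_of_nonneg_left (sum_div_ball_le p hp hpk u) (by norm_num)
  -- part A1
  have hA1 : ∑ l ∈ range n, 16 / 5 * ((Real.log (ssB p u (r0 / 4 * 2 ^ (l + (J + 2))))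
      - Real.log (ssB p u (r0 / 4 * 2 ^ l))) / Real.log 2)
      ≤ 16 / 5 * ((((J + 2 : ℕ) : ℝ) * L) / Real.log 2) := by
    rw [← mul_sum, ← sum_div]
    refine mul_le_mul_of_nonneg_left (div_le_div_of_nonneg_right ?_ (by linarith only [hlog2pos])) (by norm_num)
    have h2 := ss_shift (fun i => Real.log (ssB p u (r0 / 4 * 2 ^ i))) (Real.log e0)
      (Real.log (k + e0)) (fun i => Real.log_le_log he (ssB_ge hp u _))
      (fun i => Real.log_le_log (lt_of_lt_of_le he (ssB_ge hp u _)) (ssB_le hp hpk u _)) n (J + 2)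
    rw [← Real.log_div (by positivity) he.ne'] at h2
    exact h2
  -- part B
  have hB : ∑ l ∈ range n, ∑ u', (1000 * k * Real.exp 1 * p u') *
      (if (2 : ℝ) ^ J < dist u u' / r0 / 2 ^ l
        then Real.exp (-(dist u u' / r0 / 2 ^ l)) else 0) ≤ 1 := by
    rw [sum_comm]
    have hJe : Real.exp (-(2 : ℝ) ^ J) ≤ Real.exp (-10) * (1 / k ^ 2) := by
      have h2 : Real.exp (-10) * (1 / k ^ 2) = Real.exp (-(10 + 2 * Real.log k)) := by
        rw [neg_add, Real.exp_add]
        congr 1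
        rw [Real.exp_neg, one_div]
        congr 1
        rw [show 2 * Real.log k = Real.log k + Real.log k by ring, Real.exp_add,
          Real.exp_log hk0]
        ring
      rw [h2]
      exact Real.exp_le_exp.2 (by linarith only [hJ1])
    calc ∑ u', ∑ l ∈ range n, (1000 * k * Real.exp 1 * p u') *
          (if (2 : ℝ) ^ J < dist u u' / r0 / 2 ^ l
            then Real.exp (-(dist u u' / r0 / 2 ^ l)) else 0)
        ≤ ∑ u', (1000 * k * Real.exp 1 * p u') * (2 * (Real.exp (-10) * (1 / k ^ 2))) := by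
          refine sum_le_sum fun u' _ => ?_
          rw [← mul_sum]
          refine mul_le_mul_of_nonneg_left ?_ (by have := hp u'; (clear * - hk this; positivity))
          refine (ss_geo3 (a := dist u u' / r0) (K := (2 : ℝ) ^ J)
            (one_le_pow₀ (by norm_num)) n).trans ?_
          refine mul_le_mul_of_nonneg_left (le_trans ?_ hJe) (by norm_num)
          exact Real.exp_le_exp.2 (neg_le_neg (le_max_left _ _))
      _ = (1000 * k * Real.exp 1) * (2 * (Real.exp (-10) * (1 / k ^ 2))) * ∑ u', p u' := by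
          rw [mul_sum]
          refine sum_congr rfl fun u' _ => ?_
          ring
      _ ≤ (1000 * k * Real.exp 1) * (2 * (Real.exp (-10) * (1 / k ^ 2))) * k :=
          mul_le_mul_of_nonneg_left hpk (by positivity)
      _ = 2000 * Real.exp (-9) := by
          have h2 : Real.exp (-9) = Real.exp 1 * Real.exp (-10) := by
            rw [← Real.exp_add]; norm_num
          rw [h2]
          field_simp
          norm_num
      _ ≤ 1 := by
          have h3 : (2.7 : ℝ) ≤ Real.exp 1 := by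
            have := Real.exp_one_gt_d9
            linarith only [this]
          have h4 : Real.exp 9 = Real.exp 1 ^ 9 := by
            rw [← Real.exp_nat_mul]; norm_num
          have h5 : (2.7 : ℝ) ^ 9 ≤ Real.exp 9 := by
            rw [h4]
            exact pow_le_pow_left₀ (by norm_num) h3 9
          have h6 : (2000 : ℝ) ≤ Real.exp 9 := by
            refine le_trans ?_ h5
            norm_num
          rw [Real.exp_neg, ← div_eq_mul_inv, div_le_one (Real.exp_pos 9)]
          exact h6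
  -- final arithmetic
  have hLle : L ≤ 4 + Real.log k := by
    have h2 : (k + e0) / e0 ≤ 21 * k := by
      rw [div_le_iff₀ he]
      unfold e0
      linarith only [hk]
    have h3 : L ≤ Real.log (21 * k) := Real.log_le_log (by (clear * - hk he; positivity)) h2
    rw [Real.log_mul (by norm_num) hk0.ne'] at h3
    have h4 : Real.log 21 ≤ 4 := by
      have h5 : Real.log 21 ≤ Real.log 32 := Real.log_le_log (by norm_num) (by norm_num)
      have h6 : Real.log 32 = 5 * Real.log 2 := by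
        rw [show (32 : ℝ) = 2 ^ 5 by norm_num, Real.log_pow]; norm_num
      have h7 := Real.log_two_lt_d9
      linarith only [h5, h6, h7]
    linarith only [h3, h4]
  have hL0 : 0 ≤ L := Real.log_nonneg (by
    rw [le_div_iff₀ he]
    linarith only [hk])
  set lam := Real.log k with hlam
  have hJL : (((J + 2 : ℕ) : ℝ) * L) / Real.log 2
      ≤ (7 + 3 / 2 * Real.log (1 + lam)) * (4 + lam) * (3 / 2) := by
    rw [div_le_iff₀ (by linarith only [hlog2pos])]
    push_cast
    have h2 : ((J : ℝ) + 2) * L ≤ (7 + 3 / 2 * Real.log (1 + lam)) * (4 + lam) :=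
      mul_le_mul (by linarith only [hJ2]) hLle hL0 (by linarith only [hllk])
    have h3 : 0 ≤ (7 + 3 / 2 * Real.log (1 + lam)) * (4 + lam) := by (clear * - hllk hlk; positivity)
    nlinarith only [h2, h3, hlog2]
  unfold Gk
  have hfin : 8 / 5 * L + 16 / 5 * ((((J + 2 : ℕ) : ℝ) * L) / Real.log 2) + 1
      ≤ 1000 * ((1 + lam) * (1 + Real.log (1 + lam))) := by
    have h2 : 0 ≤ lam := hlk
    have h3 : 0 ≤ lam * Real.log (1 + lam) := mul_nonneg h2 hllk
    nlinarith only [hlk, hllk, hLle, hJL]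
  linarith only [hA2, hA1, hB, hfin]

/-- geometric sum: large scales -/
theorem sum_scale_sq_le {r0 δ : ℝ} (hr : 0 < r0) (hδ : 0 ≤ δ) (n : ℕ) :
    ∑ l : Fin n, (r0 * 2 ^ (l : ℕ)) *
      (if δ / (r0 * 2 ^ (l : ℕ)) ≤ 1 / 32 then (δ / (r0 * 2 ^ (l : ℕ))) ^ 2 else 0) ≤ δ / 8 := by
  rw [Fin.sum_univ_eq_sum_range (fun l : ℕ => (r0 * 2 ^ l) *
      (if δ / (r0 * 2 ^ l) ≤ 1 / 32 then (δ / (r0 * 2 ^ l)) ^ 2 else 0)) n]
  have h1 : ∀ l ∈ range n, (r0 * 2 ^ l) *
      (if δ / (r0 * 2 ^ l) ≤ 1 / 32 then (δ / (r0 * 2 ^ l)) ^ 2 else 0)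
      = δ * (if δ / r0 / 2 ^ l ≤ 1 / 32 then δ / r0 / 2 ^ l else 0) := by
    intro l _
    rw [div_div]
    split_ifs
    · field_simp
    · simp
  rw [sum_congr rfl h1, ← mul_sum]
  have h2 := ss_geo1 (a := δ / r0) (c := 1 / 32) (by positivity) (by norm_num) n
  have h3 : 0 ≤ min (1 / 32 : ℝ) (δ / r0 / 2 ^ n) := le_min (by norm_num) (by positivity)
  have h4 := mul_le_mul_of_nonneg_left h2 hδ
  nlinarith [mul_nonneg hδ h3]

/-- geometric sum: small scales -/
theorem sum_scale_small_le {r0 δ : ℝ} (hr : 0 < r0) (hδ : 0 ≤ δ) (n : ℕ) :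
    ∑ l : Fin n, (if δ / (r0 * 2 ^ (l : ℕ)) ≤ 1 / 32 then 0 else r0 * 2 ^ (l : ℕ)) ≤ 64 * δ := by
  rw [Fin.sum_univ_eq_sum_range (fun l : ℕ =>
      (if δ / (r0 * 2 ^ l) ≤ 1 / 32 then 0 else r0 * 2 ^ l)) n]
  have h1 : ∀ l ∈ range n, (if δ / (r0 * 2 ^ l) ≤ 1 / 32 then 0 else r0 * 2 ^ l)
      = (if r0 * 2 ^ l < 32 * δ then r0 * 2 ^ l else 0) := by
    intro l _
    have hR : 0 < r0 * 2 ^ l := by positivity
    have i1 : δ / (r0 * 2 ^ l) ≤ 1 / 32 ↔ ¬ (r0 * 2 ^ l < 32 * δ) := by
      rw [div_le_iff₀ hR, not_lt]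
      constructor <;> intro h5 <;> linarith
    by_cases h2 : r0 * 2 ^ l < 32 * δ
    · rw [if_pos h2, if_neg (fun h3 => i1.1 h3 h2)]
    · rw [if_neg h2, if_pos (i1.2 h2)]
  rw [sum_congr rfl h1]
  have h2 := (ss_geo2 hr (c := 32 * δ) (by (clear * - hδ; positivity)) n).1
  linarith only [h2]

end Vale.Agent.P304.Dyn
end
end

section

section
set_option linter.all false

open scoped BigOperators

namespace Vale.Agent.P304.HST

theorem ut_small (X : Type) [MetricSpace X] [Fintype X] :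
    ∃ r : ℝ, 0 < r ∧ ∀ x y : X, x ≠ y → r < dist x y := by
  classical
  rcases isEmpty_or_nonempty X with hX | hX
  · exact ⟨1, one_pos, fun x => hX.elim x⟩
  · obtain ⟨p, hp⟩ := Finite.exists_min
      (fun p : X × X => if p.1 = p.2 then (1 : ℝ) else dist p.1 p.2)
    have hpos : 0 < (if p.1 = p.2 then (1 : ℝ) else dist p.1 p.2) := by
      split_ifs with h
      · exact one_pos
      · exact dist_pos.2 h
    refine ⟨(if p.1 = p.2 then (1 : ℝ) else dist p.1 p.2) / 2, half_pos hpos, fun x y hxy => ?_⟩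
    have h := hp (x, y)
    simp only [if_neg hxy] at h
    exact lt_of_lt_of_le (half_lt_self hpos) h

theorem ut_big (X : Type) [MetricSpace X] [Fintype X] {r : ℝ} (hr : 0 < r) :
    ∃ D : ℕ, ∀ x y : X, dist x y ≤ r * 2 ^ D := by
  obtain ⟨B, hB⟩ := (Set.finite_range fun p : X × X => dist p.1 p.2).bddAbove
  obtain ⟨D, hD⟩ := pow_unbounded_of_one_lt (B / r) (one_lt_two : (1 : ℝ) < 2)
  refine ⟨D, fun x y => ?_⟩
  have h1 : dist x y ≤ B := hB ⟨(x, y), rfl⟩
  rw [div_lt_iff₀ hr] at hD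
  (clear * - hD h1; linarith)

theorem ut_geom (r : ℝ) (n : ℕ) : ∑ j ∈ Finset.range n, r * 2 ^ j = r * (2 ^ n - 1) := by
  rw [← Finset.mul_sum, geom_sum_eq (by (clear * -; norm_num))]
  norm_num

/-- every finite ultrametric space carries a hierarchy with weights `r0 * 2^l` and clusters
`closedBall x (r0 * 2^l)`, `0 < r0 <` smallest distance, `r0 * 2^D >=` diameter. -/
theorem exists_hier (X : Type) [MetricSpace X] [IsUltrametricDist X] [Fintype X] [DecidableEq X] :
    ∃ T : Hier X, (∀ j, ∑ l ∈ Finset.range (j + 1), T.rho l ≤ 2 * T.rho j) ∧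
      (∀ l x y, y ∈ T.cl l x → dist x y ≤ 2 * ∑ j ∈ Finset.range l, T.rho j) ∧
      (∀ x y, ∑ j ∈ (Finset.range T.D).filter (fun j => y ∉ T.cl j x), T.rho j
        ≤ 2 * dist x y) := by
  classical
  obtain ⟨r, hr, hmin⟩ := ut_small X
  obtain ⟨D, hD⟩ := ut_big X hr
  let T : Hier X :=
    { D := D
      cl := fun l x => Finset.univ.filter fun y => dist x y ≤ r * 2 ^ l
      rho := fun l => r * 2 ^ l
      rho_pos := fun l => by positivity
      mem_self := fun l x => by
        simp only [Finset.mem_filter, Finset.mem_univ, true_and, dist_self]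
        (clear * - hr; positivity)
      eq_of_mem := fun l x y h => by
        simp only [Finset.mem_filter, Finset.mem_univ, true_and] at h
        ext z
        simp only [Finset.mem_filter, Finset.mem_univ, true_and]
        constructor
        · intro h2
          exact (dist_triangle_max x y z).trans (max_le h h2)
        · intro h2
          exact (dist_triangle_max y x z).trans (max_le (by rwa [dist_comm]) h2)
      mono := fun l x y h => by
        simp only [Finset.mem_filter, Finset.mem_univ, true_and] at h ⊢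
        refine h.trans ?_
        rw [pow_succ]
        have : 0 < r * 2 ^ l := by positivity
        linarith only [this]
      cl_zero := fun x => by
        ext y
        simp only [pow_zero, mul_one, Finset.mem_filter, Finset.mem_univ, true_and, Finset.mem_singleton]
        constructor
        · intro h
          by_contra hne
          exact absurd (hmin x y fun h' => hne h'.symm) (not_lt.2 h)
        · rintro rfl
          rw [dist_self]
          exact hr.le
      cl_top := fun x => by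
        ext y
        simp only [Finset.mem_filter, Finset.mem_univ, hD x y, and_self] }
  have hrho : ∀ l, T.rho l = r * 2 ^ l := fun l => rfl
  have hcl : ∀ l x y, y ∈ T.cl l x ↔ dist x y ≤ r * 2 ^ l := by
    intro l x y
    simp only [Finset.mem_filter, Finset.mem_univ, true_and, T]
  refine ⟨T, fun j => ?_, fun l x y h => ?_, fun x y => ?_⟩
  · simp only [hrho]
    rw [ut_geom, pow_succ]
    linarith
  · rw [hcl] at h
    simp only [hrho]
    rw [ut_geom]
    rcases l with _ | l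
    · have hxy : x = y := by
        by_contra hne
        have := hmin x y hne
        rw [pow_zero, mul_one] at h
        linarith only [h, this]
      rw [hxy, dist_self]
      simp
    · have h2 : (1 : ℝ) ≤ 2 ^ l := one_le_pow₀ (by norm_num)
      rw [pow_succ] at h ⊢
      nlinarith only [h, hr, h2]
  · simp only [hrho, hcl, not_le]
    rcases Finset.eq_empty_or_nonempty
      ((Finset.range T.D).filter fun j => r * 2 ^ j < dist x y) with he | hne
    · rw [he, Finset.sum_empty]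
      positivity
    · set S := (Finset.range T.D).filter fun j => r * 2 ^ j < dist x y with hS
      have hmem := S.max'_mem hne
      have h1 : r * 2 ^ (S.max' hne) < dist x y := (Finset.mem_filter.1 hmem).2
      have hsub : S ⊆ Finset.range (S.max' hne + 1) := by
        intro j hj
        exact Finset.mem_range.2 (Nat.lt_succ_of_le (S.le_max' j hj))
      have h2 : ∑ j ∈ S, r * 2 ^ j ≤ ∑ j ∈ Finset.range (S.max' hne + 1), r * 2 ^ j :=
        Finset.sum_le_sum_of_subset_of_nonneg hsub fun j _ _ => by positivity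
      rw [ut_geom, pow_succ] at h2
      linarith

end Vale.Agent.P304.HST
end
end

section

section
set_option linter.all false

open scoped BigOperators ENNReal NNReal

namespace Vale.Agent.P304.HST

theorem take_succ_snoc {X : Type} (σ : List X) (t : ℕ) (ht : t < σ.length) :
    σ.take (t + 1) = σ.take t ++ [σ[t]] := by
  rw [List.take_add_one, List.getElem?_eq_getElem ht]
  rfl

/-- positions from configurations -/
theorem exists_virtual {X : Type} [MetricSpace X] [Fintype X] [DecidableEq X] {k : ℕ}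
    (T : Hier X) (hd : ∀ l x y, y ∈ T.cl l x → dist x y ≤ 2 * ∑ j ∈ Finset.range l, T.rho j)
    (s : Fin k → X) (A : List X → X → ℕ) (hA0 : ∑ x, A [] x = k) :
    ∃ v : List X → Fin k → X, ∀ σ : List X, (∀ t ≤ σ.length, ∑ x, A (σ.take t) x = k) →
      (∀ t ≤ σ.length, cnt (v (σ.take t)) = A (σ.take t)) ∧
      (∀ t < σ.length, ∑ j, dist (v (σ.take t) j) (v (σ.take (t + 1)) j) ≤
        T.tn (fun x => (A (σ.take t) x : ℝ)) (fun x => (A (σ.take (t + 1)) x : ℝ))) := by
  obtain ⟨q0, hq0, -⟩ := exists_match T hd s (A []) hA0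
  obtain ⟨v, hv0, hv⟩ := exists_rec (Y := X) (β := Fin k → X)
    (fun g r b b' => ∑ x, A (g ++ [r]) x = k → (cnt b' = A (g ++ [r]) ∧
      ∑ j, dist (b j) (b' j) ≤ T.tn (fun x => (cnt b x : ℝ)) (fun x => (A (g ++ [r]) x : ℝ)))) q0
    (by
      intro g r b
      by_cases h : ∑ x, A (g ++ [r]) x = k
      · obtain ⟨q, hq1, hq2⟩ := exists_match T hd b (A (g ++ [r])) h
        exact ⟨q, fun _ => ⟨hq1, hq2⟩⟩
      · exact ⟨b, fun h' => absurd h' h⟩)
  refine ⟨v, fun σ hσ => ?_⟩
  have h1 : ∀ t ≤ σ.length, cnt (v (σ.take t)) = A (σ.take t) := by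
    intro t
    induction t with
    | zero =>
      intro _
      rw [List.take_zero, hv0, hq0]
    | succ t _ =>
      intro ht
      have h2 := hσ (t + 1) ht
      rw [take_succ_snoc σ t ht] at h2 ⊢
      exact (hv _ _ h2).1
  refine ⟨h1, fun t ht => ?_⟩
  have h2 := hσ (t + 1) ht
  rw [← h1 t ht.le]
  rw [take_succ_snoc σ t ht] at h2 ⊢
  exact (hv _ _ h2).2

/-- the Bayesian bound on a finite ultrametric space -/
theorem bayes_ult (X : Type) [MetricSpace X] [IsUltrametricDist X] [Finite X] {k : ℕ} [NeZero k]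
    (s : Fin k → X) :
    ∃ B : ℝ, ∀ (F : Finset (List X)) (w : List X → ℝ), (∀ σ, 0 ≤ w σ) → ∑ σ ∈ F, w σ = 1 →
      ∃ a : List X → Fin k, ∑ σ ∈ F, w σ * policyCost s a σ ≤
        ∑ σ ∈ F, w σ * (512 * (1 + Real.log (8 * k ^ 2)) * Real.log (64 * k) * opt s σ + B) := by
  classical
  haveI := Fintype.ofFinite X
  have hk : 1 ≤ k := Nat.one_le_iff_ne_zero.2 (NeZero.ne k)
  haveI : Nonempty X := ⟨s ⟨0, hk⟩⟩
  have hk' : (1 : ℝ) ≤ k := by exact_mod_cast hk
  obtain ⟨T, hρ, hd, hd'⟩ := exists_hier X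
  obtain ⟨B₁, hB₁, hfr⟩ := fractional T hk s
  set K₀ : ℝ := ∑ j, ∑ x, dist (s j) x with hK₀
  set L1 : ℝ := 1 + Real.log (8 * k ^ 2) with hL1
  set L2 : ℝ := Real.log (64 * k) with hL2
  have hlog1 : 0 ≤ Real.log (8 * k ^ 2) := Real.log_nonneg (by nlinarith only [hk'])
  have hL1pos : 0 < L1 := by rw [hL1]; linarith only [hlog1]
  have hL2pos : 0 ≤ L2 := Real.log_nonneg (by nlinarith only [hk'])
  have hcc : cc k = 1 / (16 * L1) := rfl
  refine ⟨K₀ + 256 * L1 * B₁, fun F w hw hw1 => ?_⟩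
  set F' := F.filter fun σ => 0 < w σ with hF'
  have hsum : ∀ f : List X → ℝ, ∑ σ ∈ F', w σ * f σ = ∑ σ ∈ F, w σ * f σ := by
    intro f
    rw [hF', Finset.sum_filter]
    refine Finset.sum_congr rfl fun σ _ => ?_
    split_ifs with h
    · rfl
    · rw [le_antisymm (not_lt.1 h) (hw σ), zero_mul]
  have hsum1 : ∑ σ ∈ F', w σ = 1 := by
    have := hsum (fun _ => 1)
    simp only [mul_one] at this
    rw [this, hw1]
  have hF'ne : F'.Nonempty := by
    rw [Finset.nonempty_iff_ne_empty]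
    intro h
    rw [h, Finset.sum_empty] at hsum1
    exact zero_ne_one hsum1
  choose o ho0 ho1 ho2 using fun σ : List X => exists_opt_positions s σ
  obtain ⟨Z, hZ0, hZnn, hZk, hZb, hZc⟩ := hfr F' w o
    (fun σ hσ => (Finset.mem_filter.1 hσ).2) (fun σ _ => ho0 σ)
    (fun σ _ t ht => ho1 σ t ht)
  obtain ⟨A, hA1, hA2, hA3⟩ := exists_config T hρ hk F' w (fun σ _ => hw σ) Z hZnn hZk
  obtain ⟨σ₀, hσ₀⟩ := hF'ne
  have hA0 : ∑ x, A [] x = k := by
    have := hA1 σ₀ hσ₀ 0 (Nat.zero_le _)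
    rwa [List.take_zero] at this
  obtain ⟨v, hv⟩ := exists_virtual T hd s A hA0
  have hne : Nonempty (Fin k) := ⟨⟨0, hk⟩⟩
  set a : List X → Fin k := fun h =>
    if hh : ∃ j, some (v h j) = h.getLast? then hh.choose else ⟨0, hk⟩ with ha
  have hserve : ∀ σ ∈ F', ∀ (t : ℕ) (ht : t < σ.length),
      v (σ.take (t + 1)) (a (σ.take (t + 1))) = σ[t] := by
    intro σ hσ t ht
    have h1 : (σ.take (t + 1)).getLast? = some σ[t] := by
      rw [take_succ_snoc σ t ht, List.getLast?_concat]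
    have h2 : 1 ≤ A (σ.take (t + 1)) σ[t] := hA2 σ hσ (t + 1) ht _ (hZb σ hσ t ht)
    have h3 := (hv σ (hA1 σ hσ)).1 (t + 1) ht
    rw [← h3, cnt, Nat.one_le_iff_ne_zero, Ne, Finset.card_eq_zero, ← Ne,
      ← Finset.nonempty_iff_ne_empty] at h2
    obtain ⟨j, hj⟩ := h2
    have hh : ∃ j, some (v (σ.take (t + 1)) j) = (σ.take (t + 1)).getLast? :=
      ⟨j, by rw [h1, (Finset.mem_filter.1 hj).2]⟩
    have h4 : a (σ.take (t + 1)) = hh.choose := dif_pos hh
    rw [h4]
    exact Option.some_injective _ (hh.choose_spec.trans h1)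
  refine ⟨a, ?_⟩
  have hpc : ∀ σ ∈ F', policyCost s a σ ≤ K₀ + ∑ t ∈ Finset.range σ.length,
      T.tn (fun x => (A (σ.take t) x : ℝ)) (fun x => (A (σ.take (t + 1)) x : ℝ)) := by
    intro σ hσ
    refine (policyCost_le_virtual s v a σ (hserve σ hσ)).trans (add_le_add ?_ ?_)
    · rw [hK₀]
      refine Finset.sum_le_sum fun j _ => ?_
      exact Finset.single_le_sum (f := fun x => dist (s j) x) (fun x _ => dist_nonneg)
        (Finset.mem_univ (v [] j))
    · refine Finset.sum_le_sum fun t ht => ?_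
      exact (hv σ (hA1 σ hσ)).2 t (Finset.mem_range.1 ht)
  have hop : ∀ σ ∈ F', ∑ t ∈ Finset.range σ.length,
      T.drop (fun y => (cnt (o σ t) y : ℝ)) (fun y => (cnt (o σ (t + 1)) y : ℝ))
        ≤ 2 * opt s σ := by
    intro σ _
    rw [← ho2 σ, Finset.mul_sum]
    exact Finset.sum_le_sum fun t _ => drop_cnt_le T hd' _ _
  rw [← hsum, ← hsum]
  set S1 := ∑ σ ∈ F', w σ * ∑ t ∈ Finset.range σ.length,
      T.tn (fun x => (A (σ.take t) x : ℝ)) (fun x => (A (σ.take (t + 1)) x : ℝ)) with hS1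
  set S2 := ∑ σ ∈ F', w σ * ∑ t ∈ Finset.range σ.length,
      T.tn (Z (σ.take t)) (Z (σ.take (t + 1))) with hS2
  set S3 := ∑ σ ∈ F', w σ * ∑ t ∈ Finset.range σ.length,
      T.drop (fun y => (cnt (o σ t) y : ℝ)) (fun y => (cnt (o σ (t + 1)) y : ℝ)) with hS3
  set S4 := ∑ σ ∈ F', w σ * opt s σ with hS4
  have e1 : ∑ σ ∈ F', w σ * policyCost s a σ ≤ K₀ + S1 := by
    have : K₀ + S1 = ∑ σ ∈ F', w σ * (K₀ + ∑ t ∈ Finset.range σ.length,
      T.tn (fun x => (A (σ.take t) x : ℝ)) (fun x => (A (σ.take (t + 1)) x : ℝ))) := by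
      simp only [mul_add]
      rw [Finset.sum_add_distrib, ← Finset.sum_mul, hsum1, one_mul, hS1]
    rw [this]
    exact Finset.sum_le_sum fun σ hσ => mul_le_mul_of_nonneg_left (hpc σ hσ) (hw σ)
  have e3 : S3 ≤ 2 * S4 := by
    rw [hS4, Finset.mul_sum]
    refine Finset.sum_le_sum fun σ hσ => ?_
    calc w σ * _ ≤ w σ * (2 * opt s σ) := mul_le_mul_of_nonneg_left (hop σ hσ) (hw σ)
      _ = 2 * (w σ * opt s σ) := by ring
  have e2 : cc k * S2 ≤ B₁ + L2 * S3 := by
    have := hZc
    rw [hsum1, mul_one] at this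
    exact this
  have e4 : S2 ≤ 16 * L1 * (B₁ + L2 * S3) := by
    rw [hcc] at e2
    have h5 : 0 < 16 * L1 := by (clear * - hlog1; positivity)
    have h6 : (16 * L1) * (1 / (16 * L1) * S2) ≤ (16 * L1) * (B₁ + L2 * S3) :=
      mul_le_mul_of_nonneg_left e2 h5.le
    have h7 : (16 * L1) * (1 / (16 * L1) * S2) = S2 := by
      (clear * - hL1pos; field_simp)
    rw [h7] at h6
    exact h6
  have e5 : S1 ≤ 16 * S2 := hA3
  have e6 : L2 * S3 ≤ L2 * (2 * S4) := mul_le_mul_of_nonneg_left e3 hL2pos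
  have e7 : 16 * L1 * (B₁ + L2 * S3) ≤ 16 * L1 * (B₁ + L2 * (2 * S4)) := by
    refine mul_le_mul_of_nonneg_left ?_ (by (clear * - hlog1; positivity))
    linarith only [e6]
  have e8 : ∑ σ ∈ F', w σ * (512 * L1 * L2 * opt s σ + (K₀ + 256 * L1 * B₁))
      = 512 * L1 * L2 * S4 + (K₀ + 256 * L1 * B₁) := by
    have h5 : ∀ σ ∈ F', w σ * (512 * L1 * L2 * opt s σ + (K₀ + 256 * L1 * B₁))
        = 512 * L1 * L2 * (w σ * opt s σ) + w σ * (K₀ + 256 * L1 * B₁) := fun σ _ => by ring
    rw [Finset.sum_congr rfl h5, Finset.sum_add_distrib, ← Finset.mul_sum, ← Finset.sum_mul,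
      hsum1, one_mul]
  rw [e8]
  have e9 : 16 * (16 * L1 * (B₁ + L2 * (2 * S4))) = 512 * L1 * L2 * S4 + 256 * L1 * B₁ := by ring
  linarith only [hA3, e1, e4, e7]

theorem Rult_le (k : ℕ) [NeZero k] :
    Rult k ≤ ENNReal.ofReal (512 * (1 + Real.log (8 * k ^ 2)) * Real.log (64 * k)) := by
  classical
  have hk : 1 ≤ k := Nat.one_le_iff_ne_zero.2 (NeZero.ne k)
  have hk' : (1 : ℝ) ≤ k := by exact_mod_cast hk
  have hlog1 : 0 ≤ Real.log (8 * k ^ 2) := Real.log_nonneg (by nlinarith only [hk'])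
  have hL2pos : 0 ≤ Real.log (64 * k) := Real.log_nonneg (by nlinarith only [hk'])
  unfold Rult
  refine iSup_le fun X => iSup_le fun _ => iSup_le fun _ => iSup_le fun _ => iSup_le fun _ =>
    iSup_le fun s => ?_
  obtain ⟨B, hB⟩ := bayes_ult X s
  have h0 : 0 ≤ 512 * (1 + Real.log (8 * k ^ 2)) * Real.log (64 * k) := by positivity
  have h1 : IsCompetitive s
      ((512 * (1 + Real.log (8 * k ^ 2)) * Real.log (64 * k)).toNNReal : ℝ) := by
    rw [isCompetitive_iff]
    refine ⟨B, ?_⟩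
    rw [Real.coe_toNNReal _ h0]
    exact good_of_finite s _ _ fun F => Dyn.good_of_bayes s _ _ F fun w hw hw1 => hB F w hw hw1
  exact ratio_le h1

/-- `R_ult(k) <= C (1 + log k)^2`, unconditionally. -/
theorem exists_Rult_le : ∃ C : ℝ, 0 < C ∧ ∀ k : ℕ, 1 ≤ k →
    Rult k ≤ ENNReal.ofReal (C * (1 + Real.log k) ^ 2) := by
  have h8 : 0 ≤ Real.log 8 := Real.log_nonneg (by norm_num)
  have h64 : 0 ≤ Real.log 64 := Real.log_nonneg (by norm_num)
  refine ⟨512 * (1 + Real.log 8 + 2) * (Real.log 64 + 1), by (clear * -; positivity), fun k hk => ?_⟩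
  haveI : NeZero k := ⟨by omega⟩
  have hk' : (1 : ℝ) ≤ k := by exact_mod_cast hk
  have hk0 : (0 : ℝ) < k := by linarith only [hk']
  have hlk : 0 ≤ Real.log k := Real.log_nonneg hk'
  refine (Rult_le k).trans (ENNReal.ofReal_le_ofReal ?_)
  have e1 : Real.log (8 * k ^ 2) = Real.log 8 + 2 * Real.log k := by
    rw [Real.log_mul (by norm_num) (by positivity), Real.log_pow]
    push_cast
    ring
  have e2 : Real.log (64 * k) = Real.log 64 + Real.log k :=
    Real.log_mul (by norm_num) (by positivity)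
  rw [e1, e2]
  have h1 : 1 + (Real.log 8 + 2 * Real.log k) ≤ (1 + Real.log 8 + 2) * (1 + Real.log k) := by
    nlinarith only [hlk, h8]
  have h2 : Real.log 64 + Real.log k ≤ (Real.log 64 + 1) * (1 + Real.log k) := by
    nlinarith only [h64, hlk]
  calc 512 * (1 + (Real.log 8 + 2 * Real.log k)) * (Real.log 64 + Real.log k)
      ≤ 512 * ((1 + Real.log 8 + 2) * (1 + Real.log k)) *
          ((Real.log 64 + 1) * (1 + Real.log k)) := by (clear * - h1 h2; gcongr)
    _ = 512 * (1 + Real.log 8 + 2) * (Real.log 64 + 1) * (1 + Real.log k) ^ 2 := by ring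

end Vale.Agent.P304.HST
end
end

section

section

/-!
# P304: the world (all scales), states, addresses, places
-/

open Finset

namespace Vale.Agent.P304.Dyn

/-- data of the construction: `n` scales `r0 * 2^l`, `M` tracks, tokens indexed by `J` -/
structure World (X : Type) [MetricSpace X] [Fintype X] where
  /-- number of servers -/
  k : ℝ
  hk : 1 ≤ k
  /-- number of scales -/
  n : ℕ
  hn : 1 ≤ n
  /-- smallest scale -/
  r0 : ℝ
  hr0 : 0 < r0
  /-- root location -/
  x0 : X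
  /-- number of tracks -/
  M : ℕ
  hM : 8 * k ≤ M
  hM2 : (M : ℝ) ≤ 9 * k
  bot : ∀ u v : X, u ≠ v → RR k * r0 < dist u v
  top : ∀ u v : X, dist u v ≤ r0 * 2 ^ n

variable {X J : Type} [MetricSpace X] [Fintype X] [DecidableEq X] [Fintype J] [DecidableEq J]

namespace World

variable (Wd : World X)

/-- the scale of level `l` -/
noncomputable def r (l : ℕ) : ℝ := Wd.r0 * 2 ^ l

/-- level of a node of depth `m` (`1 ≤ m ≤ n`): `n - m` -/
def lv (m : ℕ) : Fin Wd.n := ⟨(Wd.n - m) % Wd.n, Nat.mod_lt _ Wd.hn⟩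

/-- weight of a node of depth `m` -/
noncomputable def rho (m : ℕ) : ℝ := 6 * RR Wd.k * Wd.r (Wd.n - m)

/-- price parameters of the tracks -/
noncomputable def lam : ℝ := 1 / (16 * Real.log (Wd.M + 2))

/-- weight of a label change at level `l` -/
noncomputable def wt (l : ℕ) : ℝ := 24 * RR Wd.k * Wd.r l

end World

/-- the state: tokens at every level, and for every order `π` the tracks -/
structure St (Wd : World X) (J : Type) [Fintype J] (B : ℕ) where
  x : Fin Wd.n → Conf X J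
  y : Ord (GG Wd.n J B) → Fin Wd.M → List J

variable {Wd : World X} {η : ℝ}

/-- the label of `u` at level `l` -/
noncomputable def labS (P : LPar η Wd.k J) (x : Fin Wd.n → Conf X J) (π : Ord (GG Wd.n J P.B))
    (l : Fin Wd.n) (u : X) : Option J :=
  lab Wd.k P.Q P.Ne (Dl Wd.r0 l) π l (x l) u

/-- the list of the labels at the top `d` levels, cut at the first null label (deepest first) -/
noncomputable def adAux (P : LPar η Wd.k J) (x : Fin Wd.n → Conf X J) (π : Ord (GG Wd.n J P.B))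
    (u : X) : ℕ → List J
  | 0 => []
  | d + 1 =>
    if (adAux P x π u d).length = d then
      match labS P x π (Wd.lv (d + 1)) u with
      | some j => j :: adAux P x π u d
      | none => adAux P x π u d
    else adAux P x π u d

/-- the address of `u` -/
noncomputable def ad (P : LPar η Wd.k J) (x : Fin Wd.n → Conf X J) (π : Ord (GG Wd.n J P.B))
    (u : X) : List J := adAux P x π u Wd.n

/-- the place of a node: the location of its last token -/
def loc (Wd : World X) (x : Fin Wd.n → Conf X J) : List J → X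
  | [] => Wd.x0
  | j :: N => (x (Wd.lv (N.length + 1)) j).1

/-- invariant of a state with respect to the posterior `p` -/
structure Inv (P : LPar η Wd.k J) (p : X → ℝ) (s : St Wd J P.B) : Prop where
  bal : ∀ l : Fin Wd.n, Bal (Dl Wd.r0 l) p (nuC η (s.x l))
  len : ∀ π i, (s.y π i).length ≤ Wd.n
  dom : ∀ π (N : List J), N ≠ [] → Wd.lam * cnt (s.y π) N ≤ pm p (ad P s.x π) N
  lf : ∀ π u, 1 ≤ p u → (ad P s.x π u).length = Wd.n ∧ ∃ i, s.y π i = ad P s.x π u

/-- tokens displaced by at most `4` scales (alive ones only) -/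
def Moved (Wd : World X) (x xd : Fin Wd.n → Conf X J) : Prop :=
  ∀ l j, xd l j = x l j ∨
    ((x l j).2 = true ∧ (xd l j).2 = true ∧ Dl Wd.r0 l (x l j).1 (xd l j).1 ≤ 4)

/-! ### costs -/

/-- physical movement of the tracks -/
noncomputable def PhC {B : ℕ} (s s' : St Wd J B) : ℝ :=
  EE fun π => ∑ i, dist (loc Wd s.x (s.y π i)) (loc Wd s'.x (s'.y π i))

/-- movement of the tracks on the tree -/
noncomputable def TrC {B : ℕ} (s s' : St Wd J B) : ℝ :=
  EE fun π => ∑ i, (dn Wd.rho (s.y π i) (s'.y π i) + dn Wd.rho (s'.y π i) (s.y π i))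

/-- address distance between `u` before and `v` after -/
noncomputable def XC (P : LPar η Wd.k J) (x x' : Fin Wd.n → Conf X J) (u v : X) : ℝ :=
  EE fun π => ∑ l : Fin Wd.n, Wd.wt l * (if labS P x π l u = labS P x' π l v then (0 : ℝ) else 1)

/-! ### potential -/

/-- total coefficient of relabellings -/
noncomputable def World.Gam (Wd : World X) : ℝ := 1 + 32 * Real.log (Wd.M + 2) ^ 2

/-- coefficient of the token potential -/
noncomputable def World.A1 (Wd : World X) : ℝ := 9600 * RR Wd.k * Wd.Gam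

/-- the potential; affine in `p` -/
noncomputable def Pot (P : LPar η Wd.k J) (p : X → ℝ) (s : St Wd J P.B) : ℝ :=
  Wd.A1 * ∑ l : Fin Wd.n, Wd.r l * FF (Dl Wd.r0 l) p (nuC η (s.x l))
    + 4 / Wd.lam * EE (fun π => pot Wd.rho Wd.lam p (ad P s.x π) (s.y π))
    + 2 * EE (fun π => ∑ i, hgt Wd.rho (s.y π i))

/-- follow constant -/
noncomputable def World.G2 (Wd : World X) : ℝ :=
  2 * (101 / Wd.lam) * (14 + 12 * RR Wd.k) * Real.log ((Wd.k + e0) / e0)
    + 8 * (1 / Wd.lam) * (1 + Real.log ((Wd.k + e0) / e0))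

/-- the constant of the `T`-step -/
noncomputable def World.CT (Wd : World X) : ℝ :=
  Wd.A1 * (600 * Gk Wd.k + 1000 + 64 * Real.log (60 * Wd.k))
    + 24 * RR Wd.k * Wd.Gam * (1300000 * Gk Wd.k + 64) + 130 * Wd.G2

/-- the error of one substep: `α` = total mass of the plan, `η` = mass of a token,
`q = η |J| / Q` -/
noncomputable def World.err (Wd : World X) (α η q : ℝ) : ℝ :=
  ∑ l : Fin Wd.n, Wd.r l * (Wd.A1 * (4000 * Wd.k * α ^ 2
      + (1 + Wd.k / e0) * (2 * η * (Fintype.card X : ℝ) ^ 2))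
    + 24 * RR Wd.k * Wd.Gam * (200 * α ^ 2 + 400 * Wd.k * q))

end Vale.Agent.P304.Dyn
end
end

section

section

/-! S1: addresses and labels. -/

open Finset

namespace Vale.Agent.P304.Dyn

variable {X J : Type} [MetricSpace X] [Fintype X] [DecidableEq X] [Fintype J] [DecidableEq J]
  {Wd : World X} {η : ℝ}

theorem adAux_length_le (P : LPar η Wd.k J) (x : Fin Wd.n → Conf X J) (π : Ord (GG Wd.n J P.B))
    (u : X) (d : ℕ) : (adAux P x π u d).length ≤ d := by
  induction d with
  | zero => simp only [adAux, List.length_nil, Std.le_refl]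
  | succ d ih =>
    rw [adAux]
    split_ifs with h
    · split
      · simp [h]
      · omega
    · omega

theorem adAux_suffix_succ (P : LPar η Wd.k J) (x : Fin Wd.n → Conf X J)
    (π : Ord (GG Wd.n J P.B)) (u : X) (d : ℕ) :
    adAux P x π u d <:+ adAux P x π u (d + 1) := by
  rw [adAux]
  split_ifs with h
  · split
    · exact List.suffix_cons _ _
    · exact List.suffix_rfl
  · exact List.suffix_rfl

theorem adAux_suffix (P : LPar η Wd.k J) (x : Fin Wd.n → Conf X J)
    (π : Ord (GG Wd.n J P.B)) (u : X) {d e : ℕ} (h : d ≤ e) :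
    adAux P x π u d <:+ adAux P x π u e := by
  induction h with
  | refl => exact List.suffix_rfl
  | step _ ih => exact ih.trans (adAux_suffix_succ P x π u _)

theorem adAux_const (P : LPar η Wd.k J) (x : Fin Wd.n → Conf X J)
    (π : Ord (GG Wd.n J P.B)) (u : X) {d e : ℕ} (h : d ≤ e)
    (hd : (adAux P x π u d).length < d) : adAux P x π u e = adAux P x π u d := by
  induction h with
  | refl => rfl
  | step hm ih =>
    rw [adAux, if_neg, ih]
    rw [ih]
    have : d ≤ _ := hm
    (clear * - hd this; omega)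

theorem ad_length_le (P : LPar η Wd.k J) (x : Fin Wd.n → Conf X J) (π : Ord (GG Wd.n J P.B))
    (u : X) : (ad P x π u).length ≤ Wd.n := adAux_length_le P x π u _

theorem lab_of_suffix_aux (P : LPar η Wd.k J) (x : Fin Wd.n → Conf X J)
    (π : Ord (GG Wd.n J P.B)) (u : X) (j : J) (N : List J) (d : ℕ)
    (h : (j :: N) <:+ adAux P x π u d) :
    labS P x π (Wd.lv (N.length + 1)) u = some j := by
  induction d with
  | zero =>
    rw [adAux, List.suffix_nil] at h
    exact absurd h (List.cons_ne_nil _ _)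
  | succ d ih =>
    rw [adAux] at h
    split_ifs at h with hd
    · split at h
      · rename_i j0 hj0
        rw [List.suffix_cons_iff] at h
        rcases h with h | h
        · obtain ⟨rfl, rfl⟩ := List.cons_eq_cons.mp h
          rw [hd]
          exact hj0
        · exact ih h
      · exact ih h
    · exact ih h

/-- the letters of the address are the labels -/
theorem lab_of_suffix (P : LPar η Wd.k J) (x : Fin Wd.n → Conf X J) (π : Ord (GG Wd.n J P.B))
    (u : X) (j : J) (N : List J) (h : (j :: N) <:+ ad P x π u) :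
    labS P x π (Wd.lv (N.length + 1)) u = some j := lab_of_suffix_aux P x π u j N _ h

theorem ad_length_eq (P : LPar η Wd.k J) (x : Fin Wd.n → Conf X J) (π : Ord (GG Wd.n J P.B))
    (u : X) (h : ∀ l, labS P x π l u ≠ none) : (ad P x π u).length = Wd.n := by
  have key : ∀ d, (adAux P x π u d).length = d := by
    intro d
    induction d with
    | zero => simp only [adAux, List.length_nil]
    | succ d ih =>
      rw [adAux, if_pos ih]
      split
      · simp [ih]
      · rename_i h0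
        exact absurd h0 (h _)
  exact key _

/-- a label of the right level extends the address -/
theorem cons_suffix_of_lab (P : LPar η Wd.k J) (x : Fin Wd.n → Conf X J)
    (π : Ord (GG Wd.n J P.B)) (u : X) (j : J) (N : List J) (hN : N <:+ ad P x π u)
    (hn : N.length + 1 ≤ Wd.n) (h : labS P x π (Wd.lv (N.length + 1)) u = some j) :
    (j :: N) <:+ ad P x π u := by
  have hlen : (adAux P x π u N.length).length = N.length := by
    by_contra hne
    have hlt : (adAux P x π u N.length).length < N.length :=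
      lt_of_le_of_ne (adAux_length_le P x π u _) hne
    have h1 := adAux_const P x π u (show N.length ≤ Wd.n by omega) hlt
    have h2 := hN.length_le
    rw [ad, h1] at h2
    (clear * - hlt h2; omega)
  have hEq : adAux P x π u N.length = N := by
    have h1 : adAux P x π u N.length <:+ ad P x π u :=
      adAux_suffix P x π u (show N.length ≤ Wd.n by omega)
    have h2 : adAux P x π u N.length <:+ N := suffix_of_le h1 hN hlen.le
    exact h2.eq_of_length hlen
  have h3 : adAux P x π u (N.length + 1) = j :: N := by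
    rw [adAux, if_pos hlen, h]
    simp only [hEq]
  rw [← h3]
  exact adAux_suffix P x π u hn

theorem tau_le {k : ℝ} (hk : 1 ≤ k) : 2000 ≤ 1 / tau k := by
  unfold tau e0
  rw [one_div_div, le_div_iff₀ (by norm_num)]
  linarith only [hk]

/-- `RR k = 7/2 + log (2000 k)` -/
theorem RR_ge {k : ℝ} (hk : 1 ≤ k) : 11 ≤ RR k := by
  unfold RR
  have h1 : (15 / 2 : ℝ) ≤ Real.log 2000 := by
    rw [Real.le_log_iff_exp_le (by norm_num)]
    have h2 : Real.exp (15 / 2) ^ 2 = Real.exp 1 ^ 15 := by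
      rw [← Real.exp_nat_mul, ← Real.exp_nat_mul]
      norm_num
    have h3 : Real.exp 1 < 2.7182818286 := Real.exp_one_lt_d9
    have h4 : Real.exp 1 ^ 15 < 2000 ^ 2 := by
      calc Real.exp 1 ^ 15 < 2.7182818286 ^ 15 :=
            pow_lt_pow_left₀ h3 (Real.exp_pos 1).le (by norm_num)
        _ < 2000 ^ 2 := by (clear * -; norm_num)
    rw [← h2] at h4
    exact (lt_of_pow_lt_pow_left₀ 2 (by norm_num) h4).le
  have h2 := tau_le hk
  have h3 : Real.log 2000 ≤ Real.log (1 / tau k) := Real.log_le_log (by norm_num) h2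
  linarith only [h1, h3]

theorem rho_pos (Wd : World X) (m : ℕ) : 0 < Wd.rho m := by
  have h1 := RR_ge Wd.hk
  have h2 := Wd.hr0
  unfold World.rho World.r
  have : 0 < RR Wd.k := by linarith only [h1]
  positivity

theorem wt_pos (Wd : World X) (l : ℕ) : 0 < Wd.wt l := by
  have h1 := RR_ge Wd.hk
  have h2 := Wd.hr0
  unfold World.wt World.r
  have : 0 < RR Wd.k := by linarith
  positivity

theorem lam_pos (Wd : World X) : 0 < Wd.lam := by
  unfold World.lam
  have h1 := Wd.hM
  have h2 := Wd.hk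
  have h3 : 0 < Real.log ((Wd.M : ℝ) + 2) := Real.log_pos (by linarith only [])
  positivity

theorem sum_two_pow_aux (n m : ℕ) (h : m < n) :
    ∑ i ∈ Icc (m + 1) n, (2 : ℝ) ^ (n - i) ≤ 2 * 2 ^ (n - (m + 1)) := by
  have h1 : ∑ i ∈ Icc (m + 1) n, (2 : ℝ) ^ (n - i) = ∑ l ∈ range (n - m), (2 : ℝ) ^ l := by
    refine sum_nbij' (fun i => n - i) (fun l => n - l) ?_ ?_ ?_ ?_ ?_
    · intro i hi
      simp only [mem_Icc] at hi
      simp only [mem_range]
      omega
    · intro l hl
      simp only [mem_range] at hl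
      simp only [mem_Icc]
      omega
    · intro i hi
      simp only [mem_Icc] at hi
      (clear * - hi; omega)
    · intro l hl
      simp only [mem_range] at hl
      omega
    · intro i _
      rfl
  rw [h1, geom_sum_eq (by norm_num)]
  have h2 : n - m = (n - (m + 1)) + 1 := by omega
  rw [h2, pow_succ]
  norm_num
  linarith only []

/-- address distance is controlled by the label changes -/
theorem dn_ad_le (P : LPar η Wd.k J) (x x' : Fin Wd.n → Conf X J) (π : Ord (GG Wd.n J P.B))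
    (u u' : X) :
    2 * dn Wd.rho (ad P x' π u') (ad P x π u) ≤
      ∑ l : Fin Wd.n, Wd.wt l * (if labS P x π l u = labS P x' π l u' then (0 : ℝ) else 1) := by
  have hnn : ∀ l : Fin Wd.n,
      0 ≤ Wd.wt l * (if labS P x π l u = labS P x' π l u' then (0 : ℝ) else 1) := by
    intro l
    have := (wt_pos Wd l).le
    split_ifs <;> simp [this]
  by_cases hS : (sf (ad P x π u) \ sf (ad P x' π u')).Nonempty
  · obtain ⟨N0, hN0, hmin⟩ := exists_min_image _ (fun N : List J => N.length) hS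
    rw [mem_sdiff, mem_sf, mem_sf] at hN0
    obtain ⟨⟨hB, hne⟩, hA⟩ := hN0
    obtain ⟨j, N, rfl⟩ := List.exists_cons_of_ne_nil hne
    have hlenB : N.length + 1 ≤ (ad P x π u).length := by
      have := hB.length_le
      simpa only [Order.add_one_le_iff, gt_iff_lt, List.length_cons] using this
    have hn : N.length + 1 ≤ Wd.n := hlenB.trans (ad_length_le P x π u)
    have hNB : N <:+ ad P x π u := (List.suffix_cons j N).trans hB
    have hNA : N <:+ ad P x' π u' := by
      by_contra hcon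
      have hN1 : N ≠ [] := by
        rintro rfl
        exact hcon List.nil_suffix
      have h1 : N ∈ sf (ad P x π u) \ sf (ad P x' π u') := by
        rw [mem_sdiff, mem_sf, mem_sf]
        exact ⟨⟨hNB, hN1⟩, fun h => hcon h.1⟩
      have h2 := hmin N h1
      simp at h2
    have hlab := lab_of_suffix P x π u j N hB
    have hdiff : labS P x π (Wd.lv (N.length + 1)) u ≠
        labS P x' π (Wd.lv (N.length + 1)) u' := by
      intro heq
      rw [hlab] at heq
      exact hA ⟨cons_suffix_of_lab P x' π u' j N hNA hn heq.symm, hne⟩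
    have hlv : ((Wd.lv (N.length + 1) : Fin Wd.n) : ℕ) = Wd.n - (N.length + 1) := by
      unfold World.lv
      exact Nat.mod_eq_of_lt (by omega)
    have hsum : dn Wd.rho (ad P x' π u') (ad P x π u) ≤
        ∑ i ∈ Icc (N.length + 1) Wd.n, Wd.rho i := by
      unfold dn
      have hinj : Set.InjOn (fun N : List J => N.length)
          (sf (ad P x π u) \ sf (ad P x' π u') : Finset (List J)) := by
        intro a ha b hb hab
        rw [mem_coe, mem_sdiff, mem_sf] at ha hb
        have hab' : a.length = b.length := hab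
        exact (suffix_of_le ha.1.1 hb.1.1 hab'.le).eq_of_length hab'
      rw [← sum_image (f := fun i => Wd.rho i) hinj]
      apply sum_le_sum_of_subset_of_nonneg
      · intro i hi
        rw [mem_image] at hi
        obtain ⟨a, ha, rfl⟩ := hi
        have h1 := hmin a ha
        rw [mem_sdiff, mem_sf] at ha
        have h2 := ha.1.1.length_le
        have h3 := ad_length_le P x π u
        simp only [List.length_cons] at h1
        rw [mem_Icc]
        omega
      · intro i _ _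
        exact (rho_pos Wd i).le
    have hsum2 : 2 * ∑ i ∈ Icc (N.length + 1) Wd.n, Wd.rho i ≤
        Wd.wt (Wd.lv (N.length + 1) : Fin Wd.n) := by
      rw [hlv]
      unfold World.rho World.wt World.r
      rw [← mul_sum, ← mul_sum]
      have h1 := sum_two_pow_aux Wd.n N.length (by omega)
      have h2 := RR_ge Wd.hk
      have h3 := Wd.hr0
      have h4 : 0 ≤ 12 * RR Wd.k * Wd.r0 := by
        have : 0 < RR Wd.k := by linarith only [h2]
        (clear * - h2 h3; positivity)
      have h5 := mul_le_mul_of_nonneg_left h1 h4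
      nlinarith only [h5]
    have hsingle := single_le_sum (f := fun l : Fin Wd.n =>
      Wd.wt l * (if labS P x π l u = labS P x' π l u' then (0 : ℝ) else 1))
      (fun l _ => hnn l) (mem_univ (Wd.lv (N.length + 1)))
    simp only [if_neg hdiff, mul_one] at hsingle
    linarith only [hsum, hsum2, hsingle]
  · rw [not_nonempty_iff_eq_empty] at hS
    unfold dn
    rw [hS, sum_empty, mul_zero]
    exact sum_nonneg fun l _ => hnn l

end Vale.Agent.P304.Dyn
end
end

section

section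

/-! S2: places of nodes (section 6). -/

open Finset

namespace Vale.Agent.P304.Dyn

variable {X J : Type} [MetricSpace X] [Fintype X] [DecidableEq X] [Fintype J] [DecidableEq J]
  {Wd : World X} {η : ℝ}

omit [DecidableEq X] in
theorem s2_r_pos (l : ℕ) : 0 < Wd.r l := by
  have := Wd.hr0
  unfold World.r
  positivity

omit [DecidableEq X] in
theorem s2_lv {m : ℕ} (h1 : 1 ≤ m) : ((Wd.lv m : Fin Wd.n) : ℕ) = Wd.n - m := by
  have hn := Wd.hn
  unfold World.lv
  exact Nat.mod_eq_of_lt (by omega)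

omit [DecidableEq X] in
theorem s2_r_lv {m : ℕ} (h1 : 1 ≤ m) : Wd.r (Wd.lv m) = Wd.r (Wd.n - m) := by
  rw [s2_lv h1]

omit [DecidableEq X] in
theorem s2_dist_of_Dl {l : ℕ} {u v : X} {c : ℝ} (h : Dl Wd.r0 l u v ≤ c) :
    dist u v ≤ c * Wd.r l := by
  have h0 := s2_r_pos (Wd := Wd) l
  unfold World.r at h0
  unfold Dl at h
  rw [div_le_iff₀ h0] at h
  exact h

omit [DecidableEq X] [DecidableEq J] in
theorem s2_loc_cons (x : Fin Wd.n → Conf X J) (j : J) (N : List J) :
    loc Wd x (j :: N) = (x (Wd.lv (N.length + 1)) j).1 := rfl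

/-- a point is close to the place of every node that contains it -/
theorem dist_loc_le (P : LPar η Wd.k J) (x : Fin Wd.n → Conf X J) (π : Ord (GG Wd.n J P.B))
    (u : X) (j : J) (N : List J) (h : (j :: N) <:+ ad P x π u) :
    (x (Wd.lv (N.length + 1)) j).2 = true ∧
      dist u (loc Wd x (j :: N)) ≤ RR Wd.k * Wd.r (Wd.lv (N.length + 1)) := by
  have h1 := lab_of_suffix P x π u j N h
  unfold labS at h1
  obtain ⟨h2, h3⟩ := lab_dist P π _ _ _ _ h1
  exact ⟨h2, s2_dist_of_Dl h3⟩

/-- the place of a complete address is the point itself -/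
theorem loc_full (P : LPar η Wd.k J) (x : Fin Wd.n → Conf X J) (π : Ord (GG Wd.n J P.B))
    (u : X) (h : (ad P x π u).length = Wd.n) : loc Wd x (ad P x π u) = u := by
  have hn := Wd.hn
  rcases hcase : ad P x π u with _ | ⟨j, N⟩
  · rw [hcase] at h
    simp only [List.length_nil] at h
    omega
  · rw [hcase] at h
    have hs : (j :: N) <:+ ad P x π u := by
      rw [hcase]
    obtain ⟨_, h2⟩ := dist_loc_le P x π u j N hs
    have h3 : N.length + 1 = Wd.n := by
      simpa only [List.length_cons] using h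
    rw [s2_r_lv (by omega), h3, Nat.sub_self] at h2
    have h4 : Wd.r 0 = Wd.r0 := by
      unfold World.r
      simp
    rw [h4] at h2
    by_contra hne
    have h5 := Wd.bot u (loc Wd x (j :: N)) (fun h => hne h.symm)
    linarith only [h2, h5]

/-- a proximal step does not move the place of a node all of whose tokens are alive -/
theorem loc_adm {x x' : Fin Wd.n → Conf X J} (hA : ∀ l, Adm (x l) (x' l)) (j : J) (N : List J)
    (h : (x (Wd.lv (N.length + 1)) j).2 = true) : loc Wd x' (j :: N) = loc Wd x (j :: N) := by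
  rw [s2_loc_cons, s2_loc_cons]
  rcases hA (Wd.lv (N.length + 1)) j with h1 | ⟨_, h1⟩ | ⟨h1, _⟩
  · rw [h1]
  · rw [h1]
  · rw [h] at h1
    exact absurd h1 (by simp)

/-- the place of a node before and after a displacement -/
theorem s2_moved {x xd : Fin Wd.n → Conf X J} (hm : Moved Wd x xd) (j : J) (N : List J)
    (h : (x (Wd.lv (N.length + 1)) j).2 = true) :
    (xd (Wd.lv (N.length + 1)) j).2 = true ∧
      dist (loc Wd x (j :: N)) (loc Wd xd (j :: N)) ≤ 4 * Wd.r (Wd.n - (N.length + 1)) := by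
  have h0 := s2_r_pos (Wd := Wd) (Wd.n - (N.length + 1))
  rcases hm (Wd.lv (N.length + 1)) j with h1 | ⟨_, h2, h3⟩
  · refine ⟨by rw [h1]; exact h, ?_⟩
    rw [s2_loc_cons, s2_loc_cons, h1, dist_self]
    positivity
  · refine ⟨h2, ?_⟩
    have h4 := s2_dist_of_Dl h3
    rw [s2_r_lv (by omega)] at h4
    exact h4

/-- distance of a point of a node to the place of the node after a step `x → xd → x'` -/
theorem s2_node (P : LPar η Wd.k J) {x xd x' : Fin Wd.n → Conf X J} (hm : Moved Wd x xd)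
    (hA : ∀ l, Adm (xd l) (x' l)) (π : Ord (GG Wd.n J P.B)) (j : J) (N : List J) (u : X)
    (h : (j :: N) <:+ ad P x π u) :
    loc Wd x' (j :: N) = loc Wd xd (j :: N) ∧
      dist u (loc Wd x' (j :: N)) ≤ (RR Wd.k + 4) * Wd.r (Wd.n - (N.length + 1)) := by
  obtain ⟨h1, h2⟩ := dist_loc_le P x π u j N h
  obtain ⟨h3, h4⟩ := s2_moved hm j N h1
  have h5 := loc_adm hA j N h3
  refine ⟨h5, ?_⟩
  rw [s2_r_lv (by omega)] at h2
  rw [h5]
  have h6 := dist_triangle u (loc Wd x (j :: N)) (loc Wd xd (j :: N))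
  linarith only [h2, h4, h6]

/-- adjacent nodes of a chain that was occupied before the step `x → xd → x'` -/
theorem adj_old (P : LPar η Wd.k J) {x xd x' : Fin Wd.n → Conf X J} (hm : Moved Wd x xd)
    (hA : ∀ l, Adm (xd l) (x' l)) (π : Ord (GG Wd.n J P.B)) (j : J) (N : List J) (u : X)
    (h : (j :: N) <:+ ad P x π u) :
    dist (loc Wd x' (j :: N)) (loc Wd x' N) ≤ Wd.rho (N.length + 1) := by
  have hR := RR_ge Wd.hk
  have hlen : (j :: N).length ≤ Wd.n := h.length_le.trans (ad_length_le P x π u)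
  rw [List.length_cons] at hlen
  have hr := s2_r_pos (Wd := Wd) (Wd.n - (N.length + 1))
  unfold World.rho
  rcases N with _ | ⟨j', N'⟩
  · have h1 : dist (loc Wd x' [j]) (loc Wd x' []) ≤ Wd.r0 * 2 ^ Wd.n := Wd.top _ _
    refine h1.trans ?_
    simp only [List.length_nil, zero_add] at hr ⊢
    have h2 : Wd.r0 * 2 ^ Wd.n = 2 * Wd.r (Wd.n - 1) := by
      unfold World.r
      have hn := Wd.hn
      have h3 : (2 : ℝ) ^ Wd.n = 2 ^ (Wd.n - 1) * 2 := by
        rw [← pow_succ, Nat.sub_add_cancel hn]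
      rw [h3]
      ring
    rw [h2]
    nlinarith only [hr, hR]
  · have h1 := (s2_node P hm hA π j (j' :: N') u h).2
    have hs : (j' :: N') <:+ ad P x π u := (List.suffix_cons j (j' :: N')).trans h
    have h2 := (s2_node P hm hA π j' N' u hs).2
    have h3 : Wd.r (Wd.n - (N'.length + 1)) = 2 * Wd.r (Wd.n - ((j' :: N').length + 1)) := by
      rw [List.length_cons] at hlen ⊢
      unfold World.r
      have h4 : Wd.n - (N'.length + 1) = Wd.n - (N'.length + 1 + 1) + 1 := by omega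
      rw [h4, pow_succ]
      ring
    rw [h3] at h2
    have h5 := dist_triangle_left (loc Wd x' (j :: j' :: N')) (loc Wd x' (j' :: N')) u
    nlinarith only [hr, h1, h2, h5, hR]

/-- walk from a list to one of its suffixes -/
theorem s2_walk_suffix {f : List J → X} {ρ : ℕ → ℝ} (hρ : ∀ m, 0 ≤ ρ m) (c : List J) :
    ∀ a : List J, c <:+ a →
      (∀ (j : J) (N : List J), (j :: N) <:+ a → dist (f (j :: N)) (f N) ≤ ρ (N.length + 1)) →
      dist (f a) (f c) ≤ ∑ N ∈ sf a \ sf c, ρ N.length := by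
  intro a
  induction a with
  | nil =>
    intro h _
    have hc : c = [] := List.suffix_nil.1 h
    rw [hc, dist_self]
    exact sum_nonneg fun _ _ => hρ _
  | cons j a ih =>
    intro h hd
    rcases List.suffix_cons_iff.1 h with h1 | h1
    · rw [h1, dist_self]
      exact sum_nonneg fun _ _ => hρ _
    · have h2 := ih h1 (fun i N hN => hd i N (hN.trans (List.suffix_cons j a)))
      have h3 := hd j a (List.suffix_refl _)
      have h4 : (j :: a) ∉ sf c := fun hm => by
        have := (mem_sf.1 hm).1.length_le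
        have := h1.length_le
        rw [List.length_cons] at *
        omega
      have h5 : sf (j :: a) \ sf c = insert (j :: a) (sf a \ sf c) := by
        rw [sf_cons, insert_sdiff_of_notMem _ h4]
      have h6 : (j :: a) ∉ sf a \ sf c := fun hm =>
        cons_notMem_sf j a (mem_sdiff.1 hm).1
      rw [h5, sum_insert h6, List.length_cons]
      have h7 := dist_triangle (f (j :: a)) (f a) (f c)
      linarith only [h2, h3, h7]

/-- walk between two lists -/
theorem s2_walk {f : List J → X} {ρ : ℕ → ℝ} (hρ : ∀ m, 0 ≤ ρ m) (b : List J)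
    (hb : ∀ (j : J) (N : List J), (j :: N) <:+ b → dist (f (j :: N)) (f N) ≤ ρ (N.length + 1)) :
    ∀ a : List J,
      (∀ (j : J) (N : List J), (j :: N) <:+ a → dist (f (j :: N)) (f N) ≤ ρ (N.length + 1)) →
      dist (f a) (f b) ≤ dn ρ a b + dn ρ b a := by
  intro a
  induction a with
  | nil =>
    intro _
    have h1 := s2_walk_suffix hρ [] b List.nil_suffix hb
    have h2 := dn_nonneg hρ b ([] : List J)
    rw [dist_comm]
    have h3 : dn ρ [] b = ∑ N ∈ sf b \ sf [], ρ N.length := rfl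
    linarith
  | cons j a ih =>
    intro hd
    by_cases hs : (j :: a) <:+ b
    · have h1 := s2_walk_suffix hρ (j :: a) b hs hb
      have h2 := dn_nonneg hρ b (j :: a)
      rw [dist_comm]
      have h3 : dn ρ (j :: a) b = ∑ N ∈ sf b \ sf (j :: a), ρ N.length := rfl
      linarith only [h1, h2, h3]
    · have h2 := ih (fun i N hN => hd i N (hN.trans (List.suffix_cons j a)))
      have h3 := hd j a (List.suffix_refl _)
      have h4 : (j :: a) ∉ sf b := fun hm => hs (mem_sf.1 hm).1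
      have h5 : dn ρ b (j :: a) = ρ (a.length + 1) + dn ρ b a := by
        unfold dn
        have h6 : (j :: a) ∉ sf a \ sf b := fun hm =>
          cons_notMem_sf j a (mem_sdiff.1 hm).1
        rw [sf_cons, insert_sdiff_of_notMem _ h4, sum_insert h6, List.length_cons]
      have h6 : dn ρ (j :: a) b = dn ρ a b := by
        unfold dn
        rw [sf_cons, sdiff_insert, erase_eq_of_notMem]
        intro hm
        exact h4 (mem_sdiff.1 hm).1
      rw [h5, h6]
      have h7 := dist_triangle (f (j :: a)) (f a) (f b)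
      linarith only [h2, h3, h7]

/-- physical distance between nodes along the tree -/
theorem place_le (P : LPar η Wd.k J) {x xd x' : Fin Wd.n → Conf X J} (hm : Moved Wd x xd)
    (hA : ∀ l, Adm (xd l) (x' l)) (π : Ord (GG Wd.n J P.B)) (a b : List J)
    (ha : ∀ N, N ≠ [] → N <:+ a → ∃ u, N <:+ ad P x π u)
    (hb : ∀ N, N ≠ [] → N <:+ b → ∃ u, N <:+ ad P x' π u) :
    dist (loc Wd x a) (loc Wd x' b) ≤
      dist (loc Wd x a) (loc Wd xd a) + (dn Wd.rho a b + dn Wd.rho b a) := by
  have hρ : ∀ m, 0 ≤ Wd.rho m := fun m => (rho_pos Wd m).le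
  have h1 : loc Wd x' a = loc Wd xd a := by
    rcases a with _ | ⟨j, N⟩
    · rfl
    · obtain ⟨u, hu⟩ := ha (j :: N) (by simp) (List.suffix_refl _)
      exact (s2_node P hm hA π j N u hu).1
  have hm' : Moved Wd x' x' := fun l j => Or.inl rfl
  have hA' : ∀ l, Adm (x' l) (x' l) := fun l j => Or.inl rfl
  have h2 : dist (loc Wd x' a) (loc Wd x' b) ≤ dn Wd.rho a b + dn Wd.rho b a := by
    apply s2_walk hρ b
    · intro j N hN
      obtain ⟨u, hu⟩ := hb (j :: N) (by simp) hN
      exact adj_old P hm' hA' π j N u hu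
    · intro j N hN
      obtain ⟨u, hu⟩ := ha (j :: N) (by simp) hN
      exact adj_old P hm hA π j N u hu
  have h3 := dist_triangle (loc Wd x a) (loc Wd xd a) (loc Wd x' b)
  rw [← h1] at h3 ⊢
  (clear * - h2 h3; linarith)

/-- static version (used for the jumps of the real servers) -/
theorem place_le_static (P : LPar η Wd.k J) (x : Fin Wd.n → Conf X J)
    (π : Ord (GG Wd.n J P.B)) (a b : List J)
    (ha : ∀ N, N ≠ [] → N <:+ a → ∃ u, N <:+ ad P x π u)
    (hb : ∀ N, N ≠ [] → N <:+ b → ∃ u, N <:+ ad P x π u) :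
    dist (loc Wd x a) (loc Wd x b) ≤ dn Wd.rho a b + dn Wd.rho b a := by
  have hm : Moved Wd x x := fun l j => Or.inl rfl
  have hA : ∀ l, Adm (x l) (x l) := fun l j => Or.inl rfl
  have h := place_le P hm hA π a b ha hb
  rw [dist_self, zero_add] at h
  exact h

end Vale.Agent.P304.Dyn
end
end

section

section

/-! S3: the cost of following the dragged tokens (section 6). -/

open Finset

namespace Vale.Agent.P304.Dyn

variable {X J : Type} [MetricSpace X] [Fintype X] [DecidableEq X] [Fintype J] [DecidableEq J]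
  {Wd : World X} {η : ℝ}

/-- expected number of tracks sitting at a node of level `l` whose last label is `j` -/
noncomputable def om (P : LPar η Wd.k J) (s : St Wd J P.B) (l : Fin Wd.n) (j : J) : ℝ :=
  EE fun π => ((univ.filter fun i => (s.y π i).head? = some j ∧ Wd.lv (s.y π i).length = l).card : ℝ)

theorem s3_lv (Wd : World X) {m : ℕ} (h1 : 1 ≤ m) : ((Wd.lv m : Fin Wd.n) : ℕ) = Wd.n - m := by
  have := Wd.hn
  exact Nat.mod_eq_of_lt (by (clear * - h1 this; omega))

theorem s3_r_pos (Wd : World X) (l : ℕ) : 0 < Wd.r l := by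
  have := Wd.hr0
  unfold World.r
  (clear * - this; positivity)

theorem s3_r_mono (Wd : World X) {l l' : ℕ} (h : l ≤ l') : Wd.r l ≤ Wd.r l' := by
  have := Wd.hr0
  unfold World.r
  exact mul_le_mul_of_nonneg_left (pow_le_pow_right₀ (by norm_num) h) this.le

theorem s3_dist (Wd : World X) (l : ℕ) (u v : X) : dist u v = Wd.r l * Dl Wd.r0 l u v := by
  have h := s3_r_pos Wd l
  unfold Dl
  rw [mul_div_assoc', mul_comm, World.r, mul_div_assoc, div_self, mul_one]
  unfold World.r at h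
  exact h.ne'

/-- counting of tracks through their nodes of depth `d` -/
theorem s3_count (P : LPar η Wd.k J) {p : X → ℝ} {s : St Wd J P.B} (h : Inv P p s)
    (hp : ∀ u, 0 ≤ p u) (π : Ord (GG Wd.n J P.B)) {d : ℕ} (hd : 1 ≤ d) (S : Finset (Fin Wd.M))
    (g : Fin Wd.M → List J) (hg : ∀ i ∈ S, g i <:+ s.y π i) (hgl : ∀ i ∈ S, (g i).length = d)
    (q : X → Prop) [DecidablePred q] (hq : ∀ i ∈ S, ∀ x, g i <:+ ad P s.x π x → q x) :
    (S.card : ℝ) ≤ 1 / Wd.lam * ∑ x ∈ univ.filter q, p x := by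
  have hlam := lam_pos Wd
  have h1 : (S.card : ℝ) ≤ ∑ N ∈ S.image g, (cnt (s.y π) N : ℝ) := by
    rw [Finset.card_eq_sum_card_image g S]
    push_cast
    refine sum_le_sum fun N _ => ?_
    norm_cast
    refine card_le_card fun i hi => ?_
    rw [mem_filter] at hi ⊢
    refine ⟨mem_univ _, ?_⟩
    rw [← hi.2]
    exact hg i hi.1
  have hlen : ∀ N ∈ S.image g, N.length = d := by
    intro N hN
    obtain ⟨i, hi, rfl⟩ := mem_image.1 hN
    exact hgl i hi
  have h2 : Wd.lam * ∑ N ∈ S.image g, (cnt (s.y π) N : ℝ) ≤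
      ∑ N ∈ S.image g, pm p (ad P s.x π) N := by
    rw [mul_sum]
    refine sum_le_sum fun N hN => h.dom π N ?_
    intro h0
    have := hlen N hN
    rw [h0, List.length_nil] at this
    omega
  have h3 : ∑ N ∈ S.image g, pm p (ad P s.x π) N ≤ ∑ x ∈ univ.filter q, p x := by
    unfold pm
    rw [sum_comm, sum_filter]
    refine sum_le_sum fun x _ => ?_
    by_cases hx : ∃ N ∈ S.image g, N <:+ ad P s.x π x
    · obtain ⟨N, hN, hNx⟩ := hx
      have hqx : q x := by
        obtain ⟨i, hi, rfl⟩ := mem_image.1 hN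
        exact hq i hi x hNx
      rw [if_pos hqx, sum_eq_single N]
      · rw [if_pos hNx]
      · intro N' hN' hne
        rw [if_neg]
        intro h4
        refine hne ?_
        rcases List.suffix_or_suffix_of_suffix h4 hNx with h5 | h5
        · exact h5.eq_of_length ((hlen _ hN').trans (hlen _ hN).symm)
        · exact (h5.eq_of_length ((hlen _ hN).trans (hlen _ hN').symm)).symm
      · intro h5
        exact absurd hN h5
    · rw [sum_eq_zero]
      · split_ifs
        · exact hp x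
        · exact le_rfl
      · intro N hN
        rw [if_neg]
        exact fun h5 => hx ⟨N, hN, h5⟩
  have h4 : Wd.lam * (S.card : ℝ) ≤ ∑ x ∈ univ.filter q, p x :=
    (mul_le_mul_of_nonneg_left h1 hlam.le).trans (h2.trans h3)
  rw [one_div, ← div_eq_inv_mul, le_div_iff₀ hlam, mul_comm]
  exact h4

theorem om_nonneg (P : LPar η Wd.k J) (s : St Wd J P.B) (l : Fin Wd.n) (j : J) :
    0 ≤ om P s l j := EE_nonneg fun _ => Nat.cast_nonneg _

/-- rewriting of the expected displacement of the tracks -/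
theorem follow_eq (P : LPar η Wd.k J) (s : St Wd J P.B) (hl : ∀ π i, (s.y π i).length ≤ Wd.n)
    (xd : Fin Wd.n → Conf X J) :
    EE (fun π => ∑ i, dist (loc Wd s.x (s.y π i)) (loc Wd xd (s.y π i))) =
      ∑ l : Fin Wd.n, Wd.r l * ∑ j, om P s l j * Dl Wd.r0 l (s.x l j).1 (xd l j).1 := by
  have h1 : ∀ (l : Fin Wd.n) (j : J), om P s l j * Dl Wd.r0 l (s.x l j).1 (xd l j).1 =
      EE (fun π => Dl Wd.r0 l (s.x l j).1 (xd l j).1 *
        ((univ.filter fun i => (s.y π i).head? = some j ∧ Wd.lv (s.y π i).length = l).card : ℝ)) :=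
    fun l j => by rw [EE_mul, mul_comm]; rfl
  simp_rw [h1, ← EE_sum, ← EE_mul]
  rw [← EE_sum]
  congr 1
  funext π
  have h2 : ∀ (l : Fin Wd.n) (j : J),
      ((univ.filter fun i => (s.y π i).head? = some j ∧ Wd.lv (s.y π i).length = l).card : ℝ) =
      ∑ i, if (s.y π i).head? = some j ∧ Wd.lv (s.y π i).length = l then (1 : ℝ) else 0 :=
    fun l j => by rw [sum_boole]
  simp_rw [h2, mul_sum]
  rw [sum_congr rfl fun l _ => sum_comm, sum_comm]
  refine sum_congr rfl fun i _ => ?_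
  generalize s.y π i = y
  cases y with
  | nil =>
    simp only [List.head?_nil, reduceCtorEq, List.length_nil, false_and, ↓reduceIte, mul_zero, sum_const_zero, dist_eq_zero]
    rfl
  | cons j0 N =>
    rw [sum_eq_single (Wd.lv (N.length + 1))]
    · rw [sum_eq_single j0]
      · simp only [List.head?_cons, List.length_cons, and_self, if_true, mul_one]
        exact s3_dist Wd _ _ _
      · intro j _ hj
        rw [if_neg, mul_zero, mul_zero]
        rintro ⟨h3, -⟩
        exact hj (by simpa using h3.symm)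
      · intro h3
        exact absurd (mem_univ _) h3
    · intro l _ hl'
      refine sum_eq_zero fun j _ => ?_
      rw [if_neg, mul_zero, mul_zero]
      rintro ⟨-, h3⟩
      exact hl' h3.symm
    · intro h3
      exact absurd (mem_univ _) h3

/-- number of tracks per token -/
theorem om_le (P : LPar η Wd.k J) {p : X → ℝ} {s : St Wd J P.B} (h : Inv P p s)
    (hpk : ∑ u, p u ≤ Wd.k) (l : Fin Wd.n) (j : J) : om P s l j ≤ 101 / Wd.lam * η := by
  have hp := (h.bal l).hp
  have hlam := lam_pos Wd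
  have h1 : ∀ π, ((univ.filter fun i => (s.y π i).head? = some j ∧
      Wd.lv (s.y π i).length = l).card : ℝ) ≤
      1 / Wd.lam * ∑ x, p x * (if labS P s.x π l x = some j then (1 : ℝ) else 0) := by
    intro π
    have hln := l.2
    have hkey : ∀ i ∈ univ.filter (fun i => (s.y π i).head? = some j ∧
        Wd.lv (s.y π i).length = l), ∃ N, s.y π i = j :: N ∧ (s.y π i).length = Wd.n - l := by
      intro i hi
      obtain ⟨-, hh, hlv⟩ := mem_filter.1 hi
      have hle := h.len π i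
      revert hh hlv hle
      generalize s.y π i = y
      intro hh hlv hle
      cases y with
      | nil => simp at hh
      | cons j0 N =>
        have e : j0 = j := by simpa using hh
        subst e
        refine ⟨N, rfl, ?_⟩
        have h2 := s3_lv Wd (m := (j0 :: N).length) (by simp only [List.length_cons, le_add_iff_nonneg_left, zero_le])
        rw [hlv] at h2
        omega
    have h2 := s3_count P h hp π (d := Wd.n - l) (by omega)
      (univ.filter fun i => (s.y π i).head? = some j ∧ Wd.lv (s.y π i).length = l) (s.y π)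
      (fun i _ => List.suffix_rfl) (fun i hi => (hkey i hi).choose_spec.2)
      (fun x => labS P s.x π l x = some j) (fun i hi x hx => by
        obtain ⟨N, hN, hlen⟩ := hkey i hi
        rw [hN] at hx hlen
        have h3 := lab_of_suffix P s.x π x j N hx
        have h4 : Wd.lv (N.length + 1) = l := by
          apply Fin.ext
          rw [s3_lv Wd (by omega)]
          rw [List.length_cons] at hlen
          omega
        rwa [h4] at h3)
    refine h2.trans (le_of_eq ?_)
    rw [sum_filter]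
    congr 1
    refine sum_congr rfl fun x _ => ?_
    split_ifs
    · rw [mul_one]
    · rw [mul_zero]
  have h2 := EE_mono h1
  have h3 := label_mass (Dl_pm Wd.hr0 l) P l (s.x l) (h.bal l) hpk j
  unfold om
  refine h2.trans ?_
  rw [EE_mul, EE_sum]
  have h4 : ∑ x, EE (fun π => p x * (if labS P s.x π l x = some j then (1 : ℝ) else 0)) ≤
      101 * η := by
    refine le_trans (le_of_eq ?_) h3
    refine sum_congr rfl fun x _ => ?_
    rw [EE_mul]
    rfl
  calc 1 / Wd.lam * ∑ x, EE (fun π => p x * (if labS P s.x π l x = some j then (1 : ℝ) else 0))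
      ≤ 1 / Wd.lam * (101 * η) := mul_le_mul_of_nonneg_left h4 (by positivity)
    _ = 101 / Wd.lam * η := by ring

/-- a track is counted at most once -/
theorem s3_once (s : Fin Wd.n → Conf X J) (y : List J) (u : X) (l : Fin Wd.n)
    (q : Prop) [Decidable q]
    (hq : ∀ j N, y = j :: N → Wd.lv (N.length + 1) ≤ l →
      (s (Wd.lv (N.length + 1)) j).2 = true →
      Dl Wd.r0 (Wd.lv (N.length + 1)) u (s (Wd.lv (N.length + 1)) j).1 ≤ 3 → q) :
    ∑ l' ∈ univ.filter (fun l' : Fin Wd.n => l' ≤ l),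
      ∑ c ∈ univ.filter (fun c => Dl Wd.r0 l' u c ≤ 3),
        ∑ j ∈ univ.filter (fun j => s l' j = (c, true)),
          (if y.head? = some j ∧ Wd.lv y.length = l' then (1 : ℝ) else 0) ≤
      if q then 1 else 0 := by
  cases y with
  | nil =>
    rw [sum_eq_zero]
    · split_ifs
      · exact zero_le_one
      · exact le_rfl
    · intro l' _
      refine sum_eq_zero fun c _ => sum_eq_zero fun j _ => ?_
      simp
  | cons j0 N =>
    set L := Wd.lv (N.length + 1) with hL
    have h1 : ∀ l' : Fin Wd.n, ∑ c ∈ univ.filter (fun c => Dl Wd.r0 l' u c ≤ 3),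
        ∑ j ∈ univ.filter (fun j => s l' j = (c, true)),
          (if (j0 :: N).head? = some j ∧ Wd.lv (j0 :: N).length = l' then (1 : ℝ) else 0) =
        if L = l' then (if (s l' j0).2 = true ∧ Dl Wd.r0 l' u (s l' j0).1 ≤ 3
          then (1 : ℝ) else 0) else 0 := by
      intro l'
      by_cases hl : L = l'
      · rw [if_pos hl]
        have h2 : ∀ c, ∑ j ∈ univ.filter (fun j => s l' j = (c, true)),
            (if (j0 :: N).head? = some j ∧ Wd.lv (j0 :: N).length = l' then (1 : ℝ) else 0) =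
            if (s l' j0).1 = c then (if (s l' j0).2 = true then (1 : ℝ) else 0) else 0 := by
          intro c
          have h3 : ∀ j, (if (j0 :: N).head? = some j ∧ Wd.lv (j0 :: N).length = l'
              then (1 : ℝ) else 0) = if j0 = j then 1 else 0 := by
            intro j
            have : Wd.lv (N.length + 1) = l' := hl
            simp [this]
          simp_rw [h3]
          rw [sum_ite_eq]
          have h7 : j0 ∈ univ.filter (fun j => s l' j = (c, true)) ↔ s l' j0 = (c, true) := by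
            rw [mem_filter]
            simp only [mem_univ, true_and]
          by_cases h4 : s l' j0 = (c, true)
          · rw [if_pos (h7.2 h4), h4]
            simp
          · rw [if_neg fun h5 => h4 (h7.1 h5)]
            by_cases h6 : (s l' j0).1 = c
            · rw [if_pos h6, if_neg]
              intro h7
              exact h4 (Prod.ext h6 h7)
            · rw [if_neg h6]
        simp_rw [h2]
        rw [sum_ite_eq]
        have h7 : (s l' j0).1 ∈ univ.filter (fun c => Dl Wd.r0 l' u c ≤ 3) ↔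
            Dl Wd.r0 l' u (s l' j0).1 ≤ 3 := by
          rw [mem_filter]
          simp only [mem_univ, true_and]
        by_cases h4 : Dl Wd.r0 l' u (s l' j0).1 ≤ 3
        · rw [if_pos (h7.2 h4)]
          by_cases h5 : (s l' j0).2 = true
          · rw [if_pos h5, if_pos ⟨h5, h4⟩]
          · rw [if_neg h5, if_neg fun h6 => h5 h6.1]
        · rw [if_neg fun h5 => h4 (h7.1 h5), if_neg fun h6 => h4 h6.2]
      · rw [if_neg hl]
        refine sum_eq_zero fun c _ => sum_eq_zero fun j _ => ?_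
        rw [if_neg]
        rintro ⟨-, h2⟩
        exact hl h2
    simp_rw [h1]
    rw [sum_ite_eq]
    split_ifs with h2 h3 h4 h4 h4
    · exact le_rfl
    · exact absurd (hq j0 N rfl (mem_filter.1 h2).2 h3.1 h3.2) h4
    · exact zero_le_one
    · exact le_rfl
    · exact zero_le_one
    · exact le_rfl

/-- nested counting: tracks at levels `≤ l` near `u` -/
theorem om_cum_le (P : LPar η Wd.k J) {p : X → ℝ} {s : St Wd J P.B} (h : Inv P p s)
    (u : X) (l : Fin Wd.n) :
    ∑ l' ∈ univ.filter (fun l' : Fin Wd.n => l' ≤ l),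
      ∑ c ∈ univ.filter (fun c => Dl Wd.r0 l' u c ≤ 3),
        ∑ j ∈ univ.filter (fun j => s.x l' j = (c, true)), om P s l' j
      ≤ 1 / Wd.lam * ∑ x ∈ univ.filter (fun x => dist u x ≤ (3 + 3 * RR Wd.k) * Wd.r l), p x := by
  classical
  have hp := (h.bal l).hp
  have hlam := lam_pos Wd
  unfold om
  simp_rw [← EE_sum]
  refine EE_le_of_le fun π => ?_
  -- the counted tracks
  set S : Finset (Fin Wd.M) := univ.filter fun i => ∃ j N, s.y π i = j :: N ∧
    Wd.lv (N.length + 1) ≤ l ∧ (s.x (Wd.lv (N.length + 1)) j).2 = true ∧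
    Dl Wd.r0 (Wd.lv (N.length + 1)) u (s.x (Wd.lv (N.length + 1)) j).1 ≤ 3 with hS
  have h1 : ∑ l' ∈ univ.filter (fun l' : Fin Wd.n => l' ≤ l),
      ∑ c ∈ univ.filter (fun c => Dl Wd.r0 l' u c ≤ 3),
        ∑ j ∈ univ.filter (fun j => s.x l' j = (c, true)),
          ((univ.filter fun i => (s.y π i).head? = some j ∧
            Wd.lv (s.y π i).length = l').card : ℝ) ≤ (S.card : ℝ) := by
    have h2 : ∀ (l' : Fin Wd.n) (j : J),
        ((univ.filter fun i => (s.y π i).head? = some j ∧ Wd.lv (s.y π i).length = l').card : ℝ) =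
        ∑ i, if (s.y π i).head? = some j ∧ Wd.lv (s.y π i).length = l' then (1 : ℝ) else 0 :=
      fun l' j => by rw [sum_boole]
    simp_rw [h2]
    have h3 : ∀ (l' : Fin Wd.n) (c : X), ∑ j ∈ univ.filter (fun j => s.x l' j = (c, true)),
        ∑ i, (if (s.y π i).head? = some j ∧ Wd.lv (s.y π i).length = l' then (1 : ℝ) else 0) =
        ∑ i, ∑ j ∈ univ.filter (fun j => s.x l' j = (c, true)),
          (if (s.y π i).head? = some j ∧ Wd.lv (s.y π i).length = l' then (1 : ℝ) else 0) :=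
      fun l' c => sum_comm
    simp_rw [h3]
    have h4 : ∀ l' : Fin Wd.n, ∑ c ∈ univ.filter (fun c => Dl Wd.r0 l' u c ≤ 3),
        ∑ i, ∑ j ∈ univ.filter (fun j => s.x l' j = (c, true)),
          (if (s.y π i).head? = some j ∧ Wd.lv (s.y π i).length = l' then (1 : ℝ) else 0) =
        ∑ i, ∑ c ∈ univ.filter (fun c => Dl Wd.r0 l' u c ≤ 3),
          ∑ j ∈ univ.filter (fun j => s.x l' j = (c, true)),
          (if (s.y π i).head? = some j ∧ Wd.lv (s.y π i).length = l' then (1 : ℝ) else 0) :=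
      fun l' => sum_comm
    simp_rw [h4]
    rw [sum_comm, hS, card_filter]
    push_cast
    refine sum_le_sum fun i _ => ?_
    exact s3_once s.x (s.y π i) u l _ fun j N e1 e2 e3 e4 => ⟨j, N, e1, e2, e3, e4⟩
  refine h1.trans ?_
  have hln := l.2
  -- length of the tracks
  have hlen : ∀ i ∈ S, Wd.n - l ≤ (s.y π i).length := by
    intro i hi
    obtain ⟨-, j, N, e1, e2, -⟩ := mem_filter.1 hi
    have hle := h.len π i
    rw [e1, List.length_cons] at hle ⊢
    have e5 : ((Wd.lv (N.length + 1) : Fin Wd.n) : ℕ) ≤ l := e2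
    rw [s3_lv Wd (by (clear * -; omega))] at e5
    (clear * - hln hle e5; omega)
  refine s3_count P h hp π (d := Wd.n - l) (by omega) S
    (fun i => (s.y π i).drop ((s.y π i).length - (Wd.n - l)))
    (fun i _ => List.drop_suffix _ _) (fun i hi => ?_) _ fun i hi x hx => ?_
  · have := hlen i hi
    rw [List.length_drop]
    (clear * - this; omega)
  · have hli := hlen i hi
    obtain ⟨-, j, N, e1, e2, e3, e4⟩ := mem_filter.1 hi
    have hle := h.len π i
    set N1 : List J := (s.y π i).drop ((s.y π i).length - (Wd.n - l)) with hN1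
    have hN1l : N1.length = Wd.n - l := by
      rw [hN1, List.length_drop]
      omega
    have hN1s : N1 <:+ s.y π i := List.drop_suffix _ _
    -- an occupied point
    have hcnt : (1 : ℝ) ≤ cnt (s.y π) (s.y π i) := by
      have : 0 < cnt (s.y π) (s.y π i) :=
        card_pos.2 ⟨i, mem_filter.2 ⟨mem_univ _, List.suffix_rfl⟩⟩
      exact_mod_cast this
    have hpm : 0 < pm p (ad P s.x π) (s.y π i) := by
      have h5 := h.dom π (s.y π i) (by rw [e1]; simp)
      have h6 : Wd.lam * 1 ≤ Wd.lam * cnt (s.y π) (s.y π i) :=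
        mul_le_mul_of_nonneg_left hcnt hlam.le
      linarith only [hlam, h5, h6]
    obtain ⟨w, hw⟩ : ∃ w, s.y π i <:+ ad P s.x π w := by
      by_contra hcon
      push Not at hcon
      have : pm p (ad P s.x π) (s.y π i) = 0 := by
        unfold pm
        exact sum_eq_zero fun w _ => if_neg (hcon w)
      linarith only [hpm, this]
    obtain ⟨j1, N', hN'⟩ : ∃ j1 N', N1 = j1 :: N' := by
      cases hh : N1 with
      | nil =>
        rw [hh, List.length_nil] at hN1l
        omega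
      | cons j1 N' => exact ⟨j1, N', rfl⟩
    have hlv1 : Wd.lv (N'.length + 1) = l := by
      apply Fin.ext
      rw [s3_lv Wd (by omega)]
      rw [hN', List.length_cons] at hN1l
      (clear * - hln hli hle hN1l; omega)
    have hr2 : Wd.r (Wd.lv (N.length + 1)) ≤ Wd.r l := s3_r_mono Wd e2
    have hRR := RR_ge Wd.hk
    have d1 := (dist_loc_le P s.x π x j1 N' (by rw [← hN']; exact hx)).2
    have d2 := (dist_loc_le P s.x π w j1 N' (by rw [← hN']; exact hN1s.trans hw)).2
    have d3 := (dist_loc_le P s.x π w j N (by rw [← e1]; exact hw)).2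
    rw [hlv1] at d1 d2
    have d4 : dist u (loc Wd s.x (j :: N)) ≤ 3 * Wd.r (Wd.lv (N.length + 1)) := by
      rw [s3_dist Wd (Wd.lv (N.length + 1)) u]
      have := mul_le_mul_of_nonneg_left e4 (s3_r_pos Wd (Wd.lv (N.length + 1))).le
      rw [mul_comm 3]
      exact this
    have d5 : RR Wd.k * Wd.r (Wd.lv (N.length + 1)) ≤ RR Wd.k * Wd.r l :=
      mul_le_mul_of_nonneg_left hr2 (by linarith only [hRR])
    show dist u x ≤ (3 + 3 * RR Wd.k) * Wd.r l
    have t1 := dist_triangle4 u (loc Wd s.x (j :: N)) w (loc Wd s.x (j1 :: N'))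
    have t2 := dist_triangle u (loc Wd s.x (j1 :: N')) x
    rw [dist_comm (loc Wd s.x (j :: N)) w] at t1
    rw [dist_comm (loc Wd s.x (j1 :: N')) x] at t2
    linarith only [hr2, d1, d2, d3, d4, d5, t1, t2]

/-- the follow cost of one level is at most `101 / lam` -/
theorem s3_cost_a (P : LPar η Wd.k J) {p : X → ℝ} {s : St Wd J P.B} (h : Inv P p s)
    (hpk : ∑ u, p u ≤ Wd.k) (u : X) (l : Fin Wd.n) :
    ∑ c ∈ univ.filter (fun c => Dl Wd.r0 l u c ≤ 3),
        kern (Dl Wd.r0 l) u c / SS (Dl Wd.r0 l) (nuC η (s.x l)) u *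
          ∑ j ∈ univ.filter (fun j => s.x l j = (c, true)), om P s l j ≤ 101 / Wd.lam := by
  have hlam := lam_pos Wd
  have hν := (h.bal l).hν
  have hS := SS_pos (D := Dl Wd.r0 l) hν u
  have hA : 0 ≤ 101 / Wd.lam := by (clear * - hlam; positivity)
  have h1 : ∀ c, kern (Dl Wd.r0 l) u c / SS (Dl Wd.r0 l) (nuC η (s.x l)) u *
      ∑ j ∈ univ.filter (fun j => s.x l j = (c, true)), om P s l j ≤
      101 / Wd.lam * QQ (Dl Wd.r0 l) (nuC η (s.x l)) u c := by
    intro c
    have h2 : ∑ j ∈ univ.filter (fun j => s.x l j = (c, true)), om P s l j ≤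
        101 / Wd.lam * nuC η (s.x l) c := by
      refine (sum_le_sum fun j _ => om_le P h hpk l j).trans (le_of_eq ?_)
      rw [sum_const, nsmul_eq_mul]
      unfold nuC
      ring
    have h3 : 0 ≤ kern (Dl Wd.r0 l) u c / SS (Dl Wd.r0 l) (nuC η (s.x l)) u :=
      div_nonneg (kern_pos u c).le hS.le
    refine (mul_le_mul_of_nonneg_left h2 h3).trans (le_of_eq ?_)
    unfold QQ
    ring
  refine (sum_le_sum fun c _ => h1 c).trans ?_
  rw [← mul_sum]
  have h4 : ∑ c ∈ univ.filter (fun c => Dl Wd.r0 l u c ≤ 3),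
      QQ (Dl Wd.r0 l) (nuC η (s.x l)) u c ≤ 1 :=
    (sum_le_sum_of_subset_of_nonneg (filter_subset _ _) fun c _ _ => QQ_nonneg hν u c).trans
      (sum_QQ_le_one hν u)
  calc 101 / Wd.lam * _ ≤ 101 / Wd.lam * 1 := mul_le_mul_of_nonneg_left h4 hA
    _ = 101 / Wd.lam := mul_one _

/-- the follow cost of one level in terms of the number of tracks -/
theorem s3_cost_b (P : LPar η Wd.k J) {p : X → ℝ} {s : St Wd J P.B} (h : Inv P p s)
    (u : X) (l : Fin Wd.n) :
    ∑ c ∈ univ.filter (fun c => Dl Wd.r0 l u c ≤ 3),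
        kern (Dl Wd.r0 l) u c / SS (Dl Wd.r0 l) (nuC η (s.x l)) u *
          ∑ j ∈ univ.filter (fun j => s.x l j = (c, true)), om P s l j ≤
      4 * (∑ c ∈ univ.filter (fun c => Dl Wd.r0 l u c ≤ 3),
          ∑ j ∈ univ.filter (fun j => s.x l j = (c, true)), om P s l j) /
        ssB p u (Wd.r l / 4) := by
  have hν := (h.bal l).hν
  have hD := Dl_pm (X := X) Wd.hr0 l
  have hS := SS_pos (D := Dl Wd.r0 l) hν u
  have he : 0 < e0 := by norm_num [e0]
  have hB := ssB_ge (h.bal l).hp u (Wd.r l / 4)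
  have hB0 : 0 < ssB p u (Wd.r l / 4) := he.trans_le hB
  have h1 : 1 / SS (Dl Wd.r0 l) (nuC η (s.x l)) u ≤ 16 / 5 / ssB p u (Wd.r l / 4) :=
    ss_inv Wd.hr0 l (h.bal l) u
  have h2 : 1 / SS (Dl Wd.r0 l) (nuC η (s.x l)) u ≤ 4 / ssB p u (Wd.r l / 4) :=
    h1.trans (div_le_div_of_nonneg_right (by norm_num) hB0.le)
  rw [mul_div_right_comm, mul_sum]
  refine sum_le_sum fun c _ => ?_
  refine mul_le_mul_of_nonneg_right ?_ (sum_nonneg fun j _ => om_nonneg P s l j)
  refine le_trans ?_ h2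
  exact div_le_div_of_nonneg_right (kern_le_one hD u c) hS.le

/-- the sum over the scales -/
theorem follow_sum_le (P : LPar η Wd.k J) {p : X → ℝ} {s : St Wd J P.B} (h : Inv P p s)
    (hpk : ∑ u, p u ≤ Wd.k) (u : X) :
    ∑ l : Fin Wd.n, ∑ c ∈ univ.filter (fun c => Dl Wd.r0 l u c ≤ 3),
        kern (Dl Wd.r0 l) u c / SS (Dl Wd.r0 l) (nuC η (s.x l)) u *
          ∑ j ∈ univ.filter (fun j => s.x l j = (c, true)), om P s l j ≤ Wd.G2 := by
  have hlam := lam_pos Wd
  have he : 0 < e0 := by norm_num [e0]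
  have hk := Wd.hk
  have hRR := RR_ge Wd.hk
  have hn := Wd.hn
  have hp : ∀ x, 0 ≤ p x := (h.bal ⟨0, hn⟩).hp
  set m : ℕ := ⌈12 + 12 * RR Wd.k⌉₊ with hm
  have hm1 : 12 + 12 * RR Wd.k ≤ (m : ℝ) := Nat.le_ceil _
  have hm2 : (m : ℝ) ≤ 14 + 12 * RR Wd.k := by
    have := Nat.ceil_lt_add_one (show 0 ≤ 12 + 12 * RR Wd.k by linarith only [hRR])
    linarith only [this]
  have hm3 : 12 + 12 * RR Wd.k ≤ (2 : ℝ) ^ m := by
    have : (m : ℝ) ≤ (2 : ℝ) ^ m := by exact_mod_cast (Nat.lt_two_pow_self (n := m)).le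
    linarith only [hm1, this]
  -- the terms
  set T : Fin Wd.n → ℝ := fun l => ∑ c ∈ univ.filter (fun c => Dl Wd.r0 l u c ≤ 3),
    kern (Dl Wd.r0 l) u c / SS (Dl Wd.r0 l) (nuC η (s.x l)) u *
      ∑ j ∈ univ.filter (fun j => s.x l j = (c, true)), om P s l j with hT
  set U : Fin Wd.n → ℝ := fun l => ∑ c ∈ univ.filter (fun c => Dl Wd.r0 l u c ≤ 3),
      ∑ j ∈ univ.filter (fun j => s.x l j = (c, true)), om P s l j with hU
  have hU0 : ∀ l, 0 ≤ U l := fun l =>
    sum_nonneg fun c _ => sum_nonneg fun j _ => om_nonneg P s l j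
  have hTa : ∀ l, T l ≤ 101 / Wd.lam := fun l => s3_cost_a P h hpk u l
  have hTb : ∀ l : Fin Wd.n, T l ≤ 4 * U l / ssB p u (Wd.r l / 4) := fun l => s3_cost_b P h u l
  have hUc : ∀ l : Fin Wd.n, ∑ l' ∈ univ.filter (fun l' : Fin Wd.n => l' ≤ l), U l' ≤
      1 / Wd.lam * ssB p u (Wd.r (l + m) / 4) := by
    intro l
    refine (om_cum_le P h u l).trans ?_
    refine mul_le_mul_of_nonneg_left ?_ (by positivity)
    have h1 : (3 + 3 * RR Wd.k) * Wd.r l ≤ Wd.r (l + m) / 4 := by
      have h2 : Wd.r (l + m) = Wd.r l * 2 ^ m := by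
        unfold World.r
        rw [pow_add]
        ring
      rw [h2]
      have h3 := mul_le_mul_of_nonneg_left hm3 (s3_r_pos Wd l).le
      linarith only [h3]
    refine le_trans ?_ (ssB_mono hp u h1)
    unfold ssB
    linarith only [he]
  have hcum : ∀ l : ℕ, ∑ l' ∈ range (l + 1), (if h : l' < Wd.n then U ⟨l', h⟩ else 0) ≤
      1 / Wd.lam * ssB p u (Wd.r (l + m) / 4) := by
    -- levels below `n`
    have hlt : ∀ l : Fin Wd.n, ∑ l' ∈ range (l + 1), (if h : l' < Wd.n then U ⟨l', h⟩ else 0) =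
        ∑ l' ∈ univ.filter (fun l' : Fin Wd.n => l' ≤ l), U l' := by
      intro l
      symm
      refine sum_bij (fun l' _ => (l' : ℕ)) ?_ ?_ ?_ ?_
      · intro l' hl'
        have := (mem_filter.1 hl').2
        rw [mem_range]
        exact Nat.lt_succ_of_le this
      · intro a _ b _ hab
        exact Fin.ext hab
      · intro b hb
        rw [mem_range] at hb
        have hl := l.2
        refine ⟨⟨b, by omega⟩, mem_filter.2 ⟨mem_univ _, ?_⟩, rfl⟩
        exact Nat.le_of_lt_succ hb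
      · intro l' _
        rw [dif_pos l'.2]
    intro l
    by_cases hl : l < Wd.n
    · have := hlt ⟨l, hl⟩
      simp only at this
      rw [this]
      exact hUc ⟨l, hl⟩
    · push Not at hl
      have h1 : ∑ l' ∈ range (l + 1), (if h : l' < Wd.n then U ⟨l', h⟩ else 0) =
          ∑ l' ∈ range (Wd.n - 1 + 1), (if h : l' < Wd.n then U ⟨l', h⟩ else 0) := by
        symm
        refine sum_subset (fun x hx => ?_) fun x _ hx => ?_
        · rw [mem_range] at hx ⊢
          omega
        · rw [mem_range] at hx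
          rw [dif_neg (by omega)]
      have h2 := hlt ⟨Wd.n - 1, by omega⟩
      simp only at h2
      rw [h1, h2]
      refine (hUc _).trans (mul_le_mul_of_nonneg_left (ssB_mono hp u ?_) (by (clear * - hlam; positivity)))
      have h3 : Wd.r (Wd.n - 1 + m) ≤ Wd.r (l + m) := s3_r_mono Wd (by (clear * - hn hl; omega))
      show Wd.r (Wd.n - 1 + m) / 4 ≤ Wd.r (l + m) / 4
      linarith only [h3]
  have key := follow_sum (n := Wd.n) (m := m) (f := fun l => ssB p u (Wd.r l / 4))
    (N := fun l => if h : l < Wd.n then U ⟨l, h⟩ else 0)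
    (cost := fun l => if h : l < Wd.n then T ⟨l, h⟩ else 0)
    (e := e0) (b := Wd.k + e0) (A := 101 / Wd.lam) (K := 1 / Wd.lam) he
    (fun l => ssB_ge hp u _) (fun l => ssB_le hp hpk u _)
    (fun a b hab => ssB_mono hp u (by have := s3_r_mono Wd hab; linarith only [this]))
    (fun l => by
      show 0 ≤ (if h : l < Wd.n then U ⟨l, h⟩ else 0)
      split_ifs
      · exact hU0 _
      · exact le_rfl)
    (by positivity) (by positivity)
    (fun l => by
      show (if h : l < Wd.n then T ⟨l, h⟩ else 0) ≤ 101 / Wd.lam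
      split_ifs
      · exact hTa _
      · positivity)
    (fun l => by
      show (if h : l < Wd.n then T ⟨l, h⟩ else 0) ≤
        4 * (if h : l < Wd.n then U ⟨l, h⟩ else 0) / ssB p u (Wd.r l / 4)
      split_ifs with hl
      · exact hTb ⟨l, hl⟩
      · rw [mul_zero, zero_div])
    hcum
  have h1 : ∑ l : Fin Wd.n, T l =
      ∑ l ∈ range Wd.n, (if h : l < Wd.n then T ⟨l, h⟩ else 0) := by
    rw [Finset.sum_range]
    refine sum_congr rfl fun l _ => ?_
    rw [dif_pos l.2]
  rw [h1]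
  refine key.trans ?_
  have hlog : 0 ≤ Real.log ((Wd.k + e0) / e0) := by
    refine Real.log_nonneg ?_
    rw [one_le_div he]
    linarith only [hk]
  unfold World.G2
  have h2 : 2 * (101 / Wd.lam) * m * Real.log ((Wd.k + e0) / e0) ≤
      2 * (101 / Wd.lam) * (14 + 12 * RR Wd.k) * Real.log ((Wd.k + e0) / e0) :=
    mul_le_mul_of_nonneg_right (mul_le_mul_of_nonneg_left hm2 (by positivity)) hlog
  (clear * - h2; linarith)

end Vale.Agent.P304.Dyn
end
end

section

section

/-! S4: the tree part of a step: tokens move `x → xd → x'`, the posterior becomes `p'`,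
the tracks make a proximal step. -/

open Finset

set_option linter.unusedSectionVars false

namespace Vale.Agent.P304.Dyn

variable {X J : Type} [MetricSpace X] [Fintype X] [DecidableEq X] [Fintype J] [DecidableEq J]
  {Wd : World X} {η : ℝ}

theorem s4_M (Wd : World X) : (8 : ℝ) ≤ Wd.M := by
  have h1 := Wd.hM
  have h2 := Wd.hk
  linarith

theorem s4_log (Wd : World X) : 0 < Real.log ((Wd.M : ℝ) + 2) := by
  apply Real.log_pos
  have := s4_M Wd
  linarith only []

theorem s4_four_div (Wd : World X) : 4 / Wd.lam = 64 * Real.log ((Wd.M : ℝ) + 2) := by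
  have := s4_log Wd
  unfold World.lam
  field_simp
  norm_num

theorem par_ok (Wd : World X) :
    Wd.k / (Wd.M + 2) + (Wd.lam + Wd.lam) * Real.log ((Wd.M + 2) / 2) < 1 / 2 := by
  have hM := s4_M Wd
  have hlog := s4_log Wd
  have h1 : Wd.k / ((Wd.M : ℝ) + 2) ≤ 1 / 8 := by
    rw [div_le_div_iff₀ (by linarith only []) (by norm_num)]
    have := Wd.hM
    linarith
  have h2 : Real.log (((Wd.M : ℝ) + 2) / 2) ≤ Real.log ((Wd.M : ℝ) + 2) := by
    apply Real.log_le_log (by linarith only [hM])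
    linarith only []
  have h3 : 0 < Wd.lam := lam_pos Wd
  have h4 : (Wd.lam + Wd.lam) * Real.log ((Wd.M : ℝ) + 2) = 1 / 8 := by
    unfold World.lam
    field_simp
    norm_num
  have h5 := mul_le_mul_of_nonneg_left h2 (by linarith only [h3] : 0 ≤ Wd.lam + Wd.lam)
  (clear * - h1 h4 h5; linarith)

/-- existence of the new tracks -/
theorem exists_tracks (P : LPar η Wd.k J) {s : St Wd J P.B}
    (hl : ∀ π i, (s.y π i).length ≤ Wd.n) {p' : X → ℝ} (hp' : ∀ u, 0 ≤ p' u)
    (hpk : ∑ u, p' u ≤ Wd.k) (x' : Fin Wd.n → Conf X J)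
    (hb : ∀ l : Fin Wd.n, Bal (Dl Wd.r0 l) p' (nuC η (x' l))) :
    ∃ s' : St Wd J P.B, s'.x = x' ∧ Inv P p' s' ∧
      ∀ π, Wd.lam * ∑ i, dn Wd.rho (s.y π i) (s'.y π i) ≤
        pot Wd.rho Wd.lam p' (ad P x' π) (s.y π) - pot Wd.rho Wd.lam p' (ad P x' π) (s'.y π) := by
  choose y' hy' using fun π => exists_isStep Wd.n Wd.rho Wd.lam Wd.lam p' (ad P x' π) (s.y π)
  have hlam := lam_pos Wd
  refine ⟨⟨x', y'⟩, rfl, ⟨hb, fun π i => (hy' π).1 i, ?_, ?_⟩, fun π => (hy' π).cost_le (hl π)⟩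
  · intro π N hN
    exact (hy' π).cnt_le_pm (rho_pos Wd) hlam.le hp' N hN
  · intro π u hu
    have hlen : (ad P x' π u).length = Wd.n := by
      apply ad_length_eq
      intro l
      exact lab_ne_none (Dl_pm Wd.hr0 l) P π l (x' l) (hb l) hpk u hu
    refine ⟨hlen, ?_⟩
    have h1 := (hy' π).one_le_cnt_of (rho_pos Wd) hlam.le hlam.le hp' hpk (par_ok Wd) hlen
      Wd.hn hu
    unfold cnt at h1
    obtain ⟨i, hi⟩ := card_pos.mp h1
    rw [mem_filter] at hi
    refine ⟨i, ?_⟩
    have h2 := hi.2.length_le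
    have h3 := (hy' π).1 i
    exact (hi.2.eq_of_length (by omega)).symm

/-- a node below a track carries the address of some point -/
theorem s4_alive (P : LPar η Wd.k J) {p : X → ℝ} {s : St Wd J P.B} (hI : Inv P p s)
    (π : Ord (GG Wd.n J P.B)) (i : Fin Wd.M) (N : List J) (hN : N ≠ []) (h : N <:+ s.y π i) :
    ∃ u, N <:+ ad P s.x π u := by
  by_contra hcon
  push Not at hcon
  have h1 := hI.dom π N hN
  have h2 : pm p (ad P s.x π) N = 0 := by
    unfold pm
    apply sum_eq_zero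
    intro u _
    rw [if_neg (hcon u)]
  have h3 : 1 ≤ cnt (s.y π) N := by
    unfold cnt
    exact card_pos.mpr ⟨i, by simp only [mem_filter, mem_univ, h, and_self]⟩
  have h4 : (1 : ℝ) ≤ cnt (s.y π) N := by exact_mod_cast h3
  have h5 := lam_pos Wd
  rw [h2] at h1
  nlinarith only [h1, h5, h4]

/-- all costs of the tracks are paid by the tree potential and the relabellings -/
theorem tracks_cost_le (P : LPar η Wd.k J) {p p' : X → ℝ} {s s' : St Wd J P.B}
    (hI : Inv P p s) (hI' : Inv P p' s') {xd : Fin Wd.n → Conf X J} (hm : Moved Wd s.x xd)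
    (hA : ∀ l, Adm (xd l) (s'.x l))
    (hs : ∀ π, Wd.lam * ∑ i, dn Wd.rho (s.y π i) (s'.y π i) ≤
        pot Wd.rho Wd.lam p' (ad P s'.x π) (s.y π) - pot Wd.rho Wd.lam p' (ad P s'.x π) (s'.y π)) :
    PhC s s' + TrC s s' + (4 / Wd.lam * EE (fun π => pot Wd.rho Wd.lam p' (ad P s'.x π) (s'.y π))
        + 2 * EE (fun π => ∑ i, hgt Wd.rho (s'.y π i)))
      ≤ EE (fun π => ∑ i, dist (loc Wd s.x (s.y π i)) (loc Wd xd (s.y π i)))
        + (4 / Wd.lam * EE (fun π => pot Wd.rho Wd.lam p' (ad P s'.x π) (s.y π))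
        + 2 * EE (fun π => ∑ i, hgt Wd.rho (s.y π i))) := by
  unfold PhC TrC
  rw [← EE_mul, ← EE_mul, ← EE_mul, ← EE_mul, ← EE_add, ← EE_add, ← EE_add, ← EE_add, ← EE_add]
  apply EE_mono
  intro π
  have hlam := lam_pos Wd
  have h1 : ∑ i, dist (loc Wd s.x (s.y π i)) (loc Wd s'.x (s'.y π i)) ≤
      ∑ i, dist (loc Wd s.x (s.y π i)) (loc Wd xd (s.y π i)) +
        ∑ i, (dn Wd.rho (s.y π i) (s'.y π i) + dn Wd.rho (s'.y π i) (s.y π i)) := by
    rw [← sum_add_distrib]
    apply sum_le_sum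
    intro i _
    exact place_le P hm hA π _ _ (fun N hN h => s4_alive P hI π i N hN h)
      (fun N hN h => s4_alive P hI' π i N hN h)
  have h2 : ∑ i, hgt Wd.rho (s'.y π i) - ∑ i, hgt Wd.rho (s.y π i) =
      ∑ i, dn Wd.rho (s.y π i) (s'.y π i) - ∑ i, dn Wd.rho (s'.y π i) (s.y π i) := by
    rw [← sum_sub_distrib, ← sum_sub_distrib]
    apply sum_congr rfl
    intro i _
    exact hgt_sub_hgt _ _ _
  have h3 : 4 * ∑ i, dn Wd.rho (s.y π i) (s'.y π i) ≤
      4 / Wd.lam * pot Wd.rho Wd.lam p' (ad P s'.x π) (s.y π) -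
        4 / Wd.lam * pot Wd.rho Wd.lam p' (ad P s'.x π) (s'.y π) := by
    have h4 := mul_le_mul_of_nonneg_left (hs π) (by (clear * - hlam; positivity) : 0 ≤ 4 / Wd.lam)
    have h5 : 4 / Wd.lam * (Wd.lam * ∑ i, dn Wd.rho (s.y π i) (s'.y π i)) =
        4 * ∑ i, dn Wd.rho (s.y π i) (s'.y π i) := by (clear * - hlam; field_simp)
    rw [h5, mul_sub] at h4
    exact h4
  rw [sum_add_distrib] at h1 ⊢
  linarith only [h1, h2, h3]

theorem s4_wt_nonneg (Wd : World X) (l : ℕ) : 0 ≤ Wd.wt l := by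
  unfold World.wt World.r
  have h1 := RR_ge Wd.hk
  have h2 := Wd.hr0
  positivity

theorem s4_XC_nonneg (P : LPar η Wd.k J) (x x' : Fin Wd.n → Conf X J) (u v : X) :
    0 ≤ XC P x x' u v := by
  unfold XC
  apply EE_nonneg
  intro π
  apply sum_nonneg
  intro l _
  have := s4_wt_nonneg Wd l
  split_ifs
  · simp
  · simpa only [mul_one, ge_iff_le] using this

/-- the common estimate: a plan `a` and a change of addresses -/
theorem s4_EE_le (P : LPar η Wd.k J) {a : X → X → ℝ} (ha : ∀ u v, 0 ≤ a u v)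
    (x x' : Fin Wd.n → Conf X J) :
    4 / Wd.lam * EE (fun π => Real.log ((Wd.M : ℝ) + 1) * ∑ u, ∑ v, a u v *
        dn Wd.rho (ad P x' π v) (ad P x π u)) ≤
      32 * Real.log (Wd.M + 2) ^ 2 * ∑ u, ∑ v, a u v * XC P x x' u v := by
  have hM := s4_M Wd
  have hlog := s4_log Wd
  have hl1 : 0 ≤ Real.log ((Wd.M : ℝ) + 1) := Real.log_nonneg (by linarith only [])
  have hl2 : Real.log ((Wd.M : ℝ) + 1) ≤ Real.log ((Wd.M : ℝ) + 2) :=
    Real.log_le_log (by linarith only []) (by linarith only [])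
  have h1 : EE (fun π => ∑ u, ∑ v, a u v * dn Wd.rho (ad P x' π v) (ad P x π u)) ≤
      1 / 2 * ∑ u, ∑ v, a u v * XC P x x' u v := by
    have e1 : (1 / 2 : ℝ) * ∑ u, ∑ v, a u v * XC P x x' u v =
        EE (fun π : Ord (GG Wd.n J P.B) => ∑ u, ∑ v, a u v * (1 / 2 * ∑ l : Fin Wd.n, Wd.wt l *
          (if labS P x π l u = labS P x' π l v then (0 : ℝ) else 1))) := by
      rw [EE_sum, mul_sum]
      apply sum_congr rfl
      intro u _
      rw [EE_sum, mul_sum]
      apply sum_congr rfl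
      intro v _
      rw [EE_mul, EE_mul]
      unfold XC
      ring
    rw [e1]
    apply EE_mono
    intro π
    apply sum_le_sum
    intro u _
    apply sum_le_sum
    intro v _
    apply mul_le_mul_of_nonneg_left _ (ha u v)
    have := dn_ad_le P x x' π u v
    linarith only [this]
  have h2 : 0 ≤ ∑ u, ∑ v, a u v * XC P x x' u v :=
    sum_nonneg fun u _ => sum_nonneg fun v _ => mul_nonneg (ha u v) (s4_XC_nonneg P x x' u v)
  rw [EE_mul, s4_four_div]
  calc 64 * Real.log ((Wd.M : ℝ) + 2) * (Real.log ((Wd.M : ℝ) + 1) *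
        EE (fun π => ∑ u, ∑ v, a u v * dn Wd.rho (ad P x' π v) (ad P x π u)))
      ≤ 64 * Real.log ((Wd.M : ℝ) + 2) * (Real.log ((Wd.M : ℝ) + 1) *
        (1 / 2 * ∑ u, ∑ v, a u v * XC P x x' u v)) := by gcongr
    _ ≤ 64 * Real.log ((Wd.M : ℝ) + 2) * (Real.log ((Wd.M : ℝ) + 2) *
        (1 / 2 * ∑ u, ∑ v, a u v * XC P x x' u v)) := by gcongr
    _ = _ := by ring

/-- change of the tree potential by relabellings -/
theorem pot_relabel_le (P : LPar η Wd.k J) {p : X → ℝ} (hp : ∀ u, 0 ≤ p u)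
    (x x' : Fin Wd.n → Conf X J) (y : Ord (GG Wd.n J P.B) → Fin Wd.M → List J) :
    4 / Wd.lam * EE (fun π => pot Wd.rho Wd.lam p (ad P x' π) (y π)) ≤
      4 / Wd.lam * EE (fun π => pot Wd.rho Wd.lam p (ad P x π) (y π))
        + 32 * Real.log (Wd.M + 2) ^ 2 * ∑ u, p u * XC P x x' u u := by
  have hlam := lam_pos Wd
  have hd : ∀ (h : X → X → ℝ), ∑ u, ∑ v, (if u = v then p u else 0) * h u v =
      ∑ u, p u * h u u := by
    intro h
    apply sum_congr rfl
    intro u _
    simp only [ite_mul, zero_mul, sum_ite_eq, mem_univ, ↓reduceIte]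
  have h1 := s4_EE_le P (a := fun u v => if u = v then p u else 0)
    (fun u v => by split_ifs <;> [exact hp u; exact le_rfl]) x x'
  simp only [hd] at h1
  have h2 : EE (fun π => pot Wd.rho Wd.lam p (ad P x' π) (y π)) ≤
      EE (fun π => pot Wd.rho Wd.lam p (ad P x π) (y π)) +
        EE (fun π => Real.log ((Wd.M : ℝ) + 1) * ∑ u, p u *
          dn Wd.rho (ad P x' π u) (ad P x π u)) := by
    rw [← EE_add]
    apply EE_mono
    intro π
    exact pot_addr_le (fun m => (rho_pos Wd m).le) Wd.lam hp (ad P x π) (ad P x' π) (y π)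
  have h3 := mul_le_mul_of_nonneg_left h2 (by (clear * - hlam; positivity) : 0 ≤ 4 / Wd.lam)
  rw [mul_add] at h3
  linarith only [h1, h3]

/-- the potential after a push -/
theorem s4_pot_push {M : ℕ} {ρ : ℕ → ℝ} (hρ : ∀ m, 0 ≤ ρ m) (lam : ℝ) {p : X → ℝ}
    {a : X → X → ℝ} (ha : ∀ u v, 0 ≤ a u v) (ad : X → List J) (y : Fin M → List J) :
    pot ρ lam (push p a) ad y ≤ pot ρ lam p ad y +
      Real.log (M + 1) * ∑ u, ∑ v, a u v * dn ρ (ad v) (ad u) := by
  unfold pot push
  set L : X → ℝ := fun u => ∑ N ∈ sf (ad u), ρ N.length * Real.log (cnt y N + 1) with hL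
  have h1 : ∑ x, (p x + ∑ u, a u x - ∑ v, a x v) * L x =
      ∑ x, p x * L x - ∑ u, ∑ v, a u v * (L u - L v) := by
    have e1 : ∑ x, (∑ u, a u x) * L x = ∑ u, ∑ v, a u v * L v := by
      rw [sum_comm]
      apply sum_congr rfl
      intro x _
      rw [sum_mul]
    have e2 : ∑ x, (∑ v, a x v) * L x = ∑ u, ∑ v, a u v * L u := by
      apply sum_congr rfl
      intro x _
      rw [sum_mul]
    have e3 : ∑ u, ∑ v, a u v * (L u - L v) =
        ∑ u, ∑ v, a u v * L u - ∑ u, ∑ v, a u v * L v := by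
      rw [← sum_sub_distrib]
      apply sum_congr rfl
      intro x _
      rw [← sum_sub_distrib]
      apply sum_congr rfl
      intro v _
      ring
    rw [e3, ← e1, ← e2, ← sum_sub_distrib, ← sum_sub_distrib]
    apply sum_congr rfl
    intro x _
    ring
  have h2 : ∑ u, ∑ v, a u v * (L u - L v) ≤
      Real.log (M + 1) * ∑ u, ∑ v, a u v * dn ρ (ad v) (ad u) := by
    rw [mul_sum]
    apply sum_le_sum
    intro u _
    rw [mul_sum]
    apply sum_le_sum
    intro v _
    have h3 := mul_le_mul_of_nonneg_left (addr_change hρ y (ad u) (ad v)) (ha u v)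
    calc a u v * (L u - L v) ≤ a u v * (Real.log (M + 1) * dn ρ (ad v) (ad u)) := h3
      _ = _ := by ring
  rw [h1]
  linarith

/-- change of the tree potential by transport of mass -/
theorem pot_push_le (P : LPar η Wd.k J) {p : X → ℝ} {a : X → X → ℝ} (ha : ∀ u v, 0 ≤ a u v)
    (x : Fin Wd.n → Conf X J) (y : Ord (GG Wd.n J P.B) → Fin Wd.M → List J) :
    4 / Wd.lam * EE (fun π => pot Wd.rho Wd.lam (push p a) (ad P x π) (y π)) ≤
      4 / Wd.lam * EE (fun π => pot Wd.rho Wd.lam p (ad P x π) (y π))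
        + 32 * Real.log (Wd.M + 2) ^ 2 * ∑ u, ∑ v, a u v * XC P x x u v := by
  have hlam := lam_pos Wd
  have h1 := s4_EE_le P ha x x
  have h2 : EE (fun π => pot Wd.rho Wd.lam (push p a) (ad P x π) (y π)) ≤
      EE (fun π => pot Wd.rho Wd.lam p (ad P x π) (y π)) +
        EE (fun π => Real.log ((Wd.M : ℝ) + 1) * ∑ u, ∑ v, a u v *
          dn Wd.rho (ad P x π v) (ad P x π u)) := by
    rw [← EE_add]
    apply EE_mono
    intro π
    exact s4_pot_push (fun m => (rho_pos Wd m).le) Wd.lam ha (ad P x π) (y π)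
  have h3 := mul_le_mul_of_nonneg_left h2 (by positivity : 0 ≤ 4 / Wd.lam)
  rw [mul_add] at h3
  linarith

end Vale.Agent.P304.Dyn
end
end

section

section

set_option linter.all false

/-! S5: the info step and the `T`-step. -/

open Finset

namespace Vale.Agent.P304.Dyn

variable {X J : Type} [MetricSpace X] [Fintype X] [DecidableEq X] [Fintype J] [DecidableEq J]
  {Wd : World X} {η : ℝ}

/-! ### auxiliary facts -/

theorem s5_r_pos (Wd : World X) (l : ℕ) : 0 < Wd.r l := by
  unfold World.r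
  have := Wd.hr0
  positivity

theorem s5_r_Dl (Wd : World X) (l : ℕ) (u v : X) : Wd.r l * Dl Wd.r0 l u v = dist u v := by
  have h := s5_r_pos Wd l
  have h0 := Wd.hr0
  have h2 : (0:ℝ) < 2 ^ l := by positivity
  unfold World.r at h
  unfold Dl World.r
  rw [mul_div_assoc', mul_comm, mul_div_assoc, div_self h.ne', mul_one]

theorem s5_Gk {k : ℝ} (hk : 1 ≤ k) : 0 ≤ Gk k := by
  have h1 : 0 ≤ Real.log k := Real.log_nonneg hk
  have h2 : 0 ≤ Real.log (1 + Real.log k) := Real.log_nonneg (by linarith)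
  unfold Gk
  positivity

theorem s5_RR (Wd : World X) : 0 < RR Wd.k := by
  have := RR_ge Wd.hk
  linarith

/-- probability that the labels differ -/
noncomputable def EL (P : LPar η Wd.k J) (l : Fin Wd.n) (x x' : Conf X J) (u v : X) : ℝ :=
  EE (fun π : Ord (GG Wd.n J P.B) =>
    if lab Wd.k P.Q P.Ne (Dl Wd.r0 l) π l x u = lab Wd.k P.Q P.Ne (Dl Wd.r0 l) π l x' v
      then (0 : ℝ) else 1)

theorem EL_le_one (P : LPar η Wd.k J) (l : Fin Wd.n) (x x' : Conf X J) (u v : X) :
    EL P l x x' u v ≤ 1 := by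
  unfold EL
  apply EE_le_of_le
  intro π
  split_ifs
  · exact zero_le_one
  · exact le_rfl

theorem EL_tri (P : LPar η Wd.k J) (l : Fin Wd.n) (x xd x' : Conf X J) (u v w : X) :
    EL P l x x' u w ≤ EL P l x xd u v + EL P l xd x' v w := by
  unfold EL
  rw [← EE_add]
  apply EE_mono
  intro π
  split_ifs with h1 h2 h3 h3 h2 h3 h3
  · norm_num
  · norm_num
  · norm_num
  · norm_num
  · exact absurd (h2.trans h3) h1
  · norm_num
  · norm_num
  · norm_num

theorem XC_eq (P : LPar η Wd.k J) (x x' : Fin Wd.n → Conf X J) (u v : X) :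
    XC P x x' u v = ∑ l : Fin Wd.n, Wd.wt l * EL P l (x l) (x' l) u v := by
  unfold XC EL
  rw [EE_sum]
  refine Finset.sum_congr rfl fun l _ => ?_
  exact EE_mul _ _

theorem s5_sum_XC (P : LPar η Wd.k J) (x x' : Fin Wd.n → Conf X J) (q : X → ℝ) :
    ∑ u, q u * XC P x x' u u =
      24 * RR Wd.k * ∑ l : Fin Wd.n, Wd.r l * ∑ u, q u * EL P l (x l) (x' l) u u := by
  simp only [XC_eq, mul_sum]
  rw [Finset.sum_comm]
  refine Finset.sum_congr rfl fun l _ => Finset.sum_congr rfl fun u _ => ?_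
  unfold World.wt
  ring

theorem s5_alive {x xd : Conf X J} (h : ∀ j, (x j).2 = (xd j).2) :
    ∑ c, nuC η xd c = ∑ c, nuC η x c := by
  rw [sum_nuC, sum_nuC]
  congr 3
  ext j
  simp only [mem_filter, mem_univ, true_and, h j]

theorem s5_dragged {D : X → X → ℝ} (hD : PM D) {ν : X → ℝ} (hν : ∀ c, 0 ≤ ν c)
    {a : X → X → ℝ} (ha : ∀ u v, 0 ≤ a u v) (hα : ∑ u, ∑ v, a u v ≤ e0) (c : X) :
    0 ≤ dragged D ν a c := by
  unfold dragged
  have h1 := sum_dragm_le hD hν ha c
  have h2 : 0 ≤ ∑ c', dragm D ν a c' c := Finset.sum_nonneg fun c' _ => dragm_nonneg hD hν ha c' c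
  have h3 : (∑ u, ∑ v, a u v) / e0 * ν c ≤ 1 * ν c :=
    mul_le_mul_of_nonneg_right ((div_le_one k5_e0_pos).2 hα) (hν c)
  linarith only [h1, h2, h3]

/-- the token part of a step at one level -/
theorem s5_level {D : X → X → ℝ} (hD : PM D) {k : ℝ} (P : LPar η k J) [Nonempty X] {p : X → ℝ}
    {x : Conf X J} (h : Bal D p (nuC η x)) (hpk : ∑ u, p u ≤ k) {a : X → X → ℝ}
    (ha : ∀ u v, 0 ≤ a u v) (hap : ∀ u, ∑ v, a u v ≤ p u) (hα : ∑ u, ∑ v, a u v ≤ e0 / 8)
    (ω : J → ℝ) (hω : ∀ j, 0 ≤ ω j) :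
    ∃ xd x' : Conf X J, DragMove D η a x xd ∧ Adm xd x' ∧ Bal D (push p a) (nuC η x') ∧
      FF D (push p a) (nuC η x') + η / 2 * chg xd x' ≤ FF D p (nuC η x)
        + ∑ u, ∑ v, a u v * (if D u v ≤ 1 / 32 then
            600 * (D u v * gg D p (nuC η x) u) + 8000 * D u v ^ 2 else Real.log (60 * k))
        + 4000 * k * (∑ u, ∑ v, a u v) ^ 2
        + (1 + k / e0) * (2 * η * (Fintype.card X : ℝ) ^ 2) ∧
      ∑ j, ω j * D (x j).1 (xd j).1 ≤
        130 * ∑ u, ∑ v, a u v * ((if D u v ≤ 1 / 32 then D u v else 0) *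
          ∑ c ∈ univ.filter (fun c => D u c ≤ 3), kern D u c / SS D (nuC η x) u *
            ∑ j ∈ univ.filter (fun j => x j = (c, true)), ω j) := by
  have he0 := k5_e0_pos
  have hη := P.hη
  have hα2 : ∑ u, ∑ v, a u v ≤ e0 / 2 := by linarith only [hα, he0]
  have hα1 : ∑ u, ∑ v, a u v ≤ e0 := by linarith
  obtain ⟨xd, hd, h1, h2⟩ := exists_drag hD P x h ha hα2 ω hω
  have hpn : ∀ u, 0 ≤ push p a u := k5_push_nonneg ha hap
  have hps : ∑ u, push p a u ≤ k := by
    rw [k5_sum_push]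
    exact hpk
  have hν := h.hν
  have hal : ∑ c, nuC η xd c = ∑ c, nuC η x c := by
    apply s5_alive
    intro j
    rcases hd.mv j with h3 | ⟨h3, h4, -⟩
    · rw [h3]
    · rw [h3, h4]
  have hxd : ∑ c, nuC η xd c ≤ 5 / 2 * k := by
    rw [hal]
    have := sum_nu_le h
    linarith only [hpk, this]
  obtain ⟨x', hA, hB, hF⟩ := exists_tokprox hD P hpn hps xd hxd
  refine ⟨xd, x', hd, hA, hB, ?_, h2.trans (follow_le hD x hη ha ω hω)⟩
  have g1 := FF_lip hD hpn (ν := dragged D (nuC η x) a) (ν' := nuC η xd)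
    (s5_dragged hD hν ha hα1) (nuC_nonneg hη.le xd)
  have g2 := FF_plan_le hD h P.hk hpk ha hap hα
  have g3 : (1 + (∑ x, push p a x) / e0) * ∑ c, |nuC η xd c - dragged D (nuC η x) a c| ≤
      (1 + k / e0) * (2 * η * (Fintype.card X : ℝ) ^ 2) := by
    apply mul_le_mul _ h1 (Finset.sum_nonneg fun c _ => abs_nonneg _)
    · have := P.hk
      (clear * - this he0; positivity)
    · have : (∑ x, push p a x) / e0 ≤ k / e0 := div_le_div_of_nonneg_right hps he0.le
      linarith only [this]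
  have g4 : ∑ u, ∑ v, a u v * drift D p (nuC η x) u v ≤
      ∑ u, ∑ v, a u v * (if D u v ≤ 1 / 32 then
            600 * (D u v * gg D p (nuC η x) u) + 8000 * D u v ^ 2 else Real.log (60 * k)) := by
    refine Finset.sum_le_sum fun u _ => Finset.sum_le_sum fun v _ => ?_
    apply mul_le_mul_of_nonneg_left _ (ha u v)
    split_ifs with huv
    · have := drift_le hD h u v huv
      refine this.trans (le_of_eq ?_)
      ring
    · exact drift_le_of_large hD h P.hk hpk u v (not_le.1 huv)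
  linarith

/-- the token part of a step at all levels: drags along the plan, then proximal steps -/
theorem exists_tokens (P : LPar η Wd.k J) {p : X → ℝ} {s : St Wd J P.B} (hI : Inv P p s)
    (hpk : ∑ u, p u ≤ Wd.k) {a : X → X → ℝ} (ha : ∀ u v, 0 ≤ a u v)
    (hap : ∀ u, ∑ v, a u v ≤ p u) (hα : ∑ u, ∑ v, a u v ≤ e0 / 8) :
    ∃ xd x' : Fin Wd.n → Conf X J, Moved Wd s.x xd ∧ (∀ l, Adm (xd l) (x' l)) ∧
      (∀ l : Fin Wd.n, Bal (Dl Wd.r0 l) (push p a) (nuC η (x' l))) ∧
      (∀ l : Fin Wd.n, DragMove (Dl Wd.r0 l) η a (s.x l) (xd l)) ∧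
      (∀ l : Fin Wd.n, FF (Dl Wd.r0 l) (push p a) (nuC η (x' l)) + η / 2 * chg (xd l) (x' l) ≤
        FF (Dl Wd.r0 l) p (nuC η (s.x l))
        + ∑ u, ∑ v, a u v * (if Dl Wd.r0 l u v ≤ 1 / 32 then
            600 * (Dl Wd.r0 l u v * gg (Dl Wd.r0 l) p (nuC η (s.x l)) u)
              + 8000 * Dl Wd.r0 l u v ^ 2
            else Real.log (60 * Wd.k))
        + 4000 * Wd.k * (∑ u, ∑ v, a u v) ^ 2
        + (1 + Wd.k / e0) * (2 * η * (Fintype.card X : ℝ) ^ 2)) ∧
      EE (fun π => ∑ i, dist (loc Wd s.x (s.y π i)) (loc Wd xd (s.y π i)))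
        ≤ 130 * Wd.G2 * ∑ u, ∑ v, a u v * dist u v := by
  have hX : Nonempty X := ⟨Wd.x0⟩
  have key := fun l : Fin Wd.n => s5_level (Dl_pm (X := X) Wd.hr0 l) P (hI.bal l) hpk ha hap hα
    (om P s l) (om_nonneg P s l)
  choose xd x' hd hA hB hF hfo using key
  refine ⟨xd, x', fun l j => (hd l).mv j, hA, hB, hd, hF, ?_⟩
  rw [follow_eq P s hI.len xd]
  have h1 : ∀ l : Fin Wd.n, Wd.r l * ∑ j, om P s l j * Dl Wd.r0 l (s.x l j).1 (xd l j).1 ≤
      ∑ u, ∑ v, 130 * (a u v * dist u v * ∑ c ∈ univ.filter (fun c => Dl Wd.r0 l u c ≤ 3),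
        kern (Dl Wd.r0 l) u c / SS (Dl Wd.r0 l) (nuC η (s.x l)) u *
          ∑ j ∈ univ.filter (fun j => s.x l j = (c, true)), om P s l j) := by
    intro l
    have hr := s5_r_pos Wd l
    refine (mul_le_mul_of_nonneg_left (hfo l) hr.le).trans ?_
    rw [Finset.mul_sum, Finset.mul_sum]
    refine Finset.sum_le_sum fun u _ => ?_
    rw [Finset.mul_sum, Finset.mul_sum]
    refine Finset.sum_le_sum fun v _ => ?_
    set N := ∑ c ∈ univ.filter (fun c => Dl Wd.r0 l u c ≤ 3),
        kern (Dl Wd.r0 l) u c / SS (Dl Wd.r0 l) (nuC η (s.x l)) u *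
          ∑ j ∈ univ.filter (fun j => s.x l j = (c, true)), om P s l j with hN
    have hN0 : 0 ≤ N := Finset.sum_nonneg fun c _ => mul_nonneg
      (div_nonneg (kern_pos u c).le (SS_pos (hI.bal l).hν u).le)
      (Finset.sum_nonneg fun j _ => om_nonneg P s l j)
    have e1 : Wd.r l * (if Dl Wd.r0 l u v ≤ 1 / 32 then Dl Wd.r0 l u v else 0) ≤ dist u v := by
      split_ifs
      · exact (s5_r_Dl Wd l u v).le
      · rw [mul_zero]
        exact dist_nonneg
    have e2 : (a u v * N) * (Wd.r l * (if Dl Wd.r0 l u v ≤ 1 / 32 then Dl Wd.r0 l u v else 0)) ≤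
        (a u v * N) * dist u v := mul_le_mul_of_nonneg_left e1 (mul_nonneg (ha u v) hN0)
    linarith only [e2]
  refine (Finset.sum_le_sum fun l _ => h1 l).trans ?_
  rw [Finset.sum_comm, Finset.mul_sum]
  refine Finset.sum_le_sum fun u _ => ?_
  rw [Finset.sum_comm, Finset.mul_sum]
  refine Finset.sum_le_sum fun v _ => ?_
  rw [← Finset.mul_sum, ← Finset.mul_sum]
  have e3 := follow_sum_le P hI hpk u
  have e4 : (a u v * dist u v) * (∑ l : Fin Wd.n, ∑ c ∈ univ.filter (fun c => Dl Wd.r0 l u c ≤ 3),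
        kern (Dl Wd.r0 l) u c / SS (Dl Wd.r0 l) (nuC η (s.x l)) u *
          ∑ j ∈ univ.filter (fun j => s.x l j = (c, true)), om P s l j) ≤
      (a u v * dist u v) * Wd.G2 := mul_le_mul_of_nonneg_left e3 (mul_nonneg (ha u v) dist_nonneg)
  linarith

/-- mass-weighted relabelling cost of the whole token step -/
theorem relabel_total (P : LPar η Wd.k J) {p : X → ℝ} {x xd x' : Fin Wd.n → Conf X J}
    (hb : ∀ l : Fin Wd.n, Bal (Dl Wd.r0 l) p (nuC η (x l)))
    (hpk : ∑ u, p u ≤ Wd.k) {a : X → X → ℝ} (ha : ∀ u v, 0 ≤ a u v)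
    (hap : ∀ u, ∑ v, a u v ≤ p u)
    (hd : ∀ l : Fin Wd.n, DragMove (Dl Wd.r0 l) η a (x l) (xd l))
    (hA : ∀ l, Adm (xd l) (x' l))
    (hb' : ∀ l : Fin Wd.n, Bal (Dl Wd.r0 l) (push p a) (nuC η (x' l))) :
    ∑ u, push p a u * XC P x x' u u ≤
      24 * RR Wd.k * (∑ l : Fin Wd.n, Wd.r l * (200 * η * chg (xd l) (x' l))
        + 1200000 * Gk Wd.k * ∑ u, ∑ v, a u v * dist u v
        + ∑ l : Fin Wd.n, Wd.r l * (200 * (∑ u, ∑ v, a u v) ^ 2
            + 200 * Wd.k * (η * Fintype.card J / P.Q))) := by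
  have hpn : ∀ u, 0 ≤ push p a u := k5_push_nonneg ha hap
  have hps : ∑ u, push p a u ≤ Wd.k := by
    rw [k5_sum_push]
    exact hpk
  rw [s5_sum_XC]
  have hRR : 0 ≤ 24 * RR Wd.k := by
    have := s5_RR Wd
    (clear * - this; positivity)
  apply mul_le_mul_of_nonneg_left _ hRR
  set C := 200 * (∑ u, ∑ v, a u v) ^ 2 + 200 * Wd.k * (η * Fintype.card J / P.Q) with hC
  have h1 : ∀ l : Fin Wd.n, ∑ u, push p a u * EL P l (x l) (x' l) u u ≤
      200 * η * chg (xd l) (x' l) +
        1200000 * ∑ u, ∑ v, a u v * sg (Dl Wd.r0 l) p (nuC η (x l)) u v + C := by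
    intro l
    have e1 := relabel_drag (Dl_pm (X := X) Wd.hr0 l) P l (x l) (xd l) (hb l) hpk ha hap (hd l)
    have e2 := relabel_prox (Dl_pm (X := X) Wd.hr0 l) P l (xd l) (x' l) (hb' l) hps (hA l)
    have e3 : ∑ u, push p a u * EL P l (x l) (x' l) u u ≤
        ∑ u, push p a u * EL P l (x l) (xd l) u u + ∑ u, push p a u * EL P l (xd l) (x' l) u u := by
      rw [← Finset.sum_add_distrib]
      refine Finset.sum_le_sum fun u _ => ?_
      rw [← mul_add]
      exact mul_le_mul_of_nonneg_left (EL_tri P l _ _ _ u u u) (hpn u)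
    have e4 : ∑ u, push p a u * EL P l (x l) (xd l) u u ≤
        1200000 * ∑ u, ∑ v, a u v * sg (Dl Wd.r0 l) p (nuC η (x l)) u v
          + 200 * (∑ u, ∑ v, a u v) ^ 2 + 200 * Wd.k * (η * Fintype.card J / P.Q) := e1
    have e5 : ∑ u, push p a u * EL P l (xd l) (x' l) u u ≤ 200 * η * chg (xd l) (x' l) := e2
    linarith only [e3, e4, e5]
  have h2 : ∑ l : Fin Wd.n, Wd.r l * ∑ u, push p a u * EL P l (x l) (x' l) u u ≤
      ∑ l : Fin Wd.n, (Wd.r l * (200 * η * chg (xd l) (x' l)) +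
        1200000 * (Wd.r l * ∑ u, ∑ v, a u v * sg (Dl Wd.r0 l) p (nuC η (x l)) u v)
          + Wd.r l * C) := by
    refine Finset.sum_le_sum fun l _ => ?_
    refine (mul_le_mul_of_nonneg_left (h1 l) (s5_r_pos Wd l).le).trans (le_of_eq ?_)
    ring
  rw [Finset.sum_add_distrib, Finset.sum_add_distrib, ← Finset.mul_sum] at h2
  have h3 : ∑ l : Fin Wd.n, Wd.r l * ∑ u, ∑ v, a u v * sg (Dl Wd.r0 l) p (nuC η (x l)) u v ≤
      Gk Wd.k * ∑ u, ∑ v, a u v * dist u v := by
    have e1 : ∀ l : Fin Wd.n, Wd.r l * ∑ u, ∑ v, a u v * sg (Dl Wd.r0 l) p (nuC η (x l)) u v ≤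
        ∑ u, ∑ v, a u v * dist u v * gg (Dl Wd.r0 l) p (nuC η (x l)) u := by
      intro l
      rw [Finset.mul_sum]
      refine Finset.sum_le_sum fun u _ => ?_
      rw [Finset.mul_sum]
      refine Finset.sum_le_sum fun v _ => ?_
      have hg := gg_nonneg (Dl_pm (X := X) Wd.hr0 l) (hb l) u
      have e2 : Wd.r l * sg (Dl Wd.r0 l) p (nuC η (x l)) u v ≤
          dist u v * gg (Dl Wd.r0 l) p (nuC η (x l)) u := by
        unfold sg
        split_ifs
        · rw [← mul_assoc, s5_r_Dl]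
        · rw [mul_zero]
          exact mul_nonneg dist_nonneg hg
      have e3 := mul_le_mul_of_nonneg_left e2 (ha u v)
      linarith only [e3]
    refine (Finset.sum_le_sum fun l _ => e1 l).trans ?_
    rw [Finset.sum_comm, Finset.mul_sum]
    refine Finset.sum_le_sum fun u _ => ?_
    rw [Finset.sum_comm, Finset.mul_sum]
    refine Finset.sum_le_sum fun v _ => ?_
    rw [← Finset.mul_sum]
    have e4 := sum_gg_le Wd.hr0 Wd.n (ν := fun l => nuC η (x l)) Wd.hk hpk hb u
    have e5 := mul_le_mul_of_nonneg_left e4 (mul_nonneg (ha u v) (dist_nonneg (x := u) (y := v)))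
    linarith only [e5]
  linarith only [h2, h3]

/-- own cuts -/
theorem cut_total (P : LPar η Wd.k J) {p : X → ℝ} {x : Fin Wd.n → Conf X J}
    (hb : ∀ l : Fin Wd.n, Bal (Dl Wd.r0 l) p (nuC η (x l)))
    (hpk : ∑ u, p u ≤ Wd.k) (u v : X) :
    XC P x x u v ≤ 24 * RR Wd.k * ((3000 * Gk Wd.k + 64) * dist u v
      + ∑ l : Fin Wd.n, Wd.r l * (200 * (η * Fintype.card J / P.Q))) := by
  have hη := P.hη
  have hRR : 0 ≤ 24 * RR Wd.k := by
    have := s5_RR Wd
    positivity
  set q := 200 * (η * Fintype.card J / P.Q) with hq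
  have hq0 : 0 ≤ q := by (clear * - hη; positivity)
  have e0' : XC P x x u v = 24 * RR Wd.k * ∑ l : Fin Wd.n, Wd.r l * EL P l (x l) (x l) u v := by
    rw [XC_eq, Finset.mul_sum]
    refine Finset.sum_congr rfl fun l _ => ?_
    unfold World.wt
    ring
  rw [e0']
  apply mul_le_mul_of_nonneg_left _ hRR
  have h1 : ∀ l : Fin Wd.n, Wd.r l * EL P l (x l) (x l) u v ≤
      3000 * (dist u v * gg (Dl Wd.r0 l) p (nuC η (x l)) u)
        + (if dist u v / (Wd.r0 * 2 ^ (l : ℕ)) ≤ 1 / 32 then 0 else Wd.r0 * 2 ^ (l : ℕ))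
        + Wd.r l * q := by
    intro l
    have hr := s5_r_pos Wd l
    have hg := gg_nonneg (Dl_pm (X := X) Wd.hr0 l) (hb l) u
    have hrq : 0 ≤ Wd.r l * q := mul_nonneg hr.le hq0
    split_ifs with h
    · have e1 := own_cut (Dl_pm (X := X) Wd.hr0 l) P l (x l) (hb l) hpk u v h
      have e2 : EL P l (x l) (x l) u v ≤
          3000 * (Dl Wd.r0 l u v * gg (Dl Wd.r0 l) p (nuC η (x l)) u) + q := e1
      have e3 := mul_le_mul_of_nonneg_left e2 hr.le
      have e4 : Wd.r l * (3000 * (Dl Wd.r0 l u v * gg (Dl Wd.r0 l) p (nuC η (x l)) u) + q) =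
          3000 * ((Wd.r l * Dl Wd.r0 l u v) * gg (Dl Wd.r0 l) p (nuC η (x l)) u)
            + Wd.r l * q := by ring
      rw [e4, s5_r_Dl] at e3
      linarith only [e3]
    · have e1 := mul_le_mul_of_nonneg_left (EL_le_one P l (x l) (x l) u v) hr.le
      have e2 : Wd.r0 * 2 ^ (l : ℕ) = Wd.r l := rfl
      rw [e2]
      have e3 : 0 ≤ 3000 * (dist u v * gg (Dl Wd.r0 l) p (nuC η (x l)) u) := by
        have : 0 ≤ dist u v := dist_nonneg
        (clear * - hg; positivity)
      linarith only [hrq, e1, e3]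
  refine (Finset.sum_le_sum fun l _ => h1 l).trans ?_
  rw [Finset.sum_add_distrib, Finset.sum_add_distrib, ← Finset.mul_sum, ← Finset.mul_sum]
  have h2 := sum_gg_le Wd.hr0 Wd.n (ν := fun l => nuC η (x l)) Wd.hk hpk hb u
  have h3 := mul_le_mul_of_nonneg_left h2 (dist_nonneg (x := u) (y := v))
  have h4 := sum_scale_small_le Wd.hr0 (dist_nonneg (x := u) (y := v)) Wd.n
  have h5 : (3000 * Gk Wd.k + 64) * dist u v = 3000 * (dist u v * Gk Wd.k) + 64 * dist u v := by
    ring
  rw [h5]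
  linarith

theorem s5_Gam (Wd : World X) : 0 ≤ Wd.Gam := by
  unfold World.Gam
  (clear * -; positivity)

theorem s5_A1_nonneg (Wd : World X) : 0 ≤ Wd.A1 := by
  unfold World.A1
  have := s5_RR Wd
  have := s5_Gam Wd
  positivity

/-- INFO STEP -/
theorem info_step [Nonempty X] (P : LPar η Wd.k J) {p p' : X → ℝ} {s : St Wd J P.B}
    (hI : Inv P p s) (hpk : ∑ u, p u ≤ Wd.k) (hp' : ∀ u, 0 ≤ p' u) (hpk' : ∑ u, p' u ≤ Wd.k) :
    ∃ s' : St Wd J P.B, Inv P p' s' ∧
      PhC s s' + TrC s s' + ∑ u, p' u * XC P s.x s'.x u u + Pot P p' s' ≤ Pot P p' s := by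
  have hη := P.hη
  have key := fun l : Fin Wd.n => exists_tokprox (Dl_pm (X := X) Wd.hr0 l) P hp' hpk' (s.x l) (by
    have := sum_nu_le (hI.bal l)
    linarith only [hpk, this])
  choose x' hA hB hF using key
  obtain ⟨s', hs'x, hI', hst⟩ := exists_tracks P hI.len hp' hpk' x' hB
  refine ⟨s', hI', ?_⟩
  have t1 := tracks_cost_le P hI hI' (xd := s.x) (fun l j => Or.inl rfl)
    (fun l => by rw [hs'x]; exact hA l) (fun π => by rw [hs'x]; exact hst π)
  have t0 : EE (fun π => ∑ i, dist (loc Wd s.x (s.y π i)) (loc Wd s.x (s.y π i))) = 0 := by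
    simp only [EE, dist_self, sum_const_zero, Fintype.card_numbering, Fintype.card_prod, Fintype.card_fin, Fintype.card_option, zero_div]
  rw [t0, zero_add] at t1
  have t2 := pot_relabel_le P hp' s.x s'.x s.y
  -- relabelling
  set S := ∑ l : Fin Wd.n, Wd.r l * (η * chg (s.x l) (x' l)) with hS
  have t3 : ∑ u, p' u * XC P s.x s'.x u u ≤ 24 * RR Wd.k * (200 * S) := by
    rw [s5_sum_XC, hs'x]
    have hRR : 0 ≤ 24 * RR Wd.k := by
      have := s5_RR Wd
      (clear * - this; positivity)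
    apply mul_le_mul_of_nonneg_left _ hRR
    rw [hS, Finset.mul_sum]
    refine Finset.sum_le_sum fun l _ => ?_
    have e1 := relabel_prox (Dl_pm (X := X) Wd.hr0 l) P l (s.x l) (x' l) (hB l) hpk' (hA l)
    have e2 : ∑ u, p' u * EL P l (s.x l) (x' l) u u ≤ 200 * η * chg (s.x l) (x' l) := e1
    refine (mul_le_mul_of_nonneg_left e2 (s5_r_pos Wd l).le).trans (le_of_eq ?_)
    ring
  have t4 : ∑ l : Fin Wd.n, Wd.r l * FF (Dl Wd.r0 l) p' (nuC η (x' l)) + S / 2 ≤
      ∑ l : Fin Wd.n, Wd.r l * FF (Dl Wd.r0 l) p' (nuC η (s.x l)) := by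
    rw [hS, Finset.sum_div, ← Finset.sum_add_distrib]
    refine Finset.sum_le_sum fun l _ => ?_
    refine le_trans (le_of_eq ?_) (mul_le_mul_of_nonneg_left (hF l) (s5_r_pos Wd l).le)
    ring
  have t5 := mul_le_mul_of_nonneg_left t4 (s5_A1_nonneg Wd)
  have t6 := mul_le_mul_of_nonneg_left t3 (s5_Gam Wd)
  have t7 : Wd.Gam * (24 * RR Wd.k * (200 * S)) = Wd.A1 * (S / 2) := by
    unfold World.A1
    ring
  rw [t7] at t6
  have t8 : Wd.Gam * ∑ u, p' u * XC P s.x s'.x u u = ∑ u, p' u * XC P s.x s'.x u u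
      + 32 * Real.log (Wd.M + 2) ^ 2 * ∑ u, p' u * XC P s.x s'.x u u := by
    unfold World.Gam
    ring
  rw [t8] at t6
  unfold Pot
  rw [hs'x] at t1 t2 t6 ⊢
  rw [mul_add] at t5
  linarith only [t1, t2, t5, t6]

/-- TRANSPORT STEP -/
theorem transport_step (P : LPar η Wd.k J) {p : X → ℝ} {s : St Wd J P.B} (hI : Inv P p s)
    (hpk : ∑ u, p u ≤ Wd.k) {a : X → X → ℝ} (ha : ∀ u v, 0 ≤ a u v)
    (hap : ∀ u, ∑ v, a u v ≤ p u) (hα : ∑ u, ∑ v, a u v ≤ e0 / 8) :
    ∃ s' : St Wd J P.B, Inv P (push p a) s' ∧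
      PhC s s' + TrC s s' + ∑ u, push p a u * XC P s.x s'.x u u
        + ∑ u, ∑ v, a u v * XC P s.x s.x u v + Pot P (push p a) s'
      ≤ Pot P p s + Wd.CT * ∑ u, ∑ v, a u v * dist u v
        + Wd.err (∑ u, ∑ v, a u v) η (η * Fintype.card J / P.Q) := by
  have hη := P.hη
  have hX : Nonempty X := ⟨Wd.x0⟩
  have hpn : ∀ u, 0 ≤ push p a u := k5_push_nonneg ha hap
  have hps : ∑ u, push p a u ≤ Wd.k := by
    rw [k5_sum_push]
    exact hpk
  obtain ⟨xd, x', hm, hA, hB, hd, hF, hfo⟩ := exists_tokens P hI hpk ha hap hα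
  obtain ⟨s', hs'x, hI', hst⟩ := exists_tracks P hI.len hpn hps x' hB
  refine ⟨s', hI', ?_⟩
  have t1 := tracks_cost_le P hI hI' (xd := xd) hm
    (fun l => by rw [hs'x]; exact hA l) (fun π => by rw [hs'x]; exact hst π)
  have t2 := pot_relabel_le P hpn s.x s'.x s.y
  have t3 := pot_push_le P (p := p) ha s.x s.y
  set α := ∑ u, ∑ v, a u v with hαd
  set Δ := ∑ u, ∑ v, a u v * dist u v with hΔ
  set q := η * Fintype.card J / P.Q with hq
  have hα0 : 0 ≤ α := Finset.sum_nonneg fun u _ => Finset.sum_nonneg fun v _ => ha u v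
  have hΔ0 : 0 ≤ Δ := Finset.sum_nonneg fun u _ => Finset.sum_nonneg fun v _ =>
    mul_nonneg (ha u v) dist_nonneg
  have hq0 : 0 ≤ q := by (clear * - hη; positivity)
  have hk := Wd.hk
  have hα1 : α ≤ 1 := by
    refine hα.trans ?_
    unfold e0
    norm_num
  set S := ∑ l : Fin Wd.n, Wd.r l * (η * chg (xd l) (x' l)) with hS
  set R := ∑ l : Fin Wd.n, Wd.r l with hR
  have hR0 : 0 ≤ R := Finset.sum_nonneg fun l _ => (s5_r_pos Wd l).le
  have hRR : 0 ≤ 24 * RR Wd.k := by
    have := s5_RR Wd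
    (clear * - this; positivity)
  -- relabellings
  have r1 : ∑ u, push p a u * XC P s.x s'.x u u ≤
      24 * RR Wd.k * (200 * S + 1200000 * Gk Wd.k * Δ + R * (200 * α ^ 2 + 200 * Wd.k * q)) := by
    have e1 := relabel_total P (x := s.x) (xd := xd) (x' := x') hI.bal hpk ha hap hd hA hB
    rw [hs'x]
    refine e1.trans (le_of_eq ?_)
    have e3 : ∑ l : Fin Wd.n, Wd.r l * (200 * η * chg (xd l) (x' l)) = 200 * S := by
      rw [hS, Finset.mul_sum]
      refine Finset.sum_congr rfl fun l _ => ?_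
      ring
    rw [hR, Finset.sum_mul, e3]
  have r2 : ∑ u, ∑ v, a u v * XC P s.x s.x u v ≤
      24 * RR Wd.k * ((3000 * Gk Wd.k + 64) * Δ + α * (R * (200 * q))) := by
    have e1 : ∀ u v, a u v * XC P s.x s.x u v ≤
        (24 * RR Wd.k * (3000 * Gk Wd.k + 64)) * (a u v * dist u v)
          + (24 * RR Wd.k * (R * (200 * q))) * a u v := by
      intro u v
      have e2 := mul_le_mul_of_nonneg_left (cut_total P hI.bal hpk u v) (ha u v)
      refine e2.trans (le_of_eq ?_)
      rw [hR, Finset.sum_mul]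
      ring
    calc ∑ u, ∑ v, a u v * XC P s.x s.x u v ≤ ∑ u, ∑ v,
          ((24 * RR Wd.k * (3000 * Gk Wd.k + 64)) * (a u v * dist u v)
          + (24 * RR Wd.k * (R * (200 * q))) * a u v) :=
          Finset.sum_le_sum fun u _ => Finset.sum_le_sum fun v _ => e1 u v
      _ = _ := by
          simp only [Finset.sum_add_distrib, ← Finset.mul_sum]
          rw [← hΔ, ← hαd]
          ring
  -- tokens
  have f1 : ∑ l : Fin Wd.n, Wd.r l * FF (Dl Wd.r0 l) (push p a) (nuC η (x' l)) + S / 2 ≤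
      ∑ l : Fin Wd.n, Wd.r l * FF (Dl Wd.r0 l) p (nuC η (s.x l))
        + (600 * Gk Wd.k + 1000 + 64 * Real.log (60 * Wd.k)) * Δ
        + R * (4000 * Wd.k * α ^ 2 + (1 + Wd.k / e0) * (2 * η * (Fintype.card X : ℝ) ^ 2)) := by
    set E := 4000 * Wd.k * α ^ 2 + (1 + Wd.k / e0) * (2 * η * (Fintype.card X : ℝ) ^ 2) with hE
    have e1 : ∑ l : Fin Wd.n, Wd.r l * FF (Dl Wd.r0 l) (push p a) (nuC η (x' l)) + S / 2 ≤
        ∑ l : Fin Wd.n, (Wd.r l * FF (Dl Wd.r0 l) p (nuC η (s.x l))
          + Wd.r l * (∑ u, ∑ v, a u v * (if Dl Wd.r0 l u v ≤ 1 / 32 then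
            600 * (Dl Wd.r0 l u v * gg (Dl Wd.r0 l) p (nuC η (s.x l)) u)
              + 8000 * Dl Wd.r0 l u v ^ 2
            else Real.log (60 * Wd.k))) + Wd.r l * E) := by
      rw [hS, Finset.sum_div, ← Finset.sum_add_distrib]
      refine Finset.sum_le_sum fun l _ => ?_
      refine le_trans (le_of_eq ?_) ((mul_le_mul_of_nonneg_left (hF l) (s5_r_pos Wd l).le).trans
        (le_of_eq ?_))
      · ring
      · rw [hE]
        ring
    rw [Finset.sum_add_distrib, Finset.sum_add_distrib, ← Finset.sum_mul] at e1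
    have e2 : ∑ l : Fin Wd.n, Wd.r l * (∑ u, ∑ v, a u v * (if Dl Wd.r0 l u v ≤ 1 / 32 then
            600 * (Dl Wd.r0 l u v * gg (Dl Wd.r0 l) p (nuC η (s.x l)) u)
              + 8000 * Dl Wd.r0 l u v ^ 2
            else Real.log (60 * Wd.k))) ≤
        (600 * Gk Wd.k + 1000 + 64 * Real.log (60 * Wd.k)) * Δ := by
      have e3 : ∑ l : Fin Wd.n, Wd.r l * (∑ u, ∑ v, a u v * (if Dl Wd.r0 l u v ≤ 1 / 32 then
            600 * (Dl Wd.r0 l u v * gg (Dl Wd.r0 l) p (nuC η (s.x l)) u)
              + 8000 * Dl Wd.r0 l u v ^ 2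
            else Real.log (60 * Wd.k))) = ∑ u, ∑ v, a u v * ∑ l : Fin Wd.n,
          Wd.r l * (if Dl Wd.r0 l u v ≤ 1 / 32 then
            600 * (Dl Wd.r0 l u v * gg (Dl Wd.r0 l) p (nuC η (s.x l)) u)
              + 8000 * Dl Wd.r0 l u v ^ 2
            else Real.log (60 * Wd.k)) := by
        simp only [mul_sum]
        rw [Finset.sum_comm]
        refine Finset.sum_congr rfl fun u _ => ?_
        rw [Finset.sum_comm]
        refine Finset.sum_congr rfl fun v _ => Finset.sum_congr rfl fun l _ => ?_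
        ring
      rw [e3, hΔ, Finset.mul_sum]
      refine Finset.sum_le_sum fun u _ => ?_
      rw [Finset.mul_sum]
      refine Finset.sum_le_sum fun v _ => ?_
      have hd0 : 0 ≤ dist u v := dist_nonneg
      have hlog : 0 ≤ Real.log (60 * Wd.k) := Real.log_nonneg (by linarith only [hk])
      have e4 : ∀ l : Fin Wd.n, Wd.r l * (if Dl Wd.r0 l u v ≤ 1 / 32 then
            600 * (Dl Wd.r0 l u v * gg (Dl Wd.r0 l) p (nuC η (s.x l)) u)
              + 8000 * Dl Wd.r0 l u v ^ 2
            else Real.log (60 * Wd.k)) ≤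
          600 * (dist u v * gg (Dl Wd.r0 l) p (nuC η (s.x l)) u)
          + 8000 * ((Wd.r0 * 2 ^ (l : ℕ)) *
              (if dist u v / (Wd.r0 * 2 ^ (l : ℕ)) ≤ 1 / 32 then
                (dist u v / (Wd.r0 * 2 ^ (l : ℕ))) ^ 2 else 0))
          + Real.log (60 * Wd.k) *
            (if dist u v / (Wd.r0 * 2 ^ (l : ℕ)) ≤ 1 / 32 then 0 else Wd.r0 * 2 ^ (l : ℕ)) := by
        intro l
        have hg := gg_nonneg (Dl_pm (X := X) Wd.hr0 l) (hI.bal l) u
        have hDd : dist u v / (Wd.r0 * 2 ^ (l : ℕ)) = Dl Wd.r0 l u v := rfl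
        have hrd : Wd.r0 * 2 ^ (l : ℕ) = Wd.r l := rfl
        rw [hDd, hrd]
        split_ifs with h
        · have e5 : Wd.r l * (600 * (Dl Wd.r0 l u v * gg (Dl Wd.r0 l) p (nuC η (s.x l)) u)
              + 8000 * Dl Wd.r0 l u v ^ 2) =
              600 * ((Wd.r l * Dl Wd.r0 l u v) * gg (Dl Wd.r0 l) p (nuC η (s.x l)) u)
              + 8000 * (Wd.r l * Dl Wd.r0 l u v ^ 2) := by ring
          rw [e5, s5_r_Dl]
          linarith only []
        · have e6 : 0 ≤ 600 * (dist u v * gg (Dl Wd.r0 l) p (nuC η (s.x l)) u) := by (clear * - hg; positivity)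
          linarith only [e6]
      have e7 := Finset.sum_le_sum fun (l : Fin Wd.n) (_ : l ∈ univ) => e4 l
      rw [Finset.sum_add_distrib, Finset.sum_add_distrib, ← Finset.mul_sum, ← Finset.mul_sum,
        ← Finset.mul_sum, ← Finset.mul_sum] at e7
      have g1 := sum_gg_le Wd.hr0 Wd.n (ν := fun l => nuC η (s.x l)) Wd.hk hpk hI.bal u
      have g2 := mul_le_mul_of_nonneg_left g1 hd0
      have g3 := sum_scale_sq_le Wd.hr0 hd0 Wd.n
      have g4 := mul_le_mul_of_nonneg_left (sum_scale_small_le Wd.hr0 hd0 Wd.n) hlog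
      have g5 : ∑ l : Fin Wd.n, Wd.r l * (if Dl Wd.r0 l u v ≤ 1 / 32 then
            600 * (Dl Wd.r0 l u v * gg (Dl Wd.r0 l) p (nuC η (s.x l)) u)
              + 8000 * Dl Wd.r0 l u v ^ 2
            else Real.log (60 * Wd.k)) ≤
          (600 * Gk Wd.k + 1000 + 64 * Real.log (60 * Wd.k)) * dist u v := by
        linarith only [e7, g2, g3, g4]
      refine (mul_le_mul_of_nonneg_left g5 (ha u v)).trans (le_of_eq ?_)
      ring
    linarith only [e1, e2]
  have f2 := mul_le_mul_of_nonneg_left f1 (s5_A1_nonneg Wd)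
  have hGam := s5_Gam Wd
  have r3 := mul_le_mul_of_nonneg_left (add_le_add r1 r2) hGam
  have r4 : Wd.Gam * (∑ u, push p a u * XC P s.x s'.x u u + ∑ u, ∑ v, a u v * XC P s.x s.x u v) =
      ∑ u, push p a u * XC P s.x s'.x u u + ∑ u, ∑ v, a u v * XC P s.x s.x u v
      + 32 * Real.log (Wd.M + 2) ^ 2 * ∑ u, push p a u * XC P s.x s'.x u u
      + 32 * Real.log (Wd.M + 2) ^ 2 * ∑ u, ∑ v, a u v * XC P s.x s.x u v := by
    unfold World.Gam
    ring
  rw [r4] at r3
  have r5 : Wd.Gam * (24 * RR Wd.k * (200 * S + 1200000 * Gk Wd.k * Δ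
        + R * (200 * α ^ 2 + 200 * Wd.k * q))
      + 24 * RR Wd.k * ((3000 * Gk Wd.k + 64) * Δ + α * (R * (200 * q)))) ≤
      Wd.A1 * (S / 2) + 24 * RR Wd.k * Wd.Gam * (1300000 * Gk Wd.k + 64) * Δ
        + R * (24 * RR Wd.k * Wd.Gam * (200 * α ^ 2 + 400 * Wd.k * q)) := by
    have e1 : Wd.A1 * (S / 2) = 24 * RR Wd.k * Wd.Gam * (200 * S) := by
      unfold World.A1
      ring
    have hc : 0 ≤ 24 * RR Wd.k * Wd.Gam := mul_nonneg hRR hGam
    have e2 : 200 * S + 1200000 * Gk Wd.k * Δ + R * (200 * α ^ 2 + 200 * Wd.k * q)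
        + ((3000 * Gk Wd.k + 64) * Δ + α * (R * (200 * q))) ≤
        200 * S + (1300000 * Gk Wd.k + 64) * Δ + R * (200 * α ^ 2 + 400 * Wd.k * q) := by
      have g1 : 0 ≤ Gk Wd.k * Δ := mul_nonneg (s5_Gk hk) hΔ0
      have g2 : α * (R * (200 * q)) ≤ Wd.k * (R * (200 * q)) :=
        mul_le_mul_of_nonneg_right (hα1.trans hk) (by (clear * - hR0 hη; positivity))
      linarith only [g1, g2]
    have e3 := mul_le_mul_of_nonneg_left e2 hc
    rw [e1]
    linarith only [e3]
  have herr : Wd.err α η q = Wd.A1 * (R * (4000 * Wd.k * α ^ 2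
        + (1 + Wd.k / e0) * (2 * η * (Fintype.card X : ℝ) ^ 2)))
      + R * (24 * RR Wd.k * Wd.Gam * (200 * α ^ 2 + 400 * Wd.k * q)) := by
    unfold World.err
    rw [← Finset.sum_mul, ← hR]
    ring
  rw [herr]
  have hCT : Wd.CT * Δ = Wd.A1 * ((600 * Gk Wd.k + 1000 + 64 * Real.log (60 * Wd.k)) * Δ)
      + 24 * RR Wd.k * Wd.Gam * (1300000 * Gk Wd.k + 64) * Δ + 130 * Wd.G2 * Δ := by
    unfold World.CT
    ring
  rw [hCT]
  unfold Pot
  rw [hs'x] at t1 t2 r3 ⊢
  rw [mul_add, mul_add, mul_add] at f2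
  linarith

end Vale.Agent.P304.Dyn
end
end

section

section

/-! S6: request step = info step + `S` transport substeps; initial state; bounds. -/

set_option linter.all false

open Finset

namespace Vale.Agent.P304.Dyn

variable {X J : Type} [MetricSpace X] [Fintype X] [DecidableEq X] [Fintype J] [DecidableEq J]
  {Wd : World X} {η : ℝ}

theorem XC_triangle (P : LPar η Wd.k J) (x x' x'' : Fin Wd.n → Conf X J) (u v w : X) :
    XC P x x'' u w ≤ XC P x x' u v + XC P x' x'' v w := by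
  rw [XC_eq, XC_eq, XC_eq, ← sum_add_distrib]
  refine sum_le_sum fun l _ => ?_
  rw [← mul_add]
  exact mul_le_mul_of_nonneg_left (EL_tri P l _ _ _ u v w) (s4_wt_nonneg Wd l)

theorem XC_nonneg (P : LPar η Wd.k J) (x x' : Fin Wd.n → Conf X J) (u v : X) :
    0 ≤ XC P x x' u v := s4_XC_nonneg P x x' u v

theorem s6_XC_self (P : LPar η Wd.k J) (x : Fin Wd.n → Conf X J) (u : X) : XC P x x u u = 0 := by
  simp only [XC, EE, ↓reduceIte, mul_zero, sum_const_zero, Fintype.card_numbering, Fintype.card_prod, Fintype.card_fin, Fintype.card_option, zero_div]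

theorem PhC_triangle {B : ℕ} (s s' s'' : St Wd J B) : PhC s s'' ≤ PhC s s' + PhC s' s'' := by
  unfold PhC
  rw [← EE_add]
  apply EE_mono
  intro π
  rw [← sum_add_distrib]
  exact sum_le_sum fun i _ => dist_triangle _ _ _

theorem TrC_triangle {B : ℕ} (s s' s'' : St Wd J B) : TrC s s'' ≤ TrC s s' + TrC s' s'' := by
  unfold TrC
  rw [← EE_add]
  apply EE_mono
  intro π
  rw [← sum_add_distrib]
  refine sum_le_sum fun i _ => ?_
  have h1 := dn_triangle (fun m => (rho_pos Wd m).le) (s.y π i) (s'.y π i) (s''.y π i)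
  have h2 := dn_triangle (fun m => (rho_pos Wd m).le) (s''.y π i) (s'.y π i) (s.y π i)
  linarith

theorem s6_PhC_self {B : ℕ} (s : St Wd J B) : PhC s s = 0 := by
  simp only [PhC, EE, dist_self, sum_const_zero, Fintype.card_numbering, Fintype.card_prod, Fintype.card_fin, Fintype.card_option, zero_div]

theorem s6_TrC_self {B : ℕ} (s : St Wd J B) : TrC s s = 0 := by
  simp only [TrC, EE, dn_self, add_zero, sum_const_zero, Fintype.card_numbering, Fintype.card_prod, Fintype.card_fin, Fintype.card_option, zero_div]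

theorem s6_PhC_nonneg {B : ℕ} (s s' : St Wd J B) : 0 ≤ PhC s s' :=
  EE_nonneg fun π => sum_nonneg fun i _ => dist_nonneg

theorem s6_TrC_nonneg {B : ℕ} (s s' : St Wd J B) : 0 ≤ TrC s s' :=
  EE_nonneg fun π => sum_nonneg fun i _ => add_nonneg
    (dn_nonneg (fun m => (rho_pos Wd m).le) _ _) (dn_nonneg (fun m => (rho_pos Wd m).le) _ _)

/-- the error is monotone in the mass of the plan -/
theorem s6_err_mono {α α' η q : ℝ} (h0 : 0 ≤ α) (h : α ≤ α') :
    Wd.err α η q ≤ Wd.err α' η q := by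
  unfold World.err
  refine sum_le_sum fun l _ => ?_
  have hr := s5_r_pos Wd l
  have hA := s5_A1_nonneg Wd
  have hG := s5_Gam Wd
  have hR := s5_RR Wd
  have hk := Wd.hk
  have h1 : α ^ 2 ≤ α' ^ 2 := pow_le_pow_left₀ h0 h 2
  apply mul_le_mul_of_nonneg_left _ hr.le
  apply add_le_add
  · apply mul_le_mul_of_nonneg_left _ hA
    have : 4000 * Wd.k * α ^ 2 ≤ 4000 * Wd.k * α' ^ 2 :=
      mul_le_mul_of_nonneg_left h1 (by positivity)
    linarith
  · apply mul_le_mul_of_nonneg_left _ (by (clear * - hR hG; positivity))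
    linarith only [h1]

/-- `S` substeps with the plan `b / S`.  The averaging over the (uniformly random) substep at which
a server moves from `u` to `v` is hidden in the triangle inequality. -/
theorem transport_iter (P : LPar η Wd.k J) {p : X → ℝ} {s : St Wd J P.B} (hI : Inv P p s)
    (hpk : ∑ u, p u ≤ Wd.k) {b : X → X → ℝ} (hb : ∀ u v, 0 ≤ b u v)
    (hbp : ∀ u, ∑ v, b u v = p u) {S : ℕ} (hS : 1 ≤ S) (hS2 : Wd.k / S ≤ e0 / 8) :
    ∃ s' : St Wd J P.B, Inv P (push p b) s' ∧
      PhC s s' + TrC s s' + ∑ u, ∑ v, b u v * XC P s.x s'.x u v + Pot P (push p b) s'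
      ≤ Pot P p s + Wd.CT * ∑ u, ∑ v, b u v * dist u v
        + S * Wd.err (Wd.k / S) η (η * Fintype.card J / P.Q) := by
  have hS0 : (0 : ℝ) < S := by exact_mod_cast hS
  have hSi : (S : ℝ) * (1 / S) = 1 := by (clear * - hS; field_simp)
  set E := Wd.err (Wd.k / S) η (η * Fintype.card J / P.Q) with hE
  set Δ := ∑ u, ∑ v, b u v * dist u v with hΔ
  -- the distributions of the substeps
  set pt : ℕ → X → ℝ := fun t x => p x + (t / S : ℝ) * (∑ u, b u x - ∑ v, b x v) with hpt
  have hp0 : ∀ u, 0 ≤ p u := fun u => by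
    rw [← hbp u]
    exact sum_nonneg fun v _ => hb u v
  have hsum : ∀ t, ∑ x, pt t x = ∑ x, p x := by
    intro t
    simp only [hpt]
    rw [sum_add_distrib, ← mul_sum, sum_sub_distrib, sum_comm (f := fun x u => b u x)]
    simp only [sub_self, mul_zero, add_zero]
  have hcol : ∀ f : X → ℝ, ∑ u, ∑ v, b u v * f v = ∑ v, (∑ u, b u v) * f v := by
    intro f
    rw [sum_comm]
    exact sum_congr rfl fun v _ => (sum_mul _ _ _).symm
  have hrow : ∀ f : X → ℝ, ∑ u, ∑ v, b u v * f u = ∑ u, p u * f u := by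
    intro f
    refine sum_congr rfl fun u _ => ?_
    rw [← sum_mul, hbp u]
  have main : ∀ t : ℕ, t ≤ S → ∃ s' : St Wd J P.B, Inv P (pt t) s' ∧
      PhC s s' + TrC s s' + (∑ u, ∑ v, b u v * ((t / S : ℝ) * XC P s.x s'.x u v
        + (1 - t / S) * XC P s.x s'.x u u)) + Pot P (pt t) s'
      ≤ Pot P p s + t * (Wd.CT * (Δ / S) + E) := by
    intro t
    induction t with
    | zero =>
      intro _
      have h1 : pt 0 = p := by
        funext x
        simp only [hpt, CharP.cast_eq_zero, zero_div, zero_mul, add_zero]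
      refine ⟨s, by rw [h1]; exact hI, ?_⟩
      rw [h1, s6_PhC_self, s6_TrC_self]
      simp only [add_zero, CharP.cast_eq_zero, zero_div, zero_mul, sub_zero, s6_XC_self, mul_zero, sum_const_zero, zero_add, Std.le_refl]
    | succ t ih =>
      intro ht
      obtain ⟨s₁, hI₁, h₁⟩ := ih (by omega)
      have htS : (t : ℝ) + 1 ≤ S := by exact_mod_cast ht
      have ht0 : (0 : ℝ) ≤ t := Nat.cast_nonneg t
      set a : X → X → ℝ := fun u v => b u v / S with ha
      have ha0 : ∀ u v, 0 ≤ a u v := fun u v => div_nonneg (hb u v) hS0.le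
      have harow : ∀ u, ∑ v, a u v = p u / S := by
        intro u
        simp only [ha]
        rw [← sum_div, hbp u]
      have hap : ∀ u, ∑ v, a u v ≤ pt t u := by
        intro u
        rw [harow u]
        simp only [hpt]
        rw [hbp u]
        have e1 : 0 ≤ (t / S : ℝ) * ∑ v, b v u :=
          mul_nonneg (by (clear * - hS; positivity)) (sum_nonneg fun v _ => hb v u)
        have e2 : p u / S ≤ p u - (t / S : ℝ) * p u := by
          rw [show p u - (t / S : ℝ) * p u = (p u * (S - t)) / S by field_simp]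
          apply div_le_div_of_nonneg_right _ hS0.le
          have := mul_le_mul_of_nonneg_left (by linarith only [htS] : (1 : ℝ) ≤ S - t) (hp0 u)
          linarith only [this]
        have e3 : (t / S : ℝ) * (∑ v, b v u - p u) =
          (t / S : ℝ) * ∑ v, b v u - (t / S : ℝ) * p u := by ring
        rw [e3]
        linarith only [e1, e2]
      have hatot : ∑ u, ∑ v, a u v = (∑ u, p u) / S := by
        rw [sum_div]
        exact sum_congr rfl fun u _ => harow u
      have hα1 : ∑ u, ∑ v, a u v ≤ Wd.k / S := by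
        rw [hatot]
        exact div_le_div_of_nonneg_right hpk hS0.le
      have hα0 : 0 ≤ ∑ u, ∑ v, a u v := sum_nonneg fun u _ => sum_nonneg fun v _ => ha0 u v
      obtain ⟨s₂, hI₂, h₂⟩ := transport_step P hI₁ (by rw [hsum t]; exact hpk) ha0 hap
        (hα1.trans hS2)
      have hpush : push (pt t) a = pt (t + 1) := by
        funext x
        simp only [push, hpt, ha]
        rw [← sum_div, ← sum_div]
        push_cast
        field_simp
        ring
      rw [hpush] at hI₂ h₂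
      refine ⟨s₂, hI₂, ?_⟩
      have herr := s6_err_mono (Wd := Wd) (η := η) (q := η * Fintype.card J / P.Q) hα0 hα1
      have hΔS : ∑ u, ∑ v, a u v * dist u v = Δ / S := by
        rw [hΔ, sum_div]
        refine sum_congr rfl fun u _ => ?_
        rw [sum_div]
        refine sum_congr rfl fun v _ => ?_
        simp only [ha]
        ring
      rw [hΔS] at h₂
      have f1 := PhC_triangle s s₁ s₂
      have f2 := TrC_triangle s s₁ s₂
      -- pointwise inequality of the address terms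
      have hc1 : (0 : ℝ) ≤ t / S := by (clear * - hS; positivity)
      have hc2 : (0 : ℝ) ≤ 1 / S := by positivity
      have hc3 : (0 : ℝ) ≤ 1 - (t / S + 1 / S) := by
        rw [← add_div, sub_nonneg, div_le_one hS0]
        exact htS
      have hpt1 : ∀ w, pt (t + 1) w = (1 - (t / S + 1 / S)) * p w
          + (t / S + 1 / S) * ∑ u, b u w := by
        intro w
        simp only [hpt]
        rw [hbp w]
        push_cast
        ring
      have key : ∑ u, ∑ v, b u v * (((t + 1 : ℕ) / S : ℝ) * XC P s.x s₂.x u v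
          + (1 - ((t + 1 : ℕ) / S : ℝ)) * XC P s.x s₂.x u u) ≤
          (∑ u, ∑ v, b u v * ((t / S : ℝ) * XC P s.x s₁.x u v
            + (1 - t / S) * XC P s.x s₁.x u u))
          + ∑ u, pt (t + 1) u * XC P s₁.x s₂.x u u
          + ∑ u, ∑ v, a u v * XC P s₁.x s₁.x u v := by
        have e1 : ∑ u, pt (t + 1) u * XC P s₁.x s₂.x u u =
            ∑ u, ∑ v, b u v * ((1 - (t / S + 1 / S)) * XC P s₁.x s₂.x u u
              + (t / S + 1 / S) * XC P s₁.x s₂.x v v) := by
          have e2 := hrow fun u => (1 - (t / S + 1 / S : ℝ)) * XC P s₁.x s₂.x u u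
          have e3 := hcol fun v => (t / S + 1 / S : ℝ) * XC P s₁.x s₂.x v v
          simp only [mul_add, sum_add_distrib] at e2 e3 ⊢
          rw [e2, e3, ← sum_add_distrib]
          refine sum_congr rfl fun u _ => ?_
          rw [hpt1 u]
          ring
        rw [e1, ← sum_add_distrib, ← sum_add_distrib]
        refine sum_le_sum fun u _ => ?_
        rw [← sum_add_distrib, ← sum_add_distrib]
        refine sum_le_sum fun v _ => ?_
        have g1 := XC_triangle P s.x s₁.x s₂.x u v v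
        have g2 := XC_triangle P s.x s₁.x s₂.x u u v
        have g3 := XC_triangle P s₁.x s₁.x s₂.x u v v
        have g4 := XC_triangle P s.x s₁.x s₂.x u u u
        have g5 : ((t + 1 : ℕ) / S : ℝ) = t / S + 1 / S := by
          push_cast
          rw [add_div]
        rw [g5]
        have g6 : (t / S + 1 / S : ℝ) * XC P s.x s₂.x u v
            + (1 - (t / S + 1 / S)) * XC P s.x s₂.x u u ≤
            ((t / S : ℝ) * XC P s.x s₁.x u v + (1 - t / S) * XC P s.x s₁.x u u)
            + ((1 - (t / S + 1 / S)) * XC P s₁.x s₂.x u u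
              + (t / S + 1 / S) * XC P s₁.x s₂.x v v)
            + 1 / S * XC P s₁.x s₁.x u v := by
          have k1 := mul_le_mul_of_nonneg_left g1 hc1
          have k2 := mul_le_mul_of_nonneg_left (g2.trans (add_le_add_right g3 _)) hc2
          have k3 := mul_le_mul_of_nonneg_left g4 hc3
          linarith only [k1, k2, k3]
        have g7 := mul_le_mul_of_nonneg_left g6 (hb u v)
        have g8 : a u v * XC P s₁.x s₁.x u v = b u v * (1 / S * XC P s₁.x s₁.x u v) := by
          simp only [ha]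
          ring
        rw [g8]
        linarith only [g7]
      have g9 : ((t + 1 : ℕ) : ℝ) * (Wd.CT * (Δ / S) + E) =
          t * (Wd.CT * (Δ / S) + E) + (Wd.CT * (Δ / S) + E) := by
        push_cast
        ring
      rw [g9]
      linarith only [h₁, h₂, herr, f1, f2, key]
  obtain ⟨s', hI', h'⟩ := main S le_rfl
  have hend : pt S = push p b := by
    funext x
    simp only [hpt, push]
    rw [div_self hS0.ne']
    ring
  rw [hend] at hI' h'
  refine ⟨s', hI', ?_⟩
  rw [div_self hS0.ne'] at h'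
  have h2 : ∑ u, ∑ v, b u v * (1 * XC P s.x s'.x u v + (1 - 1) * XC P s.x s'.x u u) =
      ∑ u, ∑ v, b u v * XC P s.x s'.x u v := by
    refine sum_congr rfl fun u _ => sum_congr rfl fun v _ => ?_
    ring
  rw [h2] at h'
  have h3 : (S : ℝ) * (Wd.CT * (Δ / S) + E) = Wd.CT * Δ + S * E := by
    (clear * - hS; field_simp)
  rw [h3] at h'
  linarith only [h']

/-- REQUEST STEP -/
theorem request_step [Nonempty X] (P : LPar η Wd.k J) {p p' : X → ℝ} {s : St Wd J P.B}
    (hI : Inv P p s) (hpk : ∑ u, p u ≤ Wd.k) (hp' : ∀ u, 0 ≤ p' u) (hpk' : ∑ u, p' u ≤ Wd.k)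
    {b : X → X → ℝ} (hb : ∀ u v, 0 ≤ b u v)
    (hbp : ∀ u, ∑ v, b u v = p' u) {S : ℕ} (hS : 1 ≤ S) (hS2 : Wd.k / S ≤ e0 / 8) :
    ∃ s' : St Wd J P.B, Inv P (push p' b) s' ∧
      PhC s s' + TrC s s' + ∑ u, ∑ v, b u v * XC P s.x s'.x u v + Pot P (push p' b) s'
      ≤ Pot P p' s + Wd.CT * ∑ u, ∑ v, b u v * dist u v
        + S * Wd.err (Wd.k / S) η (η * Fintype.card J / P.Q) := by
  obtain ⟨s₁, hI₁, h₁⟩ := info_step P hI hpk hp' hpk'
  obtain ⟨s₂, hI₂, h₂⟩ := transport_iter P hI₁ hpk' hb hbp hS hS2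
  refine ⟨s₂, hI₂, ?_⟩
  have f1 := PhC_triangle s s₁ s₂
  have f2 := TrC_triangle s s₁ s₂
  have f3 : ∑ u, ∑ v, b u v * XC P s.x s₂.x u v ≤ ∑ u, p' u * XC P s.x s₁.x u u
      + ∑ u, ∑ v, b u v * XC P s₁.x s₂.x u v := by
    rw [← sum_add_distrib]
    refine sum_le_sum fun u _ => ?_
    rw [← hbp u, sum_mul, ← sum_add_distrib]
    refine sum_le_sum fun v _ => ?_
    rw [← mul_add]
    exact mul_le_mul_of_nonneg_left (XC_triangle P _ _ _ u u v) (hb u v)
  linarith only [h₁, h₂, f1, f2, f3]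

theorem s6_hgt_eq (ρ : ℕ → ℝ) (b : List J) : hgt ρ b = ∑ m ∈ range b.length, ρ (m + 1) := by
  induction b with
  | nil => simp [hgt, sf_nil]
  | cons j T ih =>
    unfold hgt at ih ⊢
    rw [sf_cons, sum_insert (cons_notMem_sf j T), ih, List.length_cons, sum_range_succ]
    ring

theorem s6_hgt_le (Wd : World X) {b : List J} (hb : b.length ≤ Wd.n) :
    hgt Wd.rho b ≤ ∑ m ∈ range Wd.n, Wd.rho (m + 1) := by
  rw [s6_hgt_eq]
  exact sum_le_sum_of_subset_of_nonneg (range_subset_range.2 hb) fun m _ _ => (rho_pos Wd _).le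

/-- lower bound of the potential, uniform in all discretisation parameters -/
theorem s6_Pot_lower (P : LPar η Wd.k J) {p : X → ℝ} {s : St Wd J P.B} (hp : ∀ u, 0 ≤ p u)
    (hpk : ∑ u, p u ≤ Wd.k) :
    -(Wd.A1 * Wd.k ^ 2 * ∑ l : Fin Wd.n, Wd.r l
      + 4 / Wd.lam * (Wd.k * Real.log (Wd.M + 1) * ∑ m ∈ range Wd.n, Wd.rho (m + 1)))
      ≤ Pot P p s := by
  have hη := P.hη
  have hk := Wd.hk
  have hA := s5_A1_nonneg Wd
  have hlam := lam_pos Wd
  have hM : (0 : ℝ) ≤ Wd.M := Nat.cast_nonneg _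
  have hsum0 : 0 ≤ ∑ u, p u := sum_nonneg fun u _ => hp u
  -- token part
  have h1 : ∀ l : Fin Wd.n, -(Wd.k ^ 2) ≤ FF (Dl Wd.r0 l) p (nuC η (s.x l)) := by
    intro l
    have hν : ∀ c, 0 ≤ nuC η (s.x l) c := nuC_nonneg hη.le _
    have hD := Dl_pm (X := X) Wd.hr0 l
    set N := ∑ c, nuC η (s.x l) c with hN
    have hN0 : 0 ≤ N := sum_nonneg fun c _ => hν c
    have e1 : ∑ u, p u * Real.log (SS (Dl Wd.r0 l) (nuC η (s.x l)) u) ≤
        Wd.k * Real.log (1 + N) := by
      have e2 : ∑ u, p u * Real.log (SS (Dl Wd.r0 l) (nuC η (s.x l)) u) ≤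
          ∑ u, p u * Real.log (1 + N) := by
        refine sum_le_sum fun u _ => mul_le_mul_of_nonneg_left ?_ (hp u)
        apply Real.log_le_log (SS_pos hν u)
        have := SS_le hD hν u
        have h0 : e0 ≤ 1 := by
          unfold e0
          norm_num
        linarith only [this, h0]
      rw [← sum_mul] at e2
      refine e2.trans (mul_le_mul_of_nonneg_right hpk ?_)
      exact Real.log_nonneg (by linarith only [hN0])
    have e3 : Wd.k * Real.log (1 + N) ≤ 1 + N - Wd.k + Wd.k * Real.log Wd.k := by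
      have hk0 : 0 < Wd.k := by linarith only [hk]
      have e4 : Real.log (1 + N) = Real.log ((1 + N) / Wd.k) + Real.log Wd.k := by
        rw [← Real.log_mul (by (clear * - hN0 hk; positivity)) hk0.ne']
        congr 1
        (clear * - hk hN0; field_simp)
      have e5 : Real.log ((1 + N) / Wd.k) ≤ (1 + N) / Wd.k - 1 :=
        Real.log_le_sub_one_of_pos (by (clear * - hN0 hk; positivity))
      rw [e4, mul_add]
      have e6 := mul_le_mul_of_nonneg_left e5 hk0.le
      have e7 : Wd.k * ((1 + N) / Wd.k - 1) = 1 + N - Wd.k := by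
        field_simp
      linarith only [e6, e7]
    have e8 : Real.log Wd.k ≤ Wd.k - 1 := Real.log_le_sub_one_of_pos (by linarith only [hk])
    have e9 := mul_le_mul_of_nonneg_left e8 (by linarith only [hk] : 0 ≤ Wd.k)
    unfold FF
    linarith
  have h2 : -(Wd.A1 * Wd.k ^ 2 * ∑ l : Fin Wd.n, Wd.r l) ≤
      Wd.A1 * ∑ l : Fin Wd.n, Wd.r l * FF (Dl Wd.r0 l) p (nuC η (s.x l)) := by
    have e1 : ∑ l : Fin Wd.n, Wd.r l * (-(Wd.k ^ 2)) ≤
        ∑ l : Fin Wd.n, Wd.r l * FF (Dl Wd.r0 l) p (nuC η (s.x l)) :=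
      sum_le_sum fun l _ => mul_le_mul_of_nonneg_left (h1 l) (s5_r_pos Wd l).le
    rw [← sum_mul] at e1
    have e2 := mul_le_mul_of_nonneg_left e1 hA
    refine le_trans (le_of_eq ?_) e2
    ring
  -- tree part
  have h3 : ∀ π, -(Wd.k * Real.log (Wd.M + 1) * ∑ m ∈ range Wd.n, Wd.rho (m + 1)) ≤
      pot Wd.rho Wd.lam p (ad P s.x π) (s.y π) := by
    intro π
    unfold pot
    have e1 : 0 ≤ Wd.lam * ∑ i, hgt Wd.rho (s.y π i) :=
      mul_nonneg hlam.le (sum_nonneg fun i _ => hgt_nonneg (fun m => (rho_pos Wd m).le) _)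
    have hlog : 0 ≤ Real.log ((Wd.M : ℝ) + 1) := Real.log_nonneg (by linarith only [])
    have e2 : ∑ u, p u * ∑ N ∈ sf (ad P s.x π u), Wd.rho N.length *
        Real.log (cnt (s.y π) N + 1) ≤
        Wd.k * Real.log (Wd.M + 1) * ∑ m ∈ range Wd.n, Wd.rho (m + 1) := by
      have e3 : ∀ u, ∑ N ∈ sf (ad P s.x π u), Wd.rho N.length * Real.log (cnt (s.y π) N + 1) ≤
          Real.log (Wd.M + 1) * ∑ m ∈ range Wd.n, Wd.rho (m + 1) := by
        intro u
        refine le_trans ?_ (mul_le_mul_of_nonneg_left (s6_hgt_le Wd (ad_length_le P s.x π u)) hlog)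
        unfold hgt
        rw [mul_sum]
        refine sum_le_sum fun N _ => ?_
        rw [mul_comm]
        refine mul_le_mul_of_nonneg_right ?_ (rho_pos Wd _).le
        apply Real.log_le_log (by positivity)
        have : (cnt (s.y π) N : ℝ) ≤ Wd.M := by exact_mod_cast cnt_le (s.y π) N
        linarith only [this]
      have hr0 : 0 ≤ ∑ m ∈ range Wd.n, Wd.rho (m + 1) := sum_nonneg fun m _ => (rho_pos Wd _).le
      calc ∑ u, p u * ∑ N ∈ sf (ad P s.x π u), Wd.rho N.length * Real.log (cnt (s.y π) N + 1)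
          ≤ ∑ u, p u * (Real.log (Wd.M + 1) * ∑ m ∈ range Wd.n, Wd.rho (m + 1)) :=
            sum_le_sum fun u _ => mul_le_mul_of_nonneg_left (e3 u) (hp u)
        _ = (∑ u, p u) * (Real.log (Wd.M + 1) * ∑ m ∈ range Wd.n, Wd.rho (m + 1)) := by
            rw [sum_mul]
        _ ≤ Wd.k * (Real.log (Wd.M + 1) * ∑ m ∈ range Wd.n, Wd.rho (m + 1)) :=
            mul_le_mul_of_nonneg_right hpk (mul_nonneg hlog hr0)
        _ = _ := by ring
    linarith only [e1, e2]
  have h4 : -(Wd.k * Real.log (Wd.M + 1) * ∑ m ∈ range Wd.n, Wd.rho (m + 1)) ≤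
      EE (fun π => pot Wd.rho Wd.lam p (ad P s.x π) (s.y π)) := by
    refine le_trans (le_of_eq (EE_const _).symm) (EE_mono h3)
  have h5 := mul_le_mul_of_nonneg_left h4 (by positivity : 0 ≤ 4 / Wd.lam)
  have h6 : 0 ≤ EE (fun π => ∑ i, hgt Wd.rho (s.y π i)) :=
    EE_nonneg fun π => sum_nonneg fun i _ => hgt_nonneg (fun m => (rho_pos Wd m).le) _
  unfold Pot
  linarith

theorem s6_log20 : Real.log 20 ≤ 3 := by
  rw [Real.log_le_iff_le_exp (by norm_num)]
  have h1 := Real.exp_one_gt_d9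
  have h2 : Real.exp 3 = Real.exp 1 ^ 3 := by
    rw [← Real.exp_nat_mul]
    norm_num
  rw [h2]
  have h3 : (2.7182818283 : ℝ) ^ 3 ≤ Real.exp 1 ^ 3 := pow_le_pow_left₀ (by norm_num) h1.le 3
  refine le_trans ?_ h3
  norm_num

/-- initial state -/
theorem exists_init [Nonempty X] (P : LPar η Wd.k J) {p : X → ℝ} (hp : ∀ u, 0 ≤ p u)
    (hpk : ∑ u, p u ≤ Wd.k) :
    ∃ s : St Wd J P.B, Inv P p s ∧ Pot P p s ≤ 3 * Wd.k * Wd.A1 * ∑ l : Fin Wd.n, Wd.r l ∧
      EE (fun π => ∑ i, dist (loc Wd s.x (s.y π i)) Wd.x0) ≤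
        3 * Wd.k * Wd.A1 * ∑ l : Fin Wd.n, Wd.r l
          + Wd.A1 * Wd.k ^ 2 * ∑ l : Fin Wd.n, Wd.r l
          + 4 / Wd.lam * (Wd.k * Real.log (Wd.M + 1) * ∑ m ∈ range Wd.n, Wd.rho (m + 1)) := by
  have hk := Wd.hk
  have hA := s5_A1_nonneg Wd
  set s0 : St Wd J P.B := ⟨fun _ _ => (Wd.x0, false), fun _ _ => []⟩ with hs0
  have hν : ∀ (l : Fin Wd.n) c, nuC η (s0.x l) c = 0 := by
    intro l c
    simp [nuC, hs0]
  have hI0 : Inv P (fun _ => 0) s0 := by
    refine ⟨fun l => ⟨fun u => le_rfl, fun c => (hν l c).ge, fun c => ?_, fun c hc => ?_⟩,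
      fun π i => by simp only [hs0, List.length_nil, zero_le], fun π N hN => ?_, fun π u hu => ?_⟩
    · simp only [col, zero_mul, zero_div, sum_const_zero]
      norm_num
    · rw [hν l c] at hc
      exact absurd hc (lt_irrefl _)
    · have h1 : cnt (s0.y π) N = 0 := by
        unfold cnt
        rw [card_eq_zero, filter_eq_empty_iff]
        intro i _ h
        simp only [hs0] at h
        exact hN (List.suffix_nil.1 h)
      rw [h1]
      simp [pm]
    · exact absurd hu (by norm_num)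
  obtain ⟨s, hI, hs⟩ := info_step P hI0 (p := fun _ => 0) (by simp only [sum_const_zero]; linarith only [hk]) hp hpk
  have hX : 0 ≤ ∑ u, p u * XC P s0.x s.x u u :=
    sum_nonneg fun u _ => mul_nonneg (hp u) (XC_nonneg P _ _ _ _)
  have hPh := s6_PhC_nonneg s0 s
  have hTr := s6_TrC_nonneg s0 s
  have hr : 0 ≤ ∑ l : Fin Wd.n, Wd.r l := sum_nonneg fun l _ => (s5_r_pos Wd l).le
  have hPot0 : Pot P p s0 ≤ 3 * Wd.k * Wd.A1 * ∑ l : Fin Wd.n, Wd.r l := by
    have e1 : ∀ π : Ord (GG Wd.n J P.B), pot Wd.rho Wd.lam p (ad P s0.x π) (s0.y π) = 0 := by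
      intro π
      unfold pot
      have g1 : ∑ i, hgt Wd.rho (s0.y π i) = 0 := by
        simp only [hgt, hs0, sf_nil, sum_empty, sum_const_zero]
      have g2 : ∑ u, p u * ∑ N ∈ sf (ad P s0.x π u), Wd.rho N.length *
          Real.log (cnt (s0.y π) N + 1) = 0 := by
        refine sum_eq_zero fun u _ => ?_
        rw [sum_eq_zero, mul_zero]
        intro N hN
        have g3 : cnt (s0.y π) N = 0 := by
          unfold cnt
          rw [card_eq_zero, filter_eq_empty_iff]
          intro i _ h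
          simp only [hs0] at h
          exact (mem_sf.1 hN).2 (List.suffix_nil.1 h)
        rw [g3]
        simp
      rw [g1, g2]
      simp
    have e2 : EE (fun π => pot Wd.rho Wd.lam p (ad P s0.x π) (s0.y π)) = 0 := by
      simp only [e1]
      exact EE_const 0
    have e3 : EE (fun π : Ord (GG Wd.n J P.B) => ∑ i, hgt Wd.rho (s0.y π i)) = 0 := by
      have g1 : ∀ π : Ord (GG Wd.n J P.B), ∑ i, hgt Wd.rho (s0.y π i) = 0 := by
        intro π
        simp only [hgt, hs0, sf_nil, sum_empty, sum_const_zero]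
      simp only [g1]
      exact EE_const 0
    have e4 : ∀ l : Fin Wd.n, FF (Dl Wd.r0 l) p (nuC η (s0.x l)) ≤ 3 * Wd.k := by
      intro l
      unfold FF SS
      simp only [hν, mul_zero, sum_const_zero, add_zero, zero_sub]
      rw [← sum_mul]
      have g1 : Real.log e0 = -Real.log 20 := by
        unfold e0
        rw [one_div, Real.log_inv]
      rw [g1]
      have g2 := s6_log20
      have g3 : 0 ≤ Real.log 20 := Real.log_nonneg (by norm_num)
      have g4 : 0 ≤ ∑ u, p u := sum_nonneg fun u _ => hp u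
      have g5 : (∑ u, p u) * Real.log 20 ≤ Wd.k * 3 := mul_le_mul hpk g2 g3 (by linarith only [hk])
      linarith only [g5]
    unfold Pot
    rw [e2, e3, mul_zero, mul_zero, add_zero, add_zero]
    have e5 : ∑ l : Fin Wd.n, Wd.r l * FF (Dl Wd.r0 l) p (nuC η (s0.x l)) ≤
        ∑ l : Fin Wd.n, Wd.r l * (3 * Wd.k) :=
      sum_le_sum fun l _ => mul_le_mul_of_nonneg_left (e4 l) (s5_r_pos Wd l).le
    rw [← sum_mul] at e5
    refine (mul_le_mul_of_nonneg_left e5 hA).trans (le_of_eq ?_)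
    ring
  refine ⟨s, hI, by linarith only [hs, hX, hPh, hTr, hPot0], ?_⟩
  have hlow := s6_Pot_lower P (s := s) hp hpk
  have hE : EE (fun π => ∑ i, dist (loc Wd s.x (s.y π i)) Wd.x0) = PhC s0 s := by
    unfold PhC
    congr 1
    funext π
    refine sum_congr rfl fun i _ => ?_
    rw [dist_comm]
    rfl
  rw [hE]
  linarith

end Vale.Agent.P304.Dyn
end
end

section

section

/-! S7: choice of the parameters; the constant is polylogarithmic. -/

open Finset

namespace Vale.Agent.P304.Dyn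

/-- logarithm form of `RR` -/
theorem s7_RR_eq {k : ℝ} (hk : 1 ≤ k) : RR k = 7 / 2 + Real.log 2000 + Real.log k := by
  unfold RR tau e0
  have h : (1 : ℝ) / (1 / 20 / (100 * k)) = 2000 * k := by
    have : k ≠ 0 := by linarith
    field_simp
    norm_num
  rw [h, Real.log_mul (by norm_num) (by linarith only [hk])]
  ring

theorem s7_log_2000_le : Real.log 2000 ≤ 17 / 2 := by
  rw [Real.log_le_iff_le_exp (by norm_num)]
  have h1 : (2.7 : ℝ) < Real.exp 1 := by
    have := Real.exp_one_gt_d9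
    linarith
  have h2 : Real.exp (17 / 2) = Real.exp 1 ^ 8 * Real.exp (1 / 2) := by
    rw [← Real.exp_nat_mul, ← Real.exp_add]
    norm_num
  have h3 : (1 : ℝ) ≤ Real.exp (1 / 2) := Real.one_le_exp (by norm_num)
  have h4 : (2.7 : ℝ) ^ 8 ≤ Real.exp 1 ^ 8 := pow_le_pow_left₀ (by norm_num) h1.le 8
  rw [h2]
  have h5 : (2000 : ℝ) ≤ 2.7 ^ 8 := by norm_num
  nlinarith only [h3, h4]

theorem s7_RR_pos {k : ℝ} (hk : 1 ≤ k) : 0 < RR k := by
  rw [s7_RR_eq hk]
  have h1 : 0 ≤ Real.log 2000 := Real.log_nonneg (by norm_num)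
  have h2 : 0 ≤ Real.log k := Real.log_nonneg hk
  linarith only [h1, h2]

/-- existence of the world -/
theorem exists_world (X : Type) [MetricSpace X] [Fintype X] (k : ℕ) (hk : 1 ≤ k) (x0 : X) :
    ∃ Wd : World X, Wd.k = k ∧ Wd.M = 8 * k ∧ Wd.x0 = x0 := by
  classical
  have hkR : (1 : ℝ) ≤ (k : ℝ) := by exact_mod_cast hk
  have hR := s7_RR_pos hkR
  -- a lower bound for the distances
  obtain ⟨d, hd, hd2⟩ : ∃ d : ℝ, 0 < d ∧ ∀ u v : X, u ≠ v → d ≤ dist u v := by
    by_cases hne : (univ : Finset X).offDiag.Nonempty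
    · obtain ⟨q, hq, hq2⟩ := Finset.exists_min_image _ (fun q : X × X => dist q.1 q.2) hne
      refine ⟨dist q.1 q.2, dist_pos.2 (Finset.mem_offDiag.1 hq).2.2, fun u v huv => ?_⟩
      exact hq2 (u, v) (Finset.mem_offDiag.2 ⟨mem_univ _, mem_univ _, huv⟩)
    · refine ⟨1, one_pos, fun u v huv => ?_⟩
      exact absurd ⟨(u, v), Finset.mem_offDiag.2 ⟨mem_univ _, mem_univ _, huv⟩⟩ hne
  -- an upper bound
  obtain ⟨D, hD⟩ : ∃ D : ℝ, ∀ u v : X, dist u v ≤ D := by
    refine ⟨∑ u : X, ∑ v : X, dist u v, fun u v => ?_⟩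
    calc dist u v ≤ ∑ v' : X, dist u v' :=
          Finset.single_le_sum (f := fun v' => dist u v') (fun _ _ => dist_nonneg) (mem_univ v)
      _ ≤ ∑ u' : X, ∑ v' : X, dist u' v' :=
          Finset.single_le_sum (f := fun u' => ∑ v' : X, dist u' v')
            (fun _ _ => Finset.sum_nonneg fun _ _ => dist_nonneg) (mem_univ u)
  set r0 : ℝ := d / (2 * RR k) with hr0
  have hr0p : 0 < r0 := by positivity
  obtain ⟨N, hN⟩ := pow_unbounded_of_one_lt (D / r0) (by norm_num : (1 : ℝ) < 2)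
  refine ⟨{ k := k, hk := hkR, n := N + 1, hn := Nat.succ_le_succ (Nat.zero_le _), r0 := r0,
            hr0 := hr0p, x0 := x0, M := 8 * k, hM := by push_cast; exact le_rfl,
            hM2 := by push_cast; linarith only [], bot := ?_, top := ?_ }, rfl, rfl, rfl⟩
  · intro u v huv
    have h1 := hd2 u v huv
    have h2 : RR k * r0 = d / 2 := by
      rw [hr0]; field_simp
    rw [h2]
    linarith only [hd, h1]
  · intro u v
    have h1 := hD u v
    have h2 : D < r0 * 2 ^ N := by
      have := (div_lt_iff₀ hr0p).1 hN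
      linarith only [this]
    have h3 : (2 : ℝ) ^ N ≤ 2 ^ (N + 1) := pow_le_pow_right₀ (by norm_num) (Nat.le_succ N)
    have h4 : r0 * 2 ^ N ≤ r0 * 2 ^ (N + 1) := mul_le_mul_of_nonneg_left h3 hr0p.le
    linarith only [h1, h2, h4]

/-- existence of the discretisation parameters with total error at most `ε` per request -/
theorem exists_params {X : Type} [MetricSpace X] [Fintype X] (Wd : World X) {ε : ℝ} (hε : 0 < ε) :
    ∃ (η : ℝ) (m : ℕ) (P : LPar η Wd.k (Fin m)) (S : ℕ), 1 ≤ S ∧ Wd.k / S ≤ e0 / 8 ∧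
      S * Wd.err (Wd.k / S) η (η * Fintype.card (Fin m) / P.Q) ≤ ε := by
  have hk := Wd.hk
  have he0 : (0 : ℝ) < e0 := by unfold e0; norm_num
  set R : ℝ := ∑ l : Fin Wd.n, Wd.r l with hR
  set K1 : ℝ := Wd.A1 * (4000 * Wd.k ^ 3) + 24 * RR Wd.k * Wd.Gam * (200 * Wd.k ^ 2) with hK1
  set K2 : ℝ := Wd.A1 * ((1 + Wd.k / e0) * (2 * (Fintype.card X : ℝ) ^ 2)) with hK2
  set K3 : ℝ := 24 * RR Wd.k * Wd.Gam * (400 * Wd.k) with hK3
  -- the total error
  have herr : ∀ (S : ℕ) (η q : ℝ), 1 ≤ S →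
      S * Wd.err (Wd.k / S) η q = R * K1 / S + S * η * (R * K2) + S * q * (R * K3) := by
    intro S η q hS
    have hS0 : (S : ℝ) ≠ 0 := by
      have : 0 < S := hS
      positivity
    unfold World.err
    rw [← Finset.sum_mul, ← hR, hK1, hK2, hK3]
    field_simp
    ring
  obtain ⟨S, hS⟩ := exists_nat_gt (max 1 (max (8 * Wd.k / e0) (|R * K1| * (3 / ε))))
  have hS1 : (1 : ℝ) < S := lt_of_le_of_lt (le_max_left _ _) hS
  have hS2 : 8 * Wd.k / e0 < S :=
    lt_of_le_of_lt ((le_max_left _ _).trans (le_max_right _ _)) hS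
  have hS3 : |R * K1| * (3 / ε) < S :=
    lt_of_le_of_lt ((le_max_right _ _).trans (le_max_right _ _)) hS
  have hSpos : (0 : ℝ) < S := by linarith only [hS1]
  have hS1' : 1 ≤ S := by exact_mod_cast hS1.le
  set η : ℝ := min (e0 ^ 2 / (100 * Wd.k)) (ε / (3 * S * (|R * K2| + 1))) with hη
  have hη0 : 0 < η := by
    rw [hη]
    apply lt_min
    · positivity
    · (clear * - hε hS1'; positivity)
  have hη1 : η ≤ e0 ^ 2 / (100 * Wd.k) := min_le_left _ _
  have hη2 : η ≤ ε / (3 * S * (|R * K2| + 1)) := min_le_right _ _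
  obtain ⟨m, hm⟩ := exists_nat_gt ((6 * Wd.k + 1) / η)
  have hm' : 6 * Wd.k + 1 ≤ η * m := by
    have := (div_lt_iff₀ hη0).1 hm
    linarith only [this]
  have hηm : 0 < η * m := by linarith only [hk, hm']
  obtain ⟨Q, hQ⟩ := exists_nat_gt (max 1 (max (40 / e0 * (η * m))
    (η * m * (3 * S * (|R * K3| + 1) / ε))))
  have hQ1 : (1 : ℝ) < Q := lt_of_le_of_lt (le_max_left _ _) hQ
  have hQ2 : 40 / e0 * (η * m) < Q :=
    lt_of_le_of_lt ((le_max_left _ _).trans (le_max_right _ _)) hQ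
  have hQ3 : η * m * (3 * S * (|R * K3| + 1) / ε) < Q :=
    lt_of_le_of_lt ((le_max_right _ _).trans (le_max_right _ _)) hQ
  have hQpos : (0 : ℝ) < Q := by linarith only [hQ1]
  have hQ1' : 1 ≤ Q := by exact_mod_cast hQ1.le
  set Ne : ℕ := ⌈e0 * Q / η⌉₊ with hNe
  have hNe1 : e0 * Q ≤ η * Ne := by
    have := Nat.le_ceil (e0 * Q / η)
    have h2 := (div_le_iff₀ hη0).1 this
    linarith only [h2]
  have hNe2 : η * Ne ≤ e0 * Q + η := by
    have h1 : (Ne : ℝ) < e0 * Q / η + 1 := Nat.ceil_lt_add_one (by (clear * - he0 hQ1' hk hε hS1'; positivity))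
    have h2 : η * Ne ≤ η * (e0 * Q / η + 1) := mul_le_mul_of_nonneg_left h1.le hη0.le
    have h3 : η * (e0 * Q / η + 1) = e0 * Q + η := by field_simp
    linarith only [h2, h3]
  refine ⟨η, m, ⟨Q, Ne, max Q Ne, hQ1', hNe1, hNe2, le_max_left _ _, le_max_right _ _, hη0, ?_, ?_,
    ?_, hk⟩, S, hS1', ?_, ?_⟩
  · have h1 : η * Wd.k ≤ e0 ^ 2 / (100 * Wd.k) * Wd.k :=
      mul_le_mul_of_nonneg_right hη1 (by linarith only [hk])
    have h2 : e0 ^ 2 / (100 * Wd.k) * Wd.k = e0 ^ 2 / 100 := by field_simp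
    linarith only [h1, h2]
  · rw [Fintype.card_fin]
    have h1 : e0 / 40 * (40 / e0 * (η * m)) ≤ e0 / 40 * Q :=
      mul_le_mul_of_nonneg_left hQ2.le (by positivity)
    have h2 : e0 / 40 * (40 / e0 * (η * m)) = η * m := by (clear * - he0 hη0; field_simp)
    linarith only [h1, h2]
  · rw [Fintype.card_fin]; exact hm'
  · rw [div_le_iff₀ hSpos]
    have h1 := (div_lt_iff₀ he0).1 hS2
    linarith only [h1]
  · have hcard : ((Fintype.card (Fin m) : ℕ) : ℝ) = m := by rw [Fintype.card_fin]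
    rw [herr S η _ hS1']
    show R * K1 / S + S * η * (R * K2) +
      S * (η * ((Fintype.card (Fin m) : ℕ) : ℝ) / (Q : ℝ)) * (R * K3) ≤ ε
    rw [hcard]
    have h1 : R * K1 / S ≤ ε / 3 := by
      rw [div_le_iff₀ hSpos]
      have ha := le_abs_self (R * K1)
      have hb : |R * K1| = |R * K1| * (3 / ε) * (ε / 3) := by (clear * - hε; field_simp)
      have hc : |R * K1| * (3 / ε) * (ε / 3) ≤ S * (ε / 3) :=
        mul_le_mul_of_nonneg_right hS3.le (by positivity)
      (clear * - ha hb hc; linarith [mul_comm (S : ℝ) (ε / 3)])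
    have h2 : S * η * (R * K2) ≤ ε / 3 := by
      have ha : R * K2 ≤ |R * K2| + 1 := by linarith only [le_abs_self (R * K2)]
      have hb : S * η * (R * K2) ≤ S * η * (|R * K2| + 1) :=
        mul_le_mul_of_nonneg_left ha (by (clear * - hS1' he0 hk hε; positivity))
      have hc : S * η * (|R * K2| + 1) ≤
          S * (ε / (3 * S * (|R * K2| + 1))) * (|R * K2| + 1) := by (clear * - hη2 hS1'; gcongr)
      have hd : S * (ε / (3 * S * (|R * K2| + 1))) * (|R * K2| + 1) = ε / 3 := by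
        (clear * - hS1' hε; field_simp)
      linarith only [hb, hc, hd]
    have h3 : S * (η * m / Q) * (R * K3) ≤ ε / 3 := by
      have ha : R * K3 ≤ |R * K3| + 1 := by linarith only [le_abs_self (R * K3)]
      have hb : S * (η * m / Q) * (R * K3) ≤ S * (η * m / Q) * (|R * K3| + 1) :=
        mul_le_mul_of_nonneg_left ha (by (clear * - hS1' hηm hQ1'; positivity))
      have hc : S * (η * m / Q) * (|R * K3| + 1) ≤ ε / 3 := by
        have h5 : S * (η * m / Q) * (|R * K3| + 1) =
            (η * m * (3 * S * (|R * K3| + 1) / ε)) / Q * (ε / 3) := by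
          (clear * - hε hQ1' hη0 hS1'; field_simp)
        have h6 : (η * m * (3 * S * (|R * K3| + 1) / ε)) / Q ≤ 1 := by
          rw [div_le_one hQpos]; exact hQ3.le
        rw [h5]
        exact (mul_le_mul_of_nonneg_right h6 (by positivity)).trans (one_mul _).le
      linarith only [hb, hc]
    linarith only [h1, h2, h3]

/-- the constant of the step is polylogarithmic in `k` -/
theorem CT_le4 : ∃ C : ℝ, 0 < C ∧ ∀ (X : Type) [MetricSpace X] [Fintype X] (Wd : World X),
    Wd.CT ≤ C * ((1 + Real.log Wd.k) ^ 4 * (1 + Real.log (1 + Real.log Wd.k))) := by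
  refine ⟨200000000000000, by norm_num, fun X _ _ Wd => ?_⟩
  have hk := Wd.hk
  have hk0 : 0 < Wd.k := by linarith only [hk]
  set L : ℝ := 1 + Real.log Wd.k with hL
  have hlk : 0 ≤ Real.log Wd.k := Real.log_nonneg hk
  have hL1 : 1 ≤ L := by linarith only [hlk]
  have hlog : ∀ c : ℝ, 0 < c → Real.log (c * Wd.k) = Real.log c + (L - 1) := by
    intro c hc
    rw [Real.log_mul hc.ne' hk0.ne']
    ring
  -- RR
  have ha : RR Wd.k ≤ 12 * L := by
    rw [s7_RR_eq hk]
    have := s7_log_2000_le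
    linarith only [hlk, this]
  have ha0 : 0 ≤ RR Wd.k := (s7_RR_pos hk).le
  -- log (M + 2)
  set b : ℝ := Real.log (Wd.M + 2) with hb
  have hMk : (1 : ℝ) ≤ (Wd.M : ℝ) := by
    have := Wd.hM
    linarith only [hk, this]
  have hb0 : 0 < b := Real.log_pos (by linarith only [])
  have hb1 : b ≤ 3 * L := by
    have h1 : b ≤ Real.log (11 * Wd.k) := by
      apply Real.log_le_log (by linarith)
      have := Wd.hM2
      linarith only [hk, this]
    rw [hlog 11 (by norm_num)] at h1
    have h2 : Real.log 11 ≤ 3 := by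
      rw [Real.log_le_iff_le_exp (by norm_num)]
      have h3 : (2.7 : ℝ) < Real.exp 1 := by
        have := Real.exp_one_gt_d9
        linarith only [this]
      have h4 : Real.exp 3 = Real.exp 1 ^ 3 := by
        rw [← Real.exp_nat_mul]; norm_num
      have h5 : (2.7 : ℝ) ^ 3 ≤ Real.exp 1 ^ 3 := pow_le_pow_left₀ (by norm_num) h3.le 3
      rw [h4]
      have h6 : (11 : ℝ) ≤ 2.7 ^ 3 := by norm_num
      linarith only [h5]
    linarith only [hlk, h1, h2]
  -- log (60 k)
  set c : ℝ := Real.log (60 * Wd.k) with hc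
  have hc1 : c ≤ 5 * L := by
    rw [hc, hlog 60 (by norm_num)]
    have h2 : Real.log 60 ≤ 5 := by
      rw [Real.log_le_iff_le_exp (by norm_num)]
      have h3 : (2.7 : ℝ) < Real.exp 1 := by
        have := Real.exp_one_gt_d9
        linarith only [this]
      have h4 : Real.exp 5 = Real.exp 1 ^ 5 := by
        rw [← Real.exp_nat_mul]; norm_num
      have h5 : (2.7 : ℝ) ^ 5 ≤ Real.exp 1 ^ 5 := pow_le_pow_left₀ (by norm_num) h3.le 5
      rw [h4]
      have h6 : (60 : ℝ) ≤ 2.7 ^ 5 := by norm_num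
      linarith only [h5]
    linarith only [hlk, h2]
  have hc0 : 0 ≤ c := Real.log_nonneg (by linarith only [hk])
  -- log ((k + e0) / e0)
  set d : ℝ := Real.log ((Wd.k + e0) / e0) with hd
  have hd1 : d ≤ 4 * L := by
    have h1 : d ≤ Real.log (21 * Wd.k) := by
      apply Real.log_le_log
      · unfold e0; (clear * - hk; positivity)
      · unfold e0
        have : (Wd.k + 1 / 20) / (1 / 20) = 20 * Wd.k + 1 := by ring
        rw [this]; linarith only [hk]
    rw [hlog 21 (by norm_num)] at h1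
    have h2 : Real.log 21 ≤ 4 := by
      rw [Real.log_le_iff_le_exp (by norm_num)]
      have h3 : (2.7 : ℝ) < Real.exp 1 := by
        have := Real.exp_one_gt_d9
        linarith only [this]
      have h4 : Real.exp 4 = Real.exp 1 ^ 4 := by
        rw [← Real.exp_nat_mul]; norm_num
      have h5 : (2.7 : ℝ) ^ 4 ≤ Real.exp 1 ^ 4 := pow_le_pow_left₀ (by norm_num) h3.le 4
      rw [h4]
      have h6 : (21 : ℝ) ≤ 2.7 ^ 4 := by norm_num
      linarith only [h5]
    linarith only [hlk, h1, h2]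
  have hd0 : 0 ≤ d := by
    apply Real.log_nonneg
    unfold e0
    have : (Wd.k + 1 / 20) / (1 / 20) = 20 * Wd.k + 1 := by ring
    rw [this]; linarith only [hk]
  have hL0 : 0 ≤ L := by linarith only [hlk]
  have hL2 : 1 ≤ L ^ 2 := one_le_pow₀ hL1
  have hL3 : L ≤ L ^ 2 := by nlinarith only [hlk]
  set Ll : ℝ := 1 + Real.log L with hLl
  have hLl1 : 1 ≤ Ll := by
    have := Real.log_nonneg hL1
    linarith only [this]
  have hLl0 : 0 ≤ Ll := by linarith only [hLl1]
  set E : ℝ := L ^ 2 with hE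
  have hE1 : 1 ≤ E := by linarith only [hL2]
  have hE0 : 0 ≤ E := by linarith only [hL2]
  have hLLl : 1 ≤ L * Ll := one_le_mul_of_one_le_of_one_le hL1 hLl1
  have hLLl' : L ≤ L * Ll := le_mul_of_one_le_right hL0 hLl1
  -- Gam
  have hG : Wd.Gam ≤ 289 * E := by
    unfold World.Gam
    rw [← hb]
    have : b ^ 2 ≤ (3 * L) ^ 2 := pow_le_pow_left₀ hb0.le hb1 2
    linarith
  have hG0 : 0 ≤ Wd.Gam := by
    unfold World.Gam; positivity
  have haG : RR Wd.k * Wd.Gam ≤ 12 * L * (289 * E) := mul_le_mul ha hG hG0 (by (clear * - hlk; positivity))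
  have haG0 : 0 ≤ RR Wd.k * Wd.Gam := mul_nonneg ha0 hG0
  have hGk : Gk Wd.k = 1000 * (L * Ll) := by unfold Gk; rw [← hL]
  -- 1 / lam
  have hlam : 1 / Wd.lam = 16 * b := by
    unfold World.lam
    rw [← hb]
    field_simp
  have hlam' : 101 / Wd.lam = 101 * (16 * b) := by rw [← hlam]; ring
  have hG2 : Wd.G2 ≤ 50000000 * L ^ 3 := by
    unfold World.G2
    rw [hlam, hlam', ← hd]
    have h1 : 2 * (101 * (16 * b)) * (14 + 12 * RR Wd.k) * d ≤
        2 * (101 * (16 * (3 * L))) * (14 + 12 * (12 * L)) * (4 * L) := by (clear * - hb1 ha ha0 hlk hd1 hd0; gcongr)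
    have h2 : 8 * (16 * b) * (1 + d) ≤ 8 * (16 * (3 * L)) * (1 + 4 * L) := by (clear * - hb1 hd1 hd0 hlk; gcongr)
    have h3 : L ^ 2 ≤ L ^ 3 := pow_le_pow_right₀ hL1 (by norm_num)
    have h4 : L ≤ L ^ 3 := hL3.trans h3
    linarith
  have hG3 : L ^ 3 ≤ L ^ 2 * Ll * E := by
    have h1 : L ≤ E := by linarith only [hL3]
    have h2 : L ^ 2 * 1 * L ≤ L ^ 2 * Ll * E := by (clear * - hLl1 hlk hL3; gcongr)
    calc L ^ 3 = L ^ 2 * 1 * L := by ring
      _ ≤ _ := h2
  have hT1 : Wd.A1 * (600 * Gk Wd.k + 1000 + 64 * c)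
      ≤ 25000000000000 * (L ^ 2 * Ll * E) := by
    have h1 : Wd.A1 = 9600 * (RR Wd.k * Wd.Gam) := by unfold World.A1; ring
    have h2 : 600 * Gk Wd.k + 1000 + 64 * c ≤ 601320 * (L * Ll) := by
      rw [hGk]; linarith only [hc1, hLLl, hLLl']
    have h3 : 0 ≤ 600 * Gk Wd.k + 1000 + 64 * c := by
      rw [hGk]; (clear * - hlk hLl1 hc0; positivity)
    rw [h1]
    calc 9600 * (RR Wd.k * Wd.Gam) * (600 * Gk Wd.k + 1000 + 64 * c)
        ≤ 9600 * (12 * L * (289 * E)) * (601320 * (L * Ll)) := by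
          apply mul_le_mul (by linarith only [haG]) h2 h3 (by (clear * - hlk; positivity))
      _ = (9600 * 12 * 289 * 601320) * (L ^ 2 * Ll * E) := by ring
      _ ≤ 25000000000000 * (L ^ 2 * Ll * E) := by
          apply mul_le_mul_of_nonneg_right (by norm_num) (by (clear * - hlk hLl1; positivity))
  have hT2 : 24 * RR Wd.k * Wd.Gam * (1300000 * Gk Wd.k + 64)
      ≤ 110000000000000 * (L ^ 2 * Ll * E) := by
    have h1 : 24 * RR Wd.k * Wd.Gam = 24 * (RR Wd.k * Wd.Gam) := by ring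
    have h2 : 1300000 * Gk Wd.k + 64 ≤ 1300000064 * (L * Ll) := by
      rw [hGk]; linarith only [hLLl]
    have h3 : 0 ≤ 1300000 * Gk Wd.k + 64 := by
      rw [hGk]; (clear * - hlk hLl1; positivity)
    rw [h1]
    calc 24 * (RR Wd.k * Wd.Gam) * (1300000 * Gk Wd.k + 64)
        ≤ 24 * (12 * L * (289 * E)) * (1300000064 * (L * Ll)) := by
          apply mul_le_mul (by linarith only [haG]) h2 h3 (by (clear * - hlk; positivity))
      _ = (24 * 12 * 289 * 1300000064) * (L ^ 2 * Ll * E) := by ring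
      _ ≤ 110000000000000 * (L ^ 2 * Ll * E) := by
          apply mul_le_mul_of_nonneg_right (by norm_num) (by (clear * - hlk hLl1; positivity))
  have hpos : 0 ≤ L ^ 2 * Ll * E := by (clear * - hlk hLl1; positivity)
  have hfin : L ^ 4 * Ll = L ^ 2 * Ll * E := by rw [hE]; ring
  rw [hfin]
  unfold World.CT
  rw [← hc]
  linarith only [haG, haG0, hG2, hG3, hT1, hT2]

/-- the constant of the step is polylogarithmic in `k` -/
theorem CT_le : ∃ C : ℝ, ∀ (X : Type) [MetricSpace X] [Fintype X] (Wd : World X),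
    Wd.CT ≤ C * (1 + Real.log Wd.k) ^ 5 := by
  obtain ⟨C, hC, h⟩ := CT_le4
  refine ⟨C, fun X _ _ Wd => (h X Wd).trans ?_⟩
  have hlk : 0 ≤ Real.log Wd.k := Real.log_nonneg Wd.hk
  have h1 : 1 + Real.log (1 + Real.log Wd.k) ≤ 1 + Real.log Wd.k := by
    have := Real.log_le_sub_one_of_pos (show 0 < 1 + Real.log Wd.k by linarith only [hlk])
    linarith only [this]
  have h2 : (1 + Real.log Wd.k) ^ 4 * (1 + Real.log (1 + Real.log Wd.k))
      ≤ (1 + Real.log Wd.k) ^ 4 * (1 + Real.log Wd.k) :=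
    mul_le_mul_of_nonneg_left h1 (by positivity)
  calc C * ((1 + Real.log Wd.k) ^ 4 * (1 + Real.log (1 + Real.log Wd.k)))
      ≤ C * ((1 + Real.log Wd.k) ^ 4 * (1 + Real.log Wd.k)) :=
        mul_le_mul_of_nonneg_left h2 hC.le
    _ = C * (1 + Real.log Wd.k) ^ 5 := by ring

end Vale.Agent.P304.Dyn
end
end

section

section

open scoped ENNReal

namespace Vale.Agent.P304

end Vale.Agent.P304
end
end

section

section

namespace Vale.Agent.P304

variable {X : Type} [MetricSpace X]

end Vale.Agent.P304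
end
end

section

section

open MeasureTheory Filter Topology
open scoped ENNReal NNReal

namespace Vale.Agent.P304

variable {X : Type} [MetricSpace X] {k : ℕ}

/-! ### phase changes are charged to the offline movement -/

end Vale.Agent.P304
end
end

section

section

/-! # P304-Dyn: truncated addresses (lists of labels, head = deepest label) and their places in the
ultrametric space `Addr n W` -/

set_option linter.all false

open Finset
open scoped NNReal

namespace Vale.Agent.P304.Dyn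

open Vale.Agent.P304

variable {J : Type}

/-- the truncated address of depth `m`; `f i` is the label at depth `i + 1`. -/
def adrN (f : ℕ → Option J) : ℕ → List J
  | 0 => []
  | m + 1 => match f m with
    | none => adrN f m
    | some j => if (adrN f m).length = m then j :: adrN f m else adrN f m

theorem adrN_succ_none {f : ℕ → Option J} {m : ℕ} (h : f m = none) :
    adrN f (m + 1) = adrN f m := by
  rw [adrN, h]

theorem adrN_succ_some {f : ℕ → Option J} {m : ℕ} {j : J} (h : f m = some j)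
    (hl : (adrN f m).length = m) : adrN f (m + 1) = j :: adrN f m := by
  rw [adrN, h]
  simp only [if_pos hl]

theorem adrN_succ_of_ne {f : ℕ → Option J} {m : ℕ} (hl : (adrN f m).length ≠ m) :
    adrN f (m + 1) = adrN f m := by
  rw [adrN]
  cases h : f m with
  | none => rfl
  | some j => simp only [if_neg hl]

theorem adrN_succ_cases (f : ℕ → Option J) (m : ℕ) :
    adrN f (m + 1) = adrN f m ∨
      ∃ j, f m = some j ∧ (adrN f m).length = m ∧ adrN f (m + 1) = j :: adrN f m := by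
  by_cases hl : (adrN f m).length = m
  · cases h : f m with
    | none => exact Or.inl (adrN_succ_none h)
    | some j => exact Or.inr ⟨j, rfl, hl, adrN_succ_some h hl⟩
  · exact Or.inl (adrN_succ_of_ne hl)

theorem length_adrN_le (f : ℕ → Option J) (m : ℕ) : (adrN f m).length ≤ m := by
  induction m with
  | zero => simp [adrN]
  | succ m ih =>
    rcases adrN_succ_cases f m with h | ⟨j, _, hl, h⟩
    · rw [h]; omega
    · rw [h, List.length_cons]; omega

theorem adrN_suffix (f : ℕ → Option J) {m m' : ℕ} (h : m ≤ m') : adrN f m <:+ adrN f m' := by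
  induction m' with
  | zero =>
    have : m = 0 := by omega
    rw [this]
  | succ m' ih =>
    rcases Nat.lt_or_ge m' m with h1 | h1
    · have : m = m' + 1 := by omega
      rw [this]
    · refine (ih h1).trans ?_
      rcases adrN_succ_cases f m' with h2 | ⟨j, _, _, h2⟩
      · rw [h2]
      · rw [h2]
        exact List.suffix_cons _ _

theorem adrN_congr {f g : ℕ → Option J} {m : ℕ} (h : ∀ i < m, f i = g i) :
    adrN f m = adrN g m := by
  induction m with
  | zero => rfl
  | succ m ih =>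
    have h1 := ih (fun i hi => h i (by omega))
    rw [adrN, adrN, h1, h m (by omega)]

/-- as long as the length is `m`, all smaller depths are complete -/
theorem length_adrN_of_le {f : ℕ → Option J} {m m' : ℕ} (h : m ≤ m')
    (hm : m ≤ (adrN f m').length) : (adrN f m).length = m := by
  induction m' with
  | zero =>
    have : m = 0 := by omega
    rw [this]
    rfl
  | succ m' ih =>
    rcases Nat.lt_or_ge m' m with h1 | h1
    · have h2 : m = m' + 1 := by omega
      have h3 := length_adrN_le f (m' + 1)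
      rw [← h2] at hm h3
      omega
    · rcases adrN_succ_cases f m' with h2 | ⟨j, _, hl, h2⟩
      · rw [h2] at hm
        exact ih h1 hm
      · exact ih h1 (by rw [hl]; exact h1)

section dn

variable [DecidableEq J]

theorem sf_length_inj {b N N' : List J} (h : N ∈ sf b) (h' : N' ∈ sf b)
    (hl : N.length = N'.length) : N = N' := by
  rw [mem_sf] at h h'
  exact (suffix_of_le h.1 h'.1 hl.le).eq_of_length hl

end dn

section node

variable [Fintype J] {n : ℕ} {W : Fin n → {x : ℝ≥0 // 0 < x}}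

/-- the node of the tree of addresses as a point of the ultrametric space -/
noncomputable def nodeAddr (n : ℕ) (W : Fin n → {x : ℝ≥0 // 0 < x}) (N : List J) : Addr n W :=
  ⟨fun i => match N.reverse[(i : ℕ)]? with
    | some j => ((Fintype.equivFin J j : ℕ) + 1, 0)
    | none => (0, 0)⟩

theorem nodeAddr_val_eq_iff (N N' : List J) (i : Fin n) :
    (nodeAddr n W N).val i = (nodeAddr n W N').val i ↔
      N.reverse[(i : ℕ)]? = N'.reverse[(i : ℕ)]? := by
  unfold nodeAddr
  simp only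
  cases h : N.reverse[(i : ℕ)]? with
  | none =>
    cases h' : N'.reverse[(i : ℕ)]? with
    | none => simp
    | some j' => simp only [Prod.mk.injEq, Nat.right_eq_add, Nat.add_eq_zero_iff, one_ne_zero, and_false, and_true, reduceCtorEq]
  | some j =>
    cases h' : N'.reverse[(i : ℕ)]? with
    | none => simp only [Prod.mk.injEq, Nat.add_eq_zero_iff, one_ne_zero, and_false, and_true, reduceCtorEq]
    | some j' =>
      simp only [Prod.mk.injEq, add_left_inj, and_true, Option.some.injEq]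
      rw [Fin.val_inj, (Fintype.equivFin J).apply_eq_iff_eq]

/-- common suffixes give common coordinates -/
theorem getElem?_reverse_of_suffix {N N' T : List J} (h : T <:+ N) (h' : T <:+ N') {i : ℕ}
    (hi : i < T.length) : N.reverse[i]? = N'.reverse[i]? := by
  obtain ⟨s, rfl⟩ := h
  obtain ⟨s', rfl⟩ := h'
  rw [List.reverse_append, List.reverse_append, List.getElem?_append_left (by simpa using hi),
    List.getElem?_append_left (by simpa using hi)]

theorem nd_le_dn [DecidableEq J] {ρ : ℕ → ℝ} (hW : ∀ i : Fin n, ((W i).1 : ℝ) = ρ (i + 1))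
    (hρ : ∀ m, 0 ≤ ρ m) (N N' : List J) :
    dist (nodeAddr n W N) (nodeAddr n W N') ≤ dn ρ N N' + dn ρ N' N := by
  rw [Addr.dist_eq]
  have h1 := Addr.nd_le_sum (nodeAddr n W N) (nodeAddr n W N')
  have h2 : ((Addr.nd (nodeAddr n W N) (nodeAddr n W N') : ℝ≥0) : ℝ) ≤
      ∑ j : Fin n, (if (nodeAddr n W N).val j = (nodeAddr n W N').val j then (0 : ℝ)
        else ρ (j + 1)) := by
    refine (NNReal.coe_le_coe.2 h1).trans (le_of_eq ?_)
    rw [NNReal.coe_sum]
    refine sum_congr rfl fun j _ => ?_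
    split_ifs
    · simp
    · exact hW j
  refine h2.trans ?_
  -- each coordinate is paid by a suffix of `N` or of `N'`
  have hterm : ∀ j : Fin n, (if (nodeAddr n W N).val j = (nodeAddr n W N').val j then (0 : ℝ)
        else ρ (j + 1)) ≤
      (∑ T ∈ sf N' \ sf N, if T.length = j + 1 then ρ T.length else 0) +
      (∑ T ∈ sf N \ sf N', if T.length = j + 1 then ρ T.length else 0) := by
    intro j
    have n1 : 0 ≤ ∑ T ∈ sf N' \ sf N, if T.length = j + 1 then ρ T.length else 0 :=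
      sum_nonneg fun T _ => by split_ifs; exacts [hρ _, le_rfl]
    have n2 : 0 ≤ ∑ T ∈ sf N \ sf N', if T.length = j + 1 then ρ T.length else 0 :=
      sum_nonneg fun T _ => by split_ifs; exacts [hρ _, le_rfl]
    split_ifs with hv
    · linarith only [n1, n2]
    · rw [nodeAddr_val_eq_iff] at hv
      have key : ∀ A B : List J, A.reverse[(j : ℕ)]? ≠ B.reverse[(j : ℕ)]? →
          (j : ℕ) < A.length → ρ (j + 1) ≤
            ∑ T ∈ sf A \ sf B, if T.length = j + 1 then ρ T.length else 0 := by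
        intro A B hAB hj
        set T := A.drop (A.length - (j + 1)) with hT
        have hTl : T.length = j + 1 := by
          rw [hT, List.length_drop]
          (clear * - hj; omega)
        have hTs : T <:+ A := List.drop_suffix _ _
        have hTm : T ∈ sf A \ sf B := by
          rw [mem_sdiff, mem_sf, mem_sf]
          have hT0 : T ≠ [] := by
            intro h0
            rw [h0] at hTl
            simp only [List.length_nil, Nat.right_eq_add, Nat.add_eq_zero_iff, one_ne_zero, and_false] at hTl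
          refine ⟨⟨hTs, hT0⟩, fun hh => hAB ?_⟩
          exact getElem?_reverse_of_suffix hTs hh.1 (by omega)
        have := single_le_sum (f := fun T : List J => if T.length = j + 1 then ρ T.length else 0)
          (fun T _ => by split_ifs; exacts [hρ _, le_rfl]) hTm
        simp only [hTl, if_true] at this
        exact this
      rcases Nat.lt_or_ge (j : ℕ) N.length with hj | hj
      · have := key N N' hv hj
        linarith only [n1, this]
      · rcases Nat.lt_or_ge (j : ℕ) N'.length with hj' | hj'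
        · have := key N' N (Ne.symm hv) hj'
          linarith only [n2, this]
        · exfalso
          apply hv
          rw [List.getElem?_eq_none (by simpa only [List.length_reverse, ge_iff_le] using hj), List.getElem?_eq_none (by simpa only [List.length_reverse, ge_iff_le] using hj')]
  refine (sum_le_sum fun j _ => hterm j).trans ?_
  rw [sum_add_distrib, sum_comm, sum_comm (s := univ)]
  unfold dn
  refine add_le_add (sum_le_sum fun T _ => ?_) (sum_le_sum fun T _ => ?_)
  all_goals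
    by_cases hex : ∃ j : Fin n, T.length = j + 1
    · obtain ⟨j, hj⟩ := hex
      rw [sum_eq_single j]
      · rw [if_pos hj]
      · intro j' _ hne
        rw [if_neg]
        intro h3
        apply hne
        apply Fin.ext
        omega
      · intro h3
        exact absurd (mem_univ j) h3
    · push Not at hex
      rw [sum_eq_zero (fun j _ => if_neg (hex j))]
      exact hρ _

open Classical in
/-- the distance of two addresses -/
theorem dist_nodeAddr_adrN_le {ρ : ℕ → ℝ} (hW : ∀ i : Fin n, ((W i).1 : ℝ) = ρ (i + 1))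
    (hρ : ∀ m, 0 ≤ ρ m) (hmono : ∀ i j : ℕ, i ≤ j → ρ (j + 1) ≤ ρ (i + 1))
    (f g : ℕ → Option J) :
    dist (nodeAddr n W (adrN f n)) (nodeAddr n W (adrN g n)) ≤
      ∑ i ∈ range n, ρ (i + 1) * (if f i = g i then 0 else 1) := by
  have hnn : ∀ i ∈ range n, 0 ≤ ρ (i + 1) * (if f i = g i then (0 : ℝ) else 1) :=
    fun i _ => mul_nonneg (hρ _) (by split_ifs <;> norm_num)
  have hS : 0 ≤ ∑ i ∈ range n, ρ (i + 1) * (if f i = g i then (0 : ℝ) else 1) :=
    sum_nonneg hnn
  rw [Addr.dist_eq]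
  have key : Addr.nd (nodeAddr n W (adrN f n)) (nodeAddr n W (adrN g n)) ≤
      Real.toNNReal (∑ i ∈ range n, ρ (i + 1) * (if f i = g i then (0 : ℝ) else 1)) := by
    unfold Addr.nd
    refine Finset.sup_le fun j _ => ?_
    split_ifs with hv
    · exact zero_le
    · rw [Real.le_toNNReal_iff_coe_le hS, hW j]
      rw [nodeAddr_val_eq_iff] at hv
      -- some label of smaller or equal depth differs
      have hex : ∃ i ≤ (j : ℕ), f i ≠ g i := by
        by_contra hcon
        push Not at hcon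
        apply hv
        rcases Nat.lt_or_ge (j : ℕ) (adrN f n).length with hj | hj
        · have h1 : (adrN f (j + 1)).length = j + 1 :=
            length_adrN_of_le (by have := j.2; omega) hj
          have h2 : adrN f (j + 1) = adrN g (j + 1) := adrN_congr fun i hi => hcon i (by omega)
          refine getElem?_reverse_of_suffix (adrN_suffix f (by have := j.2; omega)) ?_
            (show (j : ℕ) < (adrN f (j + 1)).length by omega)
          rw [h2]
          exact adrN_suffix g (by have := j.2; omega)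
        · rcases Nat.lt_or_ge (j : ℕ) (adrN g n).length with hj' | hj'
          · exfalso
            have h1 : (adrN g (j + 1)).length = j + 1 :=
              length_adrN_of_le (by have := j.2; omega) hj'
            have h2 : adrN f (j + 1) = adrN g (j + 1) := adrN_congr fun i hi => hcon i (by omega)
            have h3 := (adrN_suffix f (show (j : ℕ) + 1 ≤ n by have := j.2; omega)).length_le
            rw [h2, h1] at h3
            omega
          · rw [List.getElem?_eq_none (by simpa only [List.length_reverse, ge_iff_le] using hj),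
              List.getElem?_eq_none (by simpa only [List.length_reverse, ge_iff_le] using hj')]
      obtain ⟨i, hi, hne⟩ := hex
      have h1 := single_le_sum hnn (mem_range.2 (show i < n by have := j.2; omega))
      rw [if_neg hne, mul_one] at h1
      exact (hmono i j hi).trans h1
  exact (Real.le_toNNReal_iff_coe_le hS).1 key

/-- lower bound for the distance of a node to a complete address -/
theorem exists_common_suffix {ρ : ℕ → ℝ} (hW : ∀ i : Fin n, ((W i).1 : ℝ) = ρ (i + 1))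
    {N b : List J} (hb : b.length = n) (hN : N.length ≤ n) (hne : N ≠ b) :
    ∃ T, T <:+ N ∧ T <:+ b ∧ T.length < n ∧
      ρ (T.length + 1) ≤ dist (nodeAddr n W N) (nodeAddr n W b) := by
  -- the longest common suffix
  classical
  have hex : ∃ m, (∃ T : List J, T <:+ N ∧ T <:+ b ∧ T.length = m) := ⟨0, [], by simp⟩
  set P : ℕ → Prop := fun m => ∃ T : List J, T <:+ N ∧ T <:+ b ∧ T.length = m with hP
  have hbd : ∀ m, P m → m ≤ n := by
    rintro m ⟨T, h1, h2, h3⟩
    have := h2.length_le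
    omega
  obtain ⟨T, hTN, hTb, hTm⟩ : P (Nat.findGreatest P n) := by
    obtain ⟨m, hm⟩ := hex
    exact Nat.findGreatest_spec (hbd m hm) hm
  set m := Nat.findGreatest P n with hm
  have hmax : ¬ P (m + 1) := by
    intro h
    have := Nat.le_findGreatest (hbd _ h) h
    omega
  have hlt : T.length < n := by
    rcases Nat.lt_or_ge T.length n with h | h
    · exact h
    · exfalso
      apply hne
      have h1 : T = b := hTb.eq_of_length (by have := hTb.length_le; omega)
      have h2 := hTN.length_le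
      have h3 : T = N := hTN.eq_of_length (by omega)
      rw [← h3, h1]
  refine ⟨T, hTN, hTb, hlt, ?_⟩
  have hdiff : (nodeAddr n W N).val ⟨T.length, hlt⟩ ≠ (nodeAddr n W b).val ⟨T.length, hlt⟩ := by
    rw [ne_eq, nodeAddr_val_eq_iff]
    intro heq
    apply hmax
    obtain ⟨s, hs⟩ := hTN
    obtain ⟨s', hs'⟩ := hTb
    have e1 : N.reverse = T.reverse ++ s.reverse := by rw [← hs, List.reverse_append]
    have e2 : b.reverse = T.reverse ++ s'.reverse := by rw [← hs', List.reverse_append]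
    rw [e1, e2, List.getElem?_append_right (by simp), List.getElem?_append_right (by simp)] at heq
    simp only [List.length_reverse, Nat.sub_self] at heq
    have hs'0 : s' ≠ [] := by
      intro h0
      rw [h0, List.nil_append] at hs'
      rw [hs', hb] at hlt
      omega
    have hs'r : s'.reverse ≠ [] := by simpa using hs'0
    obtain ⟨j, l', hl'⟩ := List.exists_cons_of_ne_nil hs'r
    rw [hl'] at heq
    simp only [List.getElem?_cons_zero] at heq
    have hsr : s.reverse ≠ [] := by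
      intro h0
      rw [h0] at heq
      simp at heq
    obtain ⟨j', l, hl⟩ := List.exists_cons_of_ne_nil hsr
    rw [hl] at heq
    simp only [List.getElem?_cons_zero, Option.some.injEq] at heq
    subst heq
    have f1 : N = l.reverse ++ (j' :: T) := by
      rw [← hs, ← List.reverse_reverse s, hl]
      simp
    have f2 : b = l'.reverse ++ (j' :: T) := by
      rw [← hs', ← List.reverse_reverse s', hl']
      simp
    exact ⟨j' :: T, ⟨_, f1.symm⟩, ⟨_, f2.symm⟩, by rw [List.length_cons, hTm]⟩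
  have h1 := Addr.le_nd _ _ _ hdiff
  rw [Addr.dist_eq]
  have h2 := NNReal.coe_le_coe.2 h1
  rw [hW] at h2
  exact h2

end node

end Vale.Agent.P304.Dyn
end
end

section

section

open MeasureTheory Filter Topology
open scoped ENNReal NNReal

namespace Vale.Agent.P304.Dyn

variable {k : ℕ}

/-- The Bayesian form of `R(k) ≤ A * R_ult(k)`: on a finite metric space, against a known prior on
finitely many request sequences, some deterministic policy pays at most `A (2 c - 1)` times the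
expected offline cost, up to a constant which depends neither on the sequences nor on the prior. -/
def BayesBound (k : ℕ) (A : ℝ) : Prop :=
  ∀ (X : Type) [MetricSpace X] [Finite X], ((k + 1 : ℕ) : ℕ∞) ≤ ENat.card X →
    ∀ (s : Fin k → X) (c : ℝ≥0), Rult k < c →
      ∃ B : ℝ, ∀ (F : Finset (List X)) (w : List X → ℝ), (∀ σ, 0 ≤ w σ) → ∑ σ ∈ F, w σ = 1 →
        ∃ a : List X → Fin k,
          ∑ σ ∈ F, w σ * policyCost s a σ ≤ A * (2 * c - 1) * (∑ σ ∈ F, w σ * opt s σ) + B

theorem ratio_le_of_bayes [NeZero k] {A : ℝ} (hA : 0 ≤ A) (H : BayesBound k A)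
    (X : Type) [MetricSpace X] [Finite X] (hX : ((k + 1 : ℕ) : ℕ∞) ≤ ENat.card X)
    (s : Fin k → X) {c : ℝ≥0} (hc : Rult k < c) :
    ratio s ≤ ENNReal.ofReal (2 * A) * c := by
  have hc1 : (1:ℝ) ≤ c := by
    have : (1:ℝ≥0∞) ≤ c := one_le_Rult.trans hc.le
    exact_mod_cast this
  obtain ⟨B, hB⟩ := H X hX s c hc
  have hgood : Good s (A * (2 * c - 1)) B Set.univ := by
    refine good_of_finite s _ _ fun F => good_of_bayes s _ _ F fun w hw hw1 => ?_
    obtain ⟨a, ha⟩ := hB F w hw hw1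
    refine ⟨a, ha.trans (le_of_eq ?_)⟩
    simp only [mul_add]
    rw [Finset.sum_add_distrib, ← Finset.sum_mul, hw1, one_mul, Finset.mul_sum]
    congr 1
    exact Finset.sum_congr rfl fun σ _ => by ring
  have h1 : 0 ≤ 2 * A * (c : ℝ) := by (clear * - hA hc1; positivity)
  have h2 : IsCompetitive s ((2 * A * (c : ℝ)).toNNReal : ℝ) := by
    rw [isCompetitive_iff]
    refine ⟨B, hgood.mono ?_ le_rfl⟩
    rw [Real.coe_toNNReal _ h1]
    linarith
  refine (ratio_le h2).trans (le_of_eq ?_)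
  rw [← ENNReal.ofReal, ENNReal.ofReal_mul (by (clear * - hA; positivity))]
  simp only [Nat.ofNat_nonneg, ENNReal.ofReal_mul, ENNReal.ofReal_ofNat, ENNReal.ofReal_coe_nnreal]

/-- **Final step**: the Bayesian statement gives `R(k) ≤ 4 A R_ult(k)`. -/
theorem R_le_of_bayes [NeZero k] {A : ℝ} (hA : 0 < A) (H : BayesBound k A) :
    R k ≤ ENNReal.ofReal (4 * A) * Rult k := by
  rcases eq_or_ne (Rult k) ⊤ with htop | htop
  · rw [htop, ENNReal.mul_top (by simpa only [Nat.ofNat_nonneg, ENNReal.ofReal_mul, ENNReal.ofReal_ofNat, ne_eq, mul_eq_zero,     OfNat.ofNat_ne_zero, ENNReal.ofReal_eq_zero, false_or, not_le] using hA)]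
    exact le_top
  have h1 : Rfin k ≤ ENNReal.ofReal (2 * A) * Rult k := by
    have h2 : ∀ c : ℝ≥0, Rult k < c → Rfin k ≤ ENNReal.ofReal (2 * A) * c := by
      intro c hc
      refine iSup_le fun X => iSup_le fun _ => iSup_le fun _ => iSup_le fun hX => iSup_le fun s => ?_
      exact ratio_le_of_bayes hA.le H X hX s hc
    have h3 : ENNReal.ofReal (2 * A) ≠ 0 := by simpa only [Nat.ofNat_nonneg, ENNReal.ofReal_mul, ENNReal.ofReal_ofNat, ne_eq, mul_eq_zero,     OfNat.ofNat_ne_zero, ENNReal.ofReal_eq_zero, false_or, not_le] using hA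
    refine le_of_forall_gt fun b hb => ?_
    rw [mul_comm, ← ENNReal.lt_div_iff_mul_lt (Or.inl h3) (Or.inl ENNReal.ofReal_ne_top)] at hb
    obtain ⟨c, hc1, hc2⟩ := ENNReal.lt_iff_exists_nnreal_btwn.1 hb
    refine (h2 c hc1).trans_lt ?_
    rw [mul_comm]
    exact (ENNReal.lt_div_iff_mul_lt (Or.inl h3) (Or.inl ENNReal.ofReal_ne_top)).1 hc2
  calc R k ≤ 2 * Rfin k - 1 := R_le
    _ ≤ 2 * Rfin k := tsub_le_self
    _ ≤ 2 * (ENNReal.ofReal (2 * A) * Rult k) := by gcongr
    _ = ENNReal.ofReal (4 * A) * Rult k := by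
      rw [← mul_assoc]
      congr 1
      rw [show (4 * A) = 2 * (2 * A) by ring, ENNReal.ofReal_mul (by norm_num : (0:ℝ) ≤ 2)]
      simp only [ENNReal.ofReal_ofNat, Nat.ofNat_nonneg, ENNReal.ofReal_mul]

end Vale.Agent.P304.Dyn
end
end

section

section

/-! # P304-Dyn-Z8: a good policy for every prior -/

set_option linter.all false

open Finset MeasureTheory
open scoped NNReal ENNReal

namespace Vale.Agent.P304.Dyn

open Vale.Agent.P304

/-- black box on the address space, from distinct starting places. -/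
theorem good_dummy {k n : ℕ} [NeZero k] (hn : 1 ≤ n) (W : Fin n → {x : ℝ≥0 // 0 < x})
    {c : ℝ≥0} (hc1 : (1 : ℝ) ≤ c) (hc : Rult k < c) :
    Good (fun j : Fin k => (⟨fun _ => ((j : ℕ), 0)⟩ : Addr n W)) (2 * (c : ℝ) - 1) 1 Set.univ := by
  have hcard : ENat.card (Addr n W) = ⊤ := Addr.card_top hn
  refine good_of_finite_subspaces (by rw [hcard]; exact le_top) _ ?_ hc1 ?_
  · intro a b hab
    have h1 := congrArg (fun x : Addr n W => (x.val ⟨0, hn⟩).1) hab
    exact Fin.ext h1
  · intro T' hT' s'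
    haveI : IsUltrametricDist T' := ⟨fun a b c => IsUltrametricDist.dist_triangle_max a.1 b.1 c.1⟩
    exact (le_Rult hT' s').trans_lt hc

theorem dist_addr_le {n : ℕ} {W : Fin n → {x : ℝ≥0 // 0 < x}} (a b : Addr n W) :
    dist a b ≤ ∑ j, ((W j).1 : ℝ) := by
  rw [Addr.dist_eq]
  have h1 : Addr.nd a b ≤ ∑ j, (W j).1 := by
    refine (Addr.nd_le_sum a b).trans (Finset.sum_le_sum fun j _ => ?_)
    split_ifs
    · exact zero_le
    · exact le_rfl
  exact_mod_cast h1

/-- the numerical combination of the estimates. -/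
theorem combine {Ω ι : Type} [Fintype Ω] [Nonempty Ω] (F : Finset ι) {w : ι → ℝ}
    (hw : ∀ σ ∈ F, 0 ≤ w σ) (hw1 : ∑ σ ∈ F, w σ = 1) (re ph vi vp op av : Ω → ι → ℝ)
    {D Cg c' K B Ck O : ℝ} (hCg : 1 ≤ Cg) (hc' : 1 ≤ c')
    (h1 : ∀ ω, ∀ σ ∈ F, w σ * re ω σ ≤ w σ * (D + ph ω σ + Cg * vi ω σ + Cg * vp ω σ + Cg * K))
    (h2 : ∑ ω, ∑ σ ∈ F, w σ * vp ω σ ≤ ∑ ω, ∑ σ ∈ F, w σ * (c' * op ω σ + 1))
    (h3 : ∀ ω, ∀ σ ∈ F, op ω σ ≤ K + av ω σ)
    (h4 : ∑ ω, ∑ σ ∈ F, w σ * (ph ω σ + vi ω σ + av ω σ)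
      ≤ (Fintype.card Ω : ℝ) * (B + Ck * O + 1))
    (hph : ∀ ω, ∀ σ ∈ F, 0 ≤ ph ω σ) (hvi : ∀ ω, ∀ σ ∈ F, 0 ≤ vi ω σ) :
    ∃ ω, ∑ σ ∈ F, w σ * re ω σ
      ≤ Cg * c' * Ck * O + (D + Cg * K + Cg * c' * K + Cg + Cg * c' * (|B| + 1)) := by
  classical
  have hCg0 : 0 ≤ Cg := by linarith only [hCg]
  have hc0 : 0 ≤ c' := by linarith only [hc']
  set T := Cg * c' * Ck * O + (D + Cg * K + Cg * c' * K + Cg + Cg * c' * (|B| + 1)) with hT
  have hsumle : ∑ ω, ∑ σ ∈ F, w σ * re ω σ ≤ ∑ ω : Ω, T := by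
    have e1 : ∑ ω, ∑ σ ∈ F, w σ * re ω σ
        ≤ ∑ ω, ∑ σ ∈ F, w σ * (D + Cg * K + ph ω σ + Cg * vi ω σ)
          + Cg * ∑ ω, ∑ σ ∈ F, w σ * vp ω σ := by
      rw [Finset.mul_sum, ← Finset.sum_add_distrib]
      refine Finset.sum_le_sum fun ω _ => ?_
      rw [Finset.mul_sum, ← Finset.sum_add_distrib]
      refine Finset.sum_le_sum fun σ hσ => ?_
      have := h1 ω σ hσ
      linarith only [this]
    have e2 := mul_le_mul_of_nonneg_left h2 hCg0
    have e3 : ∑ ω, ∑ σ ∈ F, w σ * (D + Cg * K + ph ω σ + Cg * vi ω σ)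
        + Cg * ∑ ω, ∑ σ ∈ F, w σ * (c' * op ω σ + 1)
        ≤ ∑ ω : Ω, ∑ σ ∈ F, w σ * (D + Cg * K + Cg * c' * K + Cg)
          + Cg * c' * ∑ ω, ∑ σ ∈ F, w σ * (ph ω σ + vi ω σ + av ω σ) := by
      rw [Finset.mul_sum, Finset.mul_sum, ← Finset.sum_add_distrib, ← Finset.sum_add_distrib]
      refine Finset.sum_le_sum fun ω _ => ?_
      rw [Finset.mul_sum, Finset.mul_sum, ← Finset.sum_add_distrib, ← Finset.sum_add_distrib]
      refine Finset.sum_le_sum fun σ hσ => ?_
      have f1 := h3 ω σ hσ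
      have f2 : Cg ≤ Cg * c' := le_mul_of_one_le_right hCg0 hc'
      have f3 : ph ω σ ≤ Cg * c' * ph ω σ :=
        le_mul_of_one_le_left (hph ω σ hσ) (by linarith only [hCg, f2])
      have f4 : Cg * vi ω σ ≤ Cg * c' * vi ω σ :=
        mul_le_mul_of_nonneg_right f2 (hvi ω σ hσ)
      have f5 : Cg * c' * op ω σ ≤ Cg * c' * (K + av ω σ) :=
        mul_le_mul_of_nonneg_left f1 (mul_nonneg hCg0 hc0)
      have f6 : (D + Cg * K + ph ω σ + Cg * vi ω σ) + Cg * (c' * op ω σ + 1)
          ≤ (D + Cg * K + Cg * c' * K + Cg) + Cg * c' * (ph ω σ + vi ω σ + av ω σ) := by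
        linarith only [f3, f4, f5]
      have f7 := mul_le_mul_of_nonneg_left f6 (hw σ hσ)
      linarith only [f7]
    have e4 : ∑ ω : Ω, ∑ σ ∈ F, w σ * (D + Cg * K + Cg * c' * K + Cg)
        = (Fintype.card Ω : ℝ) * (D + Cg * K + Cg * c' * K + Cg) := by
      simp only [← sum_mul, hw1, one_mul, sum_const, card_univ, nsmul_eq_mul]
    have e5 := mul_le_mul_of_nonneg_left h4 (mul_nonneg hCg0 hc0)
    have e6 : ∑ ω : Ω, T = (Fintype.card Ω : ℝ) * T := by
      simp only [Finset.sum_const, Finset.card_univ, nsmul_eq_mul]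
    have e7 : Cg * c' * ((Fintype.card Ω : ℝ) * (B + Ck * O + 1))
        ≤ Cg * c' * ((Fintype.card Ω : ℝ) * (|B| + Ck * O + 1)) := by
      have := le_abs_self B
      (clear ι F w hw hw1 re ph vi vp op av D K h1 h2 h3 h4 hph hvi hCg0 hc0 T hT e1 e2 e3 e4 e5 e6; gcongr)
    have e8 : (Fintype.card Ω : ℝ) * T = (Fintype.card Ω : ℝ) * (D + Cg * K + Cg * c' * K + Cg)
        + Cg * c' * ((Fintype.card Ω : ℝ) * (|B| + Ck * O + 1)) := by
      rw [hT]; ring
    rw [e6, e8]
    linarith only [e1, e2, e3, e4, e5, e7]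
  obtain ⟨ω, -, hω⟩ := Finset.exists_le_of_sum_le Finset.univ_nonempty hsumle
  exact ⟨ω, hω⟩

variable {X : Type} [MetricSpace X] [Fintype X] {k n : ℕ} {W : Fin n → {x : ℝ≥0 // 0 < x}}

theorem bayes_of_engine [NeZero k] (s : Fin k → X) (hn : 1 ≤ n) {Cg Ck B : ℝ} (hCg : 1 ≤ Cg)
    (hCk : 0 ≤ Ck) (heng : ∀ ε : ℝ, 0 < ε → Nonempty (Eng X k n W (oc s) Cg Ck B ε))
    {c : ℝ≥0} (hc1 : (1 : ℝ) ≤ c) (hc : Rult k < c) :
    ∃ B' : ℝ, 0 ≤ B' ∧ ∀ (F : Finset (List X)) (w : List X → ℝ), (∀ σ ∈ F, 0 ≤ w σ) →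
      ∑ σ ∈ F, w σ = 1 → ∃ a : List X → Fin k,
        ∑ σ ∈ F, w σ * policyCost s a σ ≤
          (Cg * (2 * c - 1) * Ck) * ∑ σ ∈ F, w σ * opt s σ + B' := by
  classical
  obtain ⟨D, hD0, hD⟩ := exists_mdist_bound X k
  obtain ⟨Wm, hWm⟩ : ∃ Wm : ℝ, Wm = ∑ j, ((W j).1 : ℝ) := ⟨_, rfl⟩
  have hWm0 : 0 ≤ Wm := by rw [hWm]; exact Finset.sum_nonneg fun j _ => NNReal.coe_nonneg _
  have hc2 : (1:ℝ) ≤ 2 * (c:ℝ) - 1 := by linarith only [hc1]
  have hCg0 : (0:ℝ) ≤ Cg := by linarith only [hCg]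
  have hk0 : (0:ℝ) ≤ k := Nat.cast_nonneg k
  obtain ⟨G, hG⟩ : ∃ G : ℝ, G = Cg * (2 * (c:ℝ) - 1) := ⟨_, rfl⟩
  have hG1 : 1 ≤ G := by rw [hG]; nlinarith only [hc1, hCg]
  refine ⟨D + Cg * (k * Wm) + G * (k * Wm) + Cg + G * (|B| + 1), by (clear * - hD0 hCg hWm0 hG1; positivity), ?_⟩
  intro F w hw hw1
  rw [← hG]
  -- the engine
  set N : ℕ := F.sup List.length with hN
  have hNle : ∀ σ ∈ F, σ.length ≤ N := fun σ hσ => Finset.le_sup (f := List.length) hσ
  have hεpos : (0:ℝ) < 1 / (N + 1) := by positivity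
  obtain ⟨E⟩ := heng (1 / (N + 1)) hεpos
  choose cc hcc0 hcc1 hcc2 using fun σ : List X => exists_opos (k := k) s σ
  obtain ⟨st, hst0, hInv, hstep⟩ := exists_states E hw (c := cc) (fun σ _ => hcc0 σ)
  have hexp := expected_cost E hCk hεpos.le hw hw1 (fun σ _ => hcc0 σ) hNle hst0 hInv hstep
  -- nonempty set of tracks
  have hMpos : 0 < E.M := lt_of_lt_of_le (Nat.pos_of_ne_zero (NeZero.ne k)) E.kM
  set i0 : Fin E.M := ⟨0, hMpos⟩ with hi0
  set e₀ : Fin k → Fin E.M := Fin.castLE E.kM with he₀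
  have he₀inj : Function.Injective e₀ := Fin.castLE_injective E.kM
  -- riding data for a seed
  set b : E.Ω → List X → Addr n W := fun ω h => E.ad (st h) ω (h.getLastD (s 0)) with hb
  set istar : E.Ω → List X → Fin E.M := fun ω h =>
    if hh : ∃ i, E.loc (st h) ω i = h.getLastD (s 0) ∧ E.na (st h) ω i = b ω h
    then Classical.choose hh else i0 with histar
  set V0 : Fin k → Addr n W := fun j => ⟨fun _ => ((j : ℕ), 0)⟩ with hV0
  -- the virtual policy
  obtain ⟨aU, haU⟩ := exists_policy_bayes V0 (good_dummy hn W hc1 hc)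
    ((Finset.univ : Finset E.Ω) ×ˢ F) (fun z => max (w z.2) 0) (fun z => le_max_right _ _)
    (fun z => bseq (b z.1) z.2)
  rw [Finset.sum_product, Finset.sum_product] at haU
  have hmax : ∀ σ ∈ F, max (w σ) 0 = w σ := fun σ hσ => max_eq_left (hw σ hσ)
  have haU' : ∑ ω : E.Ω, ∑ σ ∈ F, w σ * policyCost V0 aU (bseq (b ω) σ)
      ≤ ∑ ω : E.Ω, ∑ σ ∈ F, w σ * ((2 * c - 1) * opt V0 (bseq (b ω) σ) + 1) := by
    have e1 : ∀ (f : E.Ω → List X → ℝ), ∑ ω : E.Ω, ∑ σ ∈ F, max (w σ) 0 * f ω σ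
        = ∑ ω : E.Ω, ∑ σ ∈ F, w σ * f ω σ := by
      intro f
      exact Finset.sum_congr rfl fun ω _ => Finset.sum_congr rfl fun σ hσ => by rw [hmax σ hσ]
    have e2 := e1 fun ω σ => policyCost V0 aU (bseq (b ω) σ)
    have e3 := e1 fun ω σ => (2 * c - 1) * opt V0 (bseq (b ω) σ) + 1
    rw [← e2, ← e3]
    exact haU
  -- the real policies
  choose a ha using fun ω : E.Ω => rideM (fun h => E.loc (st h) ω) (fun h => E.na (st h) ω)
    (b ω) (istar ω) hCg0 e₀ he₀inj s V0 aU
  -- path-wise terms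
  set ph : E.Ω → List X → ℕ → ℝ := fun ω σ t =>
    ∑ i, dist (E.loc (st (σ.take t)) ω i) (E.loc (st (σ.take (t + 1))) ω i) with hph
  set vi : E.Ω → List X → ℕ → ℝ := fun ω σ t =>
    ∑ i, dist (E.na (st (σ.take t)) ω i) (E.na (st (σ.take (t + 1))) ω i) with hvi
  set av : E.Ω → List X → ℕ → ℝ := fun ω σ t =>
    ∑ j, dist (E.ad (st (σ.take t)) ω (cc σ t j))
          (E.ad (st (σ.take (t + 1))) ω (cc σ (t + 1) j)) with hav
  have hlast : ∀ (h : List X) (r x : X), (h ++ [r]).getLastD x = r := by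
    intro h r x; simp
  -- cost of the real policy
  have hcost : ∀ ω, ∀ σ ∈ F, w σ * policyCost s (a ω) σ ≤ w σ * (D
      + ∑ t ∈ range σ.length, ph ω σ t + Cg * ∑ t ∈ range σ.length, vi ω σ t
      + Cg * policyCost V0 aU (bseq (b ω) σ) + Cg * (k * Wm)) := by
    intro ω σ hσ
    rcases (hw σ hσ).lt_or_eq with hpos | hzero
    · refine mul_le_mul_of_nonneg_left ?_ hpos.le
      refine (ha ω σ ?_).trans ?_
      · intro h r hh
        have hwt : 0 < wt F w (h ++ [r]) := wt_pos_of_mem hw hσ hpos hh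
        have hI := hInv (h ++ [r]) hwt
        have h1 : 1 ≤ pp F w cc (h ++ [r]) r := one_le_pp hw (fun σ _ => hcc1 σ) hwt
        have hex : ∃ i, E.loc (st (h ++ [r])) ω i = (h ++ [r]).getLastD (s 0) ∧
            E.na (st (h ++ [r])) ω i = b ω (h ++ [r]) := by
          obtain ⟨i, hi1, hi2⟩ := E.cover _ _ hI r h1 ω
          refine ⟨i, by rw [hlast]; exact hi1, ?_⟩
          simp only [hb, hlast]
          exact hi2
        have hchoose := Classical.choose_spec hex
        have heq : istar ω (h ++ [r]) = Classical.choose hex := by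
          simp only [histar]
          rw [dif_pos hex]
        refine ⟨?_, ?_, ?_⟩
        · rw [heq, hchoose.1, hlast]
        · rw [heq]; exact hchoose.2
        · intro i
          have := E.geom _ _ hI r h1 ω i
          simp only [hb, hlast]
          exact this
      · have h1 := hD s (fun j => E.loc (st []) ω (e₀ j))
        have h2 : ∑ j, dist (V0 j) (E.na (st []) ω (e₀ j)) ≤ k * Wm := by
          refine (Finset.sum_le_sum fun j _ => dist_addr_le _ _).trans (le_of_eq ?_)
          simp only [sum_const, card_univ, Fintype.card_fin, nsmul_eq_mul, hWm]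
        have h3 := mul_le_mul_of_nonneg_left h2 hCg0
        simp only [hph, hvi]
        linarith only [h1, h3]
    · rw [← hzero]; simp
  -- the virtual optimum
  have hopt : ∀ ω, ∀ σ ∈ F, opt V0 (bseq (b ω) σ) ≤ k * Wm + ∑ t ∈ range σ.length, av ω σ t := by
    intro ω σ hσ
    have h1 := opt_le_config V0 (fun t j => E.ad (st (σ.take t)) ω (cc σ t j)) (bseq (b ω) σ) (by
      intro t ht
      rw [bseq_length] at ht
      obtain ⟨j, hj⟩ := hcc1 σ t ht
      refine ⟨j, ?_⟩
      simp only [bseq, List.getElem_ofFn, hb]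
      rw [hj]
      have e1 : σ.take (t + 1) = σ.take t ++ [σ[t]] := by
        rw [List.take_succ_eq_append_getElem ht]
      rw [e1, hlast])
    rw [bseq_length] at h1
    have h2 : ∑ j, dist (V0 j) (E.ad (st (σ.take 0)) ω (cc σ 0 j)) ≤ k * Wm := by
      refine (Finset.sum_le_sum fun j _ => dist_addr_le _ _).trans (le_of_eq ?_)
      simp only [sum_const, card_univ, Fintype.card_fin, nsmul_eq_mul, hWm]
    simp only [hav]
    linarith only [h1, h2]
  -- averages over the seeds
  have hn'pos : (0:ℝ) < (Fintype.card E.Ω : ℝ) := by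
    exact_mod_cast Fintype.card_pos
  have h4 : ∑ ω : E.Ω, ∑ σ ∈ F, w σ * (∑ t ∈ range σ.length, ph ω σ t
      + ∑ t ∈ range σ.length, vi ω σ t + ∑ t ∈ range σ.length, av ω σ t)
      ≤ (Fintype.card E.Ω : ℝ) * (B + Ck * (∑ σ ∈ F, w σ * opt s σ) + 1) := by
    have e1 : ∑ σ ∈ F, w σ * ∑ t ∈ range σ.length,
        (∑ ω, (ph ω σ t + vi ω σ t + av ω σ t)) / (Fintype.card E.Ω : ℝ)
        = (∑ ω : E.Ω, ∑ σ ∈ F, w σ * (∑ t ∈ range σ.length, ph ω σ t
      + ∑ t ∈ range σ.length, vi ω σ t + ∑ t ∈ range σ.length, av ω σ t))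
          / (Fintype.card E.Ω : ℝ) := by
      rw [Finset.sum_comm, Finset.sum_div]
      refine Finset.sum_congr rfl fun σ _ => ?_
      rw [← Finset.mul_sum, mul_div_assoc, ← Finset.sum_div, Finset.sum_comm]
      simp only [sum_add_distrib]
    have e2 : ∑ σ ∈ F, w σ * ∑ t ∈ range σ.length, ∑ j, dist (cc σ t j) (cc σ (t + 1) j)
        ≤ ∑ σ ∈ F, w σ * opt s σ :=
      Finset.sum_le_sum fun σ hσ => mul_le_mul_of_nonneg_left (hcc2 σ) (hw σ hσ)
    have e3 : (N : ℝ) * (1 / (N + 1)) ≤ 1 := by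
      rw [mul_one_div, div_le_one (by (clear * -; positivity))]
      linarith only []
    have e4 := mul_le_mul_of_nonneg_left e2 hCk
    have e5 : (∑ ω : E.Ω, ∑ σ ∈ F, w σ * (∑ t ∈ range σ.length, ph ω σ t
      + ∑ t ∈ range σ.length, vi ω σ t + ∑ t ∈ range σ.length, av ω σ t))
          / (Fintype.card E.Ω : ℝ) ≤ B + Ck * (∑ σ ∈ F, w σ * opt s σ) + 1 := by
      rw [← e1]
      refine le_trans hexp ?_
      linarith only [e3, e4]
    rw [div_le_iff₀ hn'pos] at e5
    linarith only [e5]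
  haveI : Nonempty E.Ω := E.ne
  obtain ⟨ω, hω⟩ := combine F hw hw1 (fun ω σ => policyCost s (a ω) σ)
    (fun ω σ => ∑ t ∈ range σ.length, ph ω σ t) (fun ω σ => ∑ t ∈ range σ.length, vi ω σ t)
    (fun ω σ => policyCost V0 aU (bseq (b ω) σ)) (fun ω σ => opt V0 (bseq (b ω) σ))
    (fun ω σ => ∑ t ∈ range σ.length, av ω σ t) hCg hc2 hcost haU' hopt h4
    (fun ω σ _ => Finset.sum_nonneg fun t _ => Finset.sum_nonneg fun i _ => dist_nonneg)
    (fun ω σ _ => Finset.sum_nonneg fun t _ => Finset.sum_nonneg fun i _ => dist_nonneg)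
  refine ⟨a ω, hω.trans (le_of_eq ?_)⟩
  rw [hG]

end Vale.Agent.P304.Dyn
end
end

section

section

/-! # P304-Dyn: from engines to the Bayesian bound -/

set_option linter.all false

open Finset MeasureTheory
open scoped NNReal ENNReal

namespace Vale.Agent.P304.Dyn

open Vale.Agent.P304

theorem bayesBound_of_engine {k : ℕ} [NeZero k] {Cg Ck : ℝ} (hCg : 1 ≤ Cg) (hCk : 0 ≤ Ck)
    (heng : ∀ (X : Type) [MetricSpace X] [Fintype X] (s : Fin k → X),
      ∃ (n : ℕ) (W : Fin n → {x : ℝ≥0 // 0 < x}) (B : ℝ), 1 ≤ n ∧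
        ∀ ε : ℝ, 0 < ε → Nonempty (Eng X k n W (oc s) Cg Ck B ε)) :
    BayesBound k (Cg * Ck) := by
  intro X _ _ hX s c hc
  haveI : Fintype X := Fintype.ofFinite X
  obtain ⟨n, W, B, hn, h⟩ := heng X s
  have hc1 : (1:ℝ) ≤ c := by
    have : (1:ℝ≥0∞) ≤ c := one_le_Rult.trans hc.le
    exact_mod_cast this
  obtain ⟨B', hB', h'⟩ := bayes_of_engine s hn hCg hCk h hc1 hc
  refine ⟨B', fun F w hw hw1 => ?_⟩
  obtain ⟨a, ha⟩ := h' F w (fun σ _ => hw σ) hw1
  refine ⟨a, ha.trans (le_of_eq ?_)⟩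
  ring

end Vale.Agent.P304.Dyn
end
end

section

section

/-! # P304-Dyn: the engine, and `R(k) ≤ polylog(k) * R_ult(k)` -/

set_option linter.all false

open Finset
open scoped NNReal ENNReal

namespace Vale.Agent.P304.Dyn

open Vale.Agent.P304

section addresses

variable {X J : Type} [MetricSpace X] [Fintype X] [DecidableEq X] [Fintype J] [DecidableEq J]
  {Wd : World X} {η : ℝ}

/-- labels by depth -/
noncomputable def labF (P : LPar η Wd.k J) (x : Fin Wd.n → Conf X J) (π : Ord (GG Wd.n J P.B))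
    (u : X) (i : ℕ) : Option J := labS P x π (Wd.lv (i + 1)) u

theorem adAux_eq_adrN (P : LPar η Wd.k J) (x : Fin Wd.n → Conf X J)
    (π : Ord (GG Wd.n J P.B)) (u : X) (d : ℕ) :
    adAux P x π u d = adrN (labF P x π u) d := by
  induction d with
  | zero => rfl
  | succ d ih =>
    rw [adAux, ih]
    by_cases hl : (adrN (labF P x π u) d).length = d
    · rw [if_pos hl]
      cases h : labF P x π u d with
      | none =>
        rw [adrN_succ_none h]
        unfold labF at h
        rw [h]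
      | some j =>
        rw [adrN_succ_some h hl]
        unfold labF at h
        rw [h]
    · rw [if_neg hl, adrN_succ_of_ne hl]

theorem ad_eq_adrN (P : LPar η Wd.k J) (x : Fin Wd.n → Conf X J)
    (π : Ord (GG Wd.n J P.B)) (u : X) : ad P x π u = adrN (labF P x π u) Wd.n :=
  adAux_eq_adrN P x π u Wd.n

/-- the weights of the ultrametric space -/
noncomputable def World.WW (Wd : World X) (i : Fin Wd.n) : {x : ℝ≥0 // 0 < x} :=
  ⟨Real.toNNReal (Wd.rho (i + 1)), Real.toNNReal_pos.2 (rho_pos Wd _)⟩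

theorem coe_WW (Wd : World X) (i : Fin Wd.n) : ((Wd.WW i).1 : ℝ) = Wd.rho (i + 1) :=
  Real.coe_toNNReal _ (rho_pos Wd _).le

theorem RR_pos' (Wd : World X) : 0 < RR Wd.k := by
  have := RR_ge Wd.hk
  linarith

theorem r_pos (Wd : World X) (l : ℕ) : 0 < Wd.r l := by
  unfold World.r
  have := Wd.hr0
  positivity

theorem rho_anti (Wd : World X) {i j : ℕ} (h : i ≤ j) : Wd.rho (j + 1) ≤ Wd.rho (i + 1) := by
  unfold World.rho World.r
  have h1 := RR_pos' Wd
  have h2 := Wd.hr0
  have h3 : (2 : ℝ) ^ (Wd.n - (j + 1)) ≤ 2 ^ (Wd.n - (i + 1)) :=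
    pow_le_pow_right₀ (by norm_num) (by omega)
  have h4 := mul_le_mul_of_nonneg_left h3 h2.le
  exact mul_le_mul_of_nonneg_left h4 (by positivity)

/-- geometric growth of the weights -/
theorem sum_rho_le (Wd : World X) {i : ℕ} (hi : i < Wd.n) :
    ∑ m ∈ Ico (i + 1) (Wd.n + 1), Wd.rho m ≤ 2 * Wd.rho (i + 1) := by
  have key : ∀ d i : ℕ, i + d + 1 = Wd.n →
      ∑ m ∈ Ico (i + 1) (Wd.n + 1), Wd.rho m ≤ 2 * Wd.rho (i + 1) := by
    intro d
    induction d with
    | zero =>
      intro i hi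
      have h1 : Ico (i + 1) (Wd.n + 1) = {i + 1} := by
        ext m
        simp only [mem_Ico, mem_singleton]
        omega
      rw [h1, sum_singleton]
      have := rho_pos Wd (i + 1)
      linarith only [this]
    | succ d ih =>
      intro i hi
      rw [sum_eq_sum_Ico_succ_bot (by (clear * - hi; omega))]
      have h1 := ih (i + 1) (by omega)
      have h2 : Wd.rho (i + 1) = 2 * Wd.rho (i + 1 + 1) := by
        unfold World.rho World.r
        have h3 : Wd.n - (i + 1) = Wd.n - (i + 1 + 1) + 1 := by omega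
        rw [h3, pow_succ]
        ring
      linarith only [h1, h2]
  exact key (Wd.n - 1 - i) i (by omega)

theorem sum_range_eq_rev (n : ℕ) (F : ℕ → ℝ) :
    ∑ i ∈ range n, F i = ∑ i : Fin n, F ((Fin.rev i : Fin n) : ℕ) := by
  rw [← Fin.sum_univ_eq_sum_range, ← Equiv.sum_comp Fin.revPerm]
  rfl

theorem dist_ad_le (P : LPar η Wd.k J) (x x' : Fin Wd.n → Conf X J) (π : Ord (GG Wd.n J P.B))
    (u v : X) :
    dist (nodeAddr Wd.n Wd.WW (ad P x π u)) (nodeAddr Wd.n Wd.WW (ad P x' π v)) ≤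
      ∑ l : Fin Wd.n, Wd.wt l * (if labS P x π l u = labS P x' π l v then (0 : ℝ) else 1) := by
  rw [ad_eq_adrN, ad_eq_adrN]
  refine (dist_nodeAddr_adrN_le (coe_WW Wd) (fun m => (rho_pos Wd m).le)
    (fun i j h => rho_anti Wd h) _ _).trans ?_
  rw [sum_range_eq_rev]
  refine sum_le_sum fun i _ => ?_
  have h1 : Wd.lv ((Fin.rev i : Fin Wd.n) + 1) = i := by
    apply Fin.ext
    simp only [World.lv, Fin.val_rev]
    have hi := i.2
    rw [Nat.mod_eq_of_lt (by omega)]
    omega
  have h2 : Wd.rho ((Fin.rev i : Fin Wd.n) + 1) ≤ Wd.wt i := by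
    unfold World.rho World.wt
    have h3 : Wd.n - ((Fin.rev i : Fin Wd.n) + 1) = (i : ℕ) := by
      simp only [Fin.val_rev]
      have hi := i.2
      omega
    rw [h3]
    have := RR_pos' Wd
    have := r_pos Wd i
    nlinarith
  unfold labF
  rw [h1]
  by_cases hc : labS P x π i u = labS P x' π i v
  · rw [if_pos hc, if_pos hc, mul_zero, mul_zero]
  · rw [if_neg hc, if_neg hc, mul_one, mul_one]
    exact h2

theorem dist_node_le (Wd : World X) (a b : List J) :
    dist (nodeAddr Wd.n Wd.WW a) (nodeAddr Wd.n Wd.WW b) ≤ dn Wd.rho a b + dn Wd.rho b a :=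
  nd_le_dn (coe_WW Wd) (fun m => (rho_pos Wd m).le) a b

/-- tracks and addresses: every suffix of a track contains a point -/
theorem exists_of_track (P : LPar η Wd.k J) {p : X → ℝ} {s : St Wd J P.B} (hI : Inv P p s)
    (π : Ord (GG Wd.n J P.B)) (i : Fin Wd.M) (N : List J) (hN : N ≠ []) (h : N <:+ s.y π i) :
    ∃ u, N <:+ ad P s.x π u := by
  by_contra hcon
  push Not at hcon
  have h1 := hI.dom π N hN
  have h2 : pm p (ad P s.x π) N = 0 := by
    unfold pm
    exact sum_eq_zero fun u _ => if_neg (hcon u)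
  have h3 : 1 ≤ cnt (s.y π) N := by
    unfold cnt
    exact card_pos.2 ⟨i, mem_filter.2 ⟨mem_univ _, h⟩⟩
  have h4 : (1 : ℝ) ≤ cnt (s.y π) N := by exact_mod_cast h3
  have h5 := lam_pos Wd
  rw [h2] at h1
  nlinarith only [h1, h5, h4]

/-- the geometric comparison -/
theorem geom_le (P : LPar η Wd.k J) {p : X → ℝ} {s : St Wd J P.B} (hI : Inv P p s)
    {u : X} (hu : 1 ≤ p u) (π : Ord (GG Wd.n J P.B)) (i : Fin Wd.M) :
    dist (loc Wd s.x (s.y π i)) u ≤
      4 * dist (nodeAddr Wd.n Wd.WW (s.y π i)) (nodeAddr Wd.n Wd.WW (ad P s.x π u)) := by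
  obtain ⟨hlen, -⟩ := hI.lf π u hu
  by_cases hne : s.y π i = ad P s.x π u
  · rw [hne, loc_full P s.x π u hlen]
    simp
  · obtain ⟨T, hT1, hT2, hT3, hT4⟩ := exists_common_suffix (coe_WW Wd) hlen (hI.len π i) hne
    have h1 := place_le_static P s.x π (s.y π i) (ad P s.x π u)
      (fun N hN hs => exists_of_track P hI π i N hN hs) (fun N hN hs => ⟨u, hs⟩)
    rw [loc_full P s.x π u hlen] at h1
    have hdn : ∀ A B : List J, T <:+ A → T <:+ B → B.length ≤ Wd.n →
        dn Wd.rho A B ≤ 2 * Wd.rho (T.length + 1) := by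
      intro A B hA hB hBn
      refine le_trans ?_ (sum_rho_le Wd hT3)
      unfold dn
      have hinj : Set.InjOn List.length (↑(sf B \ sf A) : Set (List J)) := by
        intro N hN N' hN' hl
        rw [mem_coe, mem_sdiff] at hN hN'
        exact sf_length_inj hN.1 hN'.1 hl
      rw [← sum_image (f := Wd.rho) hinj]
      refine sum_le_sum_of_subset_of_nonneg ?_ (fun m _ _ => (rho_pos Wd m).le)
      intro m hm
      rw [mem_image] at hm
      obtain ⟨N, hN, rfl⟩ := hm
      rw [mem_sdiff, mem_sf, mem_sf] at hN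
      have h2 := hN.1.1.length_le
      rw [mem_Ico]
      refine ⟨?_, by omega⟩
      by_contra hcon
      push Not at hcon
      exact hN.2 ⟨(suffix_of_le hN.1.1 hB (by omega)).trans hA, hN.1.2⟩
    have h2 := hdn _ _ hT1 hT2 (by rw [hlen])
    have h3 := hdn _ _ hT2 hT1 (hI.len π i)
    linarith only [hT4, h1, h2, h3]

end addresses

section potential

variable {X J : Type} [MetricSpace X] [Fintype X] [DecidableEq X] [Fintype J] [DecidableEq J]
  {Wd : World X} {η : ℝ}

/-- the shift that makes the potential nonnegative -/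
noncomputable def World.K0 (Wd : World X) : ℝ :=
  Wd.A1 * ∑ l : Fin Wd.n, Wd.r l * Real.log (3 * Wd.k) +
    4 / Wd.lam * ((∑ j ∈ Ico 1 (Wd.n + 1), Wd.rho j) * Real.log (Wd.M + 1))

noncomputable def psiW (P : LPar η Wd.k J) (s : St Wd J P.B) (u : X) : ℝ :=
  Wd.K0 - Wd.A1 * (∑ l : Fin Wd.n, Wd.r l * Real.log (SS (Dl Wd.r0 l) (nuC η (s.x l)) u)) -
    4 / Wd.lam * EE (fun π => ∑ N ∈ sf (ad P s.x π u),
      Wd.rho N.length * Real.log (cnt (s.y π) N + 1))

noncomputable def ccW (P : LPar η Wd.k J) (s : St Wd J P.B) : ℝ :=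
  Wd.A1 * (∑ l : Fin Wd.n, Wd.r l * ∑ c, nuC η (s.x l) c) +
    6 * EE (fun π => ∑ i, hgt Wd.rho (s.y π i))

theorem pot_psi (P : LPar η Wd.k J) (p : X → ℝ) (s : St Wd J P.B) :
    ∑ u, p u * psiW P s u + ccW P s = Wd.K0 * ∑ u, p u + Pot P p s := by
  have hlam := lam_pos Wd
  unfold psiW ccW Pot
  have h1 : ∑ l : Fin Wd.n, Wd.r l * FF (Dl Wd.r0 l) p (nuC η (s.x l)) =
      (∑ l : Fin Wd.n, Wd.r l * ∑ c, nuC η (s.x l) c) -
        ∑ u, p u * ∑ l : Fin Wd.n, Wd.r l * Real.log (SS (Dl Wd.r0 l) (nuC η (s.x l)) u) := by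
    unfold FF
    simp_rw [mul_sub, sum_sub_distrib, mul_sum]
    congr 1
    rw [sum_comm]
    refine sum_congr rfl fun u _ => sum_congr rfl fun l _ => ?_
    ring
  have h2 : EE (fun π => pot Wd.rho Wd.lam p (ad P s.x π) (s.y π)) =
      Wd.lam * EE (fun π => ∑ i, hgt Wd.rho (s.y π i)) -
        ∑ u, p u * EE (fun π => ∑ N ∈ sf (ad P s.x π u),
          Wd.rho N.length * Real.log (cnt (s.y π) N + 1)) := by
    unfold pot
    rw [EE_sub, EE_mul]
    congr 1
    rw [EE_sum]
    refine sum_congr rfl fun u _ => ?_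
    rw [EE_mul]
  rw [h1, h2]
  have h3 : 4 / Wd.lam * (Wd.lam * EE (fun π => ∑ i, hgt Wd.rho (s.y π i))) =
      4 * EE (fun π => ∑ i, hgt Wd.rho (s.y π i)) := by
    field_simp
  rw [mul_sub, mul_sub, h3]
  have h4 : ∑ u, p u * (Wd.K0 -
      Wd.A1 * (∑ l : Fin Wd.n, Wd.r l * Real.log (SS (Dl Wd.r0 l) (nuC η (s.x l)) u)) -
      4 / Wd.lam * EE (fun π => ∑ N ∈ sf (ad P s.x π u),
        Wd.rho N.length * Real.log (cnt (s.y π) N + 1))) =
      Wd.K0 * ∑ u, p u -
      Wd.A1 * (∑ u, p u * ∑ l : Fin Wd.n, Wd.r l * Real.log (SS (Dl Wd.r0 l) (nuC η (s.x l)) u)) -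
      4 / Wd.lam * ∑ u, p u * EE (fun π => ∑ N ∈ sf (ad P s.x π u),
        Wd.rho N.length * Real.log (cnt (s.y π) N + 1)) := by
    rw [mul_sum, mul_sum, mul_sum, ← sum_sub_distrib, ← sum_sub_distrib]
    refine sum_congr rfl fun u _ => ?_
    ring
  rw [h4]
  ring

theorem Gam_pos (Wd : World X) : 0 < Wd.Gam := by
  unfold World.Gam
  positivity

theorem A1_pos (Wd : World X) : 0 < Wd.A1 := by
  unfold World.A1
  have h1 := RR_pos' Wd
  have h2 := Gam_pos Wd
  positivity

theorem psiW_nonneg (P : LPar η Wd.k J) {p : X → ℝ} {s : St Wd J P.B} (hI : Inv P p s)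
    (hpk : ∑ u, p u ≤ Wd.k) (u : X) : 0 ≤ psiW P s u := by
  have hk := Wd.hk
  have hA := A1_pos Wd
  have hlam := lam_pos Wd
  have h1 : ∑ l : Fin Wd.n, Wd.r l * Real.log (SS (Dl Wd.r0 l) (nuC η (s.x l)) u) ≤
      ∑ l : Fin Wd.n, Wd.r l * Real.log (3 * Wd.k) := by
    refine sum_le_sum fun l _ => mul_le_mul_of_nonneg_left ?_ (r_pos Wd l).le
    have hb := hI.bal l
    refine Real.log_le_log (SS_pos hb.hν u) ?_
    refine (SS_le (Dl_pm Wd.hr0 l) hb.hν u).trans ?_
    have h2 := sum_nu_le hb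
    have h3 : (e0 : ℝ) = 1 / 20 := rfl
    linarith
  have h2 : EE (fun π => ∑ N ∈ sf (ad P s.x π u),
      Wd.rho N.length * Real.log (cnt (s.y π) N + 1)) ≤
      (∑ j ∈ Ico 1 (Wd.n + 1), Wd.rho j) * Real.log (Wd.M + 1) := by
    refine EE_le_of_le fun π => ?_
    rw [sum_mul]
    have e1 : ∑ N ∈ sf (ad P s.x π u), Wd.rho N.length * Real.log (cnt (s.y π) N + 1) ≤
        ∑ N ∈ sf (ad P s.x π u), Wd.rho N.length * Real.log (Wd.M + 1) :=
      sum_le_sum fun N _ => mul_le_mul_of_nonneg_left (log_cnt_le _ _) (rho_pos Wd _).le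
    refine e1.trans ?_
    have hinj : Set.InjOn List.length (↑(sf (ad P s.x π u)) : Set (List J)) := by
      intro N hN N' hN' hl
      exact sf_length_inj hN hN' hl
    rw [← sum_image (f := fun m => Wd.rho m * Real.log (Wd.M + 1)) hinj]
    refine sum_le_sum_of_subset_of_nonneg ?_ ?_
    · intro m hm
      rw [mem_image] at hm
      obtain ⟨N, hN, rfl⟩ := hm
      rw [mem_sf] at hN
      have h3 := hN.1.length_le.trans (ad_length_le P s.x π u)
      have h4 := List.length_pos_iff.2 hN.2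
      rw [mem_Ico]
      omega
    · intro m _ _
      refine mul_nonneg (rho_pos Wd m).le (Real.log_nonneg ?_)
      have : (0 : ℝ) ≤ Wd.M := Nat.cast_nonneg _
      linarith only []
  have h3 := mul_le_mul_of_nonneg_left h1 hA.le
  have h4 := mul_le_mul_of_nonneg_left h2 (show 0 ≤ 4 / Wd.lam by positivity)
  unfold psiW World.K0
  (clear * - h3 h4; linarith)

theorem ccW_nonneg (P : LPar η Wd.k J) (s : St Wd J P.B) : 0 ≤ ccW P s := by
  have hA := A1_pos Wd
  unfold ccW
  refine add_nonneg (mul_nonneg hA.le (sum_nonneg fun l _ => mul_nonneg (r_pos Wd l).le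
    (sum_nonneg fun c _ => nuC_nonneg P.hη.le _ _))) (mul_nonneg (by norm_num) (EE_nonneg fun π =>
      sum_nonneg fun i _ => hgt_nonneg (fun m => (rho_pos Wd m).le) _))

end potential

section engine

variable {X J : Type} [MetricSpace X] [Fintype X] [DecidableEq X] [Fintype J] [DecidableEq J]
  {Wd : World X} {η : ℝ}

/-- bound of the initial potential -/
noncomputable def World.B0 (Wd : World X) : ℝ :=
  Wd.K0 * Wd.k + 3 * Wd.k * Wd.A1 * ∑ l : Fin Wd.n, Wd.r l

theorem exists_eng [Nonempty X] (P : LPar η Wd.k J) {k : ℕ} (hk : Wd.k = k) (hkM : k ≤ Wd.M)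
    {N : ℕ} (hN : 1 ≤ N) (hN2 : Wd.k / N ≤ e0 / 8) {ε : ℝ}
    (hε : N * Wd.err (Wd.k / N) η (η * Fintype.card J / P.Q) ≤ ε)
    {p0 : X → ℝ} (hp0 : ∀ x, 0 ≤ p0 x) (hp0k : ∑ x, p0 x = k) {Ck : ℝ} (hCk : Wd.CT ≤ Ck) :
    Nonempty (Eng X k Wd.n Wd.WW p0 4 Ck Wd.B0 ε) := by
  obtain ⟨s0, hs0, hs0P, -⟩ := exists_init P hp0 (by rw [hp0k, hk])
  refine ⟨{
    M := Wd.M
    kM := hkM
    Ω := Ord (GG Wd.n J P.B)
    fin := inferInstance
    ne := inferInstance
    S := St Wd J P.B
    loc := fun s π i => loc Wd s.x (s.y π i)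
    na := fun s π i => nodeAddr Wd.n Wd.WW (s.y π i)
    ad := fun s π x => nodeAddr Wd.n Wd.WW (ad P s.x π x)
    psi := psiW P
    cc := ccW P
    Inv := fun p s => ∑ x, p x = k ∧ Inv P p s
    s0 := s0
    inv0 := ⟨hp0k, hs0⟩
    pot0 := ?_
    psi_nonneg := fun p s h x => psiW_nonneg P h.2 (by rw [h.1, hk]) x
    cc_nonneg := fun p s _ => ccW_nonneg P s
    cover := ?_
    geom := fun p s h u hu π i => geom_le P h.2 hu π i
    step := ?_ }⟩
  · rw [pot_psi, hp0k]
    unfold World.B0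
    rw [hk] at hs0P ⊢
    linarith only [hs0P]
  · intro p s h u hu π
    obtain ⟨hlen, i, hi⟩ := h.2.lf π u hu
    refine ⟨i, ?_, ?_⟩
    · simp only [hi]
      exact loc_full P s.x π u hlen
    · simp only [hi]
  · intro p s h q hq hqk
    obtain ⟨s', h1, h2⟩ := request_step P h.2 (by rw [h.1, hk])
      (p' := fun x => ∑ y, q x y) (fun x => sum_nonneg fun y _ => hq x y)
      (by rw [hqk, hk]) hq (fun u => rfl) hN hN2
    have hpush : push (fun x => ∑ y, q x y) q = fun y => ∑ x, q x y := by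
      funext y
      unfold push
      ring
    rw [hpush] at h1 h2
    have hcol : ∑ y, ∑ x, q x y = k := by
      rw [sum_comm]
      exact hqk
    refine ⟨s', ⟨hcol, h1⟩, ?_⟩
    rw [pot_psi, pot_psi, hcol, hqk]
    have e1 : (∑ π : Ord (GG Wd.n J P.B),
        (∑ i, dist (loc Wd s.x (s.y π i)) (loc Wd s'.x (s'.y π i)) +
        ∑ i, dist (nodeAddr Wd.n Wd.WW (s.y π i)) (nodeAddr Wd.n Wd.WW (s'.y π i)) +
        ∑ x, ∑ y, q x y * dist (nodeAddr Wd.n Wd.WW (ad P s.x π x))
          (nodeAddr Wd.n Wd.WW (ad P s'.x π y)))) / (Fintype.card (Ord (GG Wd.n J P.B)) : ℝ) =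
        PhC s s' + EE (fun π => ∑ i, dist (nodeAddr Wd.n Wd.WW (s.y π i))
          (nodeAddr Wd.n Wd.WW (s'.y π i))) +
        ∑ x, ∑ y, q x y * EE (fun π => dist (nodeAddr Wd.n Wd.WW (ad P s.x π x))
          (nodeAddr Wd.n Wd.WW (ad P s'.x π y))) := by
      have : ∑ x, ∑ y, q x y * EE (fun π => dist (nodeAddr Wd.n Wd.WW (ad P s.x π x))
          (nodeAddr Wd.n Wd.WW (ad P s'.x π y))) =
          EE (fun π => ∑ x, ∑ y, q x y * dist (nodeAddr Wd.n Wd.WW (ad P s.x π x))
          (nodeAddr Wd.n Wd.WW (ad P s'.x π y))) := by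
        rw [EE_sum]
        refine sum_congr rfl fun x _ => ?_
        rw [EE_sum]
        refine sum_congr rfl fun y _ => ?_
        rw [EE_mul]
      rw [this]
      unfold PhC
      rw [← EE_add, ← EE_add]
      rfl
    rw [e1]
    have e2 : EE (fun π => ∑ i, dist (nodeAddr Wd.n Wd.WW (s.y π i))
        (nodeAddr Wd.n Wd.WW (s'.y π i))) ≤ TrC s s' := by
      unfold TrC
      exact EE_mono fun π => sum_le_sum fun i _ => dist_node_le Wd _ _
    have e3 : ∑ x, ∑ y, q x y * EE (fun π => dist (nodeAddr Wd.n Wd.WW (ad P s.x π x))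
        (nodeAddr Wd.n Wd.WW (ad P s'.x π y))) ≤ ∑ x, ∑ y, q x y * XC P s.x s'.x x y := by
      refine sum_le_sum fun x _ => sum_le_sum fun y _ => mul_le_mul_of_nonneg_left ?_ (hq x y)
      unfold XC
      refine EE_mono fun π => ?_
      convert dist_ad_le P s.x s'.x π x y
    have e4 : 0 ≤ ∑ x, ∑ y, q x y * dist x y :=
      sum_nonneg fun x _ => sum_nonneg fun y _ => mul_nonneg (hq x y) dist_nonneg
    have e5 := mul_le_mul_of_nonneg_right hCk e4
    (clear * - hε h2 e2 e3 e5; linarith)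

end engine

/-- **The reduction to ultrametric spaces.** -/
theorem R_le_polylog_Rult : ∃ C : ℝ, 0 < C ∧ ∀ k : ℕ, 1 ≤ k →
    R k ≤ ENNReal.ofReal (C * (1 + Real.log k) ^ 5) * Rult k := by
  obtain ⟨C, hC⟩ := CT_le
  refine ⟨16 * max C 1, by positivity, fun k hk => ?_⟩
  haveI : NeZero k := ⟨by omega⟩
  have hlog : 0 ≤ Real.log k := Real.log_nonneg (by exact_mod_cast hk)
  have hpos : 0 < max C 1 * (1 + Real.log k) ^ 5 := by (clear * -; positivity)
  have hB : BayesBound k (4 * (max C 1 * (1 + Real.log k) ^ 5)) := by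
    refine bayesBound_of_engine (by norm_num) hpos.le fun X _ _ s => ?_
    classical
    haveI : Nonempty X := ⟨s 0⟩
    obtain ⟨Wd, hWk, hWM, -⟩ := exists_world X k hk (s 0)
    refine ⟨Wd.n, Wd.WW, Wd.B0, Wd.hn, fun ε hε => ?_⟩
    obtain ⟨η, m, P, N, hN, hN2, herr⟩ := exists_params Wd hε
    refine exists_eng P hWk (by (clear * - hWM; omega)) hN hN2 herr (oc_nonneg s) ?_ ?_
    · have := sum_oc s (fun _ => (1 : ℝ))
      simp only [mul_one, sum_const, card_univ, Fintype.card_fin, nsmul_eq_mul] at this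
      exact this
    · have h1 := hC X Wd
      rw [hWk] at h1
      refine h1.trans ?_
      exact mul_le_mul_of_nonneg_right (le_max_left _ _) (by positivity)
  have h := R_le_of_bayes (by (clear * -; positivity)) hB
  refine h.trans (le_of_eq ?_)
  congr 2
  ring

end Vale.Agent.P304.Dyn
end
end

section

section

/-! S5L: the info step and the `T`-step, with separate inequalities for the tracks and for the
tokens (so that address changes can be weighted by any factor). -/

open Finset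

namespace Vale.Agent.P304.Dyn

variable {X J : Type} [MetricSpace X] [Fintype X] [DecidableEq X] [Fintype J] [DecidableEq J]
  {Wd : World X} {η : ℝ}

/-- the potential of the tracks -/
noncomputable def PotT (P : LPar η Wd.k J) (p : X → ℝ) (s : St Wd J P.B) : ℝ :=
  4 / Wd.lam * EE (fun π => pot Wd.rho Wd.lam p (ad P s.x π) (s.y π))
    + 2 * EE (fun π => ∑ i, hgt Wd.rho (s.y π i))

/-- the potential of the tokens -/
noncomputable def PotF (P : LPar η Wd.k J) (p : X → ℝ) (s : St Wd J P.B) : ℝ :=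
  Wd.A1 * ∑ l : Fin Wd.n, Wd.r l * FF (Dl Wd.r0 l) p (nuC η (s.x l))

/-- coefficient of relabellings in the track inequality -/
noncomputable def World.g32 (Wd : World X) : ℝ := 32 * Real.log (Wd.M + 2) ^ 2

/-- INFO STEP -/
theorem info_step2 [Nonempty X] (P : LPar η Wd.k J) {p p' : X → ℝ} {s : St Wd J P.B}
    (hI : Inv P p s) (hpk : ∑ u, p u ≤ Wd.k) (hp' : ∀ u, 0 ≤ p' u) (hpk' : ∑ u, p' u ≤ Wd.k) :
    ∃ s' : St Wd J P.B, Inv P p' s' ∧
      PhC s s' + TrC s s' + PotT P p' s' ≤ PotT P p' s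
        + Wd.g32 * ∑ u, p' u * XC P s.x s'.x u u ∧
      Wd.Gam * (∑ u, p' u * XC P s.x s'.x u u) + PotF P p' s' ≤ PotF P p' s := by
  have hη := P.hη
  have key := fun l : Fin Wd.n => exists_tokprox (Dl_pm (X := X) Wd.hr0 l) P hp' hpk' (s.x l) (by
    have := sum_nu_le (hI.bal l)
    linarith)
  choose x' hA hB hF using key
  obtain ⟨s', hs'x, hI', hst⟩ := exists_tracks P hI.len hp' hpk' x' hB
  refine ⟨s', hI', ?_⟩
  have t1 := tracks_cost_le P hI hI' (xd := s.x) (fun l j => Or.inl rfl)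
    (fun l => by rw [hs'x]; exact hA l) (fun π => by rw [hs'x]; exact hst π)
  have t0 : EE (fun π => ∑ i, dist (loc Wd s.x (s.y π i)) (loc Wd s.x (s.y π i))) = 0 := by
    simp only [EE, dist_self, sum_const_zero, Fintype.card_numbering, Fintype.card_prod, Fintype.card_fin, Fintype.card_option, zero_div]
  rw [t0, zero_add] at t1
  have t2 := pot_relabel_le P hp' s.x s'.x s.y
  -- relabelling
  set S := ∑ l : Fin Wd.n, Wd.r l * (η * chg (s.x l) (x' l)) with hS
  have t3 : ∑ u, p' u * XC P s.x s'.x u u ≤ 24 * RR Wd.k * (200 * S) := by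
    rw [s5_sum_XC, hs'x]
    have hRR : 0 ≤ 24 * RR Wd.k := by
      have := s5_RR Wd
      (clear * - this; positivity)
    apply mul_le_mul_of_nonneg_left _ hRR
    rw [hS, Finset.mul_sum]
    refine Finset.sum_le_sum fun l _ => ?_
    have e1 := relabel_prox (Dl_pm (X := X) Wd.hr0 l) P l (s.x l) (x' l) (hB l) hpk' (hA l)
    have e2 : ∑ u, p' u * EL P l (s.x l) (x' l) u u ≤ 200 * η * chg (s.x l) (x' l) := e1
    refine (mul_le_mul_of_nonneg_left e2 (s5_r_pos Wd l).le).trans (le_of_eq ?_)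
    ring
  have t4 : ∑ l : Fin Wd.n, Wd.r l * FF (Dl Wd.r0 l) p' (nuC η (x' l)) + S / 2 ≤
      ∑ l : Fin Wd.n, Wd.r l * FF (Dl Wd.r0 l) p' (nuC η (s.x l)) := by
    rw [hS, Finset.sum_div, ← Finset.sum_add_distrib]
    refine Finset.sum_le_sum fun l _ => ?_
    refine le_trans (le_of_eq ?_) (mul_le_mul_of_nonneg_left (hF l) (s5_r_pos Wd l).le)
    ring
  have t5 := mul_le_mul_of_nonneg_left t4 (s5_A1_nonneg Wd)
  have t6 := mul_le_mul_of_nonneg_left t3 (s5_Gam Wd)
  have t7 : Wd.Gam * (24 * RR Wd.k * (200 * S)) = Wd.A1 * (S / 2) := by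
    unfold World.A1
    ring
  rw [t7] at t6
  rw [hs'x] at t1 t2 t6
  rw [mul_add] at t5
  constructor
  · unfold PotT World.g32
    rw [hs'x]
    (clear * - t1 t2; linarith)
  · unfold PotF
    rw [hs'x]
    linarith only [t5, t6]

/-- TRANSPORT STEP -/
theorem transport_step2 (P : LPar η Wd.k J) {p : X → ℝ} {s : St Wd J P.B} (hI : Inv P p s)
    (hpk : ∑ u, p u ≤ Wd.k) {a : X → X → ℝ} (ha : ∀ u v, 0 ≤ a u v)
    (hap : ∀ u, ∑ v, a u v ≤ p u) (hα : ∑ u, ∑ v, a u v ≤ e0 / 8) :
    ∃ s' : St Wd J P.B, Inv P (push p a) s' ∧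
      PhC s s' + TrC s s' + PotT P (push p a) s' ≤ PotT P p s
        + Wd.g32 * (∑ u, push p a u * XC P s.x s'.x u u + ∑ u, ∑ v, a u v * XC P s.x s.x u v)
        + 130 * Wd.G2 * ∑ u, ∑ v, a u v * dist u v ∧
      Wd.Gam * (∑ u, push p a u * XC P s.x s'.x u u + ∑ u, ∑ v, a u v * XC P s.x s.x u v)
        + PotF P (push p a) s' ≤ PotF P p s
        + (Wd.CT - 130 * Wd.G2) * (∑ u, ∑ v, a u v * dist u v)
        + Wd.err (∑ u, ∑ v, a u v) η (η * Fintype.card J / P.Q) := by
  have hη := P.hη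
  have hX : Nonempty X := ⟨Wd.x0⟩
  have hpn : ∀ u, 0 ≤ push p a u := k5_push_nonneg ha hap
  have hps : ∑ u, push p a u ≤ Wd.k := by
    rw [k5_sum_push]
    exact hpk
  obtain ⟨xd, x', hm, hA, hB, hd, hF, hfo⟩ := exists_tokens P hI hpk ha hap hα
  obtain ⟨s', hs'x, hI', hst⟩ := exists_tracks P hI.len hpn hps x' hB
  refine ⟨s', hI', ?_⟩
  have t1 := tracks_cost_le P hI hI' (xd := xd) hm
    (fun l => by rw [hs'x]; exact hA l) (fun π => by rw [hs'x]; exact hst π)
  have t2 := pot_relabel_le P hpn s.x s'.x s.y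
  have t3 := pot_push_le P (p := p) ha s.x s.y
  set α := ∑ u, ∑ v, a u v with hαd
  set Δ := ∑ u, ∑ v, a u v * dist u v with hΔ
  set q := η * Fintype.card J / P.Q with hq
  have hα0 : 0 ≤ α := Finset.sum_nonneg fun u _ => Finset.sum_nonneg fun v _ => ha u v
  have hΔ0 : 0 ≤ Δ := Finset.sum_nonneg fun u _ => Finset.sum_nonneg fun v _ =>
    mul_nonneg (ha u v) dist_nonneg
  have hq0 : 0 ≤ q := by (clear * - hη; positivity)
  have hk := Wd.hk
  have hα1 : α ≤ 1 := by
    refine hα.trans ?_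
    unfold e0
    norm_num
  set S := ∑ l : Fin Wd.n, Wd.r l * (η * chg (xd l) (x' l)) with hS
  set R := ∑ l : Fin Wd.n, Wd.r l with hR
  have hR0 : 0 ≤ R := Finset.sum_nonneg fun l _ => (s5_r_pos Wd l).le
  have hRR : 0 ≤ 24 * RR Wd.k := by
    have := s5_RR Wd
    (clear * - this; positivity)
  -- relabellings
  have r1 : ∑ u, push p a u * XC P s.x s'.x u u ≤
      24 * RR Wd.k * (200 * S + 1200000 * Gk Wd.k * Δ + R * (200 * α ^ 2 + 200 * Wd.k * q)) := by
    have e1 := relabel_total P (x := s.x) (xd := xd) (x' := x') hI.bal hpk ha hap hd hA hB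
    rw [hs'x]
    refine e1.trans (le_of_eq ?_)
    have e3 : ∑ l : Fin Wd.n, Wd.r l * (200 * η * chg (xd l) (x' l)) = 200 * S := by
      rw [hS, Finset.mul_sum]
      refine Finset.sum_congr rfl fun l _ => ?_
      ring
    rw [hR, Finset.sum_mul, e3]
  have r2 : ∑ u, ∑ v, a u v * XC P s.x s.x u v ≤
      24 * RR Wd.k * ((3000 * Gk Wd.k + 64) * Δ + α * (R * (200 * q))) := by
    have e1 : ∀ u v, a u v * XC P s.x s.x u v ≤
        (24 * RR Wd.k * (3000 * Gk Wd.k + 64)) * (a u v * dist u v)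
          + (24 * RR Wd.k * (R * (200 * q))) * a u v := by
      intro u v
      have e2 := mul_le_mul_of_nonneg_left (cut_total P hI.bal hpk u v) (ha u v)
      refine e2.trans (le_of_eq ?_)
      rw [hR, Finset.sum_mul]
      ring
    calc ∑ u, ∑ v, a u v * XC P s.x s.x u v ≤ ∑ u, ∑ v,
          ((24 * RR Wd.k * (3000 * Gk Wd.k + 64)) * (a u v * dist u v)
          + (24 * RR Wd.k * (R * (200 * q))) * a u v) :=
          Finset.sum_le_sum fun u _ => Finset.sum_le_sum fun v _ => e1 u v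
      _ = _ := by
          simp only [Finset.sum_add_distrib, ← Finset.mul_sum]
          rw [← hΔ, ← hαd]
          ring
  -- tokens
  have f1 : ∑ l : Fin Wd.n, Wd.r l * FF (Dl Wd.r0 l) (push p a) (nuC η (x' l)) + S / 2 ≤
      ∑ l : Fin Wd.n, Wd.r l * FF (Dl Wd.r0 l) p (nuC η (s.x l))
        + (600 * Gk Wd.k + 1000 + 64 * Real.log (60 * Wd.k)) * Δ
        + R * (4000 * Wd.k * α ^ 2 + (1 + Wd.k / e0) * (2 * η * (Fintype.card X : ℝ) ^ 2)) := by
    set E := 4000 * Wd.k * α ^ 2 + (1 + Wd.k / e0) * (2 * η * (Fintype.card X : ℝ) ^ 2) with hE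
    have e1 : ∑ l : Fin Wd.n, Wd.r l * FF (Dl Wd.r0 l) (push p a) (nuC η (x' l)) + S / 2 ≤
        ∑ l : Fin Wd.n, (Wd.r l * FF (Dl Wd.r0 l) p (nuC η (s.x l))
          + Wd.r l * (∑ u, ∑ v, a u v * (if Dl Wd.r0 l u v ≤ 1 / 32 then
            600 * (Dl Wd.r0 l u v * gg (Dl Wd.r0 l) p (nuC η (s.x l)) u)
              + 8000 * Dl Wd.r0 l u v ^ 2
            else Real.log (60 * Wd.k))) + Wd.r l * E) := by
      rw [hS, Finset.sum_div, ← Finset.sum_add_distrib]
      refine Finset.sum_le_sum fun l _ => ?_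
      refine le_trans (le_of_eq ?_) ((mul_le_mul_of_nonneg_left (hF l) (s5_r_pos Wd l).le).trans
        (le_of_eq ?_))
      · ring
      · rw [hE]
        ring
    rw [Finset.sum_add_distrib, Finset.sum_add_distrib, ← Finset.sum_mul] at e1
    have e2 : ∑ l : Fin Wd.n, Wd.r l * (∑ u, ∑ v, a u v * (if Dl Wd.r0 l u v ≤ 1 / 32 then
            600 * (Dl Wd.r0 l u v * gg (Dl Wd.r0 l) p (nuC η (s.x l)) u)
              + 8000 * Dl Wd.r0 l u v ^ 2
            else Real.log (60 * Wd.k))) ≤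
        (600 * Gk Wd.k + 1000 + 64 * Real.log (60 * Wd.k)) * Δ := by
      have e3 : ∑ l : Fin Wd.n, Wd.r l * (∑ u, ∑ v, a u v * (if Dl Wd.r0 l u v ≤ 1 / 32 then
            600 * (Dl Wd.r0 l u v * gg (Dl Wd.r0 l) p (nuC η (s.x l)) u)
              + 8000 * Dl Wd.r0 l u v ^ 2
            else Real.log (60 * Wd.k))) = ∑ u, ∑ v, a u v * ∑ l : Fin Wd.n,
          Wd.r l * (if Dl Wd.r0 l u v ≤ 1 / 32 then
            600 * (Dl Wd.r0 l u v * gg (Dl Wd.r0 l) p (nuC η (s.x l)) u)
              + 8000 * Dl Wd.r0 l u v ^ 2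
            else Real.log (60 * Wd.k)) := by
        simp only [Finset.mul_sum]
        rw [Finset.sum_comm]
        refine Finset.sum_congr rfl fun u _ => ?_
        rw [Finset.sum_comm]
        refine Finset.sum_congr rfl fun v _ => Finset.sum_congr rfl fun l _ => ?_
        ring
      rw [e3, hΔ, Finset.mul_sum]
      refine Finset.sum_le_sum fun u _ => ?_
      rw [Finset.mul_sum]
      refine Finset.sum_le_sum fun v _ => ?_
      have hd0 : 0 ≤ dist u v := dist_nonneg
      have hlog : 0 ≤ Real.log (60 * Wd.k) := Real.log_nonneg (by linarith only [hk])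
      have e4 : ∀ l : Fin Wd.n, Wd.r l * (if Dl Wd.r0 l u v ≤ 1 / 32 then
            600 * (Dl Wd.r0 l u v * gg (Dl Wd.r0 l) p (nuC η (s.x l)) u)
              + 8000 * Dl Wd.r0 l u v ^ 2
            else Real.log (60 * Wd.k)) ≤
          600 * (dist u v * gg (Dl Wd.r0 l) p (nuC η (s.x l)) u)
          + 8000 * ((Wd.r0 * 2 ^ (l : ℕ)) *
              (if dist u v / (Wd.r0 * 2 ^ (l : ℕ)) ≤ 1 / 32 then
                (dist u v / (Wd.r0 * 2 ^ (l : ℕ))) ^ 2 else 0))
          + Real.log (60 * Wd.k) *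
            (if dist u v / (Wd.r0 * 2 ^ (l : ℕ)) ≤ 1 / 32 then 0 else Wd.r0 * 2 ^ (l : ℕ)) := by
        intro l
        have hg := gg_nonneg (Dl_pm (X := X) Wd.hr0 l) (hI.bal l) u
        have hDd : dist u v / (Wd.r0 * 2 ^ (l : ℕ)) = Dl Wd.r0 l u v := rfl
        have hrd : Wd.r0 * 2 ^ (l : ℕ) = Wd.r l := rfl
        rw [hDd, hrd]
        split_ifs with h
        · have e5 : Wd.r l * (600 * (Dl Wd.r0 l u v * gg (Dl Wd.r0 l) p (nuC η (s.x l)) u)
              + 8000 * Dl Wd.r0 l u v ^ 2) =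
              600 * ((Wd.r l * Dl Wd.r0 l u v) * gg (Dl Wd.r0 l) p (nuC η (s.x l)) u)
              + 8000 * (Wd.r l * Dl Wd.r0 l u v ^ 2) := by ring
          rw [e5, s5_r_Dl]
          linarith only []
        · have e6 : 0 ≤ 600 * (dist u v * gg (Dl Wd.r0 l) p (nuC η (s.x l)) u) := by (clear * - hg; positivity)
          linarith only [e6]
      have e7 := Finset.sum_le_sum fun (l : Fin Wd.n) (_ : l ∈ univ) => e4 l
      rw [Finset.sum_add_distrib, Finset.sum_add_distrib, ← Finset.mul_sum, ← Finset.mul_sum,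
        ← Finset.mul_sum, ← Finset.mul_sum] at e7
      have g1 := sum_gg_le Wd.hr0 Wd.n (ν := fun l => nuC η (s.x l)) Wd.hk hpk hI.bal u
      have g2 := mul_le_mul_of_nonneg_left g1 hd0
      have g3 := sum_scale_sq_le Wd.hr0 hd0 Wd.n
      have g4 := mul_le_mul_of_nonneg_left (sum_scale_small_le Wd.hr0 hd0 Wd.n) hlog
      have g5 : ∑ l : Fin Wd.n, Wd.r l * (if Dl Wd.r0 l u v ≤ 1 / 32 then
            600 * (Dl Wd.r0 l u v * gg (Dl Wd.r0 l) p (nuC η (s.x l)) u)
              + 8000 * Dl Wd.r0 l u v ^ 2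
            else Real.log (60 * Wd.k)) ≤
          (600 * Gk Wd.k + 1000 + 64 * Real.log (60 * Wd.k)) * dist u v := by
        linarith only [e7, g2, g3, g4]
      refine (mul_le_mul_of_nonneg_left g5 (ha u v)).trans (le_of_eq ?_)
      ring
    (clear * - e1 e2; linarith)
  have f2 := mul_le_mul_of_nonneg_left f1 (s5_A1_nonneg Wd)
  have hGam := s5_Gam Wd
  have r3 := mul_le_mul_of_nonneg_left (add_le_add r1 r2) hGam
  have r5 : Wd.Gam * (24 * RR Wd.k * (200 * S + 1200000 * Gk Wd.k * Δ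
        + R * (200 * α ^ 2 + 200 * Wd.k * q))
      + 24 * RR Wd.k * ((3000 * Gk Wd.k + 64) * Δ + α * (R * (200 * q)))) ≤
      Wd.A1 * (S / 2) + 24 * RR Wd.k * Wd.Gam * (1300000 * Gk Wd.k + 64) * Δ
        + R * (24 * RR Wd.k * Wd.Gam * (200 * α ^ 2 + 400 * Wd.k * q)) := by
    have e1 : Wd.A1 * (S / 2) = 24 * RR Wd.k * Wd.Gam * (200 * S) := by
      unfold World.A1
      ring
    have hc : 0 ≤ 24 * RR Wd.k * Wd.Gam := mul_nonneg hRR hGam
    have e2 : 200 * S + 1200000 * Gk Wd.k * Δ + R * (200 * α ^ 2 + 200 * Wd.k * q)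
        + ((3000 * Gk Wd.k + 64) * Δ + α * (R * (200 * q))) ≤
        200 * S + (1300000 * Gk Wd.k + 64) * Δ + R * (200 * α ^ 2 + 400 * Wd.k * q) := by
      have g1 : 0 ≤ Gk Wd.k * Δ := mul_nonneg (s5_Gk hk) hΔ0
      have g2 : α * (R * (200 * q)) ≤ Wd.k * (R * (200 * q)) :=
        mul_le_mul_of_nonneg_right (hα1.trans hk) (by (clear * - hR0 hη; positivity))
      linarith only [g1, g2]
    have e3 := mul_le_mul_of_nonneg_left e2 hc
    rw [e1]
    linarith only [e3]
  have herr : Wd.err α η q = Wd.A1 * (R * (4000 * Wd.k * α ^ 2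
        + (1 + Wd.k / e0) * (2 * η * (Fintype.card X : ℝ) ^ 2)))
      + R * (24 * RR Wd.k * Wd.Gam * (200 * α ^ 2 + 400 * Wd.k * q)) := by
    unfold World.err
    rw [← Finset.sum_mul, ← hR]
    ring
  rw [herr]
  have hCT : Wd.CT * Δ = Wd.A1 * ((600 * Gk Wd.k + 1000 + 64 * Real.log (60 * Wd.k)) * Δ)
      + 24 * RR Wd.k * Wd.Gam * (1300000 * Gk Wd.k + 64) * Δ + 130 * Wd.G2 * Δ := by
    unfold World.CT
    ring
  rw [hs'x] at t1 t2 r3
  rw [mul_add, mul_add, mul_add] at f2
  constructor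
  · unfold PotT World.g32
    rw [hs'x]
    (clear * - t1 t2 t3 hfo; linarith)
  · have hCT2 : (Wd.CT - 130 * Wd.G2) * Δ = Wd.A1 * ((600 * Gk Wd.k + 1000
        + 64 * Real.log (60 * Wd.k)) * Δ)
        + 24 * RR Wd.k * Wd.Gam * (1300000 * Gk Wd.k + 64) * Δ := by
      rw [sub_mul, hCT]
      ring
    rw [hCT2]
    unfold PotF
    rw [hs'x]
    linarith only [f2, r3, r5]

end Vale.Agent.P304.Dyn
end
end

section

section

/-! S6L: triangle inequalities, initial state, substep in the form needed by `compose_steps`. -/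

set_option linter.all false

open Finset

namespace Vale.Agent.P304.Dyn

variable {X J : Type} [MetricSpace X] [Fintype X] [DecidableEq X] [Fintype J] [DecidableEq J]
  {Wd : World X} {η : ℝ}

theorem XC_triangleL (P : LPar η Wd.k J) (x x' x'' : Fin Wd.n → Conf X J) (u v w : X) :
    XC P x x'' u w ≤ XC P x x' u v + XC P x' x'' v w := by
  unfold XC
  rw [← EE_add]
  refine EE_mono fun π => ?_
  rw [← sum_add_distrib]
  refine sum_le_sum fun l _ => ?_
  rw [← mul_add]
  have hw : 0 ≤ Wd.wt l := by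
    unfold World.wt World.r
    have h1 := RR_ge Wd.hk
    have h2 := Wd.hr0
    (clear * - h1 h2; positivity)
  refine mul_le_mul_of_nonneg_left ?_ hw
  by_cases h1 : labS P x π l u = labS P x' π l v
  · by_cases h2 : labS P x' π l v = labS P x'' π l w
    · rw [if_pos (h1.trans h2), if_pos h1, if_pos h2]
      norm_num
    · rw [if_neg h2]
      split_ifs <;> norm_num
  · rw [if_neg h1]
    split_ifs <;> norm_num

theorem PhC_triangleL {B : ℕ} (s s' s'' : St Wd J B) : PhC s s'' ≤ PhC s s' + PhC s' s'' := by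
  unfold PhC
  rw [← EE_add]
  refine EE_mono fun π => ?_
  rw [← sum_add_distrib]
  exact sum_le_sum fun i _ => dist_triangle _ _ _

theorem TrC_triangleL {B : ℕ} (s s' s'' : St Wd J B) : TrC s s'' ≤ TrC s s' + TrC s' s'' := by
  unfold TrC
  rw [← EE_add]
  refine EE_mono fun π => ?_
  rw [← sum_add_distrib]
  refine sum_le_sum fun i _ => ?_
  have h1 := dn_triangle (fun m => (rho_pos Wd m).le) (s.y π i) (s'.y π i) (s''.y π i)
  have h2 := dn_triangle (fun m => (rho_pos Wd m).le) (s''.y π i) (s'.y π i) (s.y π i)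
  linarith only [h1, h2]

/-- initial state -/
theorem exists_initL [Nonempty X] (P : LPar η Wd.k J) {p : X → ℝ} (hp : ∀ u, 0 ≤ p u)
    (hpk : ∑ u, p u ≤ Wd.k) :
    ∃ s : St Wd J P.B, Inv P p s ∧ PotT P p s ≤ 0 ∧
      PotF P p s ≤ Wd.A1 * (3 * Wd.k) * ∑ l : Fin Wd.n, Wd.r l := by
  have hk := Wd.hk
  have hη := P.hη
  set x0 : Conf X J := fun _ => (Wd.x0, false) with hx0
  have hnu : ∀ c, nuC η x0 c = 0 := by
    intro c
    unfold nuC
    rw [filter_eq_empty_iff.2]
    · simp
    · intro j _ h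
      rw [hx0, Prod.mk.injEq] at h
      exact absurd h.2 (by simp)
  have key := fun l : Fin Wd.n => exists_tokprox (Dl_pm (X := X) Wd.hr0 l) P hp hpk x0 (by
    simp only [hnu, sum_const_zero]
    positivity)
  choose x' hA hB hF using key
  set y0 : Ord (GG Wd.n J P.B) → Fin Wd.M → List J := fun _ _ => [] with hy0
  set s00 : St Wd J P.B := ⟨fun _ => x0, y0⟩ with hs00
  obtain ⟨s', hs'x, hI', hst⟩ := exists_tracks P (s := s00)
    (fun π i => by simp only [hs00, hy0, List.length_nil, zero_le]) hp hpk x' hB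
  have hlam := lam_pos Wd
  refine ⟨s', hI', ?_, ?_⟩
  · unfold PotT
    rw [hs'x, ← EE_mul, ← EE_mul, ← EE_add]
    haveI : Nonempty (Ord (GG Wd.n J P.B)) := inferInstance
    refine EE_le_of_le fun π => ?_
    have h1 := hst π
    have h2 : pot Wd.rho Wd.lam p (ad P x' π) (s00.y π) ≤ 0 := by
      unfold pot
      have e1 : ∑ i : Fin Wd.M, hgt Wd.rho (s00.y π i) = 0 := by
        refine sum_eq_zero fun i _ => ?_
        simp only [hgt, hs00, hy0, sf_nil, sum_empty]
      rw [e1, mul_zero, zero_sub, neg_nonpos]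
      exact sum_nonneg fun u _ => mul_nonneg (hp u) (sum_nonneg fun N _ =>
        mul_nonneg (rho_pos Wd _).le (log_cnt_nonneg _ _))
    have h3 : ∑ i, hgt Wd.rho (s'.y π i) ≤ ∑ i, dn Wd.rho (s00.y π i) (s'.y π i) := by
      refine sum_le_sum fun i _ => ?_
      have e1 := hgt_sub_hgt Wd.rho (s00.y π i) (s'.y π i)
      have e2 := dn_nonneg (fun m => (rho_pos Wd m).le) (s'.y π i) (s00.y π i)
      have e3 : hgt Wd.rho (s00.y π i) = 0 := by
        simp [hs00, hy0, hgt, sf_nil]
      linarith only [e1, e2, e3]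
    have h4 : 0 ≤ ∑ i, dn Wd.rho (s00.y π i) (s'.y π i) :=
      sum_nonneg fun i _ => dn_nonneg (fun m => (rho_pos Wd m).le) _ _
    set Dn := ∑ i, dn Wd.rho (s00.y π i) (s'.y π i) with hDn
    set q' := pot Wd.rho Wd.lam p (ad P x' π) (s'.y π) with hq'
    have h5 : q' ≤ -(Wd.lam * Dn) := by linarith only [h2, h1]
    have h6 : 4 / Wd.lam * q' ≤ 4 / Wd.lam * (-(Wd.lam * Dn)) :=
      mul_le_mul_of_nonneg_left h5 (by positivity)
    have h7 : 4 / Wd.lam * (-(Wd.lam * Dn)) = -(4 * Dn) := by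
      field_simp
    linarith only [h3, h4, h6, h7]
  · unfold PotF
    rw [hs'x, mul_assoc Wd.A1]
    have hA1 := s5_A1_nonneg Wd
    refine mul_le_mul_of_nonneg_left ?_ hA1
    rw [mul_sum]
    refine sum_le_sum fun l _ => ?_
    rw [mul_comm (3 * Wd.k)]
    refine mul_le_mul_of_nonneg_left ?_ (s5_r_pos Wd l).le
    have h1 := hF l
    have h2 : 0 ≤ η / 2 * (chg x0 (x' l) : ℝ) := by (clear * - hη; positivity)
    have h3 : FF (Dl Wd.r0 l) p (nuC η x0) ≤ 3 * Wd.k := by
      unfold FF SS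
      simp only [hnu, mul_zero, sum_const_zero, add_zero, zero_sub]
      rw [← sum_mul]
      have e1 : -Real.log e0 ≤ 3 := by
        unfold e0
        rw [one_div, Real.log_inv, neg_neg]
        have : Real.log 20 ≤ 3 := by
          rw [Real.log_le_iff_le_exp (by norm_num)]
          have h := Real.exp_one_gt_d9
          have h2 : Real.exp 3 = Real.exp 1 ^ 3 := by
            rw [← Real.exp_nat_mul]
            norm_num
          rw [h2]
          have h3 : (2.7182818283 : ℝ) ^ 3 ≤ Real.exp 1 ^ 3 :=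
            pow_le_pow_left₀ (by norm_num) h.le 3
          have h4 : (20 : ℝ) ≤ 2.7182818283 ^ 3 := by norm_num
          linarith only [h3]
        exact this
      have e2 : 0 ≤ ∑ u, p u := sum_nonneg fun u _ => hp u
      nlinarith only [hpk, e1, e2]
    linarith

end Vale.Agent.P304.Dyn
end
end

section

section

/-! # P304-Dyn: a good policy for every prior, weighted version -/

set_option linter.all false

open Finset MeasureTheory
open scoped NNReal ENNReal

namespace Vale.Agent.P304.Dyn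

open Vale.Agent.P304

/-- the numerical combination of the estimates. -/
theorem combineL {Ω ι : Type} [Fintype Ω] [Nonempty Ω] (F : Finset ι) {w : ι → ℝ}
    (hw : ∀ σ ∈ F, 0 ≤ w σ) (hw1 : ∑ σ ∈ F, w σ = 1) (re ph vi vp op av : Ω → ι → ℝ)
    {D Cg c' K B Ck O th La : ℝ} (hCg : 1 ≤ Cg) (hc' : 1 ≤ c') (hth : 1 ≤ th)
    (hthL : c' ≤ th * La)
    (h1 : ∀ ω, ∀ σ ∈ F, w σ * re ω σ ≤ w σ * (D + ph ω σ + Cg * vi ω σ + Cg * vp ω σ + Cg * K))
    (h2 : ∑ ω, ∑ σ ∈ F, w σ * vp ω σ ≤ ∑ ω, ∑ σ ∈ F, w σ * (c' * op ω σ + 1))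
    (h3 : ∀ ω, ∀ σ ∈ F, op ω σ ≤ K + av ω σ)
    (h4 : ∑ ω, ∑ σ ∈ F, w σ * (ph ω σ + vi ω σ + La * av ω σ)
      ≤ (Fintype.card Ω : ℝ) * (B + Ck * O + 1))
    (hph : ∀ ω, ∀ σ ∈ F, 0 ≤ ph ω σ) (hvi : ∀ ω, ∀ σ ∈ F, 0 ≤ vi ω σ)
    (hav : ∀ ω, ∀ σ ∈ F, 0 ≤ av ω σ) :
    ∃ ω, ∑ σ ∈ F, w σ * re ω σ
      ≤ Cg * th * Ck * O + (D + Cg * K + Cg * c' * K + Cg + Cg * th * (|B| + 1)) := by
  classical
  have hCg0 : 0 ≤ Cg := by linarith only [hCg]
  have hc0 : 0 ≤ c' := by linarith only [hc']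
  have hth0 : 0 ≤ th := by linarith only [hth]
  set T := Cg * th * Ck * O + (D + Cg * K + Cg * c' * K + Cg + Cg * th * (|B| + 1)) with hT
  have hsumle : ∑ ω, ∑ σ ∈ F, w σ * re ω σ ≤ ∑ ω : Ω, T := by
    have e1 : ∑ ω, ∑ σ ∈ F, w σ * re ω σ
        ≤ ∑ ω, ∑ σ ∈ F, w σ * (D + Cg * K + ph ω σ + Cg * vi ω σ)
          + Cg * ∑ ω, ∑ σ ∈ F, w σ * vp ω σ := by
      rw [Finset.mul_sum, ← Finset.sum_add_distrib]
      refine Finset.sum_le_sum fun ω _ => ?_
      rw [Finset.mul_sum, ← Finset.sum_add_distrib]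
      refine Finset.sum_le_sum fun σ hσ => ?_
      have := h1 ω σ hσ
      linarith
    have e2 := mul_le_mul_of_nonneg_left h2 hCg0
    have e3 : ∑ ω, ∑ σ ∈ F, w σ * (D + Cg * K + ph ω σ + Cg * vi ω σ)
        + Cg * ∑ ω, ∑ σ ∈ F, w σ * (c' * op ω σ + 1)
        ≤ ∑ ω : Ω, ∑ σ ∈ F, w σ * (D + Cg * K + Cg * c' * K + Cg)
          + Cg * th * ∑ ω, ∑ σ ∈ F, w σ * (ph ω σ + vi ω σ + La * av ω σ) := by
      rw [Finset.mul_sum, Finset.mul_sum, ← Finset.sum_add_distrib, ← Finset.sum_add_distrib]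
      refine Finset.sum_le_sum fun ω _ => ?_
      rw [Finset.mul_sum, Finset.mul_sum, ← Finset.sum_add_distrib, ← Finset.sum_add_distrib]
      refine Finset.sum_le_sum fun σ hσ => ?_
      have f1 := h3 ω σ hσ
      have f2 : Cg ≤ Cg * th := le_mul_of_one_le_right hCg0 hth
      have f3 : ph ω σ ≤ Cg * th * ph ω σ :=
        le_mul_of_one_le_left (hph ω σ hσ) (by linarith only [hCg, f2])
      have f4 : Cg * vi ω σ ≤ Cg * th * vi ω σ :=
        mul_le_mul_of_nonneg_right f2 (hvi ω σ hσ)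
      have f5 : Cg * c' * op ω σ ≤ Cg * c' * (K + av ω σ) :=
        mul_le_mul_of_nonneg_left f1 (mul_nonneg hCg0 hc0)
      have f55 : Cg * (c' * av ω σ) ≤ Cg * (th * La * av ω σ) :=
        mul_le_mul_of_nonneg_left (mul_le_mul_of_nonneg_right hthL (hav ω σ hσ)) hCg0
      have f6 : (D + Cg * K + ph ω σ + Cg * vi ω σ) + Cg * (c' * op ω σ + 1)
          ≤ (D + Cg * K + Cg * c' * K + Cg) + Cg * th * (ph ω σ + vi ω σ + La * av ω σ) := by
        linarith only [f3, f4, f5, f55]
      have f7 := mul_le_mul_of_nonneg_left f6 (hw σ hσ)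
      linarith only [f7]
    have e4 : ∑ ω : Ω, ∑ σ ∈ F, w σ * (D + Cg * K + Cg * c' * K + Cg)
        = (Fintype.card Ω : ℝ) * (D + Cg * K + Cg * c' * K + Cg) := by
      simp only [← Finset.sum_mul, hw1, one_mul, Finset.sum_const, Finset.card_univ, nsmul_eq_mul]
    have e5 := mul_le_mul_of_nonneg_left h4 (mul_nonneg hCg0 hth0)
    have e6 : ∑ ω : Ω, T = (Fintype.card Ω : ℝ) * T := by
      simp only [Finset.sum_const, Finset.card_univ, nsmul_eq_mul]
    have e7 : Cg * th * ((Fintype.card Ω : ℝ) * (B + Ck * O + 1))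
        ≤ Cg * th * ((Fintype.card Ω : ℝ) * (|B| + Ck * O + 1)) := by
      have := le_abs_self B
      (clear ι F w hw hw1 re ph vi vp op av D c' K La hc' hthL h1 h2 h3 h4 hph hvi hav hCg0 hc0 hth0 T hT e1 e2 e3 e4 e5 e6; gcongr)
    have e8 : (Fintype.card Ω : ℝ) * T = (Fintype.card Ω : ℝ) * (D + Cg * K + Cg * c' * K + Cg)
        + Cg * th * ((Fintype.card Ω : ℝ) * (|B| + Ck * O + 1)) := by
      rw [hT]; ring
    rw [e6, e8]
    linarith only [e1, e2, e3, e4, e5, e7]
  obtain ⟨ω, -, hω⟩ := Finset.exists_le_of_sum_le Finset.univ_nonempty hsumle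
  exact ⟨ω, hω⟩

variable {X : Type} [MetricSpace X] [Fintype X] {k n : ℕ} {W : Fin n → {x : ℝ≥0 // 0 < x}}

theorem bayes_of_engineL [NeZero k] (s : Fin k → X) (hn : 1 ≤ n) {Cg La Ck B : ℝ} (hCg : 1 ≤ Cg)
    (hCk : 0 ≤ Ck) (heng : ∀ ε : ℝ, 0 < ε → Nonempty (EngL X k n W (oc s) Cg La Ck B ε))
    {c : ℝ≥0} (hc1 : (1 : ℝ) ≤ c) (hc : Rult k < c) {th : ℝ} (hth : 1 ≤ th)
    (hthL : 2 * (c : ℝ) - 1 ≤ th * La) :
    ∃ B' : ℝ, 0 ≤ B' ∧ ∀ (F : Finset (List X)) (w : List X → ℝ), (∀ σ ∈ F, 0 ≤ w σ) →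
      ∑ σ ∈ F, w σ = 1 → ∃ a : List X → Fin k,
        ∑ σ ∈ F, w σ * policyCost s a σ ≤
          (Cg * th * Ck) * ∑ σ ∈ F, w σ * opt s σ + B' := by
  classical
  obtain ⟨D, hD0, hD⟩ := exists_mdist_bound X k
  obtain ⟨Wm, hWm⟩ : ∃ Wm : ℝ, Wm = ∑ j, ((W j).1 : ℝ) := ⟨_, rfl⟩
  have hWm0 : 0 ≤ Wm := by rw [hWm]; exact Finset.sum_nonneg fun j _ => NNReal.coe_nonneg _
  have hc2 : (1:ℝ) ≤ 2 * (c:ℝ) - 1 := by linarith only [hc1]
  have hCg0 : (0:ℝ) ≤ Cg := by linarith only [hCg]
  have hk0 : (0:ℝ) ≤ k := Nat.cast_nonneg k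
  have hth0 : (0:ℝ) ≤ th := by linarith only [hth]
  have hcc0' : (0:ℝ) ≤ 2 * (c:ℝ) - 1 := by linarith only [hc1]
  refine ⟨D + Cg * (k * Wm) + Cg * (2 * (c:ℝ) - 1) * (k * Wm) + Cg + Cg * th * (|B| + 1),
    by (clear * - hD0 hCg hWm0 hc2 hth; positivity), ?_⟩
  intro F w hw hw1
  -- the engine
  set N : ℕ := F.sup List.length with hN
  have hNle : ∀ σ ∈ F, σ.length ≤ N := fun σ hσ => Finset.le_sup (f := List.length) hσ
  have hεpos : (0:ℝ) < 1 / (N + 1) := by (clear * -; positivity)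
  obtain ⟨E⟩ := heng (1 / (N + 1)) hεpos
  choose cc hcc0 hcc1 hcc2 using fun σ : List X => exists_opos (k := k) s σ
  obtain ⟨st, hst0, hInv, hstep⟩ := exists_statesL E hw (c := cc) (fun σ _ => hcc0 σ)
  have hexp := expected_costL E hCk hεpos.le hw hw1 (fun σ _ => hcc0 σ) hNle hst0 hInv hstep
  -- nonempty set of tracks
  have hMpos : 0 < E.M := lt_of_lt_of_le (Nat.pos_of_ne_zero (NeZero.ne k)) E.kM
  set i0 : Fin E.M := ⟨0, hMpos⟩ with hi0
  set e₀ : Fin k → Fin E.M := Fin.castLE E.kM with he₀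
  have he₀inj : Function.Injective e₀ := Fin.castLE_injective E.kM
  -- riding data for a seed
  set b : E.Ω → List X → Addr n W := fun ω h => E.ad (st h) ω (h.getLastD (s 0)) with hb
  set istar : E.Ω → List X → Fin E.M := fun ω h =>
    if hh : ∃ i, E.loc (st h) ω i = h.getLastD (s 0) ∧ E.na (st h) ω i = b ω h
    then Classical.choose hh else i0 with histar
  set V0 : Fin k → Addr n W := fun j => ⟨fun _ => ((j : ℕ), 0)⟩ with hV0
  -- the virtual policy
  obtain ⟨aU, haU⟩ := exists_policy_bayes V0 (good_dummy hn W hc1 hc)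
    ((Finset.univ : Finset E.Ω) ×ˢ F) (fun z => max (w z.2) 0) (fun z => le_max_right _ _)
    (fun z => bseq (b z.1) z.2)
  rw [Finset.sum_product, Finset.sum_product] at haU
  have hmax : ∀ σ ∈ F, max (w σ) 0 = w σ := fun σ hσ => max_eq_left (hw σ hσ)
  have haU' : ∑ ω : E.Ω, ∑ σ ∈ F, w σ * policyCost V0 aU (bseq (b ω) σ)
      ≤ ∑ ω : E.Ω, ∑ σ ∈ F, w σ * ((2 * c - 1) * opt V0 (bseq (b ω) σ) + 1) := by
    have e1 : ∀ (f : E.Ω → List X → ℝ), ∑ ω : E.Ω, ∑ σ ∈ F, max (w σ) 0 * f ω σ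
        = ∑ ω : E.Ω, ∑ σ ∈ F, w σ * f ω σ := by
      intro f
      exact Finset.sum_congr rfl fun ω _ => Finset.sum_congr rfl fun σ hσ => by rw [hmax σ hσ]
    have e2 := e1 fun ω σ => policyCost V0 aU (bseq (b ω) σ)
    have e3 := e1 fun ω σ => (2 * c - 1) * opt V0 (bseq (b ω) σ) + 1
    rw [← e2, ← e3]
    exact haU
  -- the real policies
  choose a ha using fun ω : E.Ω => rideM (fun h => E.loc (st h) ω) (fun h => E.na (st h) ω)
    (b ω) (istar ω) hCg0 e₀ he₀inj s V0 aU
  -- path-wise terms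
  set ph : E.Ω → List X → ℕ → ℝ := fun ω σ t =>
    ∑ i, dist (E.loc (st (σ.take t)) ω i) (E.loc (st (σ.take (t + 1))) ω i) with hph
  set vi : E.Ω → List X → ℕ → ℝ := fun ω σ t =>
    ∑ i, dist (E.na (st (σ.take t)) ω i) (E.na (st (σ.take (t + 1))) ω i) with hvi
  set av : E.Ω → List X → ℕ → ℝ := fun ω σ t =>
    ∑ j, dist (E.ad (st (σ.take t)) ω (cc σ t j))
          (E.ad (st (σ.take (t + 1))) ω (cc σ (t + 1) j)) with hav
  have hlast : ∀ (h : List X) (r x : X), (h ++ [r]).getLastD x = r := by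
    intro h r x; simp
  -- cost of the real policy
  have hcost : ∀ ω, ∀ σ ∈ F, w σ * policyCost s (a ω) σ ≤ w σ * (D
      + ∑ t ∈ range σ.length, ph ω σ t + Cg * ∑ t ∈ range σ.length, vi ω σ t
      + Cg * policyCost V0 aU (bseq (b ω) σ) + Cg * (k * Wm)) := by
    intro ω σ hσ
    rcases (hw σ hσ).lt_or_eq with hpos | hzero
    · refine mul_le_mul_of_nonneg_left ?_ hpos.le
      refine (ha ω σ ?_).trans ?_
      · intro h r hh
        have hwt : 0 < wt F w (h ++ [r]) := wt_pos_of_mem hw hσ hpos hh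
        have hI := hInv (h ++ [r]) hwt
        have h1 : 1 ≤ pp F w cc (h ++ [r]) r := one_le_pp hw (fun σ _ => hcc1 σ) hwt
        have hex : ∃ i, E.loc (st (h ++ [r])) ω i = (h ++ [r]).getLastD (s 0) ∧
            E.na (st (h ++ [r])) ω i = b ω (h ++ [r]) := by
          obtain ⟨i, hi1, hi2⟩ := E.cover _ _ hI r h1 ω
          refine ⟨i, by rw [hlast]; exact hi1, ?_⟩
          simp only [hb, hlast]
          exact hi2
        have hchoose := Classical.choose_spec hex
        have heq : istar ω (h ++ [r]) = Classical.choose hex := by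
          simp only [histar]
          rw [dif_pos hex]
        refine ⟨?_, ?_, ?_⟩
        · rw [heq, hchoose.1, hlast]
        · rw [heq]; exact hchoose.2
        · intro i
          have := E.geom _ _ hI r h1 ω i
          simp only [hb, hlast]
          exact this
      · have h1 := hD s (fun j => E.loc (st []) ω (e₀ j))
        have h2 : ∑ j, dist (V0 j) (E.na (st []) ω (e₀ j)) ≤ k * Wm := by
          refine (Finset.sum_le_sum fun j _ => dist_addr_le _ _).trans (le_of_eq ?_)
          simp only [sum_const, card_univ, Fintype.card_fin, nsmul_eq_mul, hWm]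
        have h3 := mul_le_mul_of_nonneg_left h2 hCg0
        simp only [hph, hvi]
        linarith only [h1, h3]
    · rw [← hzero]; simp
  -- the virtual optimum
  have hopt : ∀ ω, ∀ σ ∈ F, opt V0 (bseq (b ω) σ) ≤ k * Wm + ∑ t ∈ range σ.length, av ω σ t := by
    intro ω σ hσ
    have h1 := opt_le_config V0 (fun t j => E.ad (st (σ.take t)) ω (cc σ t j)) (bseq (b ω) σ) (by
      intro t ht
      rw [bseq_length] at ht
      obtain ⟨j, hj⟩ := hcc1 σ t ht
      refine ⟨j, ?_⟩
      simp only [bseq, List.getElem_ofFn, hb]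
      rw [hj]
      have e1 : σ.take (t + 1) = σ.take t ++ [σ[t]] := by
        rw [List.take_succ_eq_append_getElem ht]
      rw [e1, hlast])
    rw [bseq_length] at h1
    have h2 : ∑ j, dist (V0 j) (E.ad (st (σ.take 0)) ω (cc σ 0 j)) ≤ k * Wm := by
      refine (Finset.sum_le_sum fun j _ => dist_addr_le _ _).trans (le_of_eq ?_)
      simp only [sum_const, card_univ, Fintype.card_fin, nsmul_eq_mul, hWm]
    simp only [hav]
    linarith only [h1, h2]
  -- averages over the seeds
  have hn'pos : (0:ℝ) < (Fintype.card E.Ω : ℝ) := by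
    exact_mod_cast Fintype.card_pos
  have h4 : ∑ ω : E.Ω, ∑ σ ∈ F, w σ * (∑ t ∈ range σ.length, ph ω σ t
      + ∑ t ∈ range σ.length, vi ω σ t + La * ∑ t ∈ range σ.length, av ω σ t)
      ≤ (Fintype.card E.Ω : ℝ) * (B + Ck * (∑ σ ∈ F, w σ * opt s σ) + 1) := by
    have e1 : ∑ σ ∈ F, w σ * ∑ t ∈ range σ.length,
        (∑ ω, (ph ω σ t + vi ω σ t + La * av ω σ t)) / (Fintype.card E.Ω : ℝ)
        = (∑ ω : E.Ω, ∑ σ ∈ F, w σ * (∑ t ∈ range σ.length, ph ω σ t
      + ∑ t ∈ range σ.length, vi ω σ t + La * ∑ t ∈ range σ.length, av ω σ t))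
          / (Fintype.card E.Ω : ℝ) := by
      rw [Finset.sum_comm, Finset.sum_div]
      refine Finset.sum_congr rfl fun σ _ => ?_
      rw [← Finset.mul_sum, mul_div_assoc, ← Finset.sum_div, Finset.sum_comm]
      simp only [Finset.sum_add_distrib, ← Finset.mul_sum]
    have e2 : ∑ σ ∈ F, w σ * ∑ t ∈ range σ.length, ∑ j, dist (cc σ t j) (cc σ (t + 1) j)
        ≤ ∑ σ ∈ F, w σ * opt s σ :=
      Finset.sum_le_sum fun σ hσ => mul_le_mul_of_nonneg_left (hcc2 σ) (hw σ hσ)
    have e3 : (N : ℝ) * (1 / (N + 1)) ≤ 1 := by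
      rw [mul_one_div, div_le_one (by (clear * -; positivity))]
      linarith only []
    have e4 := mul_le_mul_of_nonneg_left e2 hCk
    have e5 : (∑ ω : E.Ω, ∑ σ ∈ F, w σ * (∑ t ∈ range σ.length, ph ω σ t
      + ∑ t ∈ range σ.length, vi ω σ t + La * ∑ t ∈ range σ.length, av ω σ t))
          / (Fintype.card E.Ω : ℝ) ≤ B + Ck * (∑ σ ∈ F, w σ * opt s σ) + 1 := by
      rw [← e1]
      refine le_trans hexp ?_
      linarith only [e3, e4]
    rw [div_le_iff₀ hn'pos] at e5
    linarith only [e5]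
  haveI : Nonempty E.Ω := E.ne
  obtain ⟨ω, hω⟩ := combineL F hw hw1 (fun ω σ => policyCost s (a ω) σ)
    (fun ω σ => ∑ t ∈ range σ.length, ph ω σ t) (fun ω σ => ∑ t ∈ range σ.length, vi ω σ t)
    (fun ω σ => policyCost V0 aU (bseq (b ω) σ)) (fun ω σ => opt V0 (bseq (b ω) σ))
    (fun ω σ => ∑ t ∈ range σ.length, av ω σ t) hCg hc2 hth hthL hcost haU' hopt h4
    (fun ω σ _ => Finset.sum_nonneg fun t _ => Finset.sum_nonneg fun i _ => dist_nonneg)
    (fun ω σ _ => Finset.sum_nonneg fun t _ => Finset.sum_nonneg fun i _ => dist_nonneg)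
    (fun ω σ _ => Finset.sum_nonneg fun t _ => Finset.sum_nonneg fun i _ => dist_nonneg)
  exact ⟨a ω, hω⟩

theorem ratio_le_of_bayes_const {X : Type} [MetricSpace X] {k : ℕ} [NeZero k] (s : Fin k → X)
    {A : ℝ} (hA : 0 ≤ A) (H : ∃ B : ℝ, ∀ (F : Finset (List X)) (w : List X → ℝ),
      (∀ σ ∈ F, 0 ≤ w σ) → ∑ σ ∈ F, w σ = 1 → ∃ a : List X → Fin k,
        ∑ σ ∈ F, w σ * policyCost s a σ ≤ A * (∑ σ ∈ F, w σ * opt s σ) + B)
    (hfin : Finite X) :
    ratio s ≤ ENNReal.ofReal A := by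
  obtain ⟨B, hB⟩ := H
  have hgood : Good s A B Set.univ := by
    refine good_of_finite s _ _ fun F => good_of_bayes s _ _ F fun w hw hw1 => ?_
    obtain ⟨a, ha⟩ := hB F w (fun σ _ => hw σ) hw1
    refine ⟨a, ha.trans (le_of_eq ?_)⟩
    simp only [mul_add]
    rw [Finset.sum_add_distrib, ← Finset.sum_mul, hw1, one_mul, Finset.mul_sum]
    congr 1
    exact Finset.sum_congr rfl fun σ _ => by ring
  have h2 : IsCompetitive s ((A.toNNReal : ℝ≥0) : ℝ) := by
    rw [isCompetitive_iff]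
    refine ⟨B, hgood.mono ?_ le_rfl⟩
    rw [Real.coe_toNNReal _ hA]
  exact (ratio_le h2).trans (le_of_eq rfl)

/-- **Final step**, weighted version. -/
theorem R_le_of_engineL {k : ℕ} [NeZero k] {Cg La Ck th : ℝ} (hCg : 1 ≤ Cg) (hCk : 0 ≤ Ck)
    (hth : 1 ≤ th) {c : ℝ≥0} (hc1 : (1 : ℝ) ≤ c) (hc : Rult k < c)
    (hthL : 2 * (c : ℝ) - 1 ≤ th * La)
    (heng : ∀ (X : Type) [MetricSpace X] [Fintype X] (s : Fin k → X),
      ∃ (n : ℕ) (W : Fin n → {x : ℝ≥0 // 0 < x}) (B : ℝ), 1 ≤ n ∧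
        ∀ ε : ℝ, 0 < ε → Nonempty (EngL X k n W (oc s) Cg La Ck B ε)) :
    R k ≤ ENNReal.ofReal (2 * (Cg * th * Ck)) := by
  have h1 : Rfin k ≤ ENNReal.ofReal (Cg * th * Ck) := by
    refine iSup_le fun X => iSup_le fun _ => iSup_le fun hX => iSup_le fun _ => iSup_le fun s => ?_
    haveI : Fintype X := Fintype.ofFinite X
    obtain ⟨n, W, B, hn, h⟩ := heng X s
    obtain ⟨B', -, h'⟩ := bayes_of_engineL s hn hCg hCk h hc1 hc hth hthL
    exact ratio_le_of_bayes_const s (by (clear * - hCg hth hCk; positivity)) ⟨B', h'⟩ inferInstance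
  calc R k ≤ 2 * Rfin k - 1 := R_le
    _ ≤ 2 * Rfin k := tsub_le_self
    _ ≤ 2 * ENNReal.ofReal (Cg * th * Ck) := by (clear * - h1; gcongr)
    _ = ENNReal.ofReal (2 * (Cg * th * Ck)) := by
      rw [ENNReal.ofReal_mul (by norm_num : (0:ℝ) ≤ 2)]
      simp only [ENNReal.ofReal_ofNat]

end Vale.Agent.P304.Dyn
end
end

section

section

/-! # P304-Dyn: the weighted engine, and `R(k) = O(log^5 k)` -/

set_option linter.all false

open Finset
open scoped NNReal ENNReal

namespace Vale.Agent.P304.Dyn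

open Vale.Agent.P304

section engineL

variable {X J : Type} [MetricSpace X] [Fintype X] [DecidableEq X] [Fintype J] [DecidableEq J]
  {Wd : World X} {η : ℝ}

noncomputable def psiL (P : LPar η Wd.k J) (s : St Wd J P.B) (u : X) : ℝ :=
  psiW P s u + Wd.A1 * (∑ l : Fin Wd.n, Wd.r l * Real.log (3 * Wd.k) -
    ∑ l : Fin Wd.n, Wd.r l * Real.log (SS (Dl Wd.r0 l) (nuC η (s.x l)) u))

noncomputable def ccL (P : LPar η Wd.k J) (s : St Wd J P.B) : ℝ :=
  ccW P s + Wd.A1 * (∑ l : Fin Wd.n, Wd.r l * ∑ c, nuC η (s.x l) c)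

noncomputable def World.KL (Wd : World X) : ℝ :=
  Wd.K0 + Wd.A1 * ∑ l : Fin Wd.n, Wd.r l * Real.log (3 * Wd.k)

theorem pot_split (P : LPar η Wd.k J) (p : X → ℝ) (s : St Wd J P.B) :
    Pot P p s = PotF P p s + PotT P p s := by
  unfold Pot PotF PotT
  ring

theorem pot_psiL (P : LPar η Wd.k J) (p : X → ℝ) (s : St Wd J P.B) :
    ∑ u, p u * psiL P s u + ccL P s =
      Wd.KL * ∑ u, p u + (PotT P p s + 2 * PotF P p s) := by
  have h1 := pot_psi P p s
  rw [pot_split] at h1
  unfold psiL ccL World.KL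
  have h2 : PotF P p s = Wd.A1 * ((∑ l : Fin Wd.n, Wd.r l * ∑ c, nuC η (s.x l) c) -
        ∑ u, p u * ∑ l : Fin Wd.n, Wd.r l * Real.log (SS (Dl Wd.r0 l) (nuC η (s.x l)) u)) := by
    unfold PotF
    congr 1
    unfold FF
    simp_rw [mul_sub, sum_sub_distrib, mul_sum]
    congr 1
    rw [sum_comm]
    refine sum_congr rfl fun u _ => sum_congr rfl fun l _ => ?_
    ring
  have h3 : ∑ u, p u * (psiW P s u + Wd.A1 * (∑ l : Fin Wd.n, Wd.r l * Real.log (3 * Wd.k) -
      ∑ l : Fin Wd.n, Wd.r l * Real.log (SS (Dl Wd.r0 l) (nuC η (s.x l)) u))) =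
      ∑ u, p u * psiW P s u +
        (Wd.A1 * ∑ l : Fin Wd.n, Wd.r l * Real.log (3 * Wd.k)) * ∑ u, p u -
        Wd.A1 * ∑ u, p u * ∑ l : Fin Wd.n,
          Wd.r l * Real.log (SS (Dl Wd.r0 l) (nuC η (s.x l)) u) := by
    generalize ∑ l : Fin Wd.n, Wd.r l * Real.log (3 * Wd.k) = A
    have e1 : ∀ u, p u * (psiW P s u + Wd.A1 * (A -
        ∑ l : Fin Wd.n, Wd.r l * Real.log (SS (Dl Wd.r0 l) (nuC η (s.x l)) u))) =
        p u * psiW P s u + (Wd.A1 * A) * p u - Wd.A1 * (p u *
          ∑ l : Fin Wd.n, Wd.r l * Real.log (SS (Dl Wd.r0 l) (nuC η (s.x l)) u)) := fun u => by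
      ring
    rw [sum_congr rfl fun u _ => e1 u, sum_sub_distrib, sum_add_distrib, ← mul_sum, ← mul_sum]
  rw [h3]
  rw [mul_sub] at h2
  linarith

theorem psiL_nonneg (P : LPar η Wd.k J) {p : X → ℝ} {s : St Wd J P.B} (hI : Inv P p s)
    (hpk : ∑ u, p u ≤ Wd.k) (u : X) : 0 ≤ psiL P s u := by
  have hk := Wd.hk
  have h0 := psiW_nonneg P hI hpk u
  have h1 : ∑ l : Fin Wd.n, Wd.r l * Real.log (SS (Dl Wd.r0 l) (nuC η (s.x l)) u) ≤
      ∑ l : Fin Wd.n, Wd.r l * Real.log (3 * Wd.k) := by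
    refine sum_le_sum fun l _ => mul_le_mul_of_nonneg_left ?_ (r_pos Wd l).le
    have hb := hI.bal l
    refine Real.log_le_log (SS_pos hb.hν u) ?_
    refine (SS_le (Dl_pm Wd.hr0 l) hb.hν u).trans ?_
    have h2 := sum_nu_le hb
    have h3 : (e0 : ℝ) = 1 / 20 := rfl
    linarith
  have h2 := mul_nonneg (A1_pos Wd).le (sub_nonneg.2 h1)
  unfold psiL
  linarith only [h0, h2]

theorem ccL_nonneg (P : LPar η Wd.k J) (s : St Wd J P.B) : 0 ≤ ccL P s := by
  have h0 := ccW_nonneg P s
  have h1 := mul_nonneg (A1_pos Wd).le (sum_nonneg fun (l : Fin Wd.n) (_ : l ∈ univ) =>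
    mul_nonneg (r_pos Wd l).le (sum_nonneg fun (c : X) (_ : c ∈ univ) =>
      nuC_nonneg P.hη.le (s.x l) c))
  unfold ccL
  linarith only [h0, h1]

/-- the weight of the address costs -/
noncomputable def World.La (Wd : World X) : ℝ := 2 + Wd.g32

theorem g32_nonneg (Wd : World X) : 0 ≤ Wd.g32 := by
  unfold World.g32
  positivity

theorem La_eq (Wd : World X) : Wd.La = 2 * Wd.Gam - Wd.g32 := by
  unfold World.La World.Gam World.g32
  ring

/-- the two coefficients of the error -/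
noncomputable def World.E1 (Wd : World X) : ℝ :=
  (∑ l : Fin Wd.n, Wd.r l) * (Wd.A1 * (4000 * Wd.k) + 24 * RR Wd.k * Wd.Gam * 200)

noncomputable def World.E2 (Wd : World X) (η q : ℝ) : ℝ :=
  (∑ l : Fin Wd.n, Wd.r l) * (Wd.A1 * ((1 + Wd.k / e0) * (2 * η * (Fintype.card X : ℝ) ^ 2)) +
    24 * RR Wd.k * Wd.Gam * (400 * Wd.k * q))

theorem err_eq (Wd : World X) (α η q : ℝ) :
    Wd.err α η q = Wd.E1 * α ^ 2 + Wd.E2 η q := by
  unfold World.err World.E1 World.E2
  rw [← sum_mul]
  ring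

theorem G2_nonneg (Wd : World X) : 0 ≤ Wd.G2 := by
  have hk := Wd.hk
  have h1 := lam_pos Wd
  have h2 := RR_pos' Wd
  have h3 : 0 ≤ Real.log ((Wd.k + e0) / e0) := by
    apply Real.log_nonneg
    have h4 : (e0 : ℝ) = 1 / 20 := rfl
    rw [h4]
    rw [le_div_iff₀ (by norm_num)]
    linarith only [hk]
  unfold World.G2
  (clear * - h1 h2 h3; positivity)

/-- bound of the initial potential -/
noncomputable def World.BL (Wd : World X) : ℝ :=
  Wd.KL * Wd.k + 2 * (Wd.A1 * (3 * Wd.k) * ∑ l : Fin Wd.n, Wd.r l)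

theorem exists_engL [Nonempty X] (P : LPar η Wd.k J) {k : ℕ} (hk : Wd.k = k) (hkM : k ≤ Wd.M)
    {N : ℕ} (hN : 1 ≤ N) (hN2 : Wd.k / N ≤ e0 / 8) {ε : ℝ}
    (hε : N * Wd.err (Wd.k / N) η (η * Fintype.card J / P.Q) ≤ ε / 2)
    {p0 : X → ℝ} (hp0 : ∀ x, 0 ≤ p0 x) (hp0k : ∑ x, p0 x = k) {Ck : ℝ} (hCk : 2 * Wd.CT ≤ Ck) :
    Nonempty (EngL X k Wd.n Wd.WW p0 4 Wd.La Ck Wd.BL ε) := by
  obtain ⟨s0, hs0, hs0T, hs0F⟩ := exists_initL P hp0 (by rw [hp0k, hk])
  have hLa : 0 ≤ Wd.La := by
    have := g32_nonneg Wd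
    unfold World.La
    linarith only [this]
  refine ⟨{
    M := Wd.M
    kM := hkM
    Ω := Ord (GG Wd.n J P.B)
    fin := inferInstance
    ne := inferInstance
    S := St Wd J P.B
    loc := fun s π i => loc Wd s.x (s.y π i)
    na := fun s π i => nodeAddr Wd.n Wd.WW (s.y π i)
    ad := fun s π x => nodeAddr Wd.n Wd.WW (ad P s.x π x)
    psi := psiL P
    cc := ccL P
    Inv := fun p s => ∑ x, p x = k ∧ Inv P p s
    s0 := s0
    inv0 := ⟨hp0k, hs0⟩
    pot0 := ?_
    psi_nonneg := fun p s h x => psiL_nonneg P h.2 (by rw [h.1, hk]) x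
    cc_nonneg := fun p s _ => ccL_nonneg P s
    cover := ?_
    geom := fun p s h u hu π i => geom_le P h.2 hu π i
    step := ?_ }⟩
  · rw [pot_psiL, hp0k]
    unfold World.BL
    rw [hk] at hs0F ⊢
    linarith only [hs0T, hs0F]
  · intro p s h u hu π
    obtain ⟨hlen, i, hi⟩ := h.2.lf π u hu
    refine ⟨i, ?_, ?_⟩
    · simp only [hi]
      exact loc_full P s.x π u hlen
    · simp only [hi]
  · intro p s h q hq hqk
    have hcomp := compose_steps (X := X) (S := St Wd J P.B) (fun x y => dist x y)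
      (k := k) (Ck := Ck) (C1 := 2 * Wd.E1) (del := 2 * Wd.E2 η (η * Fintype.card J / P.Q))
      (α0 := e0 / 8) (fun p s => ∑ x, p x = k ∧ Inv P p s) (psiL P) (ccL P)
      (fun s s' => PhC s s' + TrC s s')
      (fun a b c => by
        have h1 := PhC_triangleL a b c
        have h2 := TrC_triangleL a b c
        linarith only [h1, h2])
      (fun s x s' y => Wd.La * XC P s.x s'.x x y)
      (fun a x b y c z => by
        have h1 := XC_triangleL P a.x b.x c.x x y z
        have h2 := mul_le_mul_of_nonneg_left h1 hLa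
        linarith only [h2])
      (fun p s h p' hp' hpk' => by
        obtain ⟨s', h1, h2, h3⟩ := info_step2 P h.2 (by rw [h.1, hk]) hp' (by rw [hpk', hk])
        refine ⟨s', ⟨hpk', h1⟩, ?_⟩
        rw [pot_psiL, pot_psiL]
        have h4 : ∑ x, p' x * (Wd.La * XC P s.x s'.x x x) =
            Wd.La * ∑ x, p' x * XC P s.x s'.x x x := by
          rw [mul_sum]
          exact sum_congr rfl fun x _ => by ring
        rw [h4, La_eq]
        linarith only [h2, h3])
      (fun p s h a ha hap hα => by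
        obtain ⟨s', h1, h2, h3⟩ := transport_step2 P h.2 (by rw [h.1, hk]) ha hap hα
        have hsum : ∑ x, push p a x = k := by
          rw [k5_sum_push]
          exact h.1
        refine ⟨s', ⟨hsum, h1⟩, ?_⟩
        have hpp : ∑ y, (p y + ∑ u, a u y - ∑ v, a y v) * psiL P s' y + ccL P s' =
            Wd.KL * k + (PotT P (push p a) s' + 2 * PotF P (push p a) s') := by
          have := pot_psiL P (push p a) s'
          rw [hsum] at this
          exact this
        rw [hpp, pot_psiL, h.1]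
        -- address costs
        have h4 : ∑ u, (p u - ∑ v, a u v) * (Wd.La * XC P s.x s'.x u u) +
            ∑ u, ∑ v, a u v * (Wd.La * XC P s.x s'.x u v) ≤
            Wd.La * (∑ u, push p a u * XC P s.x s'.x u u + ∑ u, ∑ v, a u v * XC P s.x s.x u v) := by
          have e1 : ∑ u, ∑ v, a u v * (Wd.La * XC P s.x s'.x u v) ≤
              ∑ u, ∑ v, (a u v * (Wd.La * XC P s.x s.x u v) +
                a u v * (Wd.La * XC P s.x s'.x v v)) := by
            refine sum_le_sum fun u _ => sum_le_sum fun v _ => ?_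
            have t1 := XC_triangleL P s.x s.x s'.x u v v
            have t2 := mul_le_mul_of_nonneg_left (mul_le_mul_of_nonneg_left t1 hLa) (ha u v)
            linarith only [t2]
          refine (add_le_add le_rfl e1).trans (le_of_eq ?_)
          simp only [sum_add_distrib]
          have e2 : ∑ u, ∑ v, a u v * (Wd.La * XC P s.x s'.x v v) =
              ∑ v, (∑ u, a u v) * (Wd.La * XC P s.x s'.x v v) := by
            rw [sum_comm]
            exact sum_congr rfl fun v _ => by rw [sum_mul]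
          rw [e2, mul_add, mul_sum, mul_sum]
          have e3 : ∑ u, Wd.La * (push p a u * XC P s.x s'.x u u) =
              ∑ u, (p u - ∑ v, a u v) * (Wd.La * XC P s.x s'.x u u) +
              ∑ v, (∑ u, a u v) * (Wd.La * XC P s.x s'.x v v) := by
            rw [← sum_add_distrib]
            refine sum_congr rfl fun u _ => ?_
            unfold push
            ring
          have e4 : ∑ u, Wd.La * ∑ v, a u v * XC P s.x s.x u v =
              ∑ u, ∑ v, a u v * (Wd.La * XC P s.x s.x u v) := by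
            refine sum_congr rfl fun u _ => ?_
            rw [mul_sum]
            exact sum_congr rfl fun v _ => by ring
          rw [e3, e4]
          ring
        rw [La_eq] at h4 ⊢
        rw [err_eq] at h3
        have h5 : 0 ≤ ∑ u, ∑ v, a u v * dist u v :=
          sum_nonneg fun u _ => sum_nonneg fun v _ => mul_nonneg (ha u v) dist_nonneg
        have h6 : 0 ≤ Wd.G2 * ∑ u, ∑ v, a u v * dist u v := mul_nonneg (G2_nonneg Wd) h5
        have h7 := mul_le_mul_of_nonneg_right hCk h5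
        linarith only [h2, h3, h4, h6, h7])
      (N := N) (by omega) (by rw [← hk]; exact hN2) h hq hqk
    obtain ⟨s', h1, h2⟩ := hcomp
    refine ⟨s', h1, ?_⟩
    have e1 : (∑ π : Ord (GG Wd.n J P.B),
        (∑ i, dist (loc Wd s.x (s.y π i)) (loc Wd s'.x (s'.y π i)) +
        ∑ i, dist (nodeAddr Wd.n Wd.WW (s.y π i)) (nodeAddr Wd.n Wd.WW (s'.y π i)) +
        Wd.La * ∑ x, ∑ y, q x y * dist (nodeAddr Wd.n Wd.WW (ad P s.x π x))
          (nodeAddr Wd.n Wd.WW (ad P s'.x π y)))) / (Fintype.card (Ord (GG Wd.n J P.B)) : ℝ) =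
        PhC s s' + EE (fun π => ∑ i, dist (nodeAddr Wd.n Wd.WW (s.y π i))
          (nodeAddr Wd.n Wd.WW (s'.y π i))) +
        Wd.La * ∑ x, ∑ y, q x y * EE (fun π => dist (nodeAddr Wd.n Wd.WW (ad P s.x π x))
          (nodeAddr Wd.n Wd.WW (ad P s'.x π y))) := by
      have : ∑ x, ∑ y, q x y * EE (fun π => dist (nodeAddr Wd.n Wd.WW (ad P s.x π x))
          (nodeAddr Wd.n Wd.WW (ad P s'.x π y))) =
          EE (fun π => ∑ x, ∑ y, q x y * dist (nodeAddr Wd.n Wd.WW (ad P s.x π x))
          (nodeAddr Wd.n Wd.WW (ad P s'.x π y))) := by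
        rw [EE_sum]
        refine sum_congr rfl fun x _ => ?_
        rw [EE_sum]
        refine sum_congr rfl fun y _ => ?_
        rw [EE_mul]
      rw [this]
      unfold PhC
      rw [← EE_mul, ← EE_add, ← EE_add]
      rfl
    rw [e1]
    have e2 : EE (fun π => ∑ i, dist (nodeAddr Wd.n Wd.WW (s.y π i))
        (nodeAddr Wd.n Wd.WW (s'.y π i))) ≤ TrC s s' := by
      unfold TrC
      exact EE_mono fun π => sum_le_sum fun i _ => dist_node_le Wd _ _
    have e3 : Wd.La * ∑ x, ∑ y, q x y * EE (fun π => dist (nodeAddr Wd.n Wd.WW (ad P s.x π x))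
        (nodeAddr Wd.n Wd.WW (ad P s'.x π y))) ≤
        ∑ x, ∑ y, q x y * (Wd.La * XC P s.x s'.x x y) := by
      have e31 : ∑ x, ∑ y, q x y * (Wd.La * XC P s.x s'.x x y) =
          Wd.La * ∑ x, ∑ y, q x y * XC P s.x s'.x x y := by
        rw [mul_sum]
        refine sum_congr rfl fun x _ => ?_
        rw [mul_sum]
        exact sum_congr rfl fun y _ => by ring
      rw [e31]
      refine mul_le_mul_of_nonneg_left ?_ hLa
      refine sum_le_sum fun x _ => sum_le_sum fun y _ => mul_le_mul_of_nonneg_left ?_ (hq x y)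
      unfold XC
      refine EE_mono fun π => ?_
      convert dist_ad_le P s.x s'.x π x y
    have e4 : 2 * Wd.E1 * (k : ℝ) ^ 2 / N + N * (2 * Wd.E2 η (η * Fintype.card J / P.Q)) ≤ ε := by
      have hk2 : Wd.k / (N : ℝ) = (k : ℝ) / N := by rw [hk]
      rw [err_eq, hk2] at hε
      have hN0 : (0 : ℝ) < N := by exact_mod_cast hN
      have e5 : (N : ℝ) * (Wd.E1 * ((k : ℝ) / N) ^ 2 + Wd.E2 η (η * Fintype.card J / P.Q)) =
          Wd.E1 * (k : ℝ) ^ 2 / N + N * Wd.E2 η (η * Fintype.card J / P.Q) := by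
        field_simp
      rw [e5] at hε
      have e6 : 2 * Wd.E1 * (k : ℝ) ^ 2 / N + N * (2 * Wd.E2 η (η * Fintype.card J / P.Q)) =
          2 * (Wd.E1 * (k : ℝ) ^ 2 / N + N * Wd.E2 η (η * Fintype.card J / P.Q)) := by
        ring
      rw [e6]
      linarith only [hε]
    linarith only [h2, e2, e3, e4]

end engineL

/-- **Sharper reduction to ultrametrics.** -/
theorem R_le_mix : ∃ C : ℝ, 0 < C ∧ ∀ k : ℕ, 1 ≤ k → ∀ c : ℝ≥0, Rult k < c →
    R k ≤ ENNReal.ofReal (C * ((1 + Real.log k) ^ 2 * (1 + Real.log (1 + Real.log k)) *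
      ((1 + Real.log k) ^ 2 + c))) := by
  obtain ⟨C, hC0, hC⟩ := CT_le4
  refine ⟨16 * C, by positivity, fun k hk c hRc => ?_⟩
  haveI : NeZero k := ⟨by omega⟩
  have hk' : (1 : ℝ) ≤ k := by exact_mod_cast hk
  have hlog : 0 ≤ Real.log k := Real.log_nonneg hk'
  obtain ⟨L, hL⟩ : ∃ L : ℝ, L = 1 + Real.log k := ⟨_, rfl⟩
  have hL1 : 1 ≤ L := by rw [hL]; linarith only [hlog]
  obtain ⟨Ll, hLl⟩ : ∃ Ll : ℝ, Ll = 1 + Real.log L := ⟨_, rfl⟩
  have hLl1 : 1 ≤ Ll := by
    rw [hLl]
    have := Real.log_nonneg hL1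
    linarith only [this]
  have hc1 : (1 : ℝ) ≤ c := by
    have : (1 : ℝ≥0∞) ≤ c := one_le_Rult.trans hRc.le
    exact_mod_cast this
  obtain ⟨La, hLa⟩ : ∃ La : ℝ, La = 2 + 32 * Real.log (8 * k + 2) ^ 2 := ⟨_, rfl⟩
  have hLaL : 2 * L ^ 2 ≤ La := by
    have h1 : L ≤ Real.log (8 * k + 2) := by
      have h2 : Real.log (8 * k) ≤ Real.log (8 * k + 2) :=
        Real.log_le_log (by (clear * - hk; positivity)) (by linarith only [])
      rw [Real.log_mul (by norm_num) (by positivity)] at h2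
      have h3 : (1:ℝ) ≤ Real.log 8 := by
        rw [Real.le_log_iff_exp_le (by norm_num)]
        have := Real.exp_one_lt_d9
        linarith only [this]
      rw [hL]
      linarith only [h2, h3]
    have h2 : L ^ 2 ≤ Real.log (8 * k + 2) ^ 2 := pow_le_pow_left₀ (by linarith only [hlog, hL]) h1 2
    rw [hLa]
    nlinarith only [h2]
  have hL2 : 0 < L ^ 2 := by positivity
  have hLa0 : 0 < La := by linarith only [hLaL, hL2]
  have h := R_le_of_engineL (k := k) (Cg := 4) (La := La)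
    (Ck := 2 * (C * (L ^ 4 * Ll))) (th := 1 + 2 * c / La) (by norm_num) (by positivity)
    (by
      have : 0 ≤ 2 * (c : ℝ) / La := by positivity
      linarith only [this]) (c := c) hc1 hRc
    (by
      have : (1 + 2 * (c : ℝ) / La) * La = La + 2 * c := by (clear * - hLa0 hc1; field_simp)
      rw [this]
      linarith only [hLaL, hL2])
    (fun X _ _ s => by
      classical
      haveI : Nonempty X := ⟨s 0⟩
      obtain ⟨Wd, hWk, hWM, -⟩ := exists_world X k hk (s 0)
      refine ⟨Wd.n, Wd.WW, Wd.BL, Wd.hn, fun ε hε => ?_⟩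
      obtain ⟨η, m, P, N, hN, hN2, herr⟩ := exists_params Wd (half_pos hε)
      have hCT : 2 * Wd.CT ≤ 2 * (C * (L ^ 4 * Ll)) := by
        have h1 := hC X Wd
        rw [hWk, ← hL, ← hLl] at h1
        linarith only [h1]
      have hsum : ∑ x, oc s x = k := by
        have := sum_oc s (fun _ => (1 : ℝ))
        simp only [mul_one, sum_const, card_univ, Fintype.card_fin, nsmul_eq_mul] at this
        exact this
      have hLa' : Wd.La = La := by
        rw [hLa]
        unfold World.La World.g32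
        rw [hWM]
        push_cast
        rfl
      rw [← hLa']
      exact exists_engL P hWk (by (clear * - hWM; omega)) hN hN2 herr (oc_nonneg s) hsum hCT)
  refine h.trans (ENNReal.ofReal_le_ofReal ?_)
  rw [← hL, ← hLl]
  have h1 : 2 * c / La * L ^ 2 ≤ c := by
    rw [div_mul_eq_mul_div, div_le_iff₀ hLa0]
    nlinarith only [hLaL]
  have h2 : 2 * (4 * (1 + 2 * c / La) * (2 * (C * (L ^ 4 * Ll))))
      = 16 * C * (L ^ 2 * Ll * (L ^ 2 + 2 * c / La * L ^ 2)) := by ring
  rw [h2]
  have h3 : 0 ≤ 16 * C * (L ^ 2 * Ll) := by positivity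
  have h4 := mul_le_mul_of_nonneg_left (add_le_add_right h1 (L ^ 2)) h3
  calc 16 * C * (L ^ 2 * Ll * (L ^ 2 + 2 * c / La * L ^ 2))
      = 16 * C * (L ^ 2 * Ll) * (L ^ 2 + 2 * c / La * L ^ 2) := by ring
    _ ≤ 16 * C * (L ^ 2 * Ll) * (L ^ 2 + c) := h4
    _ = 16 * C * (L ^ 2 * Ll * (L ^ 2 + c)) := by ring

/-- **The randomized `k`-server ratio is `O(log^4 k loglog k)` on all metric spaces.** -/
theorem R_le_log4 : ∃ C : ℝ, 0 < C ∧ ∀ k : ℕ, 1 ≤ k →
    R k ≤ ENNReal.ofReal (C * ((1 + Real.log k) ^ 4 * (1 + Real.log (1 + Real.log k)))) := by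
  obtain ⟨C, hC0, hC⟩ := R_le_mix
  obtain ⟨D, hD0, hD⟩ := HST.exists_Rult_le
  refine ⟨C * (2 + D), by positivity, fun k hk => ?_⟩
  have hk' : (1 : ℝ) ≤ k := by exact_mod_cast hk
  have hlog : 0 ≤ Real.log k := Real.log_nonneg hk'
  have hllog : 0 ≤ Real.log (1 + Real.log k) := Real.log_nonneg (by linarith only [hlog])
  have hU0 : 0 ≤ D * (1 + Real.log k) ^ 2 := by positivity
  obtain ⟨c, hcv⟩ : ∃ c : ℝ≥0, (c : ℝ) = D * (1 + Real.log k) ^ 2 + 1 :=
    ⟨⟨D * (1 + Real.log k) ^ 2 + 1, by positivity⟩, rfl⟩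
  have h := hC k hk c (by
    refine (hD k hk).trans_lt ?_
    rw [ENNReal.ofReal, ENNReal.coe_lt_coe, ← NNReal.coe_lt_coe, Real.coe_toNNReal _ hU0, hcv]
    linarith only [])
  refine h.trans (ENNReal.ofReal_le_ofReal ?_)
  rw [hcv]
  have h1 : (1 : ℝ) ≤ (1 + Real.log k) ^ 2 := one_le_pow₀ (by linarith only [hlog])
  have h2 : (1 + Real.log k) ^ 2 + (D * (1 + Real.log k) ^ 2 + 1)
      ≤ (2 + D) * (1 + Real.log k) ^ 2 := by linarith
  have h3 : 0 ≤ (1 + Real.log k) ^ 2 * (1 + Real.log (1 + Real.log k)) := by positivity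
  calc C * ((1 + Real.log k) ^ 2 * (1 + Real.log (1 + Real.log k)) *
        ((1 + Real.log k) ^ 2 + (D * (1 + Real.log k) ^ 2 + 1)))
      ≤ C * ((1 + Real.log k) ^ 2 * (1 + Real.log (1 + Real.log k)) *
        ((2 + D) * (1 + Real.log k) ^ 2)) :=
        mul_le_mul_of_nonneg_left (mul_le_mul_of_nonneg_left h2 h3) hC0.le
    _ = C * (2 + D) * ((1 + Real.log k) ^ 4 * (1 + Real.log (1 + Real.log k))) := by ring

end Vale.Agent.P304.Dyn
end
end

section

section

/-! # P304: final form of the bounds -/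

open scoped ENNReal NNReal

namespace Vale.Agent.P304.Dyn

open Vale.Agent.P304

/-- `R_le_mix` with `Rult k` itself. -/
theorem R_le_mix' : ∃ C : ℝ, 0 < C ∧ ∀ k : ℕ, 1 ≤ k →
    R k ≤ ENNReal.ofReal (C * ((1 + Real.log k) ^ 2 * (1 + Real.log (1 + Real.log k)))) *
      (ENNReal.ofReal ((1 + Real.log k) ^ 2) + Rult k) := by
  obtain ⟨C, hC0, hC⟩ := R_le_mix
  refine ⟨C, hC0, fun k hk => ?_⟩
  have hk' : (1 : ℝ) ≤ k := by exact_mod_cast hk
  have hlog : 0 ≤ Real.log k := Real.log_nonneg hk'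
  have hllog : 0 ≤ Real.log (1 + Real.log k) := Real.log_nonneg (by linarith only [hlog])
  obtain ⟨A, hA⟩ : ∃ A : ℝ, A = C * ((1 + Real.log k) ^ 2 * (1 + Real.log (1 + Real.log k))) :=
    ⟨_, rfl⟩
  have hA0 : 0 < A := by rw [hA]; positivity
  obtain ⟨E, hE⟩ : ∃ E : ℝ, E = (1 + Real.log k) ^ 2 := ⟨_, rfl⟩
  have hE0 : 0 ≤ E := by rw [hE]; positivity
  rw [← hA, ← hE]
  have key : ∀ c : ℝ≥0, Rult k < c →
      R k ≤ ENNReal.ofReal A * (ENNReal.ofReal E + c) := by
    intro c hc
    refine (hC k hk c hc).trans (le_of_eq ?_)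
    rw [show C * ((1 + Real.log k) ^ 2 * (1 + Real.log (1 + Real.log k)) *
      ((1 + Real.log k) ^ 2 + c)) = A * (E + c) by rw [hA, hE]; ring,
      ENNReal.ofReal_mul hA0.le, ENNReal.ofReal_add hE0 c.coe_nonneg, ENNReal.ofReal_coe_nnreal]
  rcases eq_or_ne (Rult k) ⊤ with htop | htop
  · rw [htop, add_top, ENNReal.mul_top (by simpa only [ne_eq, ENNReal.ofReal_eq_zero, not_le] using hA0)]
    exact le_top
  · have hA' : ENNReal.ofReal A ≠ 0 := by simpa only [ne_eq, ENNReal.ofReal_eq_zero, not_le] using hA0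
    refine ENNReal.le_of_forall_pos_le_add fun ε hε _ => ?_
    obtain ⟨c, hc⟩ : ∃ c : ℝ≥0, Rult k = c := ⟨(Rult k).toNNReal, (ENNReal.coe_toNNReal htop).symm⟩
    have hAn : 0 < A.toNNReal := Real.toNNReal_pos.2 hA0
    have h1 := key (c + ε / A.toNNReal) (by
      rw [hc]
      have : 0 < ε / A.toNNReal := by (clear * - hε hA0; positivity)
      exact_mod_cast lt_add_of_pos_right c this)
    refine h1.trans (le_of_eq ?_)
    rw [hc, ENNReal.coe_add, ← add_assoc, mul_add _ (ENNReal.ofReal E + (c : ℝ≥0∞))]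
    congr 1
    rw [ENNReal.ofReal, ← ENNReal.coe_mul, mul_div_cancel₀ _ hAn.ne']

end Vale.Agent.P304.Dyn
end
end

section

section

open MeasureTheory Filter Topology
open scoped ENNReal NNReal

namespace Vale.Agent.P304

section compact

variable {X : Type} {k : ℕ}

/-- compactness with varying bounds. -/
theorem hasCost_of_lim [MetricSpace X] [NeZero k] (s : Fin k → X) (φ : ℕ → List X → ℝ)
    (ψ : List X → ℝ) (hφ : ∀ σ, Tendsto (fun n => φ n σ) atTop (𝓝 (ψ σ)))
    (h : ∀ (F : Finset (List X)) (n : ℕ), HasCost s (F : Set (List X)) (φ n)) :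
    HasCost s Set.univ ψ := by
  classical
  have h' : ∀ i : Finset (List X) × ℕ, HasCost s (i.1 : Set (List X)) (φ i.2) := fun i => h i.1 i.2
  choose Ω m P A hP hA hG using h'
  set U : Ultrafilter (Finset (List X) × ℕ) := Ultrafilter.of atTop with hU
  have hUle : (U : Filter (Finset (List X) × ℕ)) ≤ atTop := Ultrafilter.of_le atTop
  have hlim : ∀ σ v, ∃ x, Tendsto (fun F => (P F).real {ω | ch (A F ω) [] σ = v})
      (U : Filter (Finset (List X) × ℕ)) (𝓝 x) := by
    intro σ v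
    have h1 : ∀ F, (P F).real {ω | ch (A F ω) [] σ = v} ∈ Set.Icc (0 : ℝ) 1 := by
      intro F
      have := hP F
      exact ⟨measureReal_nonneg, measureReal_le_one⟩
    have h2 := (isCompact_Icc (a := (0 : ℝ)) (b := 1)).ultrafilter_le_nhds
      (U.map fun F => (P F).real {ω | ch (A F ω) [] σ = v})
      (by
        rw [le_principal_iff]
        exact Filter.mem_map.2 (Filter.Eventually.of_forall h1))
    obtain ⟨x, -, hx⟩ := h2
    exact ⟨x, hx⟩
  choose p hp using hlim
  have hlaw : Law p := by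
    have hl : ∀ F, Law (fun σ v => (P F).real {ω | ch (A F ω) [] σ = v}) := by
      intro F
      have := hP F
      exact law_of_policy (hA F)
    refine ⟨?_, ?_, ?_⟩
    · intro σ v
      exact ge_of_tendsto' (hp σ v) fun F => (hl F).nonneg σ v
    · have h1 : Tendsto (fun _ : Finset (List X) × ℕ => (1 : ℝ)) (U : Filter _)
          (𝓝 (p [] [])) := by
        refine (hp [] []).congr fun F => ?_
        exact (hl F).nil
      exact tendsto_nhds_unique h1 tendsto_const_nhds
    · intro σ v r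
      have h1 : Tendsto (fun F => ∑ i, (P F).real {ω | ch (A F ω) [] (σ ++ [r]) = v ++ [i]})
          (U : Filter _) (𝓝 (∑ i, p (σ ++ [r]) (v ++ [i]))) :=
        tendsto_finsetSum _ fun i _ => hp _ _
      refine tendsto_nhds_unique (hp σ v) (h1.congr fun F => ?_)
      exact ((hl F).snoc σ v r).symm
  obtain ⟨Ω', m', P', A', hP', hA', hr⟩ := exists_realization hlaw
  refine ⟨Ω', m', P', A', hP', hA', ?_⟩
  intro σ _
  rw [integral_policyCost hA']
  have h1 : ∀ f : Fin σ.length → Fin k,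
      P'.real {ω | ch (A' ω) [] σ = List.ofFn f} = p σ (List.ofFn f) := by
    intro f
    exact hr σ _ (by simp)
  simp only [h1]
  have h2 : Tendsto (fun F => ∑ f : Fin σ.length → Fin k,
      (P F).real {ω | ch (A F ω) [] σ = List.ofFn f} * serviceCost s σ f)
      (U : Filter _) (𝓝 (∑ f : Fin σ.length → Fin k, p σ (List.ofFn f) * serviceCost s σ f)) :=
    tendsto_finsetSum _ fun f _ => (hp σ (List.ofFn f)).mul_const _
  have h4 : Tendsto (fun F : Finset (List X) × ℕ => φ F.2 σ) (U : Filter _) (𝓝 (ψ σ)) := by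
    refine Tendsto.mono_left ?_ hUle
    rw [← prod_atTop_atTop_eq]
    exact (hφ σ).comp tendsto_snd
  refine le_of_tendsto_of_tendsto h2 h4 ?_
  have h3 : ∀ᶠ F in (U : Filter (Finset (List X) × ℕ)), σ ∈ F.1 := by
    refine hUle ?_
    filter_upwards [Filter.eventually_ge_atTop (({σ} : Finset (List X)), 0)] with F hF
    exact hF.1 (Finset.mem_singleton_self σ)
  filter_upwards [h3] with F hF
  have := hP F
  have := hG F σ hF
  rwa [integral_policyCost (hA F)] at this

end compact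

section similar

variable {X Y : Type} [MetricSpace X] [MetricSpace Y] {k : ℕ}

theorem opt_similar [NeZero k] {e : Y → X} {r : ℝ} (hr : 0 < r)
    (he : ∀ a b, dist (e a) (e b) = r * dist a b) (σ : List Y) : ∀ p : Fin k → Y,
    opt (e ∘ p) (σ.map e) = r * opt p σ := by
  induction σ with
  | nil => intro p; simp [opt_nil]
  | cons x σ ih =>
    intro p
    apply le_antisymm
    · obtain ⟨i, hi⟩ := exists_opt_cons p x σ
      rw [hi, List.map_cons]
      refine (opt_cons_le _ _ _ i).trans ?_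
      rw [update_comp_val, ih, Function.comp_apply, he]
      exact le_of_eq (by ring)
    · obtain ⟨i, hi⟩ := exists_opt_cons (e ∘ p) (e x) (σ.map e)
      rw [List.map_cons, hi, update_comp_val, ih, Function.comp_apply, he, ← mul_add]
      exact mul_le_mul_of_nonneg_left (opt_cons_le p x σ i) hr.le

theorem runCost_similar {e : Y → X} {r : ℝ} (he : ∀ a b, dist (e a) (e b) = r * dist a b)
    (a : List X → Fin k) (σ : List Y) : ∀ (h : List Y) (p : Fin k → Y),
    runCost a (h.map e) (e ∘ p) (σ.map e) = r * runCost (fun h => a (h.map e)) h p σ := by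
  induction σ with
  | nil => intro h p; simp [runCost]
  | cons x σ ih =>
    intro h p
    have h2 : h.map e ++ [e x] = (h ++ [x]).map e := by simp
    simp only [List.map_cons, runCost, h2, update_comp_val, ih, Function.comp_apply, he]
    ring

/-- pull back along a similarity. -/
theorem Good.comap [NeZero k] {e : Y → X} {r : ℝ} (hr : 0 < r)
    (he : ∀ a b, dist (e a) (e b) = r * dist a b) {s : Fin k → Y} {c B : ℝ} {S : Set (List Y)}
    {S' : Set (List X)} (hS : ∀ σ ∈ S, σ.map e ∈ S')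
    (h : Good (e ∘ s) c B S') : Good s c (B / r) S := by
  obtain ⟨Ω, m, P, A, h1, h2, h3⟩ := h
  refine ⟨Ω, m, P, fun ω h => A ω (h.map e), h1, fun h => h2 _, fun σ hσ => ?_⟩
  have h4 := h3 (σ.map e) (hS σ hσ)
  have h5 : ∀ ω, policyCost (e ∘ s) (A ω) (σ.map e)
      = r * policyCost s (fun h => A ω (h.map e)) σ := by
    intro ω
    rw [policyCost_eq, policyCost_eq]
    have := runCost_similar he (A ω) σ [] s
    simpa using this
  simp only [h5, opt_similar hr he, integral_const_mul] at h4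
  have h6 : (c * opt s σ + B / r) * r = c * (r * opt s σ) + B := by
    field_simp
  rw [← mul_le_mul_iff_left₀ hr, h6, mul_comm]
  exact h4

end similar

/-- the universal space. -/
abbrev Linf : Type := lp (fun _ : ℕ => ℝ) ∞

theorem card_Linf (k : ℕ) : ((k + 1 : ℕ) : ℕ∞) ≤ ENat.card Linf := by
  have : Infinite Linf := by
    obtain ⟨f, hf⟩ := KuratowskiEmbedding.exists_isometric_embedding ℕ
    exact Infinite.of_injective f hf.injective
  rw [ENat.card_eq_top_of_infinite]
  exact le_top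

theorem good_Linf_scale {k : ℕ} [NeZero k] {c B : ℝ}
    (h : Good (fun _ : Fin k => (0 : Linf)) c B Set.univ) (n : ℕ) :
    Good (fun _ : Fin k => (0 : Linf)) c (B / (n + 1)) Set.univ := by
  have h1 : ((fun x : Linf => ((n : ℝ) + 1) • x) ∘ fun _ : Fin k => (0 : Linf))
      = fun _ : Fin k => (0 : Linf) := by
    funext _
    simp
  have h2 : Good ((fun x : Linf => ((n : ℝ) + 1) • x) ∘ fun _ : Fin k => (0 : Linf)) c B
      Set.univ := by
    rw [h1]; exact h
  refine Good.comap (e := fun x : Linf => ((n : ℝ) + 1) • x) (by positivity) ?_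
    (fun σ _ => Set.mem_univ _) h2
  intro a b
  rw [dist_smul₀, Real.norm_of_nonneg (by positivity)]

/-- every finite set of sequences in a metric space can be played in the universal space. -/
theorem good_of_Linf {X : Type} [MetricSpace X] {k : ℕ} [NeZero k] {c B : ℝ}
    (h : Good (fun _ : Fin k => (0 : Linf)) c B Set.univ) (x : X) (F : Finset (List X)) :
    Good (fun _ : Fin k => x) c B (F : Set (List X)) := by
  classical
  set T : Finset X := {x} ∪ F.biUnion (fun σ => σ.toFinset) with hT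
  obtain ⟨f, hf⟩ := KuratowskiEmbedding.exists_isometric_embedding T
  have hx : x ∈ T := by simp only [hT, Finset.singleton_union, Finset.mem_insert, Finset.mem_biUnion, List.mem_toFinset, true_or]
  set e : T → Linf := fun t => f t - f ⟨x, hx⟩ with he
  have hed : ∀ a b, dist (e a) (e b) = 1 * dist a b := by
    intro a b
    simp only [he, dist_sub_right, hf.dist_eq, one_mul]
  have h0 : (e ∘ fun _ : Fin k => (⟨x, hx⟩ : T)) = fun _ => (0 : Linf) := by
    funext _
    simp [he]
  have h1 : Good (fun _ : Fin k => (⟨x, hx⟩ : T)) c B Set.univ := by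
    have h6 : Good (e ∘ fun _ : Fin k => (⟨x, hx⟩ : T)) c B Set.univ := by
      rw [h0]; exact h
    have := Good.comap (e := e) (s := fun _ : Fin k => (⟨x, hx⟩ : T)) one_pos hed
      (fun σ _ => Set.mem_univ _) h6 (S := Set.univ)
    simpa using this
  have : Nonempty T := ⟨⟨x, hx⟩⟩
  have h2 := h1.embed (e := (Subtype.val : T → X)) isometry_subtype_coe
  have h7 : (Subtype.val : T → X) ∘ (fun _ : Fin k => (⟨x, hx⟩ : T)) = fun _ => x := rfl
  rw [h7] at h2
  refine h2.subset ?_
  intro σ hσ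
  have h5 : ∀ y ∈ σ, y ∈ T := by
    intro y hy
    apply Finset.mem_union_right
    exact Finset.mem_biUnion.2 ⟨σ, hσ, List.mem_toFinset.2 hy⟩
  refine ⟨σ.attach.map (fun y => ⟨y.1, h5 y.1 y.2⟩), Set.mem_univ _, ?_⟩
  simp only [List.map_map, Function.comp_def, List.map_subtype, List.unattach_attach, List.map_id_fun', id_eq]

/-- universality. -/
theorem ratio_le_Linf {X : Type} [MetricSpace X] {k : ℕ} [NeZero k] (s : Fin k → X) :
    ratio s ≤ ratio (fun _ : Fin k => (0 : Linf)) := by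
  refine le_of_forall_gt fun b hb => ?_
  obtain ⟨c, hc1, hc2⟩ := ENNReal.lt_iff_exists_nnreal_btwn.1 hb
  have h1 := isCompetitive_of_ratio_lt hc1
  rw [isCompetitive_iff] at h1
  obtain ⟨B, hB⟩ := h1
  have h2 : Good (fun _ : Fin k => s 0) (c : ℝ) B Set.univ :=
    good_of_finite _ _ _ (good_of_Linf hB (s 0))
  have h3 : IsCompetitive s c := by
    rw [isCompetitive_iff]
    exact ⟨_, h2.start c.2 s⟩
  exact (ratio_le h3).trans_lt hc2

theorem R_eq_Linf {k : ℕ} [NeZero k] : R k = ratio (fun _ : Fin k => (0 : Linf)) := by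
  apply le_antisymm
  · exact iSup_le fun X => iSup_le fun _ => iSup_le fun _ => iSup_le fun s => ratio_le_Linf s
  · unfold R
    exact le_iSup_of_le Linf (le_iSup_of_le inferInstance (le_iSup_of_le (card_Linf k)
      (le_iSup (fun s : Fin k → Linf => ratio s) _)))

/-- strictness: from a common starting point the ratio `R k` is attained with no additive
constant. -/
theorem good_strict_R {X : Type} [MetricSpace X] {k : ℕ} [NeZero k] (hR : R k ≠ ⊤) (x : X) :
    Good (fun _ : Fin k => x) (R k).toReal 0 Set.univ := by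
  classical
  rw [good_iff_hasCost]
  refine (hasCost_of_lim (fun _ : Fin k => x)
    (fun n σ => ((R k).toReal + 1 / ((n : ℝ) + 1)) * opt (fun _ : Fin k => x) σ
      + 1 / ((n : ℝ) + 1)) _ ?_ ?_).mono (fun σ _ => le_rfl)
  · intro σ
    have h1 : Tendsto (fun n : ℕ => 1 / ((n : ℝ) + 1)) atTop (𝓝 0) :=
      tendsto_one_div_add_atTop_nhds_zero_nat
    have h2 : Tendsto (fun n : ℕ => ((R k).toReal + 1 / ((n : ℝ) + 1)) *
        opt (fun _ : Fin k => x) σ + 1 / ((n : ℝ) + 1)) atTop
        (𝓝 (((R k).toReal + 0) * opt (fun _ : Fin k => x) σ + 0)) :=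
      (((tendsto_const_nhds.add h1).mul_const _).add h1)
    simpa only [one_div, add_zero] using h2
  · intro F n
    obtain ⟨r, hr⟩ : ∃ r : ℝ≥0, (r : ℝ≥0∞) = R k := ⟨_, ENNReal.coe_toNNReal hR⟩
    have hpos : (0 : ℝ) < 1 / ((n : ℝ) + 1) := by (clear * -; positivity)
    set c : ℝ≥0 := r + ⟨1 / ((n : ℝ) + 1), hpos.le⟩ with hc
    have hlt : ratio (fun _ : Fin k => (0 : Linf)) < c := by
      rw [← R_eq_Linf, ← hr]
      have : r < c := by
        rw [hc]
        exact lt_add_of_pos_right _ hpos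
      exact_mod_cast this
    have h1 := isCompetitive_of_ratio_lt hlt
    rw [isCompetitive_iff] at h1
    obtain ⟨B, hB⟩ := h1
    obtain ⟨N, hN⟩ := exists_nat_gt (B * ((n : ℝ) + 1))
    have h2 := good_Linf_scale hB N
    have h3 := good_of_Linf h2 x F
    rw [← good_iff_hasCost]
    refine h3.mono (le_of_eq ?_) ?_
    · rw [← hr, hc]
      rfl
    · rw [div_le_div_iff₀ (by positivity) (by positivity)]
      linarith only [hN]

end Vale.Agent.P304
end
end
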